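import Vale.Agent.P054.Defs

/-! Der: extension of derivations in characteristic zero (about 250 lines).
`ext_der`: `L` is formally smooth over `F` (transcendence basis: `MvPolynomial` is formally smooth, `Algebra.FormallySmooth.of_isLocalization` or `IsFractionRing`, `Algebra.FormallyEtale.of_isSeparable`; `Algebra.FormallySmooth.comp`). A derivation `d : F → L` makes `TrivSqZeroExt L L` an `F`-algebra by `x ↦ (x, d x)`; lift the identity of `L` through the square zero kernel (`Algebra.FormallySmooth.exists_lift` or `liftOfSurjective`) and take the second component. (Alternative: Zorn over intermediate fields.)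
`pt_der`: `f ↦ ∑ ω a * aeval ξ (pderiv a f)` descends to the subring `K[ξ]` and extends to the field `K(ξ)` (quotient rule, or formal smoothness of the localization as above), then `ext_der`.
`der_one`: `pt_der` with one variable. `const_mem`: a constant is algebraic by `der_one`.
-/

noncomputable section

open Classical MvPolynomial Matrix Finset

namespace Vale.Agent.P054

variable {K F L : Type*} [Field K] [CharZero K] [Field F] [Field L] [Algebra K F] [Algebra K L]

omit [CharZero K] in
open TensorProduct KaehlerDifferential in
theorem der_h1 {R : Type*} [CommRing R] [Algebra K R] [Algebra R L] [IsScalarTower K R L]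
    [Algebra.FormallySmooth R L] (d : Derivation K R L) :
    ∃ d' : Derivation K L L, ∀ x, d' (algebraMap R L x) = d x := by
  have hi : Function.Injective (mapBaseChange K R L) := (injective_iff_map_eq_zero _).2 fun x hx => by
    obtain ⟨y, rfl⟩ := (Algebra.H1Cotangent.exact_δ_mapBaseChange K R L x).1 hx
    rw [Subsingleton.elim y 0, map_zero]
  obtain ⟨g, hg⟩ := LinearMap.exists_leftInverse_of_injective _ (LinearMap.ker_eq_bot.2 hi)
  refine ⟨((d.liftKaehlerDifferential.liftBaseChange L) ∘ₗ g).compDer (D K L), fun x => ?_⟩
  have e1 : D K L (algebraMap R L x) = mapBaseChange K R L (1 ⊗ₜ D K R x) := by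
    rw [mapBaseChange_tmul, map_D, one_smul]
  change d.liftKaehlerDifferential.liftBaseChange L (g (D K L (algebraMap R L x))) = _
  rw [e1, ← LinearMap.comp_apply g, hg, LinearMap.id_apply, LinearMap.liftBaseChange_tmul, one_smul,
    Derivation.liftKaehlerDifferential_comp_D]

theorem der_h2 (F L : Type*) [Field F] [CharZero F] [Field L] [Algebra F L] :
    Algebra.FormallySmooth F L := by
  obtain ⟨s, hs⟩ := exists_isTranscendenceBasis F L
  have := hs.isAlgebraic_field
  exact .of_algebraicIndependent_of_isSeparable hs.1

theorem ext_der [Algebra F L] [IsScalarTower K F L] (d : Derivation K F L) :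
    ∃ d' : Derivation K L L, ∀ x, d' (algebraMap F L x) = d x := by
  have : CharZero F := charZero_of_injective_algebraMap (algebraMap K F).injective
  have := der_h2 F L
  exact der_h1 d

theorem pt_der {σ : Type*} [Fintype σ] (ξ ω : σ → L)
    (h : ∀ f : MvPolynomial σ K, aeval ξ f = 0 → d1 f ξ ω = 0) :
    ∃ d : Derivation K L L, ∀ a, d (ξ a) = ω a := by
  let D : MvPolynomial σ K →ₗ[K] L :=
    { toFun := fun f => d1 f ξ ω
      map_add' := fun f g => by simp only [d1, map_add, mul_add, Finset.sum_add_distrib]
      map_smul' := fun c f => by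
        simp only [d1, Derivation.map_smul, map_smul, mul_smul_comm, RingHom.id_apply,
          Finset.smul_sum] }
  have hD : ∀ f g, D (f * g) = aeval ξ f * D g + aeval ξ g * D f := fun f g => by
    change d1 _ ξ ω = _ * d1 g ξ ω + _ * d1 f ξ ω
    simp only [d1, Derivation.leibniz, smul_eq_mul, map_add, map_mul, mul_add, Finset.mul_sum,
      Finset.sum_add_distrib, mul_left_comm]
  let R : Subalgebra K L := (aeval ξ : MvPolynomial σ K →ₐ[K] L).range
  let π : MvPolynomial σ K →ₐ[K] R := (aeval ξ : MvPolynomial σ K →ₐ[K] L).rangeRestrict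
  have hπ : Function.Surjective π := AlgHom.rangeRestrict_surjective _
  obtain ⟨s, hs⟩ := π.toLinearMap.exists_rightInverse_of_surjective (LinearMap.range_eq_top.2 hπ)
  have key : ∀ f, D (s (π f)) = D f := fun f => by
    rw [← sub_eq_zero, ← map_sub]
    refine h _ ?_
    rw [map_sub, sub_eq_zero]
    exact congrArg Subtype.val (LinearMap.congr_fun hs (π f))
  let d : Derivation K R L := Derivation.mk' (D ∘ₗ s) fun a b => by
    obtain ⟨f, rfl⟩ := hπ a
    obtain ⟨g, rfl⟩ := hπ b
    simp only [LinearMap.comp_apply, ← map_mul, key, hD]
    rfl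
  let := FractionRing.liftAlgebra R L
  have := FractionRing.isScalarTower_liftAlgebra R L
  have : CharZero L := charZero_of_injective_algebraMap (algebraMap K L).injective
  have : CharZero (FractionRing R) := (algebraMap (FractionRing R) L).charZero
  have := der_h2 (FractionRing R) L
  have : Algebra.FormallySmooth R (FractionRing R) := .of_isLocalization (nonZeroDivisors R)
  have : Algebra.FormallySmooth R L := .comp _ (FractionRing R) _
  obtain ⟨d', hd⟩ := der_h1 d
  refine ⟨d', fun a => ?_⟩
  have e : algebraMap R L (π (X a)) = ξ a := aeval_X ξ a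
  rw [← e, hd]
  refine (key (X a)).trans ?_
  change d1 _ ξ ω = _
  simp [d1, pderiv_X, Pi.single_apply, apply_ite]

theorem der_one {u : L} (hu : Transcendental K u) : ∃ d : Derivation K L L, d u = 1 := by
  have hi : AlgebraicIndependent K fun _ : Unit => u := algebraicIndependent_unique_type_iff.2 hu
  obtain ⟨d, hd⟩ := pt_der (K := K) (fun _ : Unit => u) (fun _ => 1) fun f hf => by
    simp [hi.eq_zero_of_aeval_eq_zero f hf, d1]
  exact ⟨d, hd ()⟩

theorem const_mem [IsAlgClosed K] {u : L} (hu : ∀ d : Derivation K L L, d u = 0) :
    ∃ c : K, algebraMap K L c = u := by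
  have ha : IsAlgebraic K u := by
    by_contra hn
    obtain ⟨d, hd⟩ := der_one (K := K) hn
    exact zero_ne_one ((hu d).symm.trans hd)
  exact minpoly.mem_range_of_degree_eq_one K u
    (IsAlgClosed.degree_eq_one_of_irreducible K (minpoly.irreducible ha.isIntegral))

end Vale.Agent.P054
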