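import Vale.Agent.P054.Jet
import Vale.Agent.P054.Der

/-! Asym: a flecnodal direction at the generic point gives a line in the surface (about 250 lines).
`line_of_geo`: let `p = aeval (fun i => C (ξ i) + X * C (v i)) h ∈ Ω[T]`. Apply `δ` to the coefficients (`Derivation.mapCoeffs`, or induction on `h`): `δ p = (1 + θ T) p'`, so `δ p_k = (k+1) p_(k+1) + θ k p_k`; all coefficients vanish by induction.
`asym_line`: for tangent `u` let `δ_u ξ = u` (`pt_der`, `tangent_of_gen`). `v' = δ_v v` is tangent (`der_d1`) and `d2 v v' = 0` (`der_d2`); `v × w ≠ 0`, so `v' = a v + b w` and `b * d2 v w = 0`. If `d2 v w = 0` then `d2 v u = 0` for all tangent `u`; `δ_w` applied to `d2 v v = 0` gives `d3 w v v = 0`, and `δ_v` applied to `d2 v w = 0` gives `d2 v' w = 0`, so `b * d2 w w = 0`. If `v = 0` the claim is trivial.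
-/

noncomputable section

open Classical MvPolynomial Matrix Finset

namespace Vale.Agent.P054

variable {Ω : Type*} [Field Ω] [Algebra ℂ Ω] {h : P3} {ξ v : Fin 3 → Ω}

theorem asym_coeff {p : Polynomial Ω} (δ : Derivation ℂ Ω Ω) (θ : Ω) (h0 : p.coeff 0 = 0)
    (hp : ∀ k, δ (p.coeff k) =
      ((1 + Polynomial.X * Polynomial.C θ) * Polynomial.derivative p).coeff k) : p = 0 := by
  have : CharZero Ω := charZero_of_injective_algebraMap (algebraMap ℂ Ω).injective
  ext k
  rw [Polynomial.coeff_zero]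
  induction k with
  | zero => exact h0
  | succ k ih =>
    have e := hp k
    have e2 : (Polynomial.X * (Polynomial.C θ * Polynomial.derivative p)).coeff k = 0 := by
      cases k with
      | zero => simp
      | succ j =>
        rw [Polynomial.coeff_X_mul, Polynomial.coeff_C_mul, Polynomial.coeff_derivative, ih,
          zero_mul, mul_zero]
    rw [ih, map_zero, add_mul, one_mul, mul_assoc, Polynomial.coeff_add, e2, add_zero,
      Polynomial.coeff_derivative] at e
    exact (mul_eq_zero.1 e.symm).resolve_right (Nat.cast_add_one_ne_zero k)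

theorem asym_span {g v w u : Fin 3 → Ω} (hg : g ≠ 0) (hv : v ≠ 0) (hvw : ∀ c : Ω, c • v ≠ w)
    (h1 : v ⬝ᵥ g = 0) (h2 : w ⬝ᵥ g = 0) (h3 : u ⬝ᵥ g = 0) : ∃ a b : Ω, a • v + b • w = u := by
  let φ : Module.Dual Ω (Fin 3 → Ω) := (dotProductBilin Ω Ω).flip g
  have hφ : φ ≠ 0 := fun e => hg (funext fun i => by
    simpa [φ] using LinearMap.congr_fun e (Pi.single i 1))
  have a1 := Module.Dual.finrank_ker_add_one_of_ne_zero hφ
  have a2 := finrank_span_eq_card ((LinearIndependent.pair_iff' hv).2 hvw)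
  rw [Module.finrank_fin_fun] at a1
  rw [Fintype.card_fin, Matrix.range_cons_cons_empty] at a2
  have a3 : Submodule.span Ω {v, w} = LinearMap.ker φ := by
    refine Submodule.eq_of_le_of_finrank_le (Submodule.span_le.2 ?_) (by omega)
    rintro x (rfl | rfl)
    · exact h1
    · exact h2
  rw [← Submodule.mem_span_pair, a3]
  exact h3

theorem line_of_geo (h0 : aeval ξ h = 0) (δ : Derivation ℂ Ω Ω) (θ : Ω) (h1 : ∀ i, δ (ξ i) = v i)
    (h2 : ∀ i, δ (v i) = θ * v i) (T : Ω) : aeval (ξ + T • v) h = 0 := by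
  have ev : ∀ t : Ω, Polynomial.eval t
      (aeval (fun i => Polynomial.C (ξ i) + Polynomial.X * Polynomial.C (v i)) h) =
        aeval (ξ + t • v) h := fun t => by
    have := comp_aeval_apply (fun i => Polynomial.C (ξ i) + Polynomial.X * Polynomial.C (v i))
      ((Polynomial.aeval t : Polynomial Ω →ₐ[Ω] Ω).restrictScalars ℂ) h
    simp only [AlgHom.restrictScalars_apply, Polynomial.coe_aeval_eq_eval, Polynomial.eval_add,
      Polynomial.eval_C, Polynomial.eval_mul, Polynomial.eval_X] at this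
    exact this
  let D : Derivation ℂ (Polynomial Ω) (Polynomial Ω) :=
    PolynomialModule.equivPolynomialSelf.compDer δ.mapCoeffs
  let D' : Derivation ℂ (Polynomial Ω) (Polynomial Ω) :=
    (1 + Polynomial.X * Polynomial.C θ) • Polynomial.derivative'.restrictScalars ℂ
  have hD : ∀ (p : Polynomial Ω) k, (D p).coeff k = δ (p.coeff k) := fun _ _ => rfl
  have hD' : ∀ p : Polynomial Ω,
      D' p = (1 + Polynomial.X * Polynomial.C θ) * Polynomial.derivative p := fun _ => rfl
  have hC : ∀ a : Ω, D (Polynomial.C a) = Polynomial.C (δ a) := fun a => by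
    ext k
    rw [hD, Polynomial.coeff_C, Polynomial.coeff_C, apply_ite δ, map_zero]
  have hX : D Polynomial.X = 0 := by
    ext k
    rw [hD, Polynomial.coeff_X, apply_ite δ, map_zero, δ.map_one_eq_zero, ite_self,
      Polynomial.coeff_zero]
  have key : D (aeval (fun i => Polynomial.C (ξ i) + Polynomial.X * Polynomial.C (v i)) h) =
      D' (aeval (fun i => Polynomial.C (ξ i) + Polynomial.X * Polynomial.C (v i)) h) := by
    rw [der_aeval, der_aeval]
    refine congrArg _ (funext fun a => ?_)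
    rw [map_add, D.leibniz, hC, hC, hX, h1, h2, hD']
    simp only [smul_eq_mul, map_add, map_mul, Polynomial.derivative_C, Polynomial.derivative_mul,
      Polynomial.derivative_X]
    ring
  rw [← ev, asym_coeff δ θ (p := aeval
    (fun i => Polynomial.C (ξ i) + Polynomial.X * Polynomial.C (v i)) h) ?_ fun k => ?_,
    Polynomial.eval_zero]
  · rw [Polynomial.coeff_zero_eq_eval_zero, ev, zero_smul, add_zero, h0]
  · rw [← hD, key, hD']

theorem asym_line (hξ : IsGen (Ideal.span {h}) ξ) (hg : gr h ξ ≠ 0) (h1 : d1 h ξ v = 0)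
    (h2 : d2 h ξ v v = 0) (h3 : d3 h ξ v v v = 0) {w : Fin 3 → Ω} (hw1 : d1 h ξ w = 0)
    (hw2 : d2 h ξ w w ≠ 0) (T : Ω) : aeval (ξ + T • v) h = 0 := by
  have : CharZero Ω := charZero_of_injective_algebraMap (algebraMap ℂ Ω).injective
  have h0 : aeval ξ h = 0 := (hξ h).2 (Ideal.mem_span_singleton_self h)
  by_cases hv : v = 0
  · rw [hv, smul_zero, add_zero, h0]
  have hvw : ∀ c : Ω, c • v ≠ w := fun c e => hw2 (by
    rw [← e, d2_smul, d2_comm, d2_smul, h2, mul_zero, mul_zero])
  have sp : ∀ u, d1 h ξ u = 0 → ∃ a b : Ω, a • v + b • w = u := fun u hu =>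
    asym_span hg hv hvw h1 hw1 hu
  obtain ⟨δ, hδ⟩ := pt_der ξ v (tangent_of_gen h hξ h1)
  obtain ⟨ε, hε⟩ := pt_der ξ w (tangent_of_gen h hξ hw1)
  have eδ : (fun a => δ (ξ a)) = v := funext hδ
  have eε : (fun a => ε (ξ a)) = w := funext hε
  have a1 := der_d1 h ξ v δ
  have a2 := der_d2 h ξ v v δ
  rw [h1, map_zero, eδ, h2, zero_add] at a1
  rw [h2, map_zero, eδ, h3, zero_add, d2_comm h ξ v, ← two_mul] at a2
  have a3 := (mul_eq_zero.1 a2.symm).resolve_left two_ne_zero
  obtain ⟨a, b, e⟩ := sp _ a1.symm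
  have hb : b = 0 := by
    rw [← e, d2_add, d2_smul, d2_smul, h2, mul_zero, zero_add] at a3
    refine (mul_eq_zero.1 a3).elim id fun k => ?_
    have all : ∀ u, d1 h ξ u = 0 → d2 h ξ u v = 0 := fun u hu => by
      obtain ⟨x, y, rfl⟩ := sp u hu
      rw [d2_add, d2_smul, d2_smul, h2, k, mul_zero, mul_zero, add_zero]
    have k' : d2 h ξ v w = 0 := (d2_comm h ξ v w).trans k
    have b1 := der_d1 h ξ v ε
    have b2 := der_d2 h ξ v v ε
    have b3 := der_d1 h ξ w δ
    have b4 := der_d2 h ξ v w δ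
    rw [h1, map_zero, eε, k, zero_add] at b1
    rw [h2, map_zero, eε, d2_comm h ξ v, all _ b1.symm, add_zero, add_zero] at b2
    rw [hw1, map_zero, eδ, k', zero_add] at b3
    rw [k', map_zero, eδ, d2_comm h ξ v, all _ b3.symm, add_zero, d3_comm', d3_comm, ← b2, zero_add,
      ← e, d2_add, d2_smul, d2_smul, k', mul_zero, zero_add] at b4
    exact (mul_eq_zero.1 b4.symm).resolve_right hw2
  rw [hb, zero_smul, add_zero] at e
  exact line_of_geo h0 δ a hδ (fun i => (congrFun e i).symm) T

end Vale.Agent.P054
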