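import Vale.Agent.P054.STr

/-! Beck3: rich pairs in space (about 200 lines).
`beck3`: choose `f₁ f₂ : V` with `f₁ ⬝ᵥ a ≠ 0` for all nonzero differences `a` and `(f₁ ⨯₃ f₂) ⬝ᵥ (a ⨯₃ b) ≠ 0` for all differences with `a ⨯₃ b ≠ 0` (for example `f₁ = (1, s, -t - s t^2)`, `f₂ = (0, 1, -t^2)`, so `f₁ ⨯₃ f₂ = (t, t^2, 1)`; avoid the roots of finitely many nonzero polynomials, first `t` then `s`; or `Subspace.biUnion_ne_univ_of_top_notMem`). The map `x ↦ (f₁ ⬝ᵥ x, f₂ ⬝ᵥ x)` preserves `rich` (`cross_dot_cross`); apply `beck2` to the image.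
`rich_le`: a line lies in a plane (for `v ≠ 0` there is `ν ≠ 0` with `ν ⬝ᵥ v = 0`, and `v ⨯₃ a = 0` makes `a` a multiple of `v`).
-/

noncomputable section

open Classical MvPolynomial Matrix Finset

namespace Vale.Agent.P054

theorem beck3_avoid (D : Finset V) : ∃ l : V, ∀ d ∈ D, d ≠ 0 → l ⬝ᵥ d ≠ 0 := by
  obtain ⟨φ, hφ⟩ := Module.exists_dual_forall_apply_ne_zero (K := ℝ)
    (fun a : D.erase 0 => (a : V)) fun a => (mem_erase.1 a.2).1
  refine ⟨fun i => φ fun j => if i = j then 1 else 0, fun a ha h0 => ?_⟩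
  have := hφ ⟨a, mem_erase.2 ⟨h0, ha⟩⟩
  rw [LinearMap.pi_apply_eq_sum_univ] at this
  simpa only [dotProduct, smul_eq_mul, mul_comm] using this

theorem beck3_proj (S : Finset V) : ∃ f g : V, (∀ x ∈ S, ∀ y ∈ S, f ⬝ᵥ x = f ⬝ᵥ y → x = y) ∧
    ∀ x ∈ S, ∀ y ∈ S, ∀ z ∈ S,
      (f ⬝ᵥ y - f ⬝ᵥ x) * (g ⬝ᵥ z - g ⬝ᵥ x) = (g ⬝ᵥ y - g ⬝ᵥ x) * (f ⬝ᵥ z - f ⬝ᵥ x) ↔
        (y - x) ⨯₃ (z - x) = 0 := by
  obtain ⟨f, hf⟩ := beck3_avoid ((S ×ˢ S).image fun e => e.2 - e.1)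
  have hf' : ∀ x ∈ S, ∀ y ∈ S, y - x ≠ 0 → f ⬝ᵥ (y - x) ≠ 0 := fun x hx y hy =>
    hf _ (mem_image.2 ⟨(x, y), mem_product.2 ⟨hx, hy⟩, rfl⟩)
  obtain ⟨g, hg⟩ := beck3_avoid ((S ×ˢ S ×ˢ S).image fun e =>
    (f ⬝ᵥ (e.2.1 - e.1)) • (e.2.2 - e.1) - (f ⬝ᵥ (e.2.2 - e.1)) • (e.2.1 - e.1))
  refine ⟨f, g, fun x hx y hy h => ?_, fun x hx y hy z hz => ?_⟩
  · by_contra hne
    exact hf' x hx y hy (sub_ne_zero.2 (Ne.symm hne)) (by rw [dotProduct_sub, h, sub_self])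
  have hg' := hg _ (mem_image.2 ⟨(x, y, z), mem_product.2 ⟨hx, mem_product.2 ⟨hy, hz⟩⟩, rfl⟩)
  have hf2 := hf' x hx y hy
  simp only [← dotProduct_sub] at hg' ⊢
  generalize y - x = a at *
  generalize z - x = b at *
  constructor
  · intro h
    by_contra hne
    have ha : a ≠ 0 := fun h0 => hne (by rw [h0, LinearMap.map_zero₂])
    refine hg' (fun h0 => ?_) ?_
    · have e := congrArg (fun v => a ⨯₃ v) h0
      simp only [map_sub, map_smul, cross_self, smul_zero, sub_zero, map_zero] at e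
      exact hne ((smul_eq_zero.1 e).resolve_left (hf2 ha))
    · rw [dotProduct_sub, dotProduct_smul, dotProduct_smul, smul_eq_mul, smul_eq_mul, h]
      ring
  · intro h
    have e := cross_dot_cross f g a b
    rw [h, dotProduct_zero] at e
    linarith

theorem beck3 {S : Finset V} {L : ℕ} (hL : ∀ x ∈ S, ∀ y ∈ S, x ≠ y → rich S x y ≤ L) (j : ℕ) :
    j * (S.offDiag.filter fun e => j ≤ rich S e.1 e.2).card ≤
      4096 * (S.card ^ 2 + j * S.card * L) := by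
  obtain ⟨f, g, h1, h2⟩ := beck3_proj S
  obtain ⟨π, hπ⟩ : ∃ π : V → Pt, ∀ x, π x = (f ⬝ᵥ x, g ⬝ᵥ x) := ⟨_, fun _ => rfl⟩
  have h1' : ∀ x ∈ S, ∀ y ∈ S, (π x).1 = (π y).1 → x = y := fun x hx y hy h =>
    h1 x hx y hy (by simpa only [hπ] using h)
  have hinj : Set.InjOn π S := fun x hx y hy h => h1' x hx y hy (by rw [h])
  have hr : ∀ x ∈ S, ∀ y ∈ S, rich2 (S.image π) (π x) (π y) = rich S x y := by
    intro x hx y hy
    rw [rich2, rich, filter_image, card_image_of_injOn (hinj.mono (coe_subset.2 (filter_subset _ _)))]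
    refine congrArg card (filter_congr fun z hz => ?_)
    simp only [hπ]
    exact h2 x hx y hy z hz
  have hb := beck2 (S := S.image π) (L := L) (by
    intro a ha b hb h
    obtain ⟨x, hx, rfl⟩ := mem_image.1 ha
    obtain ⟨y, hy, rfl⟩ := mem_image.1 hb
    rw [h1' x hx y hy h]) (by
    intro a ha b hb h
    obtain ⟨x, hx, rfl⟩ := mem_image.1 ha
    obtain ⟨y, hy, rfl⟩ := mem_image.1 hb
    rw [hr x hx y hy]
    exact hL x hx y hy fun e => h (by rw [e])) j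
  rw [card_image_of_injOn hinj] at hb
  refine le_trans (Nat.mul_le_mul_left _ ?_) hb
  refine card_le_card_of_injOn (fun e => (π e.1, π e.2)) (fun e he => ?_) fun e he e' he' h => ?_
  · obtain ⟨h3, h4⟩ := mem_filter.1 (mem_coe.1 he)
    obtain ⟨hx, hy, hxy⟩ := mem_offDiag.1 h3
    refine mem_coe.2 (mem_filter.2 ⟨mem_offDiag.2 ⟨mem_image_of_mem _ hx, mem_image_of_mem _ hy,
      fun h => hxy (hinj hx hy h)⟩, ?_⟩)
    rw [hr _ hx _ hy]
    exact h4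
  · obtain ⟨hx, hy, -⟩ := mem_offDiag.1 (mem_filter.1 (mem_coe.1 he)).1
    obtain ⟨hx', hy', -⟩ := mem_offDiag.1 (mem_filter.1 (mem_coe.1 he')).1
    obtain ⟨e1, e2⟩ := Prod.mk.inj h
    exact Prod.ext (hinj hx hx' e1) (hinj hy hy' e2)

theorem PlaneLe.mono {S S' : Finset V} {B : ℕ} (h : PlaneLe S B) (hs : S' ⊆ S) : PlaneLe S' B :=
  fun ν hν c => (card_le_card (filter_subset_filter _ hs)).trans (h ν hν c)

theorem PlaneLe.line_le {S : Finset V} {B : ℕ} (h : PlaneLe S B) (p : V) {v : V} (hv : v ≠ 0) :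
    (S.filter fun x => v ⨯₃ (x - p) = 0).card ≤ B := by
  obtain ⟨ν, h0, h1⟩ : ∃ ν : V, ν ≠ 0 ∧ v ⬝ᵥ ν = 0 := by
    by_cases h2 : v 0 = 0
    · refine ⟨![1, 0, 0], fun e => ?_, ?_⟩
      · simpa using congrFun e 0
      · simp [dotProduct, Fin.sum_univ_three, h2]
    · refine ⟨![v 1, -v 0, 0], fun e => h2 ?_, ?_⟩
      · simpa using congrFun e 1
      · simp [dotProduct, Fin.sum_univ_three, mul_comm]
  refine le_trans (card_le_card fun x hx => ?_) (h ν h0 (ν ⬝ᵥ p))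
  obtain ⟨h2, h3⟩ := mem_filter.1 hx
  refine mem_filter.2 ⟨h2, ?_⟩
  have e := cross_cross_eq_smul_sub_smul' ν v (x - p)
  rw [h3, h1, map_zero, zero_smul, sub_zero] at e
  have e2 := (smul_eq_zero.1 e.symm).resolve_right hv
  rwa [dotProduct_sub, sub_eq_zero] at e2

theorem PlaneLe.rich_le {S : Finset V} {B : ℕ} (h : PlaneLe S B) {x y : V} (hxy : x ≠ y) :
    rich S x y ≤ B :=
  h.line_le x (sub_ne_zero.2 hxy.symm)

end Vale.Agent.P054
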