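import Vale.Agent.P054.Beck3

/-! BeckPl: Beck structure of a set with few coplanar points (about 300 lines).
First a corollary of `beck3` with `j = 2^15`: if all lines have at most `B` points and `2^16 B ≤ |S|`, then at least `|S|/4` points `w` have at least `|S|/4` points `x ≠ w` with `rich S w x < j`, and among those one can pick at least `|S|/(4j)` points that are pairwise not collinear with `w` (maximal such subset, or representatives of the classes of the relation `(a - w) ⨯₃ (a' - w) = 0`).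
Apply it to `S`, giving `w` and `A₀`. Choose `λ` with `λ ⬝ᵥ (a - w) ≠ 0` on `A₀` and project `a ↦ (λ ⬝ᵥ (a - w))⁻¹ • (a - w)` (injective on `A₀`); three images are collinear iff the triple product of the differences vanishes, so lines of the image have at most `B` points (plane through `w` with normal `(a - w) ⨯₃ (a' - w)`). Apply the corollary to the image.
-/

noncomputable section

open Classical MvPolynomial Matrix Finset

namespace Vale.Agent.P054

theorem beckPl_indep {α : Type*} (X : Finset α) (r : α → α → Prop) (hs : ∀ a b, r a b → r b a)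
    (hr : ∀ a, r a a) {j : ℕ} (Y : α → Finset α) (hj : ∀ a ∈ X, (Y a).card ≤ j)
    (hY : ∀ a, ∀ x ∈ X, r a x → x ∈ Y a) :
    ∃ A ⊆ X, X.card ≤ j * A.card ∧ ∀ a ∈ A, ∀ a' ∈ A, a ≠ a' → ¬ r a a' := by
  obtain ⟨P, hP⟩ : ∃ P : Finset α → Prop, ∀ A, P A ↔ ∀ a ∈ A, ∀ a' ∈ A, a ≠ a' → ¬ r a a' :=
    ⟨_, fun _ => Iff.rfl⟩
  obtain ⟨A, hA, hm⟩ := exists_max_image (X.powerset.filter P) Finset.card
    ⟨∅, mem_filter.2 ⟨empty_mem_powerset _, (hP _).2 fun a ha => absurd ha (notMem_empty _)⟩⟩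
  obtain ⟨h1, h2⟩ := mem_filter.1 hA
  rw [mem_powerset] at h1
  rw [hP] at h2
  refine ⟨A, h1, ?_, h2⟩
  have hc : X ⊆ A.biUnion Y := by
    intro x hx
    by_contra hn
    have hx' : ∀ a ∈ A, ¬ r a x := fun a ha h => hn (mem_biUnion.2 ⟨a, ha, hY a x hx h⟩)
    have hxA : x ∉ A := fun h => hx' x h (hr x)
    have := hm (insert x A) (mem_filter.2 ⟨mem_powerset.2 (insert_subset hx h1), (hP _).2 (by
      intro a ha a' ha' hne
      rcases mem_insert.1 ha with rfl | ha1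
      · rcases mem_insert.1 ha' with rfl | ha2
        · exact absurd rfl hne
        · exact fun h => hx' _ ha2 (hs _ _ h)
      · rcases mem_insert.1 ha' with rfl | ha2
        · exact hx' _ ha1
        · exact h2 a ha1 a' ha2 hne)⟩)
    rw [card_insert_of_notMem hxA] at this
    omega
  calc X.card ≤ _ := card_le_card hc
    _ ≤ A.card * j := card_biUnion_le_card_mul _ _ _ fun a ha => hj a (h1 ha)
    _ = j * A.card := mul_comm _ _

theorem beckPl_count {S : Finset V} {L : ℕ} (hL : ∀ x ∈ S, ∀ y ∈ S, x ≠ y → rich S x y ≤ L)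
    (h1 : 65536 * L ≤ S.card) (h4 : 4 ≤ S.card) :
    S.card ≤ 4 * (S.filter fun w =>
      S.card ≤ 4 * (S.filter fun x => x ≠ w ∧ rich S w x < 32768).card).card := by
  by_contra hW
  set W := S.filter fun w => S.card ≤ 4 * (S.filter fun x => x ≠ w ∧ rich S w x < 32768).card
    with hWd
  have hb := beck3 hL 32768
  set R := S.offDiag.filter fun e => 32768 ≤ rich S e.1 e.2 with hR
  have hsum : R.card = ∑ w ∈ S, (R.filter fun e => e.1 = w).card :=
    card_eq_sum_card_fiberwise fun e he => (mem_offDiag.1 (mem_filter.1 he).1).1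
  have hw : ∀ w ∈ S \ W, S.card ≤ 2 * (R.filter fun e => e.1 = w).card := by
    intro w hw
    obtain ⟨hwS, hwW⟩ := mem_sdiff.1 hw
    have hX : ¬ S.card ≤ 4 * (S.filter fun x => x ≠ w ∧ rich S w x < 32768).card :=
      fun h => hwW (mem_filter.2 ⟨hwS, h⟩)
    have hs : S ⊆ insert w ((S.filter fun x => x ≠ w ∧ rich S w x < 32768) ∪
        (R.filter fun e => e.1 = w).image Prod.snd) := by
      intro x hx
      by_cases hxw : x = w
      · exact mem_insert.2 (Or.inl hxw)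
      refine mem_insert_of_mem (mem_union.2 ?_)
      by_cases hr : rich S w x < 32768
      · exact Or.inl (mem_filter.2 ⟨hx, hxw, hr⟩)
      · exact Or.inr (mem_image.2 ⟨(w, x), mem_filter.2 ⟨mem_filter.2
          ⟨mem_offDiag.2 ⟨hwS, hx, Ne.symm hxw⟩, not_lt.1 hr⟩, rfl⟩, rfl⟩)
    have h5 := (card_le_card hs).trans ((card_insert_le _ _).trans
      (Nat.add_le_add_right ((card_union_le _ _).trans (Nat.add_le_add_left card_image_le _)) 1))
    omega
  have h6 : (S \ W).card * S.card ≤ 2 * R.card := by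
    rw [hsum, mul_sum]
    exact (card_nsmul_le_sum _ _ _ hw).trans (sum_le_sum_of_subset sdiff_subset)
  have h7 : (S \ W).card + W.card = S.card := card_sdiff_add_card_eq_card (filter_subset _ _)
  have h8 : 3 * S.card ≤ 4 * (S \ W).card := by omega
  have h9 := Nat.mul_le_mul_right S.card h8
  have h10 := Nat.mul_le_mul_right S.card h1
  have h11 := Nat.mul_le_mul_right S.card h4
  nlinarith

theorem beckPl_cor {S : Finset V} {L : ℕ} (hL : ∀ x ∈ S, ∀ y ∈ S, x ≠ y → rich S x y ≤ L)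
    (h1 : 65536 * L ≤ S.card) (h4 : 4 ≤ S.card) :
    ∃ W ⊆ S, S.card ≤ 4 * W.card ∧ ∀ w ∈ W, ∃ A ⊆ S, S.card ≤ 131072 * A.card ∧ w ∉ A ∧
      ∀ a ∈ A, ∀ a' ∈ A, a ≠ a' → (a - w) ⨯₃ (a' - w) ≠ 0 := by
  refine ⟨_, filter_subset _ _, beckPl_count hL h1 h4, fun w hw => ?_⟩
  obtain ⟨A, hA, h2, h3⟩ := beckPl_indep (S.filter fun x => x ≠ w ∧ rich S w x < 32768)
    (fun a a' => (a - w) ⨯₃ (a' - w) = 0)
    (fun a b h => by rw [← cross_anticomm, h, neg_zero]) (fun a => cross_self _) (j := 32768)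
    (fun a => S.filter fun z => (a - w) ⨯₃ (z - w) = 0) (fun a ha => (mem_filter.1 ha).2.2.le)
    fun a x hx h => mem_filter.2 ⟨(mem_filter.1 hx).1, h⟩
  refine ⟨A, hA.trans (filter_subset _ _), ?_, fun h => (mem_filter.1 (hA h)).2.1 rfl, h3⟩
  have := (mem_filter.1 hw).2
  omega

theorem beckPl_lam (A : Finset V) {w : V} (hw : w ∉ A) :
    ∃ l : V, ∀ a ∈ A, l ⬝ᵥ (a - w) ≠ 0 := by
  obtain ⟨φ, hφ⟩ := Module.exists_dual_forall_apply_ne_zero (K := ℝ)
    (fun a : A => (a : V) - w) fun a => sub_ne_zero.2 fun h => hw (h ▸ a.2)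
  refine ⟨fun i => φ fun j => if i = j then 1 else 0, fun a ha => ?_⟩
  have := hφ ⟨a, ha⟩
  rw [LinearMap.pi_apply_eq_sum_univ] at this
  simpa only [dotProduct, smul_eq_mul, mul_comm] using this

theorem beckPl_tp (p q s : V) : p ⬝ᵥ ((q - p) ⨯₃ (s - p)) = p ⬝ᵥ (q ⨯₃ s) := by
  simp only [cross_apply, dotProduct, Fin.sum_univ_three, Pi.sub_apply, cons_val_zero,
    cons_val_one, Matrix.cons_val]
  ring

theorem beckPl_col {l p q s : V} (hp : l ⬝ᵥ p = 1) (hq : l ⬝ᵥ q = 1) (hs : l ⬝ᵥ s = 1)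
    (h : p ⬝ᵥ (q ⨯₃ s) = 0) : (q - p) ⨯₃ (s - p) = 0 := by
  rw [← beckPl_tp] at h
  have h1 : l ⨯₃ ((q - p) ⨯₃ (s - p)) = 0 := by
    rw [cross_cross_eq_smul_sub_smul', dotProduct_sub, dotProduct_comm (q - p), dotProduct_sub,
      hp, hq, hs]
    simp
  have h2 := cross_cross_eq_smul_sub_smul' p l ((q - p) ⨯₃ (s - p))
  rw [h1, h, dotProduct_comm l, dotProduct_comm p, hp, map_zero, zero_smul, one_smul, zero_sub] at h2
  exact neg_eq_zero.1 h2.symm

theorem beckPl_sm (a b c : ℝ) (p q s : V) :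
    (a • p) ⬝ᵥ ((b • q) ⨯₃ (c • s)) = a * b * c * (p ⬝ᵥ (q ⨯₃ s)) := by
  simp only [cross_apply, dotProduct, Fin.sum_univ_three, Pi.smul_apply, smul_eq_mul,
    cons_val_zero, cons_val_one, Matrix.cons_val]
  ring

theorem beckPl_step {S A₀ : Finset V} {B : ℕ} (hB : PlaneLe S B) (hS : A₀ ⊆ S) {w : V}
    (hw : w ∉ A₀) (hA : ∀ a ∈ A₀, ∀ a' ∈ A₀, a ≠ a' → (a - w) ⨯₃ (a' - w) ≠ 0)
    (h1 : 65536 * B ≤ A₀.card) (h4 : 4 ≤ A₀.card) :
    ∃ A ⊆ A₀, A₀.card ≤ 4 * A.card ∧ ∀ a ∈ A, ∃ A' ⊆ A₀, A₀.card ≤ 131072 * A'.card ∧ a ∉ A' ∧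
      ∀ b ∈ A', ∀ b' ∈ A', b ≠ b' → (a - w) ⬝ᵥ ((b - w) ⨯₃ (b' - w)) ≠ 0 := by
  obtain ⟨l, hl⟩ := beckPl_lam A₀ hw
  obtain ⟨π, hπ⟩ : ∃ π : V → V, ∀ a, π a = (l ⬝ᵥ (a - w))⁻¹ • (a - w) := ⟨_, fun _ => rfl⟩
  have hone : ∀ a ∈ A₀, l ⬝ᵥ π a = 1 := fun a ha => by
    rw [hπ, dotProduct_smul, smul_eq_mul, inv_mul_cancel₀ (hl a ha)]
  have htp : ∀ a ∈ A₀, ∀ b ∈ A₀, ∀ c ∈ A₀,
      π a ⬝ᵥ (π b ⨯₃ π c) = 0 ↔ (a - w) ⬝ᵥ ((b - w) ⨯₃ (c - w)) = 0 := by
    intro a ha b hb c hc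
    rw [hπ, hπ, hπ, beckPl_sm, mul_eq_zero, or_iff_right]
    exact mul_ne_zero (mul_ne_zero (inv_ne_zero (hl a ha)) (inv_ne_zero (hl b hb)))
      (inv_ne_zero (hl c hc))
  have hinj : Set.InjOn π A₀ := by
    intro a ha b hb hab
    by_contra hne
    apply hA a ha b hb hne
    have e : ∀ c ∈ A₀, c - w = (l ⬝ᵥ (c - w)) • π c := fun c hc => by
      rw [hπ, smul_smul, mul_inv_cancel₀ (hl c hc), one_smul]
    rw [e a ha, e b hb, hab, LinearMap.map_smul₂, map_smul, cross_self, smul_zero, smul_zero]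
  have hcard : (A₀.image π).card = A₀.card := card_image_of_injOn hinj
  have hback : ∀ T ⊆ A₀.image π, T.card ≤ (A₀.filter fun a => π a ∈ T).card := by
    intro T hT
    refine le_trans (card_le_card ?_) (card_image_le (f := π))
    intro t ht
    obtain ⟨a, ha, rfl⟩ := mem_image.1 (hT ht)
    exact mem_image_of_mem _ (mem_filter.2 ⟨ha, ht⟩)
  obtain ⟨W, hW, h2, h3⟩ := beckPl_cor (S := A₀.image π) (L := B) (by
    intro x hx y hy hxy
    obtain ⟨a, ha, rfl⟩ := mem_image.1 hx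
    obtain ⟨b, hb, rfl⟩ := mem_image.1 hy
    have hab : a ≠ b := fun h => hxy (by rw [h])
    refine (hback _ (filter_subset _ _)).trans (le_trans (card_le_card ?_)
      (hB _ (hA a ha b hb hab) (((a - w) ⨯₃ (b - w)) ⬝ᵥ w)))
    intro c hc
    obtain ⟨hc, hc2⟩ := mem_filter.1 hc
    refine mem_filter.2 ⟨hS hc, ?_⟩
    have e : π a ⬝ᵥ (π b ⨯₃ π c) = 0 := by
      rw [← beckPl_tp, (mem_filter.1 hc2).2, dotProduct_zero]
    rw [htp a ha b hb c hc, triple_product_permutation, triple_product_permutation,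
      dotProduct_comm, dotProduct_sub] at e
    exact sub_eq_zero.1 e) (hcard ▸ h1) (hcard ▸ h4)
  refine ⟨A₀.filter fun a => π a ∈ W, filter_subset _ _, ?_, fun a ha => ?_⟩
  · have := hback W hW
    omega
  obtain ⟨ha, haW⟩ := mem_filter.1 ha
  obtain ⟨T, hT, h5, h6, h7⟩ := h3 _ haW
  refine ⟨A₀.filter fun a => π a ∈ T, filter_subset _ _, ?_, fun h => h6 (mem_filter.1 h).2, ?_⟩
  · have := hback T hT
    omega
  intro b hb c hc hbc h
  obtain ⟨hb, hb2⟩ := mem_filter.1 hb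
  obtain ⟨hc, hc2⟩ := mem_filter.1 hc
  exact h7 _ hb2 _ hc2 (fun e => hbc (hinj hb hc e))
    (beckPl_col (hone a ha) (hone b hb) (hone c hc) ((htp a ha b hb c hc).2 h))

theorem beck_planes : ∃ C : ℕ, ∀ (S : Finset V) (B r : ℕ), PlaneLe S B →
    C * (r + B + 1) ≤ S.card → BeckStr r S := by
  refine ⟨68719476736, fun S B r hB hC => ?_⟩
  obtain ⟨W, hW, h1, h2⟩ := beckPl_cor (S := S) (L := B) (fun x _ y _ h => hB.rich_le h)
    (by omega) (by omega)
  refine ⟨W, hW, by omega, fun w hw => ?_⟩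
  obtain ⟨A₀, hS, h3, h4, h5⟩ := h2 w hw
  obtain ⟨A, hA, h6, h7⟩ := beckPl_step hB hS h4 h5 (by omega) (by omega)
  refine ⟨A, hA.trans hS, by omega, fun h => h4 (hA h),
    fun a ha a' ha' => h5 a (hA ha) a' (hA ha'), fun a ha => ?_⟩
  obtain ⟨A', hA', h8, h9, h10⟩ := h7 a ha
  exact ⟨A', hA'.trans hS, by omega,
    fun b hb => h5 a (hA ha) b (hA' hb) fun e => h9 (e ▸ hb), h10⟩

end Vale.Agent.P054
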