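import Vale.Agent.P054.Hilb

/-! Bez: Bezout bounds in affine three-space (about 300 lines).
`pts_le_of_growth`: `a j = finrank` of the image of degree `≤ j` in `A ⧸ I`. For `j ≥ |Y|` evaluation at `Y` maps the image of degree `≤ j + deg ψ` onto `F^Y` (`sep_points`; well defined because `I` vanishes on `Y`) and kills `ψ` times the image of degree `≤ j`, which has dimension `a j`; apply `growth`.
`bezout3`: choose the primes `q y`, `I = ⨅ y ∈ Y, q y`, and use `hilb2` with `n = 1` for the quotient map.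
`lines_bezout`: choose `ν` with `ν ⬝ᵥ v ≠ 0` for all directions and `c` such that the points of the lines on `ν ⬝ᵥ x = c` are distinct (two distinct lines share at most one point, avoid finitely many `c`); the prime of a line is the kernel of `X ↦ o + T v` into `F[T]`.
-/

noncomputable section

open Classical MvPolynomial Matrix Finset

namespace Vale.Agent.P054

variable {σ F : Type*} [Fintype σ] [Field F]

theorem bez_step (I : Ideal (MvPolynomial σ F)) {ψ : MvPolynomial σ F}
    (hψ : ∀ A, ψ * A ∈ I → A ∈ I) (Y : Finset (σ → F))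
    (hY : ∀ y ∈ Y, eval y ψ = 0 ∧ ∀ f ∈ I, eval y f = 0) {j : ℕ} (hj : Y.card ≤ j) :
    Y.card + Module.finrank F
      ((restrictTotalDegree σ F j).map (Ideal.Quotient.mkₐ F I).toLinearMap) ≤ Module.finrank F
      ((restrictTotalDegree σ F (j + ψ.totalDegree)).map (Ideal.Quotient.mkₐ F I).toLinearMap) := by
  set W : ℕ → Submodule F (MvPolynomial σ F ⧸ I) := fun j =>
    (restrictTotalDegree σ F j).map (Ideal.Quotient.mkₐ F I).toLinearMap with hW
  let ev : (MvPolynomial σ F ⧸ I) →ₐ[F] (Y → F) :=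
    Ideal.Quotient.liftₐ I (Pi.algHom F (fun _ : Y => F) fun y => aeval y.1)
      fun f hf => funext fun y => (hY y y.2).2 f hf
  have hev : ∀ f (y : Y), ev (Ideal.Quotient.mk I f) y = eval y.1 f := fun f y => rfl
  let μ : (MvPolynomial σ F ⧸ I) →ₗ[F] (MvPolynomial σ F ⧸ I) :=
    LinearMap.mulLeft F (Ideal.Quotient.mk I ψ)
  have hμ : Function.Injective μ := by
    refine (injective_iff_map_eq_zero μ).2 fun a ha => ?_
    obtain ⟨A, rfl⟩ := Ideal.Quotient.mk_surjective a
    exact Ideal.Quotient.eq_zero_iff_mem.2 (hψ A (Ideal.Quotient.eq_zero_iff_mem.1 ha))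
  have h1 := LinearMap.finrank_range_add_finrank_ker
    (ev.toLinearMap.domRestrict (W (j + ψ.totalDegree)))
  have h2 : LinearMap.range (ev.toLinearMap.domRestrict (W (j + ψ.totalDegree))) = ⊤ := by
    rw [LinearMap.range_domRestrict, eq_top_iff]
    intro w _
    rw [pi_eq_sum_univ' w]
    refine Submodule.sum_mem _ fun y _ => Submodule.smul_mem _ _ ?_
    obtain ⟨f, f1, f2, f3⟩ := sep_points Y y.2
    refine ⟨Ideal.Quotient.mk I f, ⟨f, (mem_restrictTotalDegree _ _ _).2 (by omega), rfl⟩, ?_⟩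
    funext y'
    change eval y'.1 f = _
    by_cases hy : y' = y
    · rw [hy, f2, Pi.single_eq_same]
    · rw [f3 y' y'.2 fun e => hy (Subtype.ext e), Pi.single_eq_of_ne hy]
  have h3 : (W j).map μ ≤ (LinearMap.ker
      (ev.toLinearMap.domRestrict (W (j + ψ.totalDegree)))).map (W _).subtype := by
    rintro _ ⟨_, ⟨f, hf, rfl⟩, rfl⟩
    refine ⟨⟨Ideal.Quotient.mk I (ψ * f), ψ * f, (mem_restrictTotalDegree _ _ _).2 ?_, rfl⟩, ?_,
      rfl⟩
    · have := totalDegree_mul ψ f
      have := (mem_restrictTotalDegree _ _ _).1 hf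
      omega
    · funext y
      change eval y.1 (ψ * f) = 0
      rw [map_mul, (hY y y.2).1, zero_mul]
  have h4 := Submodule.finrank_mono h3
  rw [Submodule.finrank_map_subtype_eq, ← (Submodule.equivMapOfInjective μ hμ (W j)).finrank_eq]
    at h4
  rw [h2, finrank_top, Module.finrank_fintype_fun_eq_card, Fintype.card_coe] at h1
  change _ + Module.finrank F (W j) ≤ Module.finrank F (W (j + ψ.totalDegree))
  omega

theorem pts_le_of_growth (I : Ideal (MvPolynomial σ F)) {ψ : MvPolynomial σ F}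
    (hψ : ∀ A, ψ * A ∈ I → A ∈ I) {e c j₀ : ℕ}
    (hI : ∀ j, j₀ ≤ j → Module.finrank F
      ((restrictTotalDegree σ F j).map (Ideal.Quotient.mkₐ F I).toLinearMap) ≤ e * j + c)
    (Y : Finset (σ → F)) (hY : ∀ y ∈ Y, eval y ψ = 0 ∧ ∀ f ∈ I, eval y f = 0) :
    Y.card ≤ e * ψ.totalDegree := by
  exact growth (a := fun j => Module.finrank F
      ((restrictTotalDegree σ F j).map (Ideal.Quotient.mkₐ F I).toLinearMap))
    (j₀ := max j₀ Y.card) (fun j hj => bez_step I hψ Y hY ((le_max_right _ _).trans hj))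
    fun j hj => hI j ((le_max_left _ _).trans hj)

theorem bezout3 {g₁ g₂ ψ : MvPolynomial (Fin 3) F} (h1 : g₁ ≠ 0) (h2 : g₂ ≠ 0)
    (hr : IsRelPrime g₁ g₂) (Y : Finset (Fin 3 → F))
    (hY : ∀ y ∈ Y, eval y ψ = 0 ∧ ∃ q : Ideal (MvPolynomial (Fin 3) F), q.IsPrime ∧ g₁ ∈ q ∧
      g₂ ∈ q ∧ ψ ∉ q ∧ ∀ f ∈ q, eval y f = 0) :
    Y.card ≤ g₁.totalDegree * g₂.totalDegree * ψ.totalDegree := by
  choose! q hq using fun y hy => (hY y hy).2
  refine pts_le_of_growth (⨅ y ∈ Y, q y) (c := g₁.totalDegree * g₂.totalDegree)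
    (j₀ := g₁.totalDegree + g₂.totalDegree) (fun A hA => ?_) (fun j hj => ?_) Y
    fun y hy => ⟨(hY y hy).1, fun f hf => ?_⟩
  · simp only [Ideal.mem_iInf] at hA ⊢
    exact fun y hy => ((hq y hy).1.mem_or_mem (hA y hy)).resolve_left (hq y hy).2.2.2.1
  · refine (hilb2 1 (by simp) h1 h2 hr _ (fun A => ?_) (fun A => ?_) hj).trans (le_of_eq ?_)
    · refine Ideal.Quotient.eq_zero_iff_mem.2 ?_
      simp only [Ideal.mem_iInf]
      exact fun y hy => Ideal.mul_mem_right _ _ (hq y hy).2.1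
    · refine Ideal.Quotient.eq_zero_iff_mem.2 ?_
      simp only [Ideal.mem_iInf]
      exact fun y hy => Ideal.mul_mem_right _ _ (hq y hy).2.2.1
    · rw [Nat.choose_one_right, mul_add, mul_one]
  · simp only [Ideal.mem_iInf] at hf
    exact (hq y hy).2.2.2.2 f (hf y hy)

theorem bez_lin (ν y : Fin 3 → F) (c : F) : eval y (lin ν c) = ν ⬝ᵥ y - c := by
  simp [lin, dotProduct]

theorem bez_deg (ν : Fin 3 → F) (c : F) : (lin ν c).totalDegree ≤ 1 := by
  refine (totalDegree_sub _ _).trans (max_le ?_ (by rw [totalDegree_C]; omega))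
  refine totalDegree_finsetSum_le fun i _ => (totalDegree_mul _ _).trans ?_
  rw [totalDegree_C, totalDegree_X]

theorem bez_nu [Infinite F] {ι : Type*} (I : Finset ι) (v : ι → Fin 3 → F)
    (hv : ∀ i ∈ I, v i ≠ 0) : ∃ ν : Fin 3 → F, ∀ i ∈ I, ν ⬝ᵥ v i ≠ 0 := by
  have h : ∏ i ∈ I, lin (v i) 0 ≠ 0 := by
    refine prod_ne_zero_iff.2 fun i hi e => hv i hi (funext fun k => ?_)
    have := bez_lin (v i) (Pi.single k 1) 0
    rw [e, map_zero, sub_zero, dotProduct_single, mul_one] at this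
    exact this.symm
  by_contra hc
  push Not at hc
  refine h (MvPolynomial.funext fun ν => ?_)
  obtain ⟨i, hi, e⟩ := hc ν
  rw [map_prod, map_zero]
  exact prod_eq_zero hi (by rw [bez_lin, sub_zero, dotProduct_comm, e])

theorem bez_line (o v : Fin 3 → F) (t : F) (f : MvPolynomial (Fin 3) F) :
    Polynomial.eval t (aeval (fun k => Polynomial.C (o k) + Polynomial.X * Polynomial.C (v k)) f) =
      eval (o + t • v) f := by
  induction f using MvPolynomial.induction_on with
  | C a => simp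
  | add p q hp hq => simp only [map_add, Polynomial.eval_add, hp, hq]
  | mul_X p k hp =>
    simp only [map_mul, Polynomial.eval_mul, hp, aeval_X, eval_X, Polynomial.eval_add,
      Polynomial.eval_C, Polynomial.eval_X, Pi.add_apply, Pi.smul_apply, smul_eq_mul]

theorem bez_two {o o' v v' : Fin 3 → F} {t t' s s' : F} (ht : t ≠ t')
    (h1 : o + t • v = o' + s • v') (h2 : o + t' • v = o' + s' • v') :
    v ⨯₃ v' = 0 ∧ (o' - o) ⨯₃ v = 0 := by
  have e1 : (t - t') • v = (s - s') • v' := by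
    rw [sub_smul, sub_smul]
    linear_combination (exp := 1) h1 - h2
  have e2 : v ⨯₃ v' = 0 := by
    have := congrArg (fun w => w ⨯₃ v') e1
    simp only [map_smul, LinearMap.smul_apply, cross_self, smul_zero] at this
    exact (smul_eq_zero.1 this).resolve_left (sub_ne_zero.2 ht)
  refine ⟨e2, ?_⟩
  have e3 : o' - o = t • v - s • v' := by linear_combination (exp := 1) -h1
  rw [e3, map_sub, map_smul, map_smul, LinearMap.sub_apply, LinearMap.smul_apply,
    LinearMap.smul_apply, cross_self, ← cross_anticomm, e2]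
  simp

theorem lines_bezout [Infinite F] {g₁ g₂ : MvPolynomial (Fin 3) F} (h1 : g₁ ≠ 0) (h2 : g₂ ≠ 0)
    (hr : IsRelPrime g₁ g₂) {ι : Type*} (I : Finset ι) (o v : ι → Fin 3 → F)
    (hv : ∀ i ∈ I, v i ≠ 0)
    (hd : ∀ i ∈ I, ∀ j ∈ I, v i ⨯₃ v j = 0 → (o j - o i) ⨯₃ v i = 0 → i = j)
    (hg : ∀ i ∈ I, ∀ t : F, eval (o i + t • v i) g₁ = 0 ∧ eval (o i + t • v i) g₂ = 0) :
    I.card ≤ g₁.totalDegree * g₂.totalDegree := by
  obtain ⟨ν, hν⟩ := bez_nu I v hv
  let τ : ι → F → F := fun i c => (c - ν ⬝ᵥ o i) / (ν ⬝ᵥ v i)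
  have hfin : (⋃ i ∈ (I : Set ι), ⋃ j ∈ (I : Set ι),
      {c | i ≠ j ∧ o i + τ i c • v i = o j + τ j c • v j}).Finite := by
    refine I.finite_toSet.biUnion fun i hi => I.finite_toSet.biUnion fun j hj =>
      Set.Subsingleton.finite fun c hc c' hc' => ?_
    by_contra hne
    have ht : τ i c ≠ τ i c' := fun e =>
      hne (sub_left_injective ((div_left_inj' (hν i hi)).1 e))
    obtain ⟨a1, a2⟩ := bez_two ht hc.2 hc'.2
    exact hc.1 (hd i hi j hj a1 a2)
  obtain ⟨c, hc⟩ := hfin.exists_notMem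
  have hinj : Set.InjOn (fun i => o i + τ i c • v i) I := fun i hi j hj e => by
    by_contra hne
    exact hc (Set.mem_biUnion hi (Set.mem_biUnion hj ⟨hne, e⟩))
  rw [← card_image_of_injOn hinj]
  refine (bezout3 (ψ := lin ν c) h1 h2 hr _ fun y hy => ?_).trans
    (mul_le_of_le_one_right (Nat.zero_le _) (bez_deg ν c))
  obtain ⟨i, hi, rfl⟩ := mem_image.1 hy
  have e : ∀ t, eval (o i + (τ i c + t) • v i) (lin ν c) = t * (ν ⬝ᵥ v i) := fun t => by
    rw [bez_lin, dotProduct_add, dotProduct_smul, smul_eq_mul, add_mul,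
      div_mul_cancel₀ _ (hν i hi)]
    ring
  refine ⟨by simpa using e 0, RingHom.ker (aeval (fun k => Polynomial.C (o i k) +
    Polynomial.X * Polynomial.C (v i k)) : MvPolynomial (Fin 3) F →ₐ[F] Polynomial F),
    RingHom.ker_isPrime _, ?_, ?_, fun h => ?_, fun f hf => ?_⟩
  · exact Polynomial.funext fun t => by rw [bez_line, (hg i hi t).1, Polynomial.eval_zero]
  · exact Polynomial.funext fun t => by rw [bez_line, (hg i hi t).2, Polynomial.eval_zero]
  · have := e 1
    rw [← bez_line, RingHom.mem_ker.1 h, Polynomial.eval_zero, one_mul] at this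
    exact hν i hi this.symm
  · rw [← bez_line, RingHom.mem_ker.1 hf, Polynomial.eval_zero]

end Vale.Agent.P054
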