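import Vale.Agent.P054.Defs

/-! Cells: a partition into few light cells that every partial isometry meets in few pairs (about 450 lines).
If `|P| ≤ m` take one cell. Otherwise use dyadic cubes `cube j x = fun i => ⌊(x i + R) / 2^j⌋` (`j : ℤ`, `R` makes all coordinates nonnegative, at the level `J` all points are in one cube, at a very low level all cubes have one point). `cnt j x` = number of points of `P` in the cube of `x`, monotone in `j`; `v j x = cnt j x / m`; heavy means `m < cnt`.
`lo p` = least heavy level of `p`, `top p` = greatest level `j ≤ J` with `v j p = v (lo p) p`; the label of `p` is `(top p, cube (top p) p)` (encode in `ℕ`, or use any injection of the finite label set).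
Size: let `p₀` have the least `lo` in a cell. A point of the cell in the cube of `p₀` at level `lo p₀` has the same `lo` (two disjoint heavy cubes with the same `v ≥ 1` cannot lie in a cube with that `v`, so the cubes `lo` of the cell are nested) and lies in one of 8 light children; the others are fewer than `m`.
Number: by induction on the level, a heavy cube `Q` has at most `2 v(Q) - 2` labels strictly inside (cases: 0, 1, at least 2 heavy children; a child is a label only if its `v` is smaller).
Overlap: for a label `τ` of level `j`, the partners `q` of points of `τ` have mutual coordinate differences `< 2 * 2^j`, so they lie in at most 125 cubes of level `j`; and a cube of level `j` meets at most one cell of level `≥ j` (the two top cubes are nested, the point of the larger cell has its `lo` cube inside the smaller top cube, compare `v`). Symmetric in the two coordinates, so `C = 250`.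
-/

noncomputable section

open Classical MvPolynomial Matrix Finset

namespace Vale.Agent.P054

section Abs

variable {α β : Type*} {P : Finset α} {c : ℕ → α → β} {par : β → β} {m j : ℕ}

/-- number of points in the cube `b` of level `j` -/
def cells_cn (P : Finset α) (c : ℕ → α → β) (j : ℕ) (b : β) : ℕ :=
  (P.filter fun y => c j y = b).card

/-- heavy cubes of level `j` -/
def cells_H (P : Finset α) (c : ℕ → α → β) (m j : ℕ) : Finset β :=
  (P.image (c j)).filter fun b => m < cells_cn P c j b

/-- heavy cubes whose parent has a larger weight -/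
def cells_T (P : Finset α) (c : ℕ → α → β) (par : β → β) (m j : ℕ) : Finset β :=
  (cells_H P c m j).filter fun b => cells_cn P c j b / m < cells_cn P c (j + 1) (par b) / m

theorem cells_nest (hp : ∀ j x, c (j + 1) x = par (c j x)) {x y : α} {k : ℕ} (hk : j ≤ k)
    (h : c j x = c j y) : c k x = c k y := by
  induction k, hk using Nat.le_induction with
  | base => exact h
  | succ k _ ih => rw [hp, hp, ih]

theorem cells_mono (hp : ∀ j x, c (j + 1) x = par (c j x)) (x : α) {k : ℕ} (hk : j ≤ k) :
    cells_cn P c j (c j x) ≤ cells_cn P c k (c k x) :=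
  card_le_card fun _ hy => mem_filter.2 ⟨(mem_filter.1 hy).1, cells_nest hp hk (mem_filter.1 hy).2⟩

theorem cells_sum (S : Finset β) :
    ∑ b ∈ S, cells_cn P c j b = (P.filter fun y => c j y ∈ S).card :=
  sum_card_fiberwise_eq_card_filter P S (c j)

theorem cells_div (hm : 1 ≤ m) (S : Finset β) (f : β → ℕ) {n : ℕ} (h : ∑ b ∈ S, f b ≤ n) :
    ∑ b ∈ S, f b / m ≤ n / m := by
  rw [Nat.le_div_iff_mul_le hm, sum_mul]
  exact (sum_le_sum fun b _ => Nat.div_mul_le_self _ _).trans h

theorem cells_count (hm : 1 ≤ m) (hp : ∀ j x, c (j + 1) x = par (c j x)) (j : ℕ) :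
    ∑ i ∈ range j, (cells_T P c par m i).card + 2 * (cells_H P c m j).card ≤
      2 * ∑ b ∈ cells_H P c m j, cells_cn P c j b / m := by
  have hv : ∀ j, ∀ b ∈ cells_H P c m j, 1 ≤ cells_cn P c j b / m := fun j b hb =>
    (Nat.le_div_iff_mul_le hm).2 (by simpa using (mem_filter.1 hb).2.le)
  induction j with
  | zero =>
    rw [range_zero, sum_empty, zero_add, card_eq_sum_ones]
    exact Nat.mul_le_mul_left _ (sum_le_sum (hv 0))
  | succ j ih =>
    have hmap : ∀ b ∈ cells_H P c m j, par b ∈ cells_H P c m (j + 1) := by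
      intro b hb
      obtain ⟨h1, h2⟩ := mem_filter.1 hb
      obtain ⟨x, hx, rfl⟩ := mem_image.1 h1
      rw [← hp]
      exact mem_filter.2 ⟨mem_image_of_mem _ hx, h2.trans_le (cells_mono hp x (Nat.le_succ j))⟩
    have key : ∀ b ∈ cells_H P c m (j + 1),
        ∑ b' ∈ cells_H P c m j with par b' = b, (2 * (cells_cn P c j b' / m) +
          if cells_cn P c j b' / m < cells_cn P c (j + 1) (par b') / m then 1 else 0) + 2 ≤
        2 * (cells_cn P c (j + 1) b / m) + ∑ b' ∈ cells_H P c m j with par b' = b, 2 := by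
      intro b hb
      obtain ⟨S, hS⟩ : ∃ S, S = (cells_H P c m j).filter fun b' => par b' = b := ⟨_, rfl⟩
      have hSb : ∀ b' ∈ S, par b' = b := fun b' h => by
        rw [hS] at h
        exact (mem_filter.1 h).2
      have h1 : ∑ b' ∈ S, cells_cn P c j b' / m ≤ cells_cn P c (j + 1) b / m := by
        refine cells_div hm S _ ?_
        rw [cells_sum]
        exact card_le_card fun y hy => mem_filter.2
          ⟨(mem_filter.1 hy).1, by rw [hp, hSb _ (mem_filter.1 hy).2]⟩
      have h2 := hv _ b hb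
      rw [← hS, sum_add_distrib, ← mul_sum, sum_const, smul_eq_mul]
      rcases Nat.lt_or_ge S.card 2 with h3 | h3
      · rcases S.eq_empty_or_nonempty with rfl | ⟨b', hb'⟩
        · simp only [sum_empty, card_empty]
          omega
        · obtain rfl : S = {b'} := eq_singleton_iff_unique_mem.2
            ⟨hb', fun y hy => card_le_one.1 (by omega) y hy b' hb'⟩
          rw [sum_singleton] at h1
          rw [sum_singleton, sum_singleton, card_singleton, hSb b' hb']
          split_ifs <;> omega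
      · have h4 : ∑ b' ∈ S, (if cells_cn P c j b' / m < cells_cn P c (j + 1) (par b') / m then 1
            else 0) ≤ S.card := by
          rw [card_eq_sum_ones]
          exact sum_le_sum fun b' _ => by split_ifs <;> omega
        omega
    have h5 := sum_le_sum key
    rw [sum_add_distrib, sum_add_distrib, sum_fiberwise_of_maps_to hmap,
      sum_fiberwise_of_maps_to hmap, sum_add_distrib, ← mul_sum, ← mul_sum, sum_const, sum_const,
      smul_eq_mul, smul_eq_mul, ← card_filter] at h5
    rw [sum_range_succ]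
    unfold cells_T at ih ⊢
    omega

theorem cells_factor {γ δ : Type*} [DecidableEq γ] [DecidableEq δ] (S : Finset α) (f : α → γ)
    (g : α → δ) (h : ∀ x ∈ S, ∀ y ∈ S, g x = g y → f x = f y) :
    (S.image f).card ≤ (S.image g).card := by
  rcases S.eq_empty_or_nonempty with rfl | ⟨x₀, _⟩
  · simp
  refine (card_le_card fun a ha => ?_).trans (card_image_le (s := S.image g)
    (f := fun d => if hd : ∃ x ∈ S, g x = d then f hd.choose else f x₀))
  obtain ⟨x, hx, rfl⟩ := mem_image.1 ha
  have hd : ∃ y ∈ S, g y = g x := ⟨x, hx, rfl⟩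
  exact mem_image.2 ⟨g x, mem_image_of_mem _ hx, by
    rw [dif_pos hd]; exact h _ hd.choose_spec.1 x hx hd.choose_spec.2⟩

theorem cells_abs [Countable β] (hm : 1 ≤ m) (hp : ∀ j x, c (j + 1) x = par (c j x))
    (hch : ∀ b, ∃ S : Finset β, S.card ≤ 8 ∧ ∀ b', par b' = b → b' ∈ S)
    (h0 : ∀ x ∈ P, ∀ y ∈ P, c 0 x = c 0 y → x = y) {J : ℕ}
    (hJ : ∀ x ∈ P, ∀ y ∈ P, c J x = c J y) : ∃ top cell : α → ℕ,
      (P.image cell).card * m ≤ 2 * P.card + m ∧
      (∀ i, (P.filter fun x => cell x = i).card ≤ 9 * m) ∧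
      (∀ x y, cell x = cell y → top x = top y ∧ c (top x) x = c (top x) y) ∧
      ∀ x ∈ P, ∀ y ∈ P, ∀ j, c j x = c j y → j ≤ top x → j ≤ top y → cell x = cell y := by
  obtain ⟨enc, henc⟩ := exists_injective_nat (ℕ × β)
  have hlab : ∀ (top : α → ℕ) (x y : α), enc (top x, c (top x) x) = enc (top y, c (top y) y) →
      top x = top y ∧ c (top x) x = c (top x) y := by
    intro top x y h
    obtain ⟨h1, h2⟩ := Prod.mk.inj (henc h)
    exact ⟨h1, by rw [h2, h1]⟩
  rcases Nat.lt_or_ge m P.card with hP | hP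
  swap
  · refine ⟨fun _ => J, fun x => enc (J, c J x), ?_,
      fun i => (card_filter_le _ _).trans (by omega), hlab _, fun x hx y hy _ _ _ _ => ?_⟩
    · have h1 : (P.image fun x => enc (J, c J x)).card ≤ 1 := card_le_one.2 fun a ha b hb => by
        obtain ⟨x, hx, rfl⟩ := mem_image.1 ha
        obtain ⟨y, hy, rfl⟩ := mem_image.1 hb
        rw [hJ x hx y hy]
      nlinarith
    · show enc (J, c J x) = enc (J, c J y)
      rw [hJ x hx y hy]
  have hroot : ∀ x ∈ P, m < cells_cn P c J (c J x) := fun x hx => by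
    rw [cells_cn, filter_true_of_mem fun y hy => hJ y hy x hx]
    exact hP
  obtain ⟨lo, hlo⟩ : ∃ lo : α → ℕ, lo = fun x => sInf {j | m < cells_cn P c j (c j x)} := ⟨_, rfl⟩
  have lo1 : ∀ x ∈ P, m < cells_cn P c (lo x) (c (lo x) x) := fun x hx => by
    rw [hlo]
    exact Nat.sInf_mem (s := {j | m < cells_cn P c j (c j x)}) ⟨J, hroot x hx⟩
  have lo2 : ∀ x j, m < cells_cn P c j (c j x) → lo x ≤ j := fun x j h => by
    rw [hlo]
    exact Nat.sInf_le (s := {j | m < cells_cn P c j (c j x)}) h
  obtain ⟨top, htop⟩ : ∃ top : α → ℕ, top = fun x => Nat.findGreatest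
    (fun j => cells_cn P c j (c j x) / m = cells_cn P c (lo x) (c (lo x) x) / m) J := ⟨_, rfl⟩
  have t1 : ∀ x, top x ≤ J := fun x => by
    rw [htop]
    exact Nat.findGreatest_le J
  have t2 : ∀ x j, j ≤ J → cells_cn P c j (c j x) / m = cells_cn P c (lo x) (c (lo x) x) / m →
      j ≤ top x := fun x j h1 h2 => by
    rw [htop]
    exact Nat.le_findGreatest h1 h2
  have t3 : ∀ x ∈ P, lo x ≤ top x := fun x hx => t2 x _ (lo2 x J (hroot x hx)) rfl
  have t4 : ∀ x ∈ P, cells_cn P c (top x) (c (top x) x) / m =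
      cells_cn P c (lo x) (c (lo x) x) / m := fun x hx => by
    rw [htop]
    exact Nat.findGreatest_spec
      (P := fun j => cells_cn P c j (c j x) / m = cells_cn P c (lo x) (c (lo x) x) / m)
      (lo2 x J (hroot x hx)) rfl
  have t5 : ∀ x ∈ P, m < cells_cn P c (top x) (c (top x) x) := fun x hx =>
    (lo1 x hx).trans_le (cells_mono hp x (t3 x hx))
  have vm : ∀ x j k, j ≤ k → cells_cn P c j (c j x) / m ≤ cells_cn P c k (c k x) / m :=
    fun x j k h => Nat.div_le_div_right (cells_mono hp x h)
  refine ⟨top, fun x => enc (top x, c (top x) x), ?_, fun i => ?_, hlab top, ?_⟩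
  · obtain ⟨x₀, hx₀⟩ : P.Nonempty := card_pos.1 (by omega)
    have h1 : (P.image fun x => enc (top x, c (top x) x)) ⊆ insert (enc (J, c J x₀))
        ((range J).biUnion fun j => (cells_T P c par m j).image fun b => enc (j, b)) := by
      intro a ha
      obtain ⟨x, hx, rfl⟩ := mem_image.1 ha
      rcases (t1 x).eq_or_lt with h | h
      · rw [h, hJ x hx x₀ hx₀]
        exact mem_insert_self _ _
      · refine mem_insert_of_mem (mem_biUnion.2 ⟨top x, mem_range.2 h, mem_image_of_mem _
          (mem_filter.2 ⟨mem_filter.2 ⟨mem_image_of_mem _ hx, t5 x hx⟩, ?_⟩)⟩)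
        rw [← hp]
        refine (vm x _ _ (Nat.le_succ _)).lt_of_ne fun e => ?_
        have := t2 x (top x + 1) h (e.symm.trans (t4 x hx))
        omega
    have h2 := (card_le_card h1).trans ((card_insert_le _ _).trans (Nat.add_le_add_right
      (card_biUnion_le.trans (sum_le_sum fun j _ => card_image_le)) 1))
    have h3 := cells_count (P := P) hm hp J
    have h4 : ∑ b ∈ cells_H P c m J, cells_cn P c J b / m ≤ P.card / m :=
      cells_div hm _ _ (by rw [cells_sum]; exact card_filter_le _ _)
    have h5 := Nat.div_mul_le_self P.card m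
    have h6 : (P.image fun x => enc (top x, c (top x) x)).card ≤ 2 * (P.card / m) + 1 := by omega
    nlinarith
  · obtain ⟨F, hF⟩ : ∃ F, F = P.filter fun x => enc (top x, c (top x) x) = i := ⟨_, rfl⟩
    rw [← hF]
    rcases F.eq_empty_or_nonempty with h | h
    · simp [h]
    obtain ⟨p, hpF, hmin⟩ := F.exists_min_image lo h
    have hFP : ∀ x ∈ F, x ∈ P ∧ c (top p) x = c (top p) p := fun x hx => by
      have a1 := mem_filter.1 (hF ▸ hx)
      have a2 := mem_filter.1 (hF ▸ hpF)
      exact ⟨a1.1, (hlab top p x (a2.2.trans a1.2.symm)).2.symm⟩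
    have hpP := (hFP p hpF).1
    obtain ⟨l, hl⟩ : ∃ l, lo p = l + 1 := by
      refine Nat.exists_eq_succ_of_ne_zero fun e => ?_
      have a1 := lo1 p hpP
      rw [e] at a1
      have a2 : cells_cn P c 0 (c 0 p) ≤ 1 := card_le_one.2 fun a ha b hb =>
        h0 a (mem_filter.1 ha).1 b (mem_filter.1 hb).1
          ((mem_filter.1 ha).2.trans (mem_filter.1 hb).2.symm)
      omega
    obtain ⟨S, hS, hS'⟩ := hch (c (lo p) p)
    have b1 : (F.filter fun x => c (lo p) x = c (lo p) p).card ≤ m * S.card := by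
      refine card_le_mul_card_image_of_maps_to (f := c l)
        (fun x hx => hS' _ (by rw [← hp, ← hl]; exact (mem_filter.1 hx).2)) m fun b _ => ?_
      rcases ((F.filter fun x => c (lo p) x = c (lo p) p).filter fun a => c l a = b).eq_empty_or_nonempty
        with e | ⟨x, hx⟩
      · simp [e]
      have a1 := mem_filter.1 hx
      have a2 := hmin x (mem_filter.1 a1.1).1
      have a3 : cells_cn P c l (c l x) ≤ m := by
        by_contra a4
        have := lo2 x l (not_le.1 a4)
        omega
      refine le_trans (card_le_card fun y hy => mem_filter.2 ⟨?_, ?_⟩) a3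
      · exact (hFP y (mem_filter.1 (mem_filter.1 hy).1).1).1
      · exact (mem_filter.1 hy).2.trans a1.2.symm
    have b2 : (F.filter fun x => ¬ c (lo p) x = c (lo p) p).card + cells_cn P c (lo p) (c (lo p) p) ≤
        cells_cn P c (top p) (c (top p) p) := by
      have hd : Disjoint (F.filter fun x => ¬ c (lo p) x = c (lo p) p)
          (P.filter fun y => c (lo p) y = c (lo p) p) :=
        disjoint_left.2 fun x h1 h2 => (mem_filter.1 h1).2 (mem_filter.1 h2).2
      rw [cells_cn, ← card_union_of_disjoint hd]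
      refine card_le_card fun x hx => mem_filter.2 ?_
      rcases mem_union.1 hx with h1 | h1
      · exact hFP x (mem_filter.1 h1).1
      · exact ⟨(mem_filter.1 h1).1, cells_nest hp (t3 p hpP) (mem_filter.1 h1).2⟩
    have b3 := Nat.div_add_mod (cells_cn P c (top p) (c (top p) p)) m
    have b4 := Nat.mod_lt (cells_cn P c (top p) (c (top p) p)) hm
    have b5 := Nat.mul_div_le (cells_cn P c (lo p) (c (lo p) p)) m
    rw [t4 p hpP] at b3
    have b6 := card_filter_add_card_filter_not (s := F) fun x => c (lo p) x = c (lo p) p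
    have b7 := Nat.mul_le_mul_left m hS
    omega
  · have key : ∀ x ∈ P, ∀ y ∈ P, ∀ j, c j x = c j y → j ≤ top x → top x ≤ top y →
        top y ≤ top x := by
      intro x hx y hy j h h1 h2
      have e1 := cells_nest hp h1 h
      have e2 := cells_nest hp (h1.trans h2) h
      have a1 : lo y ≤ top x := lo2 y _ (e1 ▸ t5 x hx)
      have a2 := vm y _ _ a1
      have a3 := vm y _ _ h2
      have a4 := t4 y hy
      have a5 := t4 x hx
      refine t2 x _ (t1 y) ?_
      rw [e2, ← a5, e1]
      omega
    intro x hx y hy j h h1 h2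
    have e : top x = top y := by
      rcases le_total (top x) (top y) with h3 | h3
      · exact le_antisymm h3 (key x hx y hy j h h1 h3)
      · exact le_antisymm (key y hy x hx j h.symm h2 h3) h3
    show enc (top x, c (top x) x) = enc (top y, c (top y) y)
    rw [← e, cells_nest hp h1 h]

end Abs

/-- dyadic cubes -/
def cells_cube (ε R : ℝ) (j : ℕ) (x : V) : Fin 3 → ℤ := fun i => ⌊(x i + R) / (ε * 2 ^ j)⌋

theorem cells_near {ε R : ℝ} (hε : 0 < ε) {j : ℕ} {x y : V}
    (h : cells_cube ε R j x = cells_cube ε R j y) (i : Fin 3) : |x i - y i| < ε * 2 ^ j := by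
  have h1 := Int.abs_sub_lt_one_of_floor_eq_floor (congrFun h i)
  have h2 : 0 < ε * 2 ^ j := by positivity
  rwa [← sub_div, add_sub_add_right_eq_sub, abs_div, abs_of_pos h2, div_lt_one h2] at h1

theorem cells_box {ε R : ℝ} (hε : 0 < ε) {j : ℕ} {x y p q : V}
    (h : cells_cube ε R j x = cells_cube ε R j y) (e : sq x y = sq p q) :
    cells_cube ε R j p ∈ Fintype.piFinset fun i =>
      Icc (cells_cube ε R j q i - 2) (cells_cube ε R j q i + 2) := by
  have h2 : 0 < ε * 2 ^ j := by positivity
  obtain ⟨s, hs⟩ : ∃ s, s = ε * 2 ^ j := ⟨_, rfl⟩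
  have a : ∀ i, (x i - y i) * (x i - y i) < s * s := fun i => by
    rw [← abs_mul_abs_self]
    exact mul_self_lt_mul_self (abs_nonneg _) (hs ▸ cells_near hε h i)
  simp only [sq, dotProduct, Fin.sum_univ_three, Pi.sub_apply] at e
  refine Fintype.mem_piFinset.2 fun i => ?_
  have b : (p i - q i) * (p i - q i) ≤ (p 0 - q 0) * (p 0 - q 0) + (p 1 - q 1) * (p 1 - q 1) +
      (p 2 - q 2) * (p 2 - q 2) := by
    have := single_le_sum (f := fun i => (p i - q i) * (p i - q i))
      (fun i _ => mul_self_nonneg _) (mem_univ i)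
    rwa [Fin.sum_univ_three] at this
  have d : |p i - q i| ≤ 2 * s := by
    refine abs_le_of_sq_le_sq' ?_ (by rw [hs]; positivity) |> abs_le.2
    nlinarith [a 0, a 1, a 2, mul_self_nonneg s]
  rw [← hs] at h2
  have d1 : (q i + R) / s - 2 ≤ (p i + R) / s := by
    rw [le_div_iff₀ h2, sub_mul, div_mul_cancel₀ _ h2.ne']
    linarith [(abs_le.1 d).1]
  have d2 : (p i + R) / s ≤ (q i + R) / s + 2 := by
    rw [div_le_iff₀ h2, add_mul, div_mul_cancel₀ _ h2.ne']
    linarith [(abs_le.1 d).2]
  have d3 := Int.floor_mono d1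
  have d4 := Int.floor_mono d2
  rw [Int.floor_sub_ofNat] at d3
  rw [Int.floor_add_ofNat] at d4
  simp only [cells_cube, ← hs]
  exact mem_Icc.2 ⟨d3, d4⟩

theorem cells_half {ε R : ℝ} (hε : 0 < ε) {P : Finset V} {top cell : V → ℕ}
    (h1 : ∀ x y, cell x = cell y → top x = top y ∧
      cells_cube ε R (top x) x = cells_cube ε R (top x) y)
    (h2 : ∀ x ∈ P, ∀ y ∈ P, ∀ j, cells_cube ε R j x = cells_cube ε R j y → j ≤ top x → j ≤ top y →
      cell x = cell y) {ι : Type*} (M : Finset ι) (a b : ι → V) (ha : ∀ z ∈ M, a z ∈ P)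
    (hb : ∀ z ∈ M, b z ∈ P) (hs : ∀ z ∈ M, ∀ w ∈ M, sq (a z) (a w) = sq (b z) (b w))
    (ht : ∀ z ∈ M, top (a z) ≤ top (b z)) {f : ι → ℕ × ℕ}
    (hf : ∀ z w, cell (a z) = cell (a w) → cell (b z) = cell (b w) → f z = f w) :
    (M.image f).card ≤ 125 * (P.image cell).card := by
  refine (cells_factor M f (fun z => (cell (a z), cells_cube ε R (top (a z)) (b z)))
    fun z hz w hw e => ?_).trans ?_
  · obtain ⟨e1, e2⟩ := Prod.mk.inj e
    have e3 := (h1 _ _ e1).1
    rw [← e3] at e2
    exact hf z w e1 (h2 _ (hb z hz) _ (hb w hw) _ e2 (ht z hz) (e3 ▸ ht w hw))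
  refine card_le_mul_card_image_of_maps_to (f := Prod.fst) (fun u hu => ?_) 125 fun i _ => ?_
  · obtain ⟨z, hz, rfl⟩ := mem_image.1 hu
    exact mem_image_of_mem _ (ha z hz)
  rcases ((M.image fun z => (cell (a z), cells_cube ε R (top (a z)) (b z))).filter
    fun u => u.1 = i).eq_empty_or_nonempty with e | ⟨u, hu⟩
  · simp [e]
  obtain ⟨w, hw, rfl⟩ := mem_image.1 (mem_filter.1 hu).1
  have hi : cell (a w) = i := (mem_filter.1 hu).2
  refine (card_le_card_of_injOn (t := Fintype.piFinset fun k =>
    Icc (cells_cube ε R (top (a w)) (b w) k - 2) (cells_cube ε R (top (a w)) (b w) k + 2))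
    Prod.snd (fun u hu => ?_) fun u hu v hv e => ?_).trans (le_of_eq ?_)
  · obtain ⟨z, hz, rfl⟩ := mem_image.1 (mem_filter.1 (mem_coe.1 hu)).1
    have hz' : cell (a z) = i := (mem_filter.1 (mem_coe.1 hu)).2
    obtain ⟨e1, e2⟩ := h1 _ _ (hz'.trans hi.symm)
    rw [← e1]
    exact mem_coe.2 (cells_box hε e2 (hs z hz w hw))
  · exact Prod.ext ((mem_filter.1 (mem_coe.1 hu)).2.trans (mem_filter.1 (mem_coe.1 hv)).2.symm) e
  · have : ∀ n : ℤ, (n + 2 + 1 - (n - 2)).toNat = 5 := fun n => by omega
    simp only [Fintype.card_piFinset, Int.card_Icc, this]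
    rfl

theorem cells_par (P : Finset V) : ∃ ε R : ℝ, ∃ J : ℕ, 0 < ε ∧
    (∀ x ∈ P, ∀ y ∈ P, cells_cube ε R 0 x = cells_cube ε R 0 y → x = y) ∧
    ∀ x ∈ P, cells_cube ε R J x = 0 := by
  obtain ⟨ε, hε, h1⟩ : ∃ ε > (0 : ℝ), ∀ z ∈ P ×ˢ P, z.1 ≠ z.2 → ε ≤ dist z.1 z.2 := by
    rcases ((P ×ˢ P).filter fun z => z.1 ≠ z.2).eq_empty_or_nonempty with e | e
    · exact ⟨1, one_pos, fun z hz h => absurd (mem_filter.2 ⟨hz, h⟩) (by rw [e]; simp)⟩
    · obtain ⟨w, hw, hmin⟩ := exists_min_image _ (fun z : V × V => dist z.1 z.2) e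
      exact ⟨_, dist_pos.2 (mem_filter.1 hw).2, fun z hz h => hmin z (mem_filter.2 ⟨hz, h⟩)⟩
  obtain ⟨R, hR⟩ := P.finite_toSet.isBounded.exists_norm_le
  obtain ⟨J, hJ⟩ := pow_unbounded_of_one_lt (2 * R / ε) (one_lt_two (α := ℝ))
  refine ⟨ε, R, J, hε, fun x hx y hy h => ?_, fun x hx => funext fun i => ?_⟩
  · by_contra hne
    refine (h1 (x, y) (mem_product.2 ⟨hx, hy⟩) hne).not_gt ((dist_pi_lt_iff hε).2 fun i => ?_)
    simpa [Real.dist_eq] using cells_near hε h i
  · have a1 := abs_le.1 ((norm_le_pi_norm x i).trans (hR x hx))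
    rw [div_lt_iff₀ hε] at hJ
    refine Int.floor_eq_zero_iff.2 ⟨div_nonneg (by linarith [a1.1]) (by positivity), ?_⟩
    rw [div_lt_one (by positivity)]
    linarith [a1.2]

theorem cells : ∃ C : ℕ, 1 ≤ C ∧ ∀ (P : Finset V) (m : ℕ), 1 ≤ m → ∃ cell : V → ℕ,
    (P.image cell).card * m ≤ 2 * P.card + m ∧
    (∀ i, (P.filter fun x => cell x = i).card ≤ 9 * m) ∧
    ∀ M : Finset (V × V), M ⊆ P ×ˢ P → (∀ z ∈ M, ∀ w ∈ M, sq z.1 w.1 = sq z.2 w.2) →
      (M.image fun z => (cell z.1, cell z.2)).card ≤ C * (P.image cell).card := by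
  refine ⟨250, by norm_num, fun P m hm => ?_⟩
  obtain ⟨ε, R, J, hε, h0, hJ⟩ := cells_par P
  obtain ⟨top, cell, c1, c2, c3, c4⟩ := cells_abs (P := P) (c := cells_cube ε R)
    (par := fun b i => b i / 2) hm (fun j x => funext fun i => by
      simp only [cells_cube]
      rw [pow_succ, ← mul_assoc, ← div_div]
      exact_mod_cast Int.floor_div_natCast ((x i + R) / (ε * 2 ^ j)) 2)
    (fun b => ⟨Fintype.piFinset fun i => Icc (2 * b i) (2 * b i + 1), by
      have : ∀ n : ℤ, (2 * n + 1 + 1 - 2 * n).toNat = 2 := fun n => by omega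
      simp only [Fintype.card_piFinset, Int.card_Icc, this]
      rfl, fun b' h => Fintype.mem_piFinset.2 fun i => by
        have : b' i / 2 = b i := congrFun h i
        rw [mem_Icc]
        omega⟩) h0 (J := J) fun x hx y hy => (hJ x hx).trans (hJ y hy).symm
  refine ⟨cell, c1, c2, fun M hM hs => ?_⟩
  have a1 := cells_half hε c3 c4 (M.filter fun z => top z.1 ≤ top z.2) Prod.fst Prod.snd
    (fun z hz => (mem_product.1 (hM (mem_filter.1 hz).1)).1)
    (fun z hz => (mem_product.1 (hM (mem_filter.1 hz).1)).2)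
    (fun z hz w hw => hs z (mem_filter.1 hz).1 w (mem_filter.1 hw).1)
    (fun z hz => (mem_filter.1 hz).2) (f := fun z => (cell z.1, cell z.2))
    fun z w e1 e2 => Prod.ext e1 e2
  have a2 := cells_half hε c3 c4 (M.filter fun z => ¬ top z.1 ≤ top z.2) Prod.snd Prod.fst
    (fun z hz => (mem_product.1 (hM (mem_filter.1 hz).1)).2)
    (fun z hz => (mem_product.1 (hM (mem_filter.1 hz).1)).1)
    (fun z hz w hw => (hs z (mem_filter.1 hz).1 w (mem_filter.1 hw).1).symm)
    (fun z hz => (not_le.1 (mem_filter.1 hz).2).le) (f := fun z => (cell z.1, cell z.2))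
    fun z w e1 e2 => Prod.ext e2 e1
  rw [← filter_union_filter_not_eq (fun z => top z.1 ≤ top z.2) M, image_union]
  refine (card_union_le _ _).trans ?_
  omega

end Vale.Agent.P054
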