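import Vale.Agent.P054.ChudP

/-! Chud: the Chudnovsky bound over `ℂ` by reduction to a finite field (about 300 lines).
Let `τ = N deg F / k` and suppose that no nonzero `G` of degree `≤ τ` vanishes on `Y`. By finite dimension there is a finite `Y₀ ⊆ Y` with the same property, and the evaluation matrix `E` (monomials of degree `≤ τ` against `Y₀`) has a left inverse `L`. Let `A ⊆ ℂ` be the `ℤ`-subalgebra generated by the coordinates of `Y₀`, the coefficients of `F`, the entries of `L` and the inverse of one nonzero coefficient; take a maximal ideal `m`; `A ⧸ m` is a finite field (`finite_of_finite_type_of_isJacobsonRing ℤ`, a field that is a finite `ℤ`-module is finite: see `Vale/Agent/P041/Special.lean` for the pattern, and Mathlib `Algebra.FiniteType` Ax-Grothendieck file `Mathlib/FieldTheory/AxGrothendieck.lean`).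
`Ord` is a condition on coefficients (`mem_pow_idealOfVars_iff'`), so it descends to `A` and maps to `A ⧸ m`; `L E = 1` survives, which contradicts `chud_fin`.
-/

noncomputable section

open Classical MvPolynomial Matrix Finset

namespace Vale.Agent.P054

theorem chud_jac : IsJacobsonRing ℤ := by
  refine isJacobsonRing_iff_prime_eq.2 fun P hP => ?_
  by_cases h : P = ⊥
  · subst h
    refine eq_bot_iff.2 fun x hx => ?_
    rcases Int.isUnit_iff.1 (Ideal.mem_jacobson_bot.1 hx x) with h | h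
    · exact mul_self_eq_zero.1 (by linarith)
    · nlinarith [mul_self_nonneg x]
  · have := hP.isMaximal h
    exact Ideal.jacobson_eq_self_of_isMaximal

theorem chud_finite (K : Type) [Field K] [Module.Finite ℤ K] : Finite K := by
  have h : ¬ Function.Injective (algebraMap ℤ K) := fun h =>
    Int.not_isField (isField_of_isIntegral_of_isField h (Field.toIsField K))
  rw [injective_iff_map_eq_zero] at h
  push Not at h
  obtain ⟨a, ha, h0⟩ := h
  refine Module.finite_of_fg_torsion K fun x => ⟨⟨a, mem_nonZeroDivisors_of_ne_zero h0⟩, ?_⟩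
  change a • x = 0
  rw [Algebra.smul_def, ha, zero_mul]

theorem chud_spec {S : Set ℂ} (hS : S.Finite) : ∃ (A : Subring ℂ) (K : Type) (_ : Field K)
    (_ : Finite K) (_ : A →+* K), ∀ s ∈ S, s ∈ A := by
  have := chud_jac
  have : Algebra.FiniteType ℤ (Algebra.adjoin ℤ S) := .adjoin_of_finite hS
  obtain ⟨m, hm⟩ := Ideal.exists_maximal (Algebra.adjoin ℤ S)
  let _ : Field (Algebra.adjoin ℤ S ⧸ m) := Ideal.Quotient.field m
  have := finite_of_finite_type_of_isJacobsonRing ℤ (Algebra.adjoin ℤ S ⧸ m)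
  exact ⟨(Algebra.adjoin ℤ S).toSubring, _, _, chud_finite (Algebra.adjoin ℤ S ⧸ m),
    Ideal.Quotient.mk m, fun s hs => Algebra.subset_adjoin hs⟩

theorem chud_shift {σ A B : Type*} [CommRing A] [CommRing B] (f : A →+* B) (y : σ → A)
    (F : MvPolynomial σ A) : map f (shift y F) = shift (fun i => f (y i)) (map f F) := by
  induction F using MvPolynomial.induction_on with
  | C a => simp [shift]
  | add p q hp hq => simp only [map_add, hp, hq]
  | mul_X p i hp => simp only [map_mul, hp]; simp [shift]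

theorem chud_ord {σ A B : Type*} [CommRing A] [CommRing B] (f : A →+* B) (y : σ → A)
    (F : MvPolynomial σ A) (k : ℕ) : (Ord y k F → Ord (fun i => f (y i)) k (map f F)) ∧
      (Function.Injective f → Ord (fun i => f (y i)) k (map f F) → Ord y k F) := by
  simp only [Ord, ← chud_shift, mem_pow_idealOfVars_iff', coeff_map]
  exact ⟨fun h x hx => by rw [h x hx, map_zero], fun hf h x hx => hf (by rw [h x hx, map_zero])⟩

theorem chud_span {σ : Type*} [Fintype σ] (Y : Set (σ → ℂ)) (M : Finset (σ →₀ ℕ))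
    (h : ∀ G : MvPolynomial σ ℂ, G.support ⊆ M → (∀ y ∈ Y, eval y G = 0) → G = 0) (m : M) :
    ∃ (n : ℕ) (c : Fin n → ℂ) (y : Fin n → σ → ℂ), (∀ j, y j ∈ Y) ∧
      ∀ m' : M, ∑ j, c j * ∏ i, y j i ^ m'.1 i = if m = m' then 1 else 0 := by
  have h1 : Submodule.span ℂ ((fun (y : σ → ℂ) (m' : M) => ∏ i, y i ^ m'.1 i) '' Y) = ⊤ := by
    by_contra h1
    obtain ⟨φ, h2, h3⟩ := Submodule.exists_le_ker_of_lt_top _ (lt_top_iff_ne_top.2 h1)
    have h4 := h (∑ m' : M, monomial m'.1 (φ fun j => if m' = j then 1 else 0))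
      (fun d hd => by
        obtain ⟨m', -, h4⟩ := Finset.mem_biUnion.1 (support_sum hd)
        rw [Finset.mem_singleton.1 (support_monomial_subset h4)]
        exact m'.2)
      fun y hy => by
        have h4 : φ _ = 0 := h3 (Submodule.subset_span ⟨y, hy, rfl⟩)
        rw [LinearMap.pi_apply_eq_sum_univ] at h4
        rw [map_sum]
        refine (Finset.sum_congr rfl fun m' _ => ?_).trans h4
        rw [eval_monomial, Finsupp.prod_fintype _ _ fun _ => pow_zero _, smul_eq_mul, mul_comm]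
    refine h2 (LinearMap.ext fun x => ?_)
    rw [LinearMap.pi_apply_eq_sum_univ]
    refine Finset.sum_eq_zero fun m' _ => ?_
    have h5 := congrArg (coeff m'.1) h4
    rw [coeff_sum, Finset.sum_eq_single m' (fun b _ hb => by
      rw [coeff_monomial, if_neg fun e => hb (Subtype.ext e)]) (by simp), coeff_monomial,
      if_pos rfl, coeff_zero] at h5
    rw [h5, smul_zero]
  obtain ⟨n, c, g, e⟩ := Submodule.mem_span_set'.1
    (h1.ge (Submodule.mem_top (x := fun m' : M => if m = m' then (1 : ℂ) else 0)))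
  choose y hy hy' using fun j => (g j).2
  refine ⟨n, c, y, hy, fun m' => ?_⟩
  have e' := congrFun e m'
  simp only [← hy', Finset.sum_apply, Pi.smul_apply, smul_eq_mul] at e'
  exact e'

theorem chud {σ : Type*} [Fintype σ] (Y : Set (σ → ℂ)) {F : MvPolynomial σ ℂ} (hF : F ≠ 0)
    {k : ℕ} (hk : 1 ≤ k) (hY : ∀ y ∈ Y, Ord y k F) :
    ∃ G : MvPolynomial σ ℂ, G ≠ 0 ∧ k * G.totalDegree ≤ Fintype.card σ * F.totalDegree ∧
      ∀ y ∈ Y, eval y G = 0 := by
  by_contra hc
  obtain ⟨M, hM⟩ : ∃ M : Finset (σ →₀ ℕ), ∀ d, d ∈ M ↔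
      d.degree ≤ Fintype.card σ * F.totalDegree / k :=
    ⟨(Finsupp.finite_of_degree_le _).toFinset, fun d => Set.Finite.mem_toFinset _⟩
  choose n c y hy e using chud_span Y M fun G h1 h2 => by
    by_contra h0
    refine hc ⟨G, h0, ?_, h2⟩
    rw [mul_comm, ← Nat.le_div_iff_mul_le hk]
    exact Finset.sup_le fun d hd => (hM d).1 (h1 hd)
  obtain ⟨d, hd⟩ := ne_zero_iff.1 hF
  obtain ⟨A, K, _, _, π, hA⟩ := chud_spec
    ((((Set.finite_range fun p : Σ m, Fin (n m) => c p.1 p.2).union
      (Set.finite_range fun p : (Σ m, Fin (n m)) × σ => y p.1.1 p.1.2 p.2)).union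
        F.coeffs.finite_toSet).insert (coeff d F)⁻¹)
  have a1 : ∀ m j, c m j ∈ A := fun m j => hA _ (.inr (.inl (.inl ⟨⟨m, j⟩, rfl⟩)))
  have a2 : ∀ m j i, y m j i ∈ A := fun m j i => hA _ (.inr (.inl (.inr ⟨⟨⟨m, j⟩, i⟩, rfl⟩)))
  obtain ⟨F', rfl⟩ := (mem_range_map_iff_coeffs_subset (f := A.subtype) (x := F)).2
    fun s hs => ⟨⟨s, hA _ (.inr (.inr hs))⟩, rfl⟩
  have h0 : map π F' ≠ 0 := fun h0 => by
    have h1 : coeff d F' * ⟨_, hA _ (.inl rfl)⟩ = 1 :=
      Subtype.ext ((congrArg (· * _) (coeff_map A.subtype F' d).symm).trans (mul_inv_cancel₀ hd))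
    have h2 := congrArg π h1
    rw [map_mul, ← coeff_map, h0, coeff_zero, zero_mul, map_one] at h2
    exact zero_ne_one h2
  obtain ⟨G, g0, g1, g2⟩ := chud_fin (Set.range fun (p : Σ m, Fin (n m)) i => π ⟨_, a2 p.1 p.2 i⟩)
    h0 hk (by
      rintro _ ⟨p, rfl⟩
      exact (chud_ord π _ _ k).1 ((chud_ord A.subtype (fun i => ⟨_, a2 p.1 p.2 i⟩) _ k).2
        A.subtype_injective (hY _ (hy _ _))))
  have hs : G.support ⊆ M := fun s hs => by
    rw [hM, Nat.le_div_iff_mul_le hk, mul_comm]
    refine (Nat.mul_le_mul_left k (le_totalDegree hs)).trans (g1.trans (Nat.mul_le_mul_left _ ?_))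
    rw [totalDegree, totalDegree, support_map_of_injective _ A.subtype_injective]
    exact Finset.sup_mono (support_map_subset _ _)
  obtain ⟨s, hs'⟩ := ne_zero_iff.1 g0
  have hm := hs (mem_support_iff.2 hs')
  have e' : ∀ t (ht : t ∈ M), ∑ j, π ⟨_, a1 ⟨s, hm⟩ j⟩ * ∏ i, π ⟨_, a2 ⟨s, hm⟩ j i⟩ ^ t i =
      if s = t then 1 else 0 := fun t ht => by
    have h1 : ∑ j, (⟨_, a1 ⟨s, hm⟩ j⟩ : A) * ∏ i, (⟨_, a2 ⟨s, hm⟩ j i⟩ : A) ^ t i =
        if s = t then 1 else 0 := A.subtype_injective (by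
      simpa [apply_ite A.subtype] using e ⟨s, hm⟩ ⟨t, ht⟩)
    simpa only [apply_ite π, map_sum, map_mul, map_prod, map_pow, map_one, map_zero]
      using congrArg π h1
  refine hs' ?_
  calc coeff s G = ∑ t ∈ G.support, coeff t G * if s = t then 1 else 0 := by
        simp [mem_support_iff.2 hs']
    _ = ∑ j, π ⟨_, a1 ⟨s, hm⟩ j⟩ * eval (fun i => π ⟨_, a2 ⟨s, hm⟩ j i⟩) G := by
        simp only [eval_eq', Finset.mul_sum]
        rw [Finset.sum_comm]
        refine Finset.sum_congr rfl fun t ht => ?_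
        rw [← e' t (hs ht), Finset.mul_sum]
        exact Finset.sum_congr rfl fun j _ => mul_left_comm _ _ _
    _ = 0 := Finset.sum_eq_zero fun j _ => by rw [g2 _ ⟨⟨_, j⟩, rfl⟩, mul_zero]

end Vale.Agent.P054
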