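import Vale.Agent.P054.Dim

/-! ChudP: the Chudnovsky bound over a finite field (about 250 lines).
Let `p` be the characteristic, `q = p^e > T k` with `x^q = x` on `k₀` possible by taking `q` a power of `Fintype.card`. Let `N = card σ`, `a` least with `a k ≥ N (q - 1) + 1`, `H = F^a`. Write `H = ∑ β, monomial β 1 * expand q (H β)` over `β` with entries `< q` (`H β` has coefficients `coeff (β + q • γ) H`), so `q * deg (H β) ≤ a T` and some `H β ≠ 0`.
At `y ∈ Y`: `shift y H ∈ idealOfVars ^ (a k) ≤ span {X i ^ q}`, so `H ∈ span {X i ^ q - C (y i)}` (`(X - y)^q = X^q - y^q = X^q - y`); the map `H ↦ H β` is additive with `(expand q A * H) β = A * H β`, so `H β ∈ span {X i - C (y i)}` vanishes at `y`.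
Finally `k q deg G ≤ k a T ≤ (N (q-1) + k) T`, and `q > T k` gives `k deg G ≤ N T`.
-/

noncomputable section

open Classical MvPolynomial Matrix Finset

namespace Vale.Agent.P054

section

variable {σ K : Type*} [Field K]

/-- the component of residue `β` modulo `q` -/
def chudpL (K : Type*) [Field K] (q : ℕ) (β : σ →₀ ℕ) : MvPolynomial σ K →ₗ[K] MvPolynomial σ K :=
  (basisMonomials σ K).constr K fun m =>
    if ∀ i, m i % q = β i then monomial (m.mapRange (· / q) (Nat.zero_div q)) 1 else 0

theorem chudp_mono (q : ℕ) (β m : σ →₀ ℕ) (c : K) : chudpL K q β (monomial m c) =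
    if ∀ i, m i % q = β i then monomial (m.mapRange (· / q) (Nat.zero_div q)) c else 0 := by
  have e : (monomial m c : MvPolynomial σ K) = c • basisMonomials σ K m := by
    rw [coe_basisMonomials, smul_monomial, smul_eq_mul, mul_one]
  rw [e, map_smul, chudpL, Module.Basis.constr_basis]
  split_ifs
  · rw [smul_monomial, smul_eq_mul, mul_one]
  · rw [smul_zero]

theorem chudp_coeff {q : ℕ} {β : σ →₀ ℕ} (hβ : ∀ i, β i < q) (γ : σ →₀ ℕ)
    (H : MvPolynomial σ K) : coeff γ (chudpL K q β H) = coeff (β + q • γ) H := by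
  induction H using MvPolynomial.induction_on' with
  | add p r hp hr => rw [map_add, coeff_add, coeff_add, hp, hr]
  | monomial m c =>
    rw [chudp_mono, coeff_monomial]
    by_cases h : m = β + q • γ
    · have h1 : ∀ i, m i = β i + q * γ i := fun i => by rw [h]; rfl
      rw [if_pos h, if_pos fun i => by rw [h1, Nat.add_mul_mod_self_left, Nat.mod_eq_of_lt (hβ i)],
        coeff_monomial, if_pos]
      ext i
      rw [Finsupp.mapRange_apply, h1, Nat.add_mul_div_left _ _ (Nat.zero_lt_of_lt (hβ i)),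
        Nat.div_eq_of_lt (hβ i), zero_add]
    · rw [if_neg h]
      split_ifs with h1
      · rw [coeff_monomial, if_neg]
        intro h2
        refine h (Finsupp.ext fun i => ?_)
        have h3 : m i / q = γ i := by rw [← h2, Finsupp.mapRange_apply]
        change m i = β i + q * γ i
        rw [← h1, ← h3, Nat.mod_add_div]
      · rfl

theorem chudp_van {q : ℕ} (hq : 0 < q) (β : σ →₀ ℕ) (y : σ → K) (i : σ) (A : MvPolynomial σ K) :
    eval y (chudpL K q β (A * (X i ^ q - C (y i)))) = 0 := by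
  induction A using MvPolynomial.induction_on' with
  | add p r hp hr => rw [add_mul, map_add, map_add, hp, hr, add_zero]
  | monomial m c =>
    have e1 : ∀ j, (m + Finsupp.single i q : σ →₀ ℕ) j % q = m j % q := fun j => by
      rw [Finsupp.add_apply, Finsupp.single_apply]
      split_ifs
      · exact Nat.add_mod_right _ _
      · rfl
    have e2 : (m + Finsupp.single i q).mapRange (· / q) (Nat.zero_div q) =
        m.mapRange (· / q) (Nat.zero_div q) + Finsupp.single i 1 := by
      ext j
      simp only [Finsupp.mapRange_apply, Finsupp.add_apply, Finsupp.single_apply]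
      split_ifs
      · exact Nat.add_div_right _ hq
      · rfl
    rw [mul_sub, ← monomial_add_single, mul_comm (monomial m c), C_mul_monomial, map_sub,
      chudp_mono, chudp_mono, e2]
    simp only [e1]
    split_ifs
    · rw [monomial_add_single, ← C_mul_monomial]
      simp only [map_sub, map_mul, pow_one, eval_X, eval_C]
      ring
    · rw [sub_zero, map_zero]

theorem chudp_deg {q : ℕ} (hq : 0 < q) {β : σ →₀ ℕ} (hβ : ∀ i, β i < q) (H : MvPolynomial σ K) :
    q * (chudpL K q β H).totalDegree ≤ H.totalDegree := by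
  rw [mul_comm, ← Nat.le_div_iff_mul_le hq]
  refine Finset.sup_le fun γ hγ => ?_
  rw [Nat.le_div_iff_mul_le hq]
  rw [mem_support_iff, chudp_coeff hβ, ← mem_support_iff] at hγ
  refine le_trans ?_ (le_totalDegree hγ)
  change Finsupp.degree γ * q ≤ Finsupp.degree (β + q • γ)
  rw [map_add, map_nsmul, smul_eq_mul, mul_comm]
  exact Nat.le_add_left _ _

theorem chudp_shift (y : σ → K) (H : MvPolynomial σ K) : shift (-y) (shift y H) = H := by
  have e : (shift (-y)).comp (shift y) = AlgHom.id K (MvPolynomial σ K) := by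
    ext i : 1
    simp [shift]
  exact DFunLike.congr_fun e H

end

theorem chud_fin {σ k₀ : Type*} [Fintype σ] [Field k₀] [Finite k₀] (Y : Set (σ → k₀))
    {F : MvPolynomial σ k₀} (hF : F ≠ 0) {k : ℕ} (hk : 1 ≤ k) (hY : ∀ y ∈ Y, Ord y k F) :
    ∃ G : MvPolynomial σ k₀, G ≠ 0 ∧ k * G.totalDegree ≤ Fintype.card σ * F.totalDegree ∧
      ∀ y ∈ Y, eval y G = 0 := by
  have := Fintype.ofFinite k₀
  obtain ⟨p, hp, n, hpp, hc⟩ := FiniteField.card' k₀
  have := Fact.mk hpp
  obtain ⟨q, q1, q2⟩ : ∃ q, k * F.totalDegree < q ∧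
      ∀ (y : k₀) (i : σ), (X i + C (-y) : MvPolynomial σ k₀) ^ q = X i ^ q - C y := by
    refine ⟨Fintype.card k₀ ^ (k * F.totalDegree), Nat.lt_pow_self Fintype.one_lt_card,
      fun y i => ?_⟩
    have h1 := FiniteField.pow_card_pow (k * F.totalDegree) y
    rw [hc, ← pow_mul] at h1 ⊢
    rw [map_neg, ← sub_eq_add_neg, sub_pow_char_pow, ← map_pow, h1]
  have q0 : 0 < q := Nat.zero_lt_of_lt q1
  obtain ⟨a, a1, a2⟩ : ∃ a, Fintype.card σ * (q - 1) < k * a ∧ k * a ≤ Fintype.card σ * q + k :=
    ⟨Fintype.card σ * (q - 1) / k + 1, Nat.lt_mul_div_succ _ hk, by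
      rw [mul_add, mul_one]
      exact Nat.add_le_add_right ((Nat.mul_div_le _ _).trans
        (Nat.mul_le_mul_left _ (Nat.sub_le _ _))) _⟩
  obtain ⟨m, hm⟩ := ne_zero_iff.1 (pow_ne_zero a hF)
  have hβ : ∀ i, m.mapRange (· % q) (Nat.zero_mod q) i < q := fun i => Nat.mod_lt _ q0
  refine ⟨chudpL k₀ q (m.mapRange (· % q) (Nat.zero_mod q)) (F ^ a),
    ne_zero_iff.2 ⟨m.mapRange (· / q) (Nat.zero_div q), ?_⟩, ?_, fun y hy => ?_⟩
  · have e : m.mapRange (· % q) (Nat.zero_mod q) + q • m.mapRange (· / q) (Nat.zero_div q) = m :=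
      Finsupp.ext fun i => Nat.mod_add_div (m i) q
    rwa [chudp_coeff hβ, e]
  · have h1 := (chudp_deg q0 hβ (F ^ a)).trans (totalDegree_pow F a)
    generalize (chudpL k₀ q _ (F ^ a)).totalDegree = d at h1
    refine Nat.lt_succ_iff.1 (Nat.lt_of_mul_lt_mul_left (a := q) ?_)
    have h2 := Nat.mul_le_mul_left k h1
    have h3 := Nat.mul_le_mul_right F.totalDegree a2
    calc q * (k * d) = k * (q * d) := by ring
      _ ≤ k * a * F.totalDegree := by rwa [mul_assoc]
      _ ≤ (Fintype.card σ * q + k) * F.totalDegree := h3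
      _ = q * (Fintype.card σ * F.totalDegree) + k * F.totalDegree := by ring
      _ < _ := by
        rw [Nat.mul_succ]
        exact Nat.add_lt_add_left q1 _
  · have h1 : shift y (F ^ a) ∈ idealOfVars σ k₀ ^ (k * a) := by
      rw [map_pow, pow_mul]
      exact Ideal.pow_mem_pow (hY y hy) a
    rw [mem_pow_idealOfVars_iff] at h1
    rw [← chudp_shift y (F ^ a), (shift y (F ^ a)).as_sum, map_sum, map_sum, map_sum]
    refine sum_eq_zero fun x hx => ?_
    obtain ⟨i, hi⟩ : ∃ i, q ≤ x i := by
      by_contra hn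
      refine (a1.trans_le (h1 x hx)).not_ge ?_
      rw [Finsupp.degree_eq_sum, ← card_univ, ← smul_eq_mul]
      exact sum_le_card_nsmul _ _ _ fun i _ => Nat.le_sub_one_of_lt (not_le.1 fun h => hn ⟨i, h⟩)
    obtain ⟨z, rfl⟩ := le_iff_exists_add'.1 (Finsupp.single_le_iff.2 hi)
    rw [monomial_add_single, map_mul, map_pow _ (X i), shift, aeval_X, Pi.neg_apply, q2]
    exact chudp_van q0 _ y i _

end Vale.Agent.P054
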