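import Vale.Agent.P054.Dim

/-! Jet: calculus of `d1 d2 d3` (about 250 lines). Everything is `Finset.sum` manipulation, induction on polynomials (`MvPolynomial.induction_on`) for `der_aeval`, and commutation of `pderiv`.
-/

noncomputable section

open Classical MvPolynomial Matrix Finset

namespace Vale.Agent.P054

variable {σ K R : Type*} [Fintype σ] [CommRing K] [CommRing R] [Algebra K R]
variable (h : MvPolynomial σ K) (ξ ω ω' ω'' η : σ → R)

omit [Fintype σ] in
theorem jet_pp (a b : σ) : pderiv a (pderiv b h) = pderiv b (pderiv a h) := by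
  ext m
  simp only [coeff_pderiv, Finsupp.add_apply, Finsupp.single_apply]
  rw [add_right_comm m]
  by_cases hab : a = b
  · subst hab
    rfl
  · simp only [if_neg hab, if_neg (Ne.symm hab), add_zero]
    ring

theorem d1_add : d1 h ξ (ω + η) = d1 h ξ ω + d1 h ξ η := by
  simp only [d1, Pi.add_apply, add_mul, sum_add_distrib]
theorem d1_smul (c : R) : d1 h ξ (c • ω) = c * d1 h ξ ω := by
  simp only [d1, Pi.smul_apply, smul_eq_mul, mul_sum, mul_assoc]
theorem d1_mul (g : MvPolynomial σ K) :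
    d1 (h * g) ξ ω = aeval ξ h * d1 g ξ ω + aeval ξ g * d1 h ξ ω := by
  simp only [d1, pderiv_mul, map_add, map_mul, mul_sum, ← sum_add_distrib]
  exact sum_congr rfl fun a _ => by ring
theorem d2_add : d2 h ξ (ω + η) ω' = d2 h ξ ω ω' + d2 h ξ η ω' := by
  simp only [d2, Pi.add_apply, add_mul, sum_add_distrib]
theorem d2_smul (c : R) : d2 h ξ (c • ω) ω' = c * d2 h ξ ω ω' := by
  simp only [d2, Pi.smul_apply, smul_eq_mul, mul_sum, mul_assoc]
theorem d2_comm : d2 h ξ ω ω' = d2 h ξ ω' ω := by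
  simp only [d2, d1, mul_sum]
  rw [sum_comm]
  refine sum_congr rfl fun a _ => sum_congr rfl fun b _ => ?_
  rw [jet_pp h a b]
  ring
theorem d3_add : d3 h ξ (ω + η) ω' ω'' = d3 h ξ ω ω' ω'' + d3 h ξ η ω' ω'' := by
  simp only [d3, Pi.add_apply, add_mul, sum_add_distrib]
theorem d3_smul (c : R) : d3 h ξ (c • ω) ω' ω'' = c * d3 h ξ ω ω' ω'' := by
  simp only [d3, Pi.smul_apply, smul_eq_mul, mul_sum, mul_assoc]
theorem d3_comm : d3 h ξ ω ω' ω'' = d3 h ξ ω' ω ω'' := by
  simp only [d3, d2, mul_sum]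
  rw [sum_comm]
  refine sum_congr rfl fun a _ => sum_congr rfl fun b _ => ?_
  rw [jet_pp h a b]
  ring
theorem d3_comm' : d3 h ξ ω ω' ω'' = d3 h ξ ω ω'' ω' := by
  simp only [d3]
  exact sum_congr rfl fun a _ => by rw [d2_comm]

theorem map_d1 {R' : Type*} [CommRing R'] [Algebra K R'] (f : R →ₐ[K] R') :
    f (d1 h ξ ω) = d1 h (fun a => f (ξ a)) fun a => f (ω a) := by
  simp only [d1, map_sum, map_mul, comp_aeval_apply]
theorem map_d2 {R' : Type*} [CommRing R'] [Algebra K R'] (f : R →ₐ[K] R') :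
    f (d2 h ξ ω ω') = d2 h (fun a => f (ξ a)) (fun a => f (ω a)) fun a => f (ω' a) := by
  simp only [d2, map_sum, map_mul, map_d1]
theorem map_d3 {R' : Type*} [CommRing R'] [Algebra K R'] (f : R →ₐ[K] R') :
    f (d3 h ξ ω ω' ω'') =
      d3 h (fun a => f (ξ a)) (fun a => f (ω a)) (fun a => f (ω' a)) fun a => f (ω'' a) := by
  simp only [d3, map_sum, map_mul, map_d2]

theorem der_aeval (δ : Derivation K R R) : δ (aeval ξ h) = d1 h ξ fun a => δ (ξ a) := by
  induction h using MvPolynomial.induction_on with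
  | C a => simp [d1]
  | add p q hp hq =>
    simp only [map_add, hp, hq, d1, mul_add, sum_add_distrib]
  | mul_X p i hp =>
    have h1 : d1 (X i : MvPolynomial σ K) ξ (fun a => δ (ξ a)) = δ (ξ i) := by
      simp [d1, pderiv_X, Pi.single_apply, apply_ite]
    rw [d1_mul, h1, ← hp, map_mul, Derivation.leibniz, aeval_X, smul_eq_mul, smul_eq_mul]
theorem der_d1 (δ : Derivation K R R) :
    δ (d1 h ξ ω) = d2 h ξ (fun a => δ (ξ a)) ω + d1 h ξ fun a => δ (ω a) := by
  rw [d2_comm]
  simp only [d2, ← der_aeval]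
  simp only [d1, map_sum, Derivation.leibniz, smul_eq_mul, ← sum_add_distrib]
  exact sum_congr rfl fun a _ => by ring
theorem der_d2 (δ : Derivation K R R) :
    δ (d2 h ξ ω ω') = d3 h ξ (fun a => δ (ξ a)) ω ω' + d2 h ξ (fun a => δ (ω a)) ω' +
      d2 h ξ ω fun a => δ (ω' a) := by
  rw [d3_comm]
  simp only [d3]
  rw [d2, d2, d2, map_sum, ← sum_add_distrib, ← sum_add_distrib]
  refine sum_congr rfl fun a _ => ?_
  rw [Derivation.leibniz, der_d1, smul_eq_mul, smul_eq_mul]
  ring

theorem degree_pderiv_le (a : σ) : (pderiv a h).totalDegree ≤ h.totalDegree - 1 := by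
  refine Finset.sup_le fun m hm => ?_
  have h1 : coeff (m + Finsupp.single a 1) h ≠ 0 := fun h0 => by
    rw [mem_support_iff, coeff_pderiv, h0, zero_mul] at hm
    exact hm rfl
  have h2 := le_totalDegree (mem_support_iff.2 h1)
  rw [Finsupp.sum_add_index' (fun _ => rfl) (fun _ _ _ => rfl), Finsupp.sum_single_index rfl] at h2
  exact Nat.le_sub_one_of_lt h2
theorem jet_sum {p u : σ → MvPolynomial σ K} {a n : ℕ} (hu : ∀ i, (u i).totalDegree ≤ a)
    (hp : ∀ i, (p i).totalDegree ≤ n) : (∑ i, u i * p i).totalDegree ≤ n + a :=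
  totalDegree_finsetSum_le fun i _ => (totalDegree_mul _ _).trans
    ((Nat.add_le_add (hu i) (hp i)).trans (Nat.add_comm _ _).le)
theorem jet_d1 {u : σ → MvPolynomial σ K} {a : ℕ} (hu : ∀ i, (u i).totalDegree ≤ a) :
    (d1 h X u).totalDegree ≤ h.totalDegree + a :=
  jet_sum hu fun i => by
    rw [aeval_X_left_apply]
    exact (degree_pderiv_le h i).trans (Nat.sub_le _ _)
theorem degree_d2_le {u u' : σ → MvPolynomial σ K} {a b : ℕ} (hu : ∀ i, (u i).totalDegree ≤ a)
    (hu' : ∀ i, (u' i).totalDegree ≤ b) : (d2 h X u u').totalDegree ≤ h.totalDegree + a + b := by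
  rw [add_right_comm]
  exact jet_sum hu fun i => (jet_d1 _ hu').trans
    (Nat.add_le_add_right ((degree_pderiv_le h i).trans (Nat.sub_le _ _)) _)
theorem degree_d3_le {u u' u'' : σ → MvPolynomial σ K} {a b c : ℕ}
    (hu : ∀ i, (u i).totalDegree ≤ a) (hu' : ∀ i, (u' i).totalDegree ≤ b)
    (hu'' : ∀ i, (u'' i).totalDegree ≤ c) :
    (d3 h X u u' u'').totalDegree ≤ h.totalDegree + a + b + c := by
  rw [show h.totalDegree + a + b + c = h.totalDegree + b + c + a by ring]
  exact jet_sum hu fun i => (degree_d2_le _ hu' hu'').trans (Nat.add_le_add_right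
    (Nat.add_le_add_right ((degree_pderiv_le h i).trans (Nat.sub_le _ _)) _) _)

/-- a generic point of a hypersurface has derivations in all tangent directions -/
theorem tangent_of_gen {ξ ω : σ → R} (hg : IsGen (Ideal.span {h}) ξ) (ht : d1 h ξ ω = 0)
    (f : MvPolynomial σ K) (hf : aeval ξ f = 0) : d1 f ξ ω = 0 := by
  obtain ⟨g, rfl⟩ := Ideal.mem_span_singleton.1 ((hg f).1 hf)
  rw [d1_mul, ht, (hg h).2 (Ideal.mem_span_singleton_self h), zero_mul, mul_zero, add_zero]

end Vale.Agent.P054
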