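import Vale.Agent.P054.Dim

/-! Hyp: vanishing on many hyperplanes, linear factors, pseudo-division (about 250 lines).
`hyp_vanish`: for `x ∈ o + U` on no hyperplane choose `v ∈ U` with `ν i ⬝ᵥ v ≠ 0` and with distinct parameters `(c i - ν i ⬝ᵥ x)/(ν i ⬝ᵥ v)` (finitely many nonzero functionals on `U`, `K` infinite); then `t ↦ F(x + t v)` has degree `≤ r` and more than `r` roots.
`lin_dvd`: if `ν i ≠ 0`, then `f - aeval s f` is divisible by `lin ν c` for the substitution `s` solving for `X i` (`MvPolynomial.induction_on`), and `aeval s f` vanishes everywhere (`MvPolynomial.funext`).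
`pseudo`: induction on the degree of `p`.
-/

noncomputable section

open Classical MvPolynomial Matrix Finset

namespace Vale.Agent.P054

variable {σ K : Type*} [Fintype σ] [Field K] [Infinite K]

theorem eval_lin (ν x : σ → K) (c : K) : eval x (lin ν c) = ν ⬝ᵥ x - c := by
  simp [lin, dotProduct]

theorem degree_lin_le (ν : σ → K) (c : K) : (lin ν c).totalDegree ≤ 1 := by
  refine (totalDegree_sub_C_le _ _).trans (totalDegree_finsetSum_le fun i _ =>
    (totalDegree_mul _ _).trans ?_)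
  rw [totalDegree_C, totalDegree_X]

/-- the restriction to a line -/
def ln_Hyp (o v : σ → K) : MvPolynomial σ K →ₐ[K] Polynomial K :=
  aeval fun i => Polynomial.C (v i) * Polynomial.X + Polynomial.C (o i)

omit [Fintype σ] [Infinite K] in
theorem ev_Hyp (o v : σ → K) (F : MvPolynomial σ K) (t : K) :
    (ln_Hyp o v F).eval t = eval (o + t • v) F := by
  induction F using MvPolynomial.induction_on with
  | C a => simp [ln_Hyp]
  | add p q hp hq => simp only [map_add, Polynomial.eval_add, hp, hq]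
  | mul_X p n hp =>
    rw [map_mul, Polynomial.eval_mul, hp, map_mul]
    simp only [ln_Hyp, aeval_X, eval_X, Polynomial.eval_add, Polynomial.eval_mul, Polynomial.eval_C,
      Polynomial.eval_X, Pi.add_apply, Pi.smul_apply, smul_eq_mul]
    ring

omit [Fintype σ] [Infinite K] in
theorem van_Hyp {F : MvPolynomial σ K} {r : ℕ} (hF : F.totalDegree ≤ r) (o v : σ → K)
    (I : Finset K) (hI : r < I.card) (hv : ∀ t ∈ I, eval (o + t • v) F = 0) (t : K) :
    eval (o + t • v) F = 0 := by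
  rw [← ev_Hyp, Polynomial.eq_zero_of_natDegree_lt_card_of_eval_eq_zero' (ln_Hyp o v F) I
    (fun t ht => (ev_Hyp o v F t).trans (hv t ht))
    (((aeval_natDegree_le F hF _ fun i => Polynomial.natDegree_linear_le).trans_eq
      (mul_one r)).trans_lt hI), Polynomial.eval_zero]

theorem hyp_vanish {F : MvPolynomial σ K} {r : ℕ} (hF : F.totalDegree ≤ r) (o : σ → K)
    (U : Submodule K (σ → K)) {ι : Type*} (I : Finset ι) (hI : r < I.card) (ν : ι → σ → K)
    (c : ι → K) (hn : ∀ i ∈ I, ∃ u ∈ U, ν i ⬝ᵥ u ≠ 0)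
    (hd : ∀ i ∈ I, ∀ j ∈ I, i ≠ j → ∃ u ∈ U, ν i ⬝ᵥ (o + u) = c i ∧ ν j ⬝ᵥ (o + u) ≠ c j)
    (hv : ∀ i ∈ I, ∀ u ∈ U, ν i ⬝ᵥ (o + u) = c i → eval (o + u) F = 0) :
    ∀ u ∈ U, eval (o + u) F = 0 := by
  intro u hu
  by_cases h : ∃ i ∈ I, ν i ⬝ᵥ (o + u) = c i
  · obtain ⟨i, hi, e⟩ := h
    exact hv i hi u hu e
  have ha : ∀ i ∈ I, c i - ν i ⬝ᵥ (o + u) ≠ 0 := fun i hi e => h ⟨i, hi, (sub_eq_zero.1 e).symm⟩
  obtain ⟨v, hvU, h1⟩ := Module.Dual.exists_forall_mem_ne_zero_of_forall_exists U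
    (fun e : I × I => if e.1 = e.2 then dotProductBilin K K (ν e.1) else
      (c e.2 - ν e.2 ⬝ᵥ (o + u)) • dotProductBilin K K (ν e.1) -
        (c e.1 - ν e.1 ⬝ᵥ (o + u)) • dotProductBilin K K (ν e.2)) fun e => by
    split_ifs with he
    · exact hn _ e.1.2
    · obtain ⟨u', h2, h3, h4⟩ := hd _ e.1.2 _ e.2.2 fun x => he (Subtype.ext x)
      refine ⟨u' - u, U.sub_mem h2 hu, fun h5 => mul_ne_zero (ha _ e.1.2) (sub_ne_zero.2 h4) ?_⟩
      change _ * (ν e.1 ⬝ᵥ (u' - u)) - _ * (ν e.2 ⬝ᵥ (u' - u)) = 0 at h5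
      simp only [dotProduct_add, dotProduct_sub] at h3 h5 ⊢
      linear_combination (c e.2 - (ν e.2 ⬝ᵥ o + ν e.2 ⬝ᵥ u)) * h3 - h5
  have h2 : ∀ i ∈ I, ν i ⬝ᵥ v ≠ 0 := fun i hi => by
    have := h1 (⟨i, hi⟩, ⟨i, hi⟩)
    rwa [if_pos rfl] at this
  have h3 := van_Hyp hF (o + u) v (I.image fun i => (c i - ν i ⬝ᵥ (o + u)) / (ν i ⬝ᵥ v))
    (hI.trans_eq (card_image_of_injOn fun i hi j hj e => by_contra fun hne => ?_).symm)
    (fun t ht => ?_) 0
  · rwa [zero_smul, add_zero] at h3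
  · have := h1 (⟨i, hi⟩, ⟨j, hj⟩)
    rw [if_neg fun x => hne (congrArg Subtype.val x)] at this
    exact this (sub_eq_zero.2 ((div_eq_div_iff (h2 i hi) (h2 j hj)).1 e).symm)
  · obtain ⟨i, hi, rfl⟩ := mem_image.1 ht
    rw [add_assoc]
    refine hv i hi _ (U.add_mem hu (U.smul_mem _ hvU)) ?_
    rw [← add_assoc, dotProduct_add, dotProduct_smul, smul_eq_mul, div_mul_cancel₀ _ (h2 i hi),
      add_sub_cancel]

theorem line_vanish {F : MvPolynomial σ K} {r : ℕ} (hF : F.totalDegree ≤ r) (o v : σ → K)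
    (I : Finset K) (hI : r < I.card) (hv : ∀ t ∈ I, eval (o + t • v) F = 0) (t : K) :
    eval (o + t • v) F = 0 := van_Hyp hF o v I hI hv t

/-- a line inside the zero set of a product lies in the zero set of a factor -/
theorem line_mul {F G : MvPolynomial σ K} (o v : σ → K)
    (h : ∀ t : K, eval (o + t • v) (F * G) = 0) :
    (∀ t : K, eval (o + t • v) F = 0) ∨ ∀ t : K, eval (o + t • v) G = 0 := by
  have h1 : ln_Hyp o v F * ln_Hyp o v G = 0 := Polynomial.funext fun t => by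
    rw [← map_mul, ev_Hyp, h, Polynomial.eval_zero]
  refine (mul_eq_zero.1 h1).imp (fun e t => ?_) fun e t => ?_ <;>
    rw [← ev_Hyp, e, Polynomial.eval_zero]

theorem lin_dvd {ν : σ → K} (hν : ν ≠ 0) (c : K) {f : MvPolynomial σ K}
    (hf : ∀ x, ν ⬝ᵥ x = c → eval x f = 0) : lin ν c ∣ f := by
  obtain ⟨i, hi⟩ := Function.ne_iff.1 hν
  obtain ⟨w, hw⟩ : ∃ w, ν ⬝ᵥ w = 1 :=
    ⟨Pi.single i (ν i)⁻¹, by rw [dotProduct_single, mul_inv_cancel₀ hi]⟩
  have h1 : ∀ g : MvPolynomial σ K,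
      lin ν c ∣ g - aeval (fun j => X j - C (w j) * lin ν c) g := fun g => by
    induction g using MvPolynomial.induction_on with
    | C a => simp
    | add p q hp hq =>
      rw [map_add, add_sub_add_comm]
      exact dvd_add hp hq
    | mul_X p n hp =>
      rw [map_mul, aeval_X, mul_sub, ← sub_add, ← sub_mul, ← mul_assoc]
      exact dvd_add (hp.mul_right _) (dvd_mul_left _ _)
  have h2 : aeval (fun j => X j - C (w j) * lin ν c) f = 0 := MvPolynomial.funext fun x => by
    rw [aeval_eq_bind₁, ← aeval_eq_eval, aeval_bind₁, map_zero, aeval_eq_eval]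
    refine hf _ ?_
    have e : (fun j => eval x (X j - C (w j) * lin ν c)) = x - (ν ⬝ᵥ x - c) • w := by
      funext j
      simp [eval_lin, mul_comm]
    simp only [aeval_eq_eval]
    rw [e, dotProduct_sub, dotProduct_smul, hw, smul_eq_mul, mul_one, sub_sub_cancel]
  have h3 := h1 f
  rwa [h2, sub_zero] at h3

theorem eq_lin_of_degree {f : MvPolynomial σ K} (hf : f.totalDegree ≤ 1) :
    ∃ ν c, f = lin ν c := by
  have h1 : ∑ i ∈ range 2, homogeneousComponent i f = f := by
    refine Eq.trans (sum_subset (range_subset_range.2 (by omega)) fun i _ hi =>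
      homogeneousComponent_eq_zero _ _ (by simpa using hi)).symm (sum_homogeneousComponent f)
  have h2 := homogeneousComponent_mem 1 f
  rw [homogeneousSubmodule_one_eq_span_X, Submodule.mem_span_range_iff_exists_fun] at h2
  obtain ⟨ν, h3⟩ := h2
  refine ⟨ν, -coeff 0 f, h1.symm.trans ?_⟩
  rw [sum_range_succ, sum_range_one, homogeneousComponent_zero, ← h3, lin, map_neg, sub_neg_eq_add,
    add_comm]
  simp only [smul_eq_C_mul]

theorem pseudo {A : Type*} [CommRing A] {q : Polynomial A} (hq : q.natDegree ≤ 2)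
    (p : Polynomial A) : ∃ (N : ℕ) (B R : Polynomial A), R.natDegree ≤ 1 ∧
      Polynomial.C (q.coeff 2) ^ N * p = q * B + R := by
  obtain ⟨m, hm⟩ : ∃ m, p.natDegree ≤ m + 1 := ⟨_, Nat.le_succ _⟩
  induction m generalizing p with
  | zero => exact ⟨0, 0, p, hm, by simp⟩
  | succ m ih =>
    obtain ⟨N, B, R, h1, h2⟩ := ih (Polynomial.C (q.coeff 2) * p -
      q * Polynomial.C (p.coeff (2 + m)) * Polynomial.X ^ m)
      (Polynomial.natDegree_le_iff_coeff_eq_zero.2 fun n hn => by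
        obtain ⟨n, rfl⟩ : ∃ n', n = n' + m := ⟨n - m, by omega⟩
        rw [Polynomial.coeff_sub, Polynomial.coeff_C_mul, Polynomial.coeff_mul_X_pow,
          Polynomial.coeff_mul_C]
        rcases (show 2 ≤ n by omega).eq_or_lt with rfl | h
        · exact sub_self _
        · rw [Polynomial.coeff_eq_zero_of_natDegree_lt (hq.trans_lt h),
            Polynomial.coeff_eq_zero_of_natDegree_lt (p := p) (by omega), mul_zero, zero_mul,
            sub_zero])
    exact ⟨N + 1, B + Polynomial.C (q.coeff 2) ^ N * (Polynomial.C (p.coeff (2 + m)) *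
      Polynomial.X ^ m), R, h1, by linear_combination h2⟩

end Vale.Agent.P054
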