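import Vale.Agent.P054.Hilb
import Vale.Agent.P054.Hyp

/-! PCurve: homogeneous primes in three variables (about 350 lines).
`hker_*`: the coefficient of `T^k` in `ψ(T π)` is the value of the component of degree `k`. `hom_factor`: compare the lowest and highest homogeneous components of a product in a domain.
`two_forms`: for independent linear forms `l₁, l₂` (it suffices to take pairs of variables) the products `l₁^i l₂^j` with `i + j ≤ T` cannot be independent modulo `I` for large `T` (`hilb2`, `n = 1`: quadratic against linear growth), so `I` contains a nonzero binary form in `l₁, l₂` (take a homogeneous component), which splits into linear factors over `ℂ`; hence `I` contains a nonzero combination of `X 0, X 1`, of `X 0, X 2` and of `X 1, X 2`, and two of them are independent.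
`eq_span`: `Irreducible.isRelPrime_iff_not_dvd` or `Irreducible.dvd_or_isCoprime`-type lemma and `two_forms`.
`plane_curve`: if `I` has no nonzero form of degree `≤ 2ρ` use `interp_hom` with `τ = 2ρ`. Otherwise let `φ ∈ I` be a nonzero form of least degree `δ ≤ 2ρ`; it is irreducible (`hom_factor`, primality; `δ ≥ 1` as `I ≠ ⊤`), vanishes on `Y`, so `|Y| ≤ ρ δ`; take `ψ` from `interp_not_dvd`; if `ψ ∈ I` use `two_forms`.
-/

noncomputable section

open Classical MvPolynomial Matrix Finset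

namespace Vale.Agent.P054

section
variable {σ K R : Type*} [Field K] [CommRing R] [Algebra K R]

theorem pc_scale {S : Type*} [CommRing S] [Algebra K S] (t : S) (π : σ → S)
    {ψ : MvPolynomial σ K} {k : ℕ} (hψ : ψ.IsHomogeneous k) :
    aeval (fun a => t * π a) ψ = t ^ k * aeval π ψ := by
  conv_lhs => rw [ψ.as_sum]
  conv_rhs => rw [ψ.as_sum]
  rw [map_sum, map_sum, Finset.mul_sum]
  refine Finset.sum_congr rfl fun d hd => ?_
  rw [aeval_monomial, aeval_monomial, hψ.degree_eq_sum_deg_support hd]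
  simp only [Finsupp.prod, mul_pow, Finset.prod_mul_distrib, Finset.prod_pow_eq_pow_sum]
  ring

theorem pc_hom (π : σ → R) {ψ : MvPolynomial σ K} {k : ℕ} (hψ : ψ.IsHomogeneous k) :
    aeval (fun a => Polynomial.X * Polynomial.C (π a)) ψ =
      Polynomial.monomial k (aeval π ψ) := by
  rw [pc_scale Polynomial.X (fun a => Polynomial.C (π a)) hψ]
  have h := MvPolynomial.comp_aeval_apply π (Polynomial.CAlgHom (R := K) (A := R)) ψ
  simp only [Polynomial.CAlgHom_apply] at h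
  rw [← h, mul_comm, Polynomial.C_mul_X_pow_eq_monomial]

theorem pc_coeff (π : σ → R) (ψ : MvPolynomial σ K) (k : ℕ) :
    (aeval (fun a => Polynomial.X * Polynomial.C (π a)) ψ).coeff k =
      aeval π (homogeneousComponent k ψ) := by
  conv_lhs => rw [← sum_homogeneousComponent ψ]
  rw [map_sum, Polynomial.finset_sum_coeff]
  simp only [pc_hom π (homogeneousComponent_isHomogeneous _ ψ), Polynomial.coeff_monomial]
  rw [Finset.sum_ite_eq']
  split_ifs with h
  · rfl
  · rw [homogeneousComponent_eq_zero, map_zero]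
    simp only [Finset.mem_range] at h
    omega

theorem hker_prime [IsDomain R] (π : σ → R) : (hker K π).IsPrime :=
  RingHom.ker_isPrime _

theorem pc_mem_iff (π : σ → R) (ψ : MvPolynomial σ K) :
    ψ ∈ hker K π ↔ ∀ k, aeval π (homogeneousComponent k ψ) = 0 := by
  rw [hker, RingHom.mem_ker, Polynomial.ext_iff]
  simp only [pc_coeff, Polynomial.coeff_zero]

theorem hker_hom (π : σ → R) : Hom (hker K π) := by
  intro ψ hψ k
  rw [pc_mem_iff] at hψ ⊢
  intro j
  rw [homogeneousComponent_of_mem (homogeneousComponent_mem k ψ)]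
  split_ifs
  · exact hψ k
  · exact map_zero _

theorem mem_hker (π : σ → R) {ψ : MvPolynomial σ K} {k : ℕ} (hψ : ψ.IsHomogeneous k) :
    ψ ∈ hker K π ↔ aeval π ψ = 0 := by
  rw [hker, RingHom.mem_ker, pc_hom π hψ, Polynomial.monomial_eq_zero_iff]

theorem mem_hker_iff (π : σ → R) (ψ : MvPolynomial σ K) :
    ψ ∈ hker K π ↔ ∀ k, aeval π (homogeneousComponent k ψ) = 0 := pc_mem_iff π ψ

theorem hom_factor {f g : MvPolynomial σ K} {k : ℕ} (h : (f * g).IsHomogeneous k) (h0 : f * g ≠ 0) :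
    f.IsHomogeneous f.totalDegree := by
  set Φ : MvPolynomial σ K →ₐ[K] Polynomial (MvPolynomial σ K) :=
    aeval (fun a => Polynomial.X * Polynomial.C (X a : MvPolynomial σ K)) with hΦ
  have hc : ∀ (p : MvPolynomial σ K) (j : ℕ), (Φ p).coeff j = homogeneousComponent j p := by
    intro p j
    rw [hΦ, pc_coeff, aeval_X_left_apply]
  have hm : Φ f * Φ g = Polynomial.monomial k (f * g) := by
    rw [← map_mul, hΦ, pc_hom _ h, aeval_X_left_apply]
  have hne : Φ f * Φ g ≠ 0 := by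
    rw [hm]; exact fun e => h0 ((Polynomial.monomial_eq_zero_iff _ _).1 e)
  have hf : Φ f ≠ 0 := left_ne_zero_of_mul hne
  have hg : Φ g ≠ 0 := right_ne_zero_of_mul hne
  have e1 := Polynomial.natDegree_mul hf hg
  have e2 := Polynomial.natTrailingDegree_mul hf hg
  rw [hm, Polynomial.natDegree_monomial_eq k h0] at e1
  rw [hm, Polynomial.natTrailingDegree_monomial h0] at e2
  have l1 := Polynomial.natTrailingDegree_le_natDegree (Φ f)
  have l2 := Polynomial.natTrailingDegree_le_natDegree (Φ g)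
  have hz : ∀ j, j ≠ (Φ f).natDegree → homogeneousComponent j f = 0 := by
    intro j hj
    rw [← hc]
    rcases lt_or_gt_of_ne hj with h' | h'
    · exact Polynomial.coeff_eq_zero_of_lt_natTrailingDegree (by omega)
    · exact Polynomial.coeff_eq_zero_of_natDegree_lt h'
  have hh : f.IsHomogeneous (Φ f).natDegree := by
    have e := sum_homogeneousComponent f
    rw [← e]
    refine IsHomogeneous.sum _ _ _ fun j _ => ?_
    rw [e]
    by_cases hj : j = (Φ f).natDegree
    · rw [← hj]; exact homogeneousComponent_isHomogeneous _ _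
    · rw [hz j hj]; exact isHomogeneous_zero _ _ _
  rw [hh.totalDegree (left_ne_zero_of_mul h0)]
  exact hh

end

theorem pc_const {q : MvPolynomial (Fin 2) ℂ} (u : Fin 2 → Polynomial ℂ)
    (h : ∀ t, eval (fun i => (u i).eval t) q ≠ 0) (s t : ℂ) :
    eval (fun i => (u i).eval s) q = eval (fun i => (u i).eval t) q := by
  have he : ∀ t, eval (fun i => (u i).eval t) q = (aeval u q).eval t := by
    intro t
    have := MvPolynomial.comp_aeval_apply u (Polynomial.aeval t : Polynomial ℂ →ₐ[ℂ] ℂ) q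
    simp only [Polynomial.coe_aeval_eq_eval, MvPolynomial.coe_aeval_eq_eval] at this
    exact this.symm
  have hd : (aeval u q).degree ≤ 0 := by
    by_contra hd
    obtain ⟨z, hz⟩ := Complex.exists_root (not_le.1 hd)
    exact h z (by rw [he]; exact hz)
  rw [he, he, Polynomial.eq_C_of_degree_le_zero hd, Polynomial.eval_C, Polynomial.eval_C]

theorem pc_eval_smul {σ : Type*} {q : MvPolynomial σ ℂ} {k : ℕ} (hq : q.IsHomogeneous k) (t : ℂ)
    (x : σ → ℂ) : eval (fun a => t * x a) q = t ^ k * eval x q := by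
  exact pc_scale t x hq

theorem pc_zero {q : MvPolynomial (Fin 2) ℂ} {k : ℕ} (hq : q.IsHomogeneous k) (hk : k ≠ 0) :
    ∃ x : Fin 2 → ℂ, x ≠ 0 ∧ eval x q = 0 := by
  by_contra hn
  push Not at hn
  have a1 : ∀ t : ℂ, (fun i => ((![1, Polynomial.X] : Fin 2 → Polynomial ℂ) i).eval t) = ![1, t] := by
    intro t; funext i; fin_cases i <;> simp
  have a2 : ∀ t : ℂ, (fun i => ((![Polynomial.X, 1] : Fin 2 → Polynomial ℂ) i).eval t) = ![t, 1] := by
    intro t; funext i; fin_cases i <;> simp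
  have n1 : ∀ t : ℂ, (![1, t] : Fin 2 → ℂ) ≠ 0 := fun t e => by simpa using congrFun e 0
  have n2 : ∀ t : ℂ, (![t, 1] : Fin 2 → ℂ) ≠ 0 := fun t e => by simpa using congrFun e 1
  have c1 := pc_const (q := q) ![1, Polynomial.X] (fun t => by rw [a1]; exact hn _ (n1 t)) (1 / 2) 1
  have c2 := pc_const (q := q) ![Polynomial.X, 1] (fun t => by rw [a2]; exact hn _ (n2 t)) 2 1
  rw [a1, a1] at c1
  rw [a2, a2] at c2
  have e : (![2, 1] : Fin 2 → ℂ) = fun a => 2 * (![1, 1 / 2] : Fin 2 → ℂ) a := by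
    funext i; fin_cases i <;> simp
  rw [e, pc_eval_smul hq, c1] at c2
  have h2 : (2 : ℂ) ^ k = 1 := mul_right_cancel₀ (hn _ (n1 1)) (by rw [c2, one_mul])
  have h3 : (2 : ℕ) ^ k = 1 := by exact_mod_cast h2
  rcases Nat.pow_eq_one.1 h3 with h | h
  · omega
  · exact hk h

theorem pc_bin {J : Ideal (MvPolynomial (Fin 2) ℂ)} (hJ : J.IsPrime) (k : ℕ) :
    ∀ q ∈ J, q ≠ 0 → q.IsHomogeneous k → ∃ ν : Fin 2 → ℂ, ν ≠ 0 ∧ lin ν 0 ∈ J := by
  induction k using Nat.strong_induction_on with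
  | _ k ih =>
  intro q hqJ h0 hq
  by_cases hk : k = 0
  · exfalso
    subst hk
    have e := totalDegree_eq_zero_iff_eq_C.1 (hq.totalDegree h0)
    have hc : coeff 0 q ≠ 0 := fun h => h0 (by rw [e, h, map_zero])
    refine hJ.ne_top (Ideal.eq_top_of_isUnit_mem _ hqJ ?_)
    rw [e]
    exact (IsUnit.mk0 _ hc).map C
  obtain ⟨x, hx, hz⟩ := pc_zero hq hk
  have hν : (![x 1, -x 0] : Fin 2 → ℂ) ≠ 0 := by
    intro e
    apply hx
    have e0 := congrFun e 0
    have e1 := congrFun e 1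
    funext i; fin_cases i
    · simpa using e1
    · simpa using e0
  have hd : lin (![x 1, -x 0] : Fin 2 → ℂ) 0 ∣ q := by
    refine lin_dvd hν 0 fun y hy => ?_
    simp only [dotProduct, Fin.sum_univ_two, Matrix.cons_val_zero, Matrix.cons_val_one] at hy
    have : ∃ t : ℂ, y = fun a => t * x a := by
      by_cases h : x 0 = 0
      · have h1 : x 1 ≠ 0 := fun h1 => hx (by funext i; fin_cases i <;> simp [h, h1])
        refine ⟨y 1 / x 1, ?_⟩
        funext i; fin_cases i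
        · have : x 1 * y 0 = 0 := by rw [h] at hy; linear_combination hy
          simp [h, (mul_eq_zero.1 this).resolve_left h1]
        · simp [div_mul_cancel₀ _ h1]
      · refine ⟨y 0 / x 0, ?_⟩
        funext i; fin_cases i
        · simp [div_mul_cancel₀ _ h]
        · simp only [Fin.mk_one, Fin.isValue]
          field_simp
          linear_combination -hy
    obtain ⟨t, rfl⟩ := this
    rw [pc_eval_smul hq, hz, mul_zero]
  obtain ⟨r, hr⟩ := hd
  have hm : lin (![x 1, -x 0] : Fin 2 → ℂ) 0 * r ∈ J := hr ▸ hqJ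
  rcases hJ.mem_or_mem hm with h | h
  · exact ⟨_, hν, h⟩
  have hne : lin (![x 1, -x 0] : Fin 2 → ℂ) 0 * r ≠ 0 := hr ▸ h0
  have hrh : r.IsHomogeneous r.totalDegree :=
    hom_factor (g := lin (![x 1, -x 0] : Fin 2 → ℂ) 0) (k := k) (by rw [mul_comm, ← hr]; exact hq)
      (by rw [mul_comm]; exact hne)
  have hlh : (lin (![x 1, -x 0] : Fin 2 → ℂ) 0).IsHomogeneous 1 := by
    rw [lin, map_zero, sub_zero]
    exact IsHomogeneous.sum _ _ _ fun i _ => isHomogeneous_C_mul_X _ _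
  have hk' : 1 + r.totalDegree = k := (hlh.mul hrh).inj_right (hr ▸ hq) hne
  exact ih _ (by omega) r h (right_ne_zero_of_mul hne) hrh

theorem pc_pair {I : Ideal P3} (hI : I.IsPrime) (hH : Hom I) {φ ψ : P3} (h1 : φ ∈ I) (h2 : ψ ∈ I)
    (hφ : φ ≠ 0) (hψ : ψ ≠ 0) (hr : IsRelPrime φ ψ) (e : Fin 2 → Fin 3) :
    ∃ a b : ℂ, (a ≠ 0 ∨ b ≠ 0) ∧ C a * X (e 0) + C b * X (e 1) ∈ I := by
  set N := φ.totalDegree * ψ.totalDegree with hN
  set T := 2 * N + φ.totalDegree + ψ.totalDegree with hT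
  set mk : P3 →ₗ[ℂ] P3 ⧸ I := (Ideal.Quotient.mkₐ ℂ I).toLinearMap with hmk
  have hz : ∀ p : P3, mk p = 0 ↔ p ∈ I := fun p => Ideal.Quotient.eq_zero_iff_mem
  have hb := hilb2 (T := T) 1 (by simp) hφ hψ hr mk
    (fun A => (hz _).2 (I.mul_mem_right A h1)) (fun A => (hz _).2 (I.mul_mem_right A h2))
    (by omega)
  have hex : ∃ p : MvPolynomial (Fin 2) ℂ, p ≠ 0 ∧ rename e p ∈ I := by
    by_contra hn
    push Not at hn
    let L : restrictTotalDegree (Fin 2) ℂ T →ₗ[ℂ] (restrictTotalDegree (Fin 3) ℂ T).map mk :=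
      LinearMap.codRestrict _
        (mk ∘ₗ (rename e).toLinearMap ∘ₗ (restrictTotalDegree (Fin 2) ℂ T).subtype) fun p =>
        Submodule.mem_map_of_mem ((mem_restrictTotalDegree _ _ _).2
          ((totalDegree_rename_le e _).trans ((mem_restrictTotalDegree _ _ _).1 p.2)))
    have hL : Function.Injective L := by
      rw [injective_iff_map_eq_zero]
      intro p hp
      have hp' : mk (rename e (p : MvPolynomial (Fin 2) ℂ)) = 0 := congrArg Subtype.val hp
      by_contra h0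
      exact hn p (fun h => h0 (Subtype.ext h)) ((hz _).1 hp')
    have hle := (LinearMap.finrank_le_finrank_of_injective hL).trans hb
    rw [finrank_le_deg, Fintype.card_fin, Nat.choose_one_right, ← hN, Nat.choose_two_right] at hle
    have h3 : (T + 2) * (T + 2 - 1) / 2 * 2 = (T + 2) * (T + 2 - 1) :=
      Nat.div_mul_cancel (Nat.even_mul_pred_self _).two_dvd
    have h4 : T + 2 - 1 = T + 1 := rfl
    rw [h4] at hle h3
    have h5 : (T + 2) * (T + 1) ≤ (2 * N) * (T + 1) := by nlinarith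
    have h6 := Nat.le_of_mul_le_mul_right h5 (Nat.succ_pos T)
    omega
  obtain ⟨p, hp0, hp⟩ := hex
  have hk : ∃ k, homogeneousComponent k p ≠ 0 := by
    by_contra hn
    push Not at hn
    apply hp0
    rw [← sum_homogeneousComponent p]
    exact Finset.sum_eq_zero fun j _ => hn j
  obtain ⟨k, hk⟩ := hk
  have hJ : (I.comap (rename e : MvPolynomial (Fin 2) ℂ →ₐ[ℂ] P3)).IsPrime := Ideal.comap_isPrime _ _
  obtain ⟨ν, hν, hm⟩ := pc_bin hJ k (homogeneousComponent k p)
    (by rw [Ideal.mem_comap, rename_homogeneousComponent]; exact hH _ hp k) hk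
    (homogeneousComponent_isHomogeneous k p)
  refine ⟨ν 0, ν 1, ?_, ?_⟩
  · by_contra hn
    push Not at hn
    exact hν (by funext i; fin_cases i <;> simp [hn.1, hn.2])
  · rw [Ideal.mem_comap] at hm
    simpa [lin, Fin.sum_univ_two] using hm

theorem two_forms {I : Ideal P3} (hI : I.IsPrime) (hH : Hom I) {φ ψ : P3} (h1 : φ ∈ I) (h2 : ψ ∈ I)
    (hφ : φ ≠ 0) (hψ : ψ ≠ 0) (hr : IsRelPrime φ ψ) :
    ∃ ν ν' : Fin 3 → ℂ, ν ⨯₃ ν' ≠ 0 ∧ lin ν 0 ∈ I ∧ lin ν' 0 ∈ I := by
  obtain ⟨a, b, hab, m1⟩ := pc_pair hI hH h1 h2 hφ hψ hr ![0, 1]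
  obtain ⟨c, d, hcd, m2⟩ := pc_pair hI hH h1 h2 hφ hψ hr ![0, 2]
  obtain ⟨e, f, hef, m3⟩ := pc_pair hI hH h1 h2 hφ hψ hr ![1, 2]
  have l1 : lin ![a, b, 0] 0 ∈ I := by simpa [lin, Fin.sum_univ_three] using m1
  have l2 : lin ![c, 0, d] 0 ∈ I := by simpa [lin, Fin.sum_univ_three] using m2
  have l3 : lin ![0, e, f] 0 ∈ I := by simpa [lin, Fin.sum_univ_three] using m3
  by_cases ha : a = 0
  · have hb : b ≠ 0 := hab.resolve_left (not_not.2 ha)
    refine ⟨_, _, fun h => ?_, l1, l2⟩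
    have h0 := congrFun h 0
    have h2 := congrFun h 2
    simp [cross_apply, hb] at h0 h2
    exact hcd.elim (fun h => h h2) fun h => h h0
  · refine ⟨_, _, fun h => ?_, l1, l3⟩
    have h0 := congrFun h 1
    have h2 := congrFun h 2
    simp [cross_apply, ha] at h0 h2
    exact hef.elim (fun h => h h2) fun h => h h0

theorem eq_span {I : Ideal P3} (hI : I.IsPrime) (hH : Hom I) {G : P3} (hG : G ∈ I)
    (hi : Irreducible G) (hn : ∀ ν ν' : Fin 3 → ℂ, lin ν 0 ∈ I → lin ν' 0 ∈ I → ν ⨯₃ ν' = 0) :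
    I = Ideal.span {G} := by
  refine le_antisymm (fun f hf => ?_) ((Ideal.span_singleton_le_iff_mem _).2 hG)
  rw [Ideal.mem_span_singleton]
  by_contra hd
  obtain ⟨ν, ν', h, m, m'⟩ := two_forms hI hH hG hf hi.ne_zero (fun h => hd (h ▸ dvd_zero G))
    (hi.isRelPrime_iff_not_dvd.2 hd)
  exact h (hn ν ν' m m')

theorem pc_unit {a : P3} (h0 : a ≠ 0) (hd : a.totalDegree = 0) : IsUnit a := by
  have e := totalDegree_eq_zero_iff_eq_C.1 hd
  have hc : coeff 0 a ≠ 0 := fun h => h0 (by rw [e, h, map_zero])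
  rw [e]
  exact (IsUnit.mk0 _ hc).map C

theorem plane_curve {I : Ideal P3} (hI : I.IsPrime) (hH : Hom I) (Y : Finset (Fin 3 → ℂ)) {ρ : ℕ}
    (hY : ∀ y ∈ Y, ∀ f ∈ I, eval y f = 0) (hc : Y.card ≤ ρ ^ 2)
    (hφ : ∀ (φ : P3) (δ : ℕ), Irreducible φ → φ.IsHomogeneous δ →
      (Y.filter fun y => eval y φ = 0).card ≤ ρ * δ) :
    (∃ τ ≤ 4 * ρ, ∃ ψ : P3, ψ.IsHomogeneous τ ∧ ψ ∉ I ∧ ∀ y ∈ Y, eval y ψ = 0) ∨
      ∃ ν ν' : Fin 3 → ℂ, ν ⨯₃ ν' ≠ 0 ∧ lin ν 0 ∈ I ∧ lin ν' 0 ∈ I := by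
  have hlt : Y.card < (2 * ρ + 2).choose 2 := by
    rw [Nat.choose_two_right]
    have h4 : (2 * ρ + 2) * (2 * ρ + 2 - 1) = (ρ + 1) * (2 * ρ + 1) * 2 := by
      rw [show 2 * ρ + 2 - 1 = 2 * ρ + 1 from rfl]; ring
    rw [h4, Nat.mul_div_cancel _ two_pos]
    nlinarith
  obtain ⟨ψ₀, p0, p1, p2⟩ := interp_hom Y hlt
  by_cases hm : ψ₀ ∈ I
  swap
  · exact Or.inl ⟨2 * ρ, by omega, ψ₀, p1, hm, p2⟩
  have hex : ∃ δ, ∃ φ ∈ I, φ ≠ 0 ∧ φ.IsHomogeneous δ := ⟨_, ψ₀, hm, p0, p1⟩
  obtain ⟨φ, q0, q1, q2⟩ := Nat.find_spec hex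
  have hmin : ∀ δ, ∀ φ ∈ I, φ ≠ 0 → φ.IsHomogeneous δ → Nat.find hex ≤ δ :=
    fun δ φ a b c => Nat.find_min' hex ⟨φ, a, b, c⟩
  generalize Nat.find hex = δ at q2 hmin
  have hδρ : δ ≤ 2 * ρ := hmin _ _ hm p0 p1
  have hnu : ¬ IsUnit φ := fun hu => hI.ne_top (Ideal.eq_top_of_isUnit_mem _ q0 hu)
  have key : ∀ a b : P3, φ = a * b → a ∈ I → IsUnit b := by
    intro a b hab ha
    have hne : a * b ≠ 0 := hab ▸ q1
    have h1 := hmin _ a ha (left_ne_zero_of_mul hne) (hom_factor (hab ▸ q2) hne)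
    have h2 := totalDegree_mul_of_isDomain (left_ne_zero_of_mul hne) (right_ne_zero_of_mul hne)
    rw [← hab, q2.totalDegree q1] at h2
    exact pc_unit (right_ne_zero_of_mul hne) (by omega)
  have hirr : Irreducible φ := by
    refine ⟨hnu, fun a b hab => ?_⟩
    rcases hI.mem_or_mem (hab ▸ q0 : a * b ∈ I) with h | h
    · exact Or.inr (key a b hab h)
    · exact Or.inl (key b a (by rw [hab, mul_comm]) h)
  have hδ : 1 ≤ δ := by
    by_contra h
    exact hnu (pc_unit q1 (by rw [q2.totalDegree q1]; omega))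
  have hcard := hφ φ δ hirr q2
  rw [Finset.filter_true_of_mem fun y hy => hY y hy φ q0] at hcard
  obtain ⟨ψ, r1, r2, r3⟩ := interp_not_dvd Y q2 q1 hδ hcard
  by_cases hψ : ψ ∈ I
  · exact Or.inr (two_forms hI hH q0 hψ q1 (fun h => r2 (h ▸ dvd_zero φ))
      (hirr.isRelPrime_iff_not_dvd.2 r2))
  · exact Or.inl ⟨ρ + δ, by omega, ψ, r1, hψ, r3⟩

end Vale.Agent.P054
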