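import Vale.Agent.P054.Bez
import Vale.Agent.P054.PCurve
import Vale.Agent.P054.Jet

/-! ConeB: greedy cones, singular lines, lines and pins (about 350 lines).
`greedy`: strong induction on `S.card`: if some irreducible form `φ` of degree `δ` has more than `ρ δ` points of `S`, remove them and recurse (`δ ≥ 1`; a form of degree 1 has at most `B ≤ ρ` points: real or imaginary part of its coefficient vector is a nonzero real normal).
`sing_count`: some `pderiv i G ≠ 0` has smaller degree, so it is relatively prime to `G`; both are homogeneous and vanish on the lines `t • a`; `lines_bezout`; each line carries at most `k` of the points (choose representatives).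
`line_case`: `I` contains two independent affine forms; substitute the parametrization `o + T v` of their common line (`f - f(o + ℓ(X) v)` lies in the ideal of the two forms, with `ℓ` affine), so `I` is the preimage of a prime of `ℂ[T]`, which is zero since `I` is not the ideal of the point `y`. Hence `G` vanishes on `o - p + T v` and by homogeneity on the plane spanned by `o - p` and `v` if `p` is off the line; `lin_dvd` contradicts irreducibility of degree `≥ 2`. Real points of the line lie in a real plane.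
`exists_pin`: otherwise differences of sphere equations give `lin (cv (x₀ - x₁)) c ∈ I`, and `P` has two non-parallel differences.
-/

noncomputable section

open Classical MvPolynomial Matrix Finset

namespace Vale.Agent.P054

theorem coneb_aeval {R : Type*} [CommRing R] [Algebra ℂ R] (y : Fin 3 → ℂ) (G : P3)
    (x : Fin 3 → R) : aeval x (shift y G) = aeval (fun i => x i + algebraMap ℂ R (y i)) G := by
  unfold shift
  rw [← AlgHom.comp_apply, comp_aeval]
  simp only [map_add, aeval_X, aeval_C]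

theorem coneb_inv (y : Fin 3 → ℂ) : (shift (-y)).comp (shift y) = AlgHom.id ℂ P3 := by
  ext1 i
  simp [shift]

theorem coneb_deg (y : Fin 3 → ℂ) (G : P3) : (shift y G).totalDegree ≤ G.totalDegree := by
  have h := degree_aeval_le (fun i => (X i + C (y i) : P3)) (a := 1)
    (fun i => (totalDegree_add _ _).trans (by simp)) G
  rwa [one_mul] at h

theorem coneb_pderiv (y : Fin 3 → ℂ) (a : Fin 3) (G : P3) :
    pderiv a (shift y G) = shift y (pderiv a G) := by
  induction G using MvPolynomial.induction_on with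
  | C c => simp [shift]
  | add p q hp hq => simp only [map_add, hp, hq]
  | mul_X p n hp =>
    rw [map_mul, Derivation.leibniz, Derivation.leibniz, hp]
    by_cases h : a = n
    · subst h
      simp [shift]
    · simp [shift, Ne.symm h]

theorem coneb_plane {S : Finset V} {B : ℕ} (hS : PlaneLe S B) {ν : Fin 3 → ℂ} (hν : ν ≠ 0) (c : ℂ) :
    (S.filter fun x => ν ⬝ᵥ cv x = c).card ≤ B := by
  by_cases h : (fun i => (ν i).re) = 0
  · have h' : (fun i => (ν i).im) ≠ 0 := fun h' => hν (funext fun i =>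
      Complex.ext (congrFun h i) (congrFun h' i))
    refine le_trans (card_le_card fun x hx => ?_) (hS _ h' c.im)
    rw [mem_filter] at hx ⊢
    refine ⟨hx.1, ?_⟩
    rw [← hx.2]
    simp [dotProduct, cv, Fin.sum_univ_three]
  · refine le_trans (card_le_card fun x hx => ?_) (hS _ h c.re)
    rw [mem_filter] at hx ⊢
    refine ⟨hx.1, ?_⟩
    rw [← hx.2]
    simp [dotProduct, cv, Fin.sum_univ_three]

theorem coneb_cv_sub (a b : V) : cv (a - b) = cv a - cv b := by
  funext i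
  simp [cv]

theorem coneb_cv_zero {a : V} (h : cv a = 0) : a = 0 := by
  funext i
  simpa [cv] using congrFun h i

theorem coneb_cv_cross (a b : V) : cv a ⨯₃ cv b = cv (a ⨯₃ b) := by
  funext i
  fin_cases i <;> simp [cv, cross_apply]

theorem coneb_two {φ : P3} (hi : Irreducible φ) (p : V) {S : Finset V} {B : ℕ} (hS : PlaneLe S B)
    (h : B * φ.totalDegree < (S.filter fun x => eval (cv (x - p)) φ = 0).card) :
    2 ≤ φ.totalDegree := by
  by_contra h2
  have h0 : φ.totalDegree ≠ 0 := fun h0 => hi.not_isUnit (pc_unit hi.ne_zero h0)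
  have h1 : φ.totalDegree = 1 := by omega
  obtain ⟨ν, c, rfl⟩ := eq_lin_of_degree h1.le
  have hν : ν ≠ 0 := by
    rintro rfl
    exact h0 (by simp [lin])
  rw [h1, mul_one] at h
  refine not_le.mpr h (le_trans (card_le_card fun x hx => ?_) (coneb_plane hS hν (c + ν ⬝ᵥ cv p)))
  rw [mem_filter] at hx ⊢
  refine ⟨hx.1, ?_⟩
  have h3 := hx.2
  rw [eval_lin, coneb_cv_sub, dotProduct_sub] at h3
  linear_combination h3

theorem coneb_rep {α : Type*} (S : Finset α) (r : α → α → Prop) (hs : ∀ x y, r x y → r y x)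
    (hr : ∀ x, r x x) :
    ∃ T ⊆ S, (∀ x ∈ T, ∀ y ∈ T, r x y → x = y) ∧ ∀ y ∈ S, ∃ x ∈ T, r x y := by
  obtain ⟨T, hT, hm⟩ := exists_max_image
    (S.powerset.filter fun T => ∀ x ∈ T, ∀ y ∈ T, r x y → x = y) card ⟨∅, by simp⟩
  simp only [mem_filter, mem_powerset] at hT hm
  refine ⟨T, hT.1, hT.2, fun y hy => ?_⟩
  by_contra hn
  push Not at hn
  have hy' : y ∉ T := fun h => hn y h (hr y)
  have h1 := hm (insert y T) ⟨insert_subset hy hT.1, by
    intro a ha b hb hab
    rcases mem_insert.mp ha with rfl | ha' <;> rcases mem_insert.mp hb with rfl | hb'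
    · rfl
    · exact absurd (hs _ _ hab) (hn _ hb')
    · exact absurd hab (hn _ ha')
    · exact hT.2 a ha' b hb' hab⟩
  rw [card_insert_of_notMem hy'] at h1
  omega

theorem coneb_dual {v : Fin 3 → ℂ} (hv : v ≠ 0) : ∃ w : Fin 3 → ℂ, w ⬝ᵥ v = 1 := by
  obtain ⟨j, hj⟩ := Function.ne_iff.mp hv
  exact ⟨Pi.single j (v j)⁻¹, by rw [single_dotProduct, inv_mul_cancel₀ hj]⟩

theorem coneb_cramer {R : Type*} [CommRing R] (a b c x : Fin 3 → R) (i : Fin 3) :
    (c ⬝ᵥ (a ⨯₃ b)) * x i =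
      (a ⬝ᵥ x) * (b ⨯₃ c) i + (b ⬝ᵥ x) * (c ⨯₃ a) i + (c ⬝ᵥ x) * (a ⨯₃ b) i := by
  fin_cases i <;> simp [cross_apply, dotProduct, Fin.sum_univ_three] <;> ring

theorem coneb_cramer' {R : Type*} [CommRing R] (a b c x : Fin 3 → R) (i : Fin 3) :
    (c ⬝ᵥ (a ⨯₃ b)) * x i =
      ((b ⨯₃ c) ⬝ᵥ x) * a i + ((c ⨯₃ a) ⬝ᵥ x) * b i + ((a ⨯₃ b) ⬝ᵥ x) * c i := by
  fin_cases i <;> simp [cross_apply, dotProduct, Fin.sum_univ_three] <;> ring

theorem coneb_line {I : Ideal P3} (hI : I.IsPrime) {y ν ν' : Fin 3 → ℂ} {c c' : ℂ}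
    (h1 : lin ν c ∈ I) (h2 : lin ν' c' ∈ I) (hv : ν ⨯₃ ν' ≠ 0)
    (hy : ∀ f ∈ I, eval y f = 0) (hm : ∃ f, eval y f = 0 ∧ f ∉ I) {f : P3} (hf : f ∈ I) (t : ℂ) :
    eval (y + t • (ν ⨯₃ ν')) f = 0 := by
  obtain ⟨w, hw⟩ := coneb_dual hv
  have hc : c = ν ⬝ᵥ y := by
    have h := hy _ h1
    rw [eval_lin] at h
    linear_combination -h
  have hc' : c' = ν' ⬝ᵥ y := by
    have h := hy _ h2
    rw [eval_lin] at h
    linear_combination -h
  have hx : ∀ i, X i - (C (y i) + lin w (w ⬝ᵥ y) * C ((ν ⨯₃ ν') i)) ∈ I := by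
    intro i
    have h : X i - (C (y i) + lin w (w ⬝ᵥ y) * C ((ν ⨯₃ ν') i)) =
        lin ν c * C ((ν' ⨯₃ w) i) + lin ν' c' * C ((w ⨯₃ ν) i) := by
      refine MvPolynomial.funext fun x => ?_
      have h := coneb_cramer ν ν' w (x - y) i
      simp only [map_sub, map_add, map_mul, eval_lin, eval_C, eval_X, hc, hc']
      simp only [hw, dotProduct_sub, Pi.sub_apply] at h
      linear_combination h
    rw [h]
    exact I.add_mem (I.mul_mem_right _ h1) (I.mul_mem_right _ h2)
  have hq : ∀ g : P3, Ideal.Quotient.mkₐ ℂ I g =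
      Polynomial.aeval (Ideal.Quotient.mkₐ ℂ I (lin w (w ⬝ᵥ y)))
        (aeval (fun k => Polynomial.C (y k) + Polynomial.X * Polynomial.C ((ν ⨯₃ ν') k)) g) := by
    intro g
    rw [← AlgHom.comp_apply]
    refine DFunLike.congr_fun (MvPolynomial.algHom_ext fun i => ?_) g
    have h := Ideal.Quotient.eq.mpr (hx i)
    rw [AlgHom.comp_apply, aeval_X, map_add, map_mul, Polynomial.aeval_C, Polynomial.aeval_C,
      Polynomial.aeval_X, Ideal.Quotient.mkₐ_eq_mk, h, map_add, map_mul]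
    rfl
  rw [← bez_line]
  by_contra hn
  have hf' := (hq f).symm.trans (Ideal.Quotient.eq_zero_iff_mem.mpr hf)
  have hal : IsAlgebraic ℂ (Ideal.Quotient.mkₐ ℂ I (lin w (w ⬝ᵥ y))) :=
    ⟨_, fun h0 => hn ((congrArg (Polynomial.eval t) h0).trans Polynomial.eval_zero), hf'⟩
  obtain ⟨s, hs⟩ := minpoly.mem_range_of_degree_eq_one ℂ _
    (IsAlgClosed.degree_eq_one_of_irreducible ℂ (minpoly.irreducible hal.isIntegral))
  have hs' : C s - lin w (w ⬝ᵥ y) ∈ I := Ideal.Quotient.eq.mp hs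
  have hs0 : s = 0 := by
    have h := hy _ hs'
    rwa [map_sub, eval_C, eval_lin, sub_self, sub_zero] at h
  obtain ⟨g, hg, hg'⟩ := hm
  refine hg' (Ideal.Quotient.eq_zero_iff_mem.mp ?_)
  have h := hq g
  rw [← hs, Polynomial.aeval_algebraMap_apply, Polynomial.coe_aeval_eq_eval, bez_line, hs0,
    zero_smul, add_zero, hg, map_zero] at h
  exact h

theorem coneb_par {G : P3} (hi : Irreducible G) (hG : G.IsHomogeneous G.totalDegree)
    (h2 : 2 ≤ G.totalDegree) {u v : Fin 3 → ℂ} (h : ∀ t : ℂ, eval (u + t • v) G = 0) :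
    u ⨯₃ v = 0 := by
  by_contra hn
  obtain ⟨w, hw⟩ := coneb_dual hn
  have h1 : ∀ s t : ℂ, eval (t • v + s • u) G = 0 := by
    intro s t
    rw [← bez_line, Polynomial.eq_zero_of_infinite_isRoot (aeval (fun k => Polynomial.C ((t • v) k) +
      Polynomial.X * Polynomial.C (u k)) G) ((Set.finite_singleton (0 : ℂ)).infinite_compl.mono
        fun r hr => ?_), Polynomial.eval_zero]
    have hr' : r ≠ 0 := hr
    have e : t • v + r • u = fun a => r * (u + (t / r) • v) a := by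
      funext a
      simp only [Pi.add_apply, Pi.smul_apply, smul_eq_mul]
      field_simp
      ring
    show Polynomial.eval r _ = 0
    rw [bez_line, e, pc_eval_smul hG, h, mul_zero]
  obtain ⟨q, hq⟩ := lin_dvd hn 0 (f := G) fun x hx => by
    have e : x = ((w ⨯₃ u) ⬝ᵥ x) • v + ((v ⨯₃ w) ⬝ᵥ x) • u := by
      funext i
      have h3 := coneb_cramer' u v w x i
      rw [hw, hx] at h3
      simp only [Pi.add_apply, Pi.smul_apply, smul_eq_mul]
      linear_combination h3
    rw [e, h1]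
  rcases hi.isUnit_or_isUnit hq with hu | hu
  · have h3 := hu.map (eval (0 : Fin 3 → ℂ))
    rw [eval_lin, dotProduct_zero, sub_zero] at h3
    exact not_isUnit_zero h3
  · have h3 := totalDegree_mul (lin (u ⨯₃ v) 0) q
    rw [← hq, (isUnit_iff_totalDegree_of_isReduced.mp hu).2] at h3
    have h4 := degree_lin_le (u ⨯₃ v) 0
    omega

theorem eval_coneAt (p : V) (G : P3) (x : Fin 3 → ℂ) : eval x (coneAt p G) = eval (x - cv p) G := by
  have h := coneb_aeval (-cv p) G x
  rw [sub_eq_add_neg]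
  exact h

theorem aeval_coneAt {R : Type*} [CommRing R] [Algebra ℂ R] (p : V) (G : P3) (x : Fin 3 → R) :
    aeval x (coneAt p G) = aeval (x - fun i => algebraMap ℂ R (cv p i)) G := by
  rw [coneAt, coneb_aeval]
  simp only [Pi.neg_apply, map_neg, ← sub_eq_add_neg]
  rfl

theorem degree_coneAt (p : V) (G : P3) : (coneAt p G).totalDegree = G.totalDegree := by
  refine le_antisymm (coneb_deg _ _) ?_
  have h := coneb_deg (- -cv p) (coneAt p G)
  rwa [coneAt, ← AlgHom.comp_apply, coneb_inv] at h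

theorem irreducible_coneAt (p : V) {G : P3} (hG : Irreducible G) : Irreducible (coneAt p G) := by
  have h := coneb_inv (- -cv p)
  rw [neg_neg (-cv p)] at h
  exact hG.map (AlgEquiv.ofAlgHom (shift (-cv p)) (shift (- -cv p)) h (coneb_inv _))

theorem gr_coneAt (p : V) (G : P3) (x : Fin 3 → ℂ) : gr (coneAt p G) x = gr G (x - cv p) := by
  funext a
  rw [gr, gr, coneAt, coneb_pderiv]
  exact aeval_coneAt p _ x

theorem greedy (p : V) {ρ B : ℕ} (hB : B ≤ ρ) (S : Finset V) (hS : PlaneLe S B) :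
    ∃ 𝒢 : Finset P3, (∀ G ∈ 𝒢, Irreducible G ∧ G.IsHomogeneous G.totalDegree ∧ 2 ≤ G.totalDegree) ∧
      (∑ G ∈ 𝒢, G.totalDegree) * ρ ≤ S.card ∧
      ∀ (φ : P3) (δ : ℕ), Irreducible φ → φ.IsHomogeneous δ →
        (S.filter fun x => (∀ G ∈ 𝒢, eval (cv (x - p)) G ≠ 0) ∧ eval (cv (x - p)) φ = 0).card ≤
          ρ * δ := by
  induction hn : S.card using Nat.strong_induction_on generalizing S with
  | _ n ih =>
  by_cases h : ∀ (φ : P3) (δ : ℕ), Irreducible φ → φ.IsHomogeneous δ →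
      (S.filter fun x => eval (cv (x - p)) φ = 0).card ≤ ρ * δ
  · refine ⟨∅, by simp, by simp, fun φ δ h1 h2 => ?_⟩
    simpa using h φ δ h1 h2
  push Not at h
  obtain ⟨φ, δ, h1, h2, h3⟩ := h
  obtain rfl := h2.totalDegree h1.ne_zero
  have h4 := coneb_two h1 p hS ((Nat.mul_le_mul_right _ hB).trans_lt h3)
  have h5 := card_filter_add_card_filter_not (s := S) fun x => eval (cv (x - p)) φ = 0
  obtain ⟨𝒢, g1, g2, g3⟩ := ih _ (by omega) (S.filter fun x => ¬ eval (cv (x - p)) φ = 0)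
    (fun ν hν c => (card_le_card (filter_subset_filter _ (filter_subset _ _))).trans (hS ν hν c))
    rfl
  refine ⟨insert φ 𝒢, fun G hG => ?_, ?_, fun ψ δ i1 i2 => ?_⟩
  · rcases mem_insert.mp hG with rfl | hG
    · exact ⟨h1, h2, h4⟩
    · exact g1 G hG
  · have h6 : ∑ G ∈ insert φ 𝒢, G.totalDegree ≤ φ.totalDegree + ∑ G ∈ 𝒢, G.totalDegree := by
      by_cases h7 : φ ∈ 𝒢
      · rw [insert_eq_of_mem h7]
        omega
      · rw [sum_insert h7]
    refine (Nat.mul_le_mul_right _ h6).trans ?_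
    rw [add_mul, mul_comm φ.totalDegree]
    omega
  · refine le_trans (card_le_card fun x hx => ?_) (g3 ψ δ i1 i2)
    simp only [mem_filter, mem_insert, forall_eq_or_imp] at hx ⊢
    exact ⟨⟨hx.1, hx.2.1.1⟩, hx.2.1.2, hx.2.2⟩

theorem sing_count {G : P3} (hi : Irreducible G) (hG : G.IsHomogeneous G.totalDegree) (p : V)
    {S : Finset V} {k : ℕ} (hp : p ∉ S)
    (hk : ∀ x ∈ S, (S.filter fun y => (x - p) ⨯₃ (y - p) = 0).card ≤ k)
    (hS : ∀ x ∈ S, eval (cv (x - p)) G = 0 ∧ gr G (cv (x - p)) = 0) :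
    S.card ≤ k * G.totalDegree ^ 2 := by
  have h0 : G.totalDegree ≠ 0 := fun h0 => hi.not_isUnit (pc_unit hi.ne_zero h0)
  obtain ⟨a, ha⟩ : ∃ a, pderiv a G ≠ 0 := by
    by_contra hn
    push Not at hn
    have h := hG.sum_X_mul_pderiv
    simp only [hn, mul_zero, sum_const_zero] at h
    exact smul_ne_zero h0 hi.ne_zero h.symm
  have hd := degree_pderiv_le G a
  have hr : IsRelPrime G (pderiv a G) := hi.isRelPrime_iff_not_dvd.mpr fun h => by
    have h1 := totalDegree_le_of_dvd_of_isDomain h ha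
    omega
  obtain ⟨T, t1, t2, t3⟩ := coneb_rep S (fun x y => (x - p) ⨯₃ (y - p) = 0)
    (fun x y h => by rw [← cross_anticomm, h, neg_zero]) fun x => cross_self _
  have hT := lines_bezout hi.ne_zero ha hr T (fun _ => 0) (fun x => cv (x - p))
    (fun x hx h => hp (by
      rw [← sub_eq_zero.mp (coneb_cv_zero h)]
      exact t1 hx))
    (fun x hx y hy h _ => t2 x hx y hy (coneb_cv_zero (by rw [← coneb_cv_cross, h])))
    fun x hx t => by
      have e : (0 : Fin 3 → ℂ) + t • cv (x - p) = fun a => t * cv (x - p) a := by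
        funext a
        simp
      have h1 : eval (cv (x - p)) (pderiv a G) = 0 := congrFun (hS x (t1 hx)).2 a
      rw [e, pc_eval_smul hG, pc_eval_smul (hG.pderiv (i := a)), (hS x (t1 hx)).1, h1]
      exact ⟨mul_zero _, mul_zero _⟩
  have h1 : S.card ≤ T.card * k := by
    refine le_trans (card_le_card fun y hy => ?_)
      (card_biUnion_le_card_mul T (fun x => S.filter fun y => (x - p) ⨯₃ (y - p) = 0) k
        fun x hx => hk x (t1 hx))
    obtain ⟨x, hx, h⟩ := t3 y hy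
    exact mem_biUnion.mpr ⟨x, hx, mem_filter.mpr ⟨hy, h⟩⟩
  refine h1.trans ?_
  rw [mul_comm, pow_two]
  exact Nat.mul_le_mul_left _ (hT.trans (Nat.mul_le_mul_left _ (by omega)))

theorem line_case {I : Ideal P3} (hI : I.IsPrime) (hn : ¬ NL I) {y : Fin 3 → ℂ}
    (hy : ∀ f ∈ I, eval y f = 0) (hm : ∃ f, eval y f = 0 ∧ f ∉ I) {P : Finset V} {B : ℕ}
    (hP : PlaneLe P B) :
    (P.filter fun p => ∃ G : P3, Irreducible G ∧ G.IsHomogeneous G.totalDegree ∧
      2 ≤ G.totalDegree ∧ coneAt p G ∈ I).card ≤ B := by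
  unfold NL at hn
  push Not at hn
  obtain ⟨ν, ν', c, c', h1, h2, hv⟩ := hn
  have hν : ν ≠ 0 := by
    rintro rfl
    exact hv (by simp)
  obtain ⟨w, hw⟩ := coneb_dual hv
  refine le_trans (card_le_card fun p hp => ?_) (coneb_plane hP hν (ν ⬝ᵥ y))
  rw [mem_filter] at hp ⊢
  obtain ⟨hp, G, g1, g2, g3, g4⟩ := hp
  refine ⟨hp, ?_⟩
  have h3 : (y - cv p) ⨯₃ (ν ⨯₃ ν') = 0 := coneb_par g1 g2 g3 fun t => by
    have h := coneb_line hI h1 h2 hv hy hm g4 t
    rwa [eval_coneAt, add_sub_right_comm] at h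
  have h4 : (w ⬝ᵥ (ν ⨯₃ ν')) * (ν ⬝ᵥ (y - cv p)) =
      (w ⨯₃ ν) ⬝ᵥ ((y - cv p) ⨯₃ (ν ⨯₃ ν')) * (-1) := by
    simp [cross_apply, dotProduct, Fin.sum_univ_three]
    ring
  rw [h3, hw, dotProduct_zero, dotProduct_sub] at h4
  linear_combination -h4

def sph (x₀ : V) (δ : ℝ) : P3 := ∑ i, (X i - C (cv x₀ i)) ^ 2 - C (δ : ℂ)

theorem degree_sph_le (x₀ : V) (δ : ℝ) : (sph x₀ δ).totalDegree ≤ 2 := by
  refine (totalDegree_sub_C_le _ _).trans (totalDegree_finsetSum_le fun i _ =>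
    (totalDegree_pow _ _).trans ?_)
  have h : (X i - C (cv x₀ i) : P3).totalDegree ≤ 1 :=
    (totalDegree_sub_C_le _ _).trans (totalDegree_X i).le
  omega

theorem eval_sph (x₀ x : V) : eval (cv x) (sph x₀ (sq x₀ x)) = 0 := by
  simp [sph, sq, cv, dotProduct, Fin.sum_univ_three]
  ring

theorem exists_pin {I : Ideal P3} (hn : NL I) {P : Finset V} {B : ℕ} (hP : PlaneLe P B)
    (hB : B < P.card) : ∃ x₀ ∈ P, ∀ δ : ℝ, sph x₀ δ ∉ I := by
  by_contra h
  push Not at h
  choose! δ hδ using h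
  obtain ⟨o, ho⟩ := card_pos.mp ((Nat.zero_le _).trans_lt hB)
  have h1 : ∀ x ∈ P, ∃ c, lin (cv (x - o)) c ∈ I := by
    intro x hx
    refine ⟨(cv x ⬝ᵥ cv x - cv o ⬝ᵥ cv o + δ o - δ x) / 2, ?_⟩
    have e : lin (cv (x - o)) ((cv x ⬝ᵥ cv x - cv o ⬝ᵥ cv o + δ o - δ x) / 2) =
        C (1 / 2) * (sph o (δ o) - sph x (δ x)) := by
      refine MvPolynomial.funext fun z => ?_
      simp [sph, lin, coneb_cv_sub, dotProduct, Fin.sum_univ_three]
      ring
    rw [e]
    exact I.mul_mem_left _ (I.sub_mem (hδ o ho) (hδ x hx))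
  have h2 : ∀ x ∈ P, ∀ x' ∈ P, (x - o) ⨯₃ (x' - o) = 0 := by
    intro x hx x' hx'
    obtain ⟨c, hc⟩ := h1 x hx
    obtain ⟨c', hc'⟩ := h1 x' hx'
    exact coneb_cv_zero (by rw [← coneb_cv_cross, hn _ _ _ _ hc hc'])
  obtain ⟨ν, hν, h3⟩ : ∃ ν : V, ν ≠ 0 ∧ ∀ x ∈ P, ν ⬝ᵥ (x - o) = 0 := by
    by_cases h4 : ∃ x ∈ P, ∃ e : V, e ⨯₃ (x - o) ≠ 0
    · obtain ⟨x, hx, e, he⟩ := h4
      refine ⟨_, he, fun x' hx' => ?_⟩
      rw [dotProduct_comm, triple_product_permutation, h2 x hx x' hx', dotProduct_zero]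
    · push Not at h4
      refine ⟨Pi.single 0 1, by simp, fun x hx => ?_⟩
      have h5 := congrFun (h4 x hx (Pi.single 2 1)) 1
      simpa [cross_apply] using h5
  refine not_le.mpr hB (le_trans (card_le_card fun x hx => mem_filter.mpr ⟨hx, ?_⟩)
    (hP ν hν (ν ⬝ᵥ o)))
  have h4 := h3 x hx
  rwa [dotProduct_sub, sub_eq_zero] at h4

end Vale.Agent.P054
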