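import Vale.Agent.P054.Der

/-! Const: subspaces stable under all derivations are defined over the constants (about 200 lines).
`const_span`: take `u ∈ U` outside the span with minimal support among such counterexamples... or by induction on the size of the support: normalize one coordinate of a vector of minimal support to 1, its derivatives have smaller support, hence vanish, so it is rational (`const_mem`); subtract multiples of such vectors. The ranks agree because `K`-independent rational vectors are `L`-independent (`linearIndependent_algebraMap_comp_iff` or a determinant).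
`const_dir`: the line spanned by `v` is stable (a vector with `v ⨯₃ w = 0`, `v ≠ 0` is a multiple of `v`).
-/

noncomputable section

open Classical MvPolynomial Matrix Finset

namespace Vale.Agent.P054

variable {K L : Type*} [Field K] [CharZero K] [IsAlgClosed K] [Field L] [Algebra K L]

/-- the rational vectors of `U` -/
def ratl (K : Type*) [Field K] [Algebra K L] {ι : Type*} (U : Submodule L (ι → L)) :
    Submodule K (ι → K) where
  carrier := {w | (fun i => algebraMap K L (w i)) ∈ U}
  add_mem' := by
    intro a b ha hb
    have h := U.add_mem ha hb
    have e : (fun i => algebraMap K L ((a + b) i)) =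
        (fun i => algebraMap K L (a i)) + fun i => algebraMap K L (b i) := by
      funext i; simp
    show (fun i => algebraMap K L ((a + b) i)) ∈ U
    rw [e]; exact h
  zero_mem' := by
    have e : (fun i => algebraMap K L ((0 : ι → K) i)) = 0 := by
      funext i; simp
    show (fun i => algebraMap K L ((0 : ι → K) i)) ∈ U
    rw [e]; exact U.zero_mem
  smul_mem' := by
    intro c a ha
    have h := U.smul_mem (algebraMap K L c) ha
    have e : (fun i => algebraMap K L ((c • a) i)) =
        algebraMap K L c • fun i => algebraMap K L (a i) := by
      funext i; simp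
    show (fun i => algebraMap K L ((c • a) i)) ∈ U
    rw [e]; exact h

theorem const_aux1 {ι : Type*} [Fintype ι] (U : Submodule L (ι → L))
    (hU : ∀ (d : Derivation K L L), ∀ u ∈ U, (fun i => d (u i)) ∈ U) (n : ℕ) :
    ∀ u ∈ U, (univ.filter fun i => u i ≠ 0).card ≤ n →
      u ∈ Submodule.span L ((fun w i => algebraMap K L (w i)) '' (ratl K U : Set (ι → K))) := by
  induction n with
  | zero =>
    intro u _ hc
    have h0 : u = 0 := by
      funext i
      by_contra hi
      have : i ∈ univ.filter fun i => u i ≠ 0 := by simpa using hi
      have := card_pos.2 ⟨i, this⟩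
      omega
    rw [h0]; exact Submodule.zero_mem _
  | succ n ih =>
    intro u hu hc
    by_cases h0 : u = 0
    · rw [h0]; exact Submodule.zero_mem _
    obtain ⟨i, hi⟩ := Function.ne_iff.1 h0
    have hi' : u i ≠ 0 := hi
    set u' : ι → L := (u i)⁻¹ • u with hu'
    have hu'U : u' ∈ U := U.smul_mem _ hu
    have hu'i : u' i = 1 := by simp [hu', hi']
    have huu : u = u i • u' := by
      rw [hu', smul_smul, mul_inv_cancel₀ hi', one_smul]
    by_cases hd : ∀ (d : Derivation K L L) j, d (u' j) = 0
    · choose c hc' using fun j => const_mem (K := K) (u := u' j) fun d => hd d j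
      rw [huu]
      refine Submodule.smul_mem _ _ (Submodule.subset_span ⟨c, ?_, funext hc'⟩)
      show (fun i => algebraMap K L (c i)) ∈ U
      rw [funext hc']; exact hu'U
    · push Not at hd
      obtain ⟨d, j, hj⟩ := hd
      set w : ι → L := fun k => d (u' k) with hw
      have hwU : w ∈ U := hU d u' hu'U
      have hsub : ∀ k, u k = 0 → w k = 0 := by
        intro k hk
        simp [hw, hu', hk]
      have hwi : w i = 0 := by simp [hw, hu'i]
      have hwj : w j ≠ 0 := hj
      have huj : u j ≠ 0 := fun h => hwj (hsub j h)
      have h1 : w ∈ Submodule.span L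
          ((fun w i => algebraMap K L (w i)) '' (ratl K U : Set (ι → K))) := by
        refine ih w hwU ?_
        have : (univ.filter fun k => w k ≠ 0) ⊆ (univ.filter fun k => u k ≠ 0).erase i := by
          intro k hk
          simp only [mem_filter, mem_univ, true_and, mem_erase] at hk ⊢
          exact ⟨fun h => hk (h ▸ hwi), fun h => hk (hsub k h)⟩
        have h2 := card_le_card this
        rw [card_erase_of_mem (by simpa using hi')] at h2
        omega
      have h2 : u - (u j / w j) • w ∈ Submodule.span L
          ((fun w i => algebraMap K L (w i)) '' (ratl K U : Set (ι → K))) := by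
        refine ih _ (U.sub_mem hu (U.smul_mem _ hwU)) ?_
        have : (univ.filter fun k => (u - (u j / w j) • w) k ≠ 0) ⊆
            (univ.filter fun k => u k ≠ 0).erase j := by
          intro k hk
          simp only [mem_filter, mem_univ, true_and, mem_erase] at hk ⊢
          refine ⟨fun h => hk ?_, fun h => hk ?_⟩
          · subst h
            simp only [Pi.sub_apply, Pi.smul_apply, smul_eq_mul]
            rw [div_mul_cancel₀ _ hwj, sub_self]
          · simp [h, hsub k h]
        have h2 := card_le_card this
        rw [card_erase_of_mem (by simpa using huj)] at h2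
        omega
      have e : u = (u - (u j / w j) • w) + (u j / w j) • w := by simp
      rw [e]
      exact Submodule.add_mem _ h2 (Submodule.smul_mem _ _ h1)

omit [CharZero K] [IsAlgClosed K] in
theorem const_aux2 {ι : Type*} [Fintype ι] (W : Submodule K (ι → K)) :
    Module.finrank K W = Module.finrank L
      (Submodule.span L ((fun w i => algebraMap K L (w i)) '' (W : Set (ι → K)))) := by
  let b := Module.finBasis K W
  have hb : LinearIndependent K fun k => (b k : ι → K) :=
    b.linearIndependent.map' W.subtype (Submodule.ker_subtype W)
  have hL : LinearIndependent L fun k => algebraMap K L ∘ (b k : ι → K) :=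
    linearIndependent_algebraMap_comp_iff.2 hb
  have e : Submodule.span L ((fun w i => algebraMap K L (w i)) '' (W : Set (ι → K))) =
      Submodule.span L (Set.range fun k => algebraMap K L ∘ (b k : ι → K)) := by
    apply le_antisymm
    · rw [Submodule.span_le]
      rintro _ ⟨w, hw, rfl⟩
      have h1 := b.sum_repr ⟨w, hw⟩
      have h2 : w = ∑ k, b.repr ⟨w, hw⟩ k • (b k : ι → K) := by
        have := congrArg W.subtype h1
        rw [map_sum] at this
        simpa using this.symm
      have h3 : (fun i => algebraMap K L (w i)) =
          ∑ k, algebraMap K L (b.repr ⟨w, hw⟩ k) • (algebraMap K L ∘ (b k : ι → K)) := by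
        funext i
        conv_lhs => rw [h2]
        simp only [Finset.sum_apply, Pi.smul_apply, smul_eq_mul, map_sum, map_mul,
          Function.comp_apply]
      show (fun i => algebraMap K L (w i)) ∈ _
      rw [h3]
      exact Submodule.sum_mem _ fun k _ =>
        Submodule.smul_mem _ _ (Submodule.subset_span ⟨k, rfl⟩)
    · apply Submodule.span_mono
      rintro _ ⟨k, rfl⟩
      exact ⟨b k, (b k).2, rfl⟩
  rw [e, finrank_span_eq_card hL, Fintype.card_fin]

theorem const_span {ι : Type*} [Fintype ι] (U : Submodule L (ι → L))
    (hU : ∀ (d : Derivation K L L), ∀ u ∈ U, (fun i => d (u i)) ∈ U) :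
    U = Submodule.span L ((fun w i => algebraMap K L (w i)) '' (ratl K U : Set (ι → K))) ∧
      Module.finrank K (ratl K U) = Module.finrank L U := by
  have h : U = Submodule.span L
      ((fun w i => algebraMap K L (w i)) '' (ratl K U : Set (ι → K))) := by
    apply le_antisymm
    · intro u hu
      exact const_aux1 U hU _ u hu le_rfl
    · rw [Submodule.span_le]
      rintro _ ⟨w, hw, rfl⟩
      exact hw
  refine ⟨h, ?_⟩
  rw [const_aux2 (L := L) (ratl K U), ← h]

theorem const_dir {v : Fin 3 → L} (h : ∀ d : Derivation K L L, v ⨯₃ (fun i => d (v i)) = 0) :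
    ∃ (κ : L) (v₀ : Fin 3 → K), v₀ ≠ 0 ∧ v = κ • fun i => algebraMap K L (v₀ i) := by
  by_cases h0 : v = 0
  · exact ⟨0, 1, one_ne_zero, by rw [h0, zero_smul]⟩
  obtain ⟨i, hi⟩ := Function.ne_iff.1 h0
  have hi' : v i ≠ 0 := hi
  have hc : ∀ (d : Derivation K L L) i j, v i * d (v j) = v j * d (v i) := by
    intro d i j
    have h1 := congrFun (h d) 0
    have h2 := congrFun (h d) 1
    have h3 := congrFun (h d) 2
    simp only [cross_apply, cons_val_zero, cons_val_one, cons_val_two, Pi.zero_apply,
      head_cons, tail_cons, Nat.succ_eq_add_one, Nat.reduceAdd] at h1 h2 h3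
    fin_cases i <;> fin_cases j <;> simp only [Fin.zero_eta, Fin.mk_one, Fin.reduceFinMk] <;>
      first
        | rfl
        | linear_combination h1
        | linear_combination -h1
        | linear_combination h2
        | linear_combination -h2
        | linear_combination h3
        | linear_combination -h3
  have hd : ∀ j, ∃ c : K, algebraMap K L c = v j / v i := by
    intro j
    refine const_mem fun d => ?_
    have h1 : d (v j) = d (v j / v i * v i) := by rw [div_mul_cancel₀ _ hi']
    rw [d.leibniz, smul_eq_mul, smul_eq_mul] at h1
    have h2 := hc d i j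
    have h3 : v i * (v i * d (v j / v i)) = 0 := by
      have h4 : v i * (v j / v i) = v j := mul_div_cancel₀ _ hi'
      linear_combination h2 - v i * h1 - d (v i) * h4
    exact (mul_eq_zero.1 ((mul_eq_zero.1 h3).resolve_left hi')).resolve_left hi'
  choose c hc' using hd
  refine ⟨v i, c, fun hz => ?_, ?_⟩
  · have := hc' i
    rw [hz, div_self hi'] at this
    simp at this
  · funext j
    simp only [Pi.smul_apply, smul_eq_mul, hc']
    rw [mul_div_cancel₀ _ hi']

end Vale.Agent.P054
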