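import Vale.Agent.P054.Flat

/-! QT: the forms `qT`, `cT` (about 250 lines).
`evT ξ t` is an algebra map (`Polynomial.eval₂AlgHom'` or `Polynomial.aevalTower`), so `map_d2`, `map_d3` apply, and `evT ξ t (omT h e d a) = n * tv (yt t) d a`. For the degree statements expand `qT`, `cT` by multilinearity: `qT = C Q₀ + X * C Q₁ + X^2 * C Q₂` with `Q₀ = d2 h X om0 om0'` and so on (`map_d2` for `Polynomial.CAlgHom`), and use `degree_d2_le`, `degree_d3_le` (`om0`, `om1` have degree at most `deg h`).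
`hat_poly`: `u ⬝ᵥ y = σ ⬝ᵥ y` for `u = σ + s ⨯₃ y`, and `n • yt t` is affine in `t` with polynomial coefficients.
-/

noncomputable section

open Classical MvPolynomial Matrix Finset

namespace Vale.Agent.P054

variable {Ω : Type*} [Field Ω] [Algebra ℂ Ω] (h : P6) (e : Fin 3)

/-- complex vectors in `Ω` -/
def up {ι : Type*} (Ω : Type*) [Field Ω] [Algebra ℂ Ω] (d : ι → ℂ) : ι → Ω :=
  fun i => algebraMap ℂ Ω (d i)

theorem evT_add (ξ : S6 → Ω) (t : Ω) (p q : Polynomial P6) :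
    evT ξ t (p + q) = evT ξ t p + evT ξ t q := Polynomial.eval₂_add _ _
theorem evT_sub (ξ : S6 → Ω) (t : Ω) (p q : Polynomial P6) :
    evT ξ t (p - q) = evT ξ t p - evT ξ t q := Polynomial.eval₂_sub _
theorem evT_mul (ξ : S6 → Ω) (t : Ω) (p q : Polynomial P6) :
    evT ξ t (p * q) = evT ξ t p * evT ξ t q := Polynomial.eval₂_mul _ _
theorem evT_C (ξ : S6 → Ω) (t : Ω) (f : P6) : evT ξ t (Polynomial.C f) = aeval ξ f :=
  Polynomial.eval₂_C _ _
theorem evT_X (ξ : S6 → Ω) (t : Ω) : evT ξ t Polynomial.X = t := Polynomial.eval₂_X _ _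
theorem evT_of_le {p : Polynomial P6} {k : ℕ} (hp : p.natDegree ≤ k) (ξ : S6 → Ω) (t : Ω) :
    evT ξ t p = ∑ i ∈ range (k + 1), aeval ξ (p.coeff i) * t ^ i :=
  Polynomial.eval₂_eq_sum_range' _ (Nat.lt_succ_of_le hp) t

/-- `evT` as an algebra map -/
def qtHom (ξ : S6 → Ω) (t : Ω) : Polynomial P6 →ₐ[ℂ] Ω :=
  Polynomial.aevalTower (aeval ξ : P6 →ₐ[ℂ] Ω) t

theorem qtHom_apply (ξ : S6 → Ω) (t : Ω) (p : Polynomial P6) : qtHom ξ t p = evT ξ t p := rfl

theorem qt_pt (ξ : S6 → Ω) (t : Ω) :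
    (fun a => qtHom ξ t (Polynomial.C (X a : P6))) = ξ := by
  funext a
  rw [qtHom_apply, evT_C, aeval_X]

theorem qt_smul {ξ : S6 → Ω} (hn : gr h ξ (.inr e) ≠ 0) (t : Ω) :
    gr h ξ (.inr e) • yt h e ξ t =
      Pi.single e 1 ⨯₃ (fun i => gr h ξ (.inl i)) + t • fun i => gr h ξ (.inr i) := by
  rw [yt, smul_inv_smul₀ hn]

theorem qt_single (ξ : S6 → Ω) (i : Fin 3) :
    aeval ξ ((Pi.single e 1 : Fin 3 → P6) i) = (Pi.single e 1 : Fin 3 → Ω) i := by
  simp [Pi.single_apply, apply_ite]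

theorem qt_om {ξ : S6 → Ω} (hn : gr h ξ (.inr e) ≠ 0) (t : Ω) (d : Fin 3 → ℂ) :
    (fun a => qtHom ξ t (omT h e d a)) = gr h ξ (.inr e) • tv (yt h e ξ t) (up Ω d) := by
  funext a
  rw [qtHom_apply, omT, evT_add, evT_mul, evT_C, evT_C, evT_X]
  rcases a with i | i
  · simp [om0, om1, tv, up, gr, mul_comm]
  · have h1 : (gr h ξ (.inr e) • tv (yt h e ξ t) (up Ω d)) (.inr i) =
        (-(up Ω d ⨯₃ (gr h ξ (.inr e) • yt h e ξ t))) i := by
      rw [map_smul, ← smul_neg]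
      rfl
    rw [h1, qt_smul h e hn]
    fin_cases i <;>
      simp [om0, om1, up, gr, cross_apply, qt_single, vecHead, vecTail] <;> ring

theorem evT_qT {ξ : S6 → Ω} (hn : gr h ξ (.inr e) ≠ 0) (t : Ω) (d d' : Fin 3 → ℂ) :
    evT ξ t (qT h e d d') = gr h ξ (.inr e) ^ 2 *
      d2 h ξ (tv (yt h e ξ t) (up Ω d)) (tv (yt h e ξ t) (up Ω d')) := by
  rw [← qtHom_apply, qT, map_d2, qt_pt, qt_om h e hn, qt_om h e hn, d2_smul, d2_comm, d2_smul,
    d2_comm]
  ring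

theorem evT_cT {ξ : S6 → Ω} (hn : gr h ξ (.inr e) ≠ 0) (t : Ω) (d d' d'' : Fin 3 → ℂ) :
    evT ξ t (cT h e d d' d'') = gr h ξ (.inr e) ^ 3 * d3 h ξ (tv (yt h e ξ t) (up Ω d))
      (tv (yt h e ξ t) (up Ω d')) (tv (yt h e ξ t) (up Ω d'')) := by
  rw [← qtHom_apply, cT, map_d3, qt_pt, qt_om h e hn, qt_om h e hn, qt_om h e hn, d3_smul,
    d3_comm, d3_smul, d3_comm, d3_comm', d3_comm, d3_smul, d3_comm, d3_comm']
  ring

/-- bounds on the degree in `t` and on the degrees of the coefficients -/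
def QtBd (p : Polynomial P6) (k n : ℕ) : Prop :=
  p.natDegree ≤ k ∧ ∀ i, (p.coeff i).totalDegree ≤ n

theorem QtBd.mul {p q : Polynomial P6} {k n k' n' : ℕ} (hp : QtBd p k n) (hq : QtBd q k' n') :
    QtBd (p * q) (k + k') (n + n') := by
  refine ⟨Polynomial.natDegree_mul_le.trans (Nat.add_le_add hp.1 hq.1), fun i => ?_⟩
  rw [Polynomial.coeff_mul]
  exact totalDegree_finsetSum_le fun x _ =>
    (totalDegree_mul _ _).trans (Nat.add_le_add (hp.2 _) (hq.2 _))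

theorem QtBd.add {p q : Polynomial P6} {k n : ℕ} (hp : QtBd p k n) (hq : QtBd q k n) :
    QtBd (p + q) k n := by
  refine ⟨(Polynomial.natDegree_add_le _ _).trans (max_le hp.1 hq.1), fun i => ?_⟩
  rw [Polynomial.coeff_add]
  exact (totalDegree_add _ _).trans (max_le (hp.2 _) (hq.2 _))

theorem QtBd.sum {p : S6 → Polynomial P6} {k n : ℕ} (hp : ∀ a, QtBd (p a) k n) :
    QtBd (∑ a, p a) k n := by
  refine ⟨Polynomial.natDegree_sum_le_of_forall_le _ _ fun a _ => (hp a).1, fun i => ?_⟩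
  rw [Polynomial.finsetSum_coeff]
  exact totalDegree_finsetSum_le fun a _ => (hp a).2 i

theorem QtBd.C {f : P6} {k n : ℕ} (hf : f.totalDegree ≤ n) : QtBd (Polynomial.C f) k n := by
  refine ⟨by simp, fun i => ?_⟩
  rw [Polynomial.coeff_C]
  split_ifs
  · exact hf
  · simp

theorem QtBd.X : QtBd Polynomial.X 1 0 := by
  refine ⟨Polynomial.natDegree_X_le, fun i => ?_⟩
  rw [Polynomial.coeff_X]
  split_ifs <;> simp

theorem qt_cross {u v : Fin 3 → P6} {n : ℕ} (hu : ∀ i, (u i).totalDegree ≤ 0)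
    (hv : ∀ i, (v i).totalDegree ≤ n) (i : Fin 3) : ((u ⨯₃ v) i).totalDegree ≤ n := by
  have hm : ∀ i j, (u i * v j).totalDegree ≤ n := fun i j =>
    (totalDegree_mul _ _).trans (by have := hu i; have := hv j; omega)
  have hs : ∀ i j k l, (u i * v j - u k * v l).totalDegree ≤ n := fun i j k l =>
    (totalDegree_sub _ _).trans (max_le (hm _ _) (hm _ _))
  fin_cases i
  · exact hs _ _ _ _
  · exact hs _ _ _ _
  · exact hs _ _ _ _

theorem qt_pd (a : S6) : (pderiv a h).totalDegree ≤ h.totalDegree :=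
  (degree_pderiv_le h a).trans (Nat.sub_le _ _)

theorem qt_omBd (d : Fin 3 → ℂ) (a : S6) : QtBd (omT h e d a) 1 h.totalDegree := by
  have hC : ∀ i, (C (d i) : P6).totalDegree ≤ 0 := fun i => by simp
  have hS : ∀ i, ((Pi.single e 1 : Fin 3 → P6) i).totalDegree ≤ 0 := fun i => by
    rw [Pi.single_apply]
    split_ifs <;> simp
  have h0 : (om0 h e d a).totalDegree ≤ h.totalDegree := by
    rcases a with i | i
    · exact (totalDegree_mul _ _).trans (by simpa using qt_pd h _)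
    · show (-((fun i => C (d i)) ⨯₃ (Pi.single e 1 ⨯₃ fun i => pderiv (.inl i) h)) i).totalDegree
        ≤ _
      rw [totalDegree_neg]
      exact qt_cross hC (qt_cross hS fun i => qt_pd h _) i
  have h1 : (om1 h d a).totalDegree ≤ h.totalDegree := by
    rcases a with i | i
    · simp [om1]
    · show (-((fun i => C (d i)) ⨯₃ fun i => pderiv (.inr i) h) i).totalDegree ≤ _
      rw [totalDegree_neg]
      exact qt_cross hC (fun i => qt_pd h _) i
  have h2 := QtBd.X.mul (QtBd.C (k := 0) h1)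
  rw [zero_add] at h2
  exact (QtBd.C h0).add h2

theorem qt_aevalC (f : P6) : aeval (fun a => Polynomial.C (X a : P6)) f = Polynomial.C f := by
  have : (aeval (fun a => Polynomial.C (X a : P6)) : P6 →ₐ[ℂ] Polynomial P6) =
      Polynomial.CAlgHom := MvPolynomial.algHom_ext fun a => by simp
  rw [this]; rfl

theorem qt_d1 {f : P6} {m n : ℕ} (hf : f.totalDegree ≤ m) {u : S6 → Polynomial P6}
    (hu : ∀ a, QtBd (u a) 1 n) :
    QtBd (d1 f (fun a => Polynomial.C (X a : P6)) u) 1 (n + m) :=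
  QtBd.sum fun a => by
    rw [qt_aevalC]
    exact (hu a).mul (QtBd.C (k := 0) ((qt_pd f a).trans hf))

theorem qt_d2 {f : P6} {m n : ℕ} (hf : f.totalDegree ≤ m) {u u' : S6 → Polynomial P6}
    (hu : ∀ a, QtBd (u a) 1 n) (hu' : ∀ a, QtBd (u' a) 1 n) :
    QtBd (d2 f (fun a => Polynomial.C (X a : P6)) u u') 2 (n + (n + m)) :=
  QtBd.sum fun a => (hu a).mul (qt_d1 ((qt_pd f a).trans hf) hu')

theorem qt_d3 {f : P6} {m n : ℕ} (hf : f.totalDegree ≤ m) {u u' u'' : S6 → Polynomial P6}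
    (hu : ∀ a, QtBd (u a) 1 n) (hu' : ∀ a, QtBd (u' a) 1 n) (hu'' : ∀ a, QtBd (u'' a) 1 n) :
    QtBd (d3 f (fun a => Polynomial.C (X a : P6)) u u' u'') 3 (n + (n + (n + m))) :=
  QtBd.sum fun a => (hu a).mul (qt_d2 ((qt_pd f a).trans hf) hu' hu'')

theorem qT_deg (d d' : Fin 3 → ℂ) : (qT h e d d').natDegree ≤ 2 ∧
    ∀ i, ((qT h e d d').coeff i).totalDegree ≤ 3 * h.totalDegree := by
  have := qt_d2 (le_refl h.totalDegree) (qt_omBd h e d) (qt_omBd h e d')
  rw [show 3 * h.totalDegree = h.totalDegree + (h.totalDegree + h.totalDegree) by ring]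
  exact this

theorem cT_deg (d d' d'' : Fin 3 → ℂ) : (cT h e d d' d'').natDegree ≤ 3 ∧
    ∀ i, ((cT h e d d' d'').coeff i).totalDegree ≤ 4 * h.totalDegree := by
  have := qt_d3 (le_refl h.totalDegree) (qt_omBd h e d) (qt_omBd h e d') (qt_omBd h e d'')
  rw [show 4 * h.totalDegree =
    h.totalDegree + (h.totalDegree + (h.totalDegree + h.totalDegree)) by ring]
  exact this

theorem qt_yflat {h : P6} {z : Z ℂ} (hz : res z h = 0) {s : Fin 3 → ℂ}
    (hn : gr h (fp z s) (.inr e) ≠ 0) : yt h e (fp z s) (z.1 e) = z.1 :=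
  congrArg Prod.fst (zt_flat hz hn)

theorem qT_flat {h : P6} {z : Z ℂ} (hz : res z h = 0) {s : Fin 3 → ℂ}
    (hn : gr h (fp z s) (.inr e) ≠ 0) (d d' : Fin 3 → ℂ) :
    evT (fp z s) (z.1 e) (qT h e d d') = 0 := by
  rw [evT_qT h e hn, qt_yflat e hz hn, flat_d2 hz, mul_zero]

theorem cT_flat {h : P6} {z : Z ℂ} (hz : res z h = 0) {s : Fin 3 → ℂ}
    (hn : gr h (fp z s) (.inr e) ≠ 0) (d d' d'' : Fin 3 → ℂ) :
    evT (fp z s) (z.1 e) (cT h e d d' d'') = 0 := by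
  rw [evT_cT h e hn, qt_yflat e hz hn, flat_d3 hz, mul_zero]

/-- the pairing with `a` in homogeneous coordinates -/
def qtF {R : Type*} [CommRing R] (a : S8 → R) (ξ : S6 → R) (n : R) (Y : Fin 3 → R) : R :=
  -(a (.inl none) * ((fun i => ξ (.inr i)) ⬝ᵥ Y)) + a (.inr none) * n +
    (fun i => a (.inl (some i))) ⬝ᵥ (n • (fun i => ξ (.inr i)) + (fun i => ξ (.inl i)) ⨯₃ Y) +
    (fun i => a (.inr (some i))) ⬝ᵥ Y

theorem qtF_bf {R : Type*} [CommRing R] (a : S8 → R) (ξ : S6 → R) (n : R) (y : Fin 3 → R) :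
    qtF a ξ n (n • y) =
      n * bf a (hat (y, (fun i => ξ (.inr i)) + (fun i => ξ (.inl i)) ⨯₃ y)) := by
  simp [qtF, bf, hat, Fintype.sum_option, cross_apply, dotProduct, Fin.sum_univ_three, vecHead,
    vecTail]
  ring

theorem qtF_add {R : Type*} [CommRing R] (a : S8 → R) (ξ : S6 → R) (n t : R) (Y Y' : Fin 3 → R) :
    qtF a ξ n (Y + t • Y') = qtF a ξ n Y + t * qtF a ξ 0 Y' := by
  simp [qtF, cross_apply, dotProduct, Fin.sum_univ_three]
  ring

theorem qtF_map (a : S8 → ℂ) (ξ : S6 → Ω) (n : P6) (Y : Fin 3 → P6) :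
    aeval ξ (qtF (fun o => C (a o)) X n Y) =
      qtF (up Ω a) ξ (aeval ξ n) fun i => aeval ξ (Y i) := by
  simp [qtF, up, cross_apply, dotProduct, Fin.sum_univ_three]

theorem hat_poly (a : S8 → ℂ) : ∃ p : Polynomial P6, p.natDegree ≤ 1 ∧
    ∀ (R : Type) [Field R] [Algebra ℂ R] (ξ : S6 → R) (t : R), gr h ξ (.inr e) ≠ 0 →
      evT ξ t p = gr h ξ (.inr e) * bf (up R a) (hat (zt h e ξ t)) := by
  refine ⟨Polynomial.C (qtF (fun o => C (a o)) X (pderiv (.inr e) h)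
      (Pi.single e 1 ⨯₃ fun i => pderiv (.inl i) h)) +
    Polynomial.X * Polynomial.C (qtF (fun o => C (a o)) X 0 fun i => pderiv (.inr i) h), ?_, ?_⟩
  · exact (Polynomial.natDegree_add_le _ _).trans (max_le (by simp)
      (Polynomial.natDegree_mul_le.trans (by simp)))
  · intro R _ _ ξ t hn
    rw [zt, ← qtF_bf, qt_smul h e hn, qtF_add, evT_add, evT_mul, evT_C, evT_C, evT_X, qtF_map,
      qtF_map, map_zero]
    have h1 : (fun i => aeval ξ ((Pi.single e 1 ⨯₃ fun i => pderiv (Sum.inl i) h) i)) =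
        Pi.single e 1 ⨯₃ fun i => gr h ξ (.inl i) := by
      funext i
      fin_cases i <;> simp [cross_apply, gr, qt_single]
    rw [h1]
    rfl

end Vale.Agent.P054
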