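import Vale.Agent.P054.LStar
import Vale.Agent.P054.QT

/-! GenOut: the second and third order forms at the generic point (about 350 lines).
At a common point `x = fp z s = fp w s` with `n(x) ≠ 0` the parameters `z.1 e`, `w.1 e` differ (`zt_flat`, `Sit.adj_ne`). `vanish2`: both are roots of the linear polynomial, so `n * coeff` vanishes on all neighbour lines, `NC.vanish`, `lstar`. `exists_pair`: `h` is prime and does not divide `g * n`; `lstar`, then `NC` for `res z (g * n)`.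
`gen_out`: if `h` divides all `(qT d d').coeff 2`, apply `vanish2` to `qT - X^2 * C (coeff 2)` (on a flat the removed term vanishes). Otherwise fix `d₀ d₀'`, `q = qT d₀ d₀'`, `Q = q.coeff 2`; `h` does not divide the discriminant (at a point from `exists_pair` the quadratic has two distinct roots), so `q` has roots `t₁ ≠ t₂` at `ξ`. Apply `vanish2` to `C Q * qT d d' - C ((qT d d').coeff 2) * q` and to the remainder `C Q^2 * c - q * (C (Q c₃) * X + C (Q c₂ - Q₁ c₃))` of `c = cT d d' d''`.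
-/

noncomputable section

open Classical MvPolynomial Matrix Finset

namespace Vale.Agent.P054

variable {adj : Z ℂ → Z ℂ → Prop} {B A : ℕ} {G : Finset (Z ℂ)} {h : P6} {e : Fin 3}

theorem genout_gr (h : P6) (x : S6 → ℂ) (a : S6) : gr h x a = eval x (pderiv a h) := by
  rw [gr, aeval_eq_eval]

theorem genout_n (hS : Sit adj B G h e A) : ¬ h ∣ pderiv (.inr e) h := by
  rintro ⟨c, hc⟩
  obtain ⟨z, hz⟩ := hS.ne
  exact hS.nsing z hz (by rw [hc, map_mul, hS.van z hz, zero_mul])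

theorem genout_ne (hS : Sit adj B G h e A) {z w : Z ℂ} (hz : z ∈ G) (hw : w ∈ G) (ha : adj z w)
    {s : Fin 3 → ℂ} (hs : fp z s = fp w s) (hn : gr h (fp z s) (.inr e) ≠ 0) : w.1 e ≠ z.1 e := by
  intro h1
  have h2 := zt_flat (hS.van z hz) hn
  have h3 := zt_flat (hS.van w hw) (hs ▸ hn)
  rw [← hs, h1, h2] at h3
  exact hS.adj_ne z w ha (by rw [h3])

theorem genout_deg {f g : P6} {a b c : ℕ} (hf : f.totalDegree ≤ a * c)
    (hg : g.totalDegree ≤ b * c) : (f * g).totalDegree ≤ (a + b) * c :=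
  (totalDegree_mul f g).trans (by rw [add_mul]; exact add_le_add hf hg)

theorem genout_sub {f g : P6} {a : ℕ} (hf : f.totalDegree ≤ a) (hg : g.totalDegree ≤ a) :
    (f - g).totalDegree ≤ a := (totalDegree_sub f g).trans (max_le hf hg)

theorem genout_dn (h : P6) (a : S6) : (pderiv a h).totalDegree ≤ 1 * h.totalDegree :=
  (degree_pderiv_le h a).trans (by omega)

theorem genout_dvd {z : Z ℂ} (hz : res z h = 0) {g : P6} (hg : h ∣ g) (s : Fin 3 → ℂ) :
    eval (fp z s) g = 0 := by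
  obtain ⟨c, rfl⟩ := hg
  rw [map_mul, res_eq_zero.1 hz s, zero_mul]

theorem genout_lin (hS : Sit adj B G h e A) (hA : 70000 ≤ A) {a₀ a₁ : P6}
    (h0 : a₀.totalDegree ≤ 10 * h.totalDegree) (h1 : a₁.totalDegree ≤ 10 * h.totalDegree)
    (hv : ∀ z ∈ G, ∀ s, gr h (fp z s) (.inr e) ≠ 0 →
      eval (fp z s) a₀ + eval (fp z s) a₁ * z.1 e = 0) : h ∣ a₀ ∧ h ∣ a₁ := by
  have key : ∀ a : P6, a.totalDegree ≤ 10 * h.totalDegree →
      (∀ x, eval x a₀ = 0 → eval x a₁ = 0 → eval x a = 0) → h ∣ a := by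
    intro a ha hx
    have hd := genout_deg (genout_dn h (.inr e)) ha
    refine (hS.irr.prime.dvd_or_dvd (hS.lstar (C := 1 + 10) (by omega) (by omega) hd
      fun z hz => hS.nc.vanish hz (hd.trans (Nat.mul_le_mul_right _ (by omega)))
        fun w hw hzw s hs => ?_)).resolve_left (genout_n hS)
    rw [map_mul, ← genout_gr]
    by_cases hn : gr h (fp z s) (.inr e) = 0
    · rw [hn, zero_mul]
    have e1 := fp_eq hs
    have e2 := hv z hz s hn
    have e3 := hv w hw s (e1 ▸ hn)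
    rw [← e1] at e3
    have e4 : eval (fp z s) a₁ = 0 := (mul_eq_zero.1 (show eval (fp z s) a₁ * (w.1 e - z.1 e) = 0 by
      linear_combination e3 - e2)).resolve_right (sub_ne_zero.2 (genout_ne hS hz hw hzw e1 hn))
    rw [e4, zero_mul, add_zero] at e2
    rw [hx _ e2 e4, mul_zero]
  exact ⟨key _ h0 fun _ h _ => h, key _ h1 fun _ _ h => h⟩

theorem Sit.vanish2 (hS : Sit adj B G h e A) (hA : 70000 ≤ A) {p : Polynomial P6}
    (hp : p.natDegree ≤ 1) (hd : ∀ i, (p.coeff i).totalDegree ≤ 10 * h.totalDegree)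
    (hv : ∀ z ∈ G, ∀ s, gr h (fp z s) (.inr e) ≠ 0 → evT (fp z s) (z.1 e) p = 0) (i : ℕ) :
    h ∣ p.coeff i := by
  have key := genout_lin hS hA (hd 0) (hd 1) fun z hz s hn => by
    have h1 := hv z hz s hn
    rw [evT_of_le hp] at h1
    simpa [Finset.sum_range_succ, aeval_eq_eval] using h1
  rcases i with _ | _ | i
  · exact key.1
  · exact key.2
  · rw [Polynomial.coeff_eq_zero_of_natDegree_lt (by omega)]
    exact dvd_zero _

theorem Sit.exists_pair (hS : Sit adj B G h e A) (hA : 70000 ≤ A) {g : P6} (hg : ¬ h ∣ g)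
    (hd : g.totalDegree ≤ 10 * h.totalDegree) :
    ∃ z ∈ G, B < (G.filter fun w => ∃ s, fp z s = fp w s ∧ w.1 e ≠ z.1 e ∧
      gr h (fp w s) (.inr e) ≠ 0 ∧ eval (fp w s) g ≠ 0).card := by
  have hd' := genout_deg (genout_dn h (.inr e)) hd
  have h1 : ¬∀ z ∈ G, res z (pderiv (.inr e) h * g) = 0 := fun hv =>
    (hS.irr.prime.dvd_or_dvd (hS.lstar (C := 1 + 10) (by omega) (by omega) hd' hv)).elim
      (genout_n hS) hg
  push Not at h1
  obtain ⟨z, hz, h2⟩ := h1
  refine ⟨z, hz, (hS.nc z hz _ h2 ((degree_res_le z _).trans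
    (hd'.trans (Nat.mul_le_mul_right _ (by omega))))).trans_le (card_le_card fun w hw => ?_)⟩
  obtain ⟨hw, hzw, h3⟩ := mem_filter.1 hw
  simp only [OnL, not_forall] at h3
  obtain ⟨s, hs, h4⟩ := h3
  have e1 := fp_eq hs
  rw [eval_res, map_mul, ← genout_gr] at h4
  exact mem_filter.2 ⟨hw, s, e1, genout_ne hS hz hw hzw e1 (left_ne_zero_of_mul h4),
    e1 ▸ left_ne_zero_of_mul h4, e1 ▸ right_ne_zero_of_mul h4⟩

variable {Ω : Type*} [Field Ω] [Algebra ℂ Ω] {ξ : S6 → Ω}

theorem genout_gen (hξ : IsGen (Ideal.span {h}) ξ) (f : P6) : aeval ξ f = 0 ↔ h ∣ f :=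
  (hξ f).trans Ideal.mem_span_singleton

theorem Sit.genH (hS : Sit adj B G h e A) (hA : 70000 ≤ A) (hξ : IsGen (Ideal.span {h}) ξ) :
    GenH h e ξ := by
  refine ⟨hξ, fun h0 => genout_n hS ((genout_gen hξ _).1 h0), ?_⟩
  have h1 : h ∣ ∑ i : Fin 3, pderiv (.inl i) h * pderiv (.inr i) h := by
    refine hS.lstar (C := 1 + 1) (by omega) (by omega)
      (totalDegree_finsetSum_le fun i _ => genout_deg (genout_dn h _) (genout_dn h _))
      fun z hz => res_eq_zero.2 fun s => ?_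
    have h2 := dot_cross_self z.1 fun i => gr h (fp z s) (.inr i)
    rw [← grad_flat (hS.van z hz) s, dotProduct_comm] at h2
    simpa only [map_sum, map_mul, ← genout_gr, dotProduct] using h2
  simpa only [map_sum, map_mul, dotProduct, gr] using (genout_gen hξ _).2 h1

theorem genout_q {R : Type*} [Field R] [Algebra ℂ R] (x : S6 → R) (t : R) (d d' : Fin 3 → ℂ) :
    evT x t (qT h e d d') = aeval x ((qT h e d d').coeff 0) + aeval x ((qT h e d d').coeff 1) * t +
      aeval x ((qT h e d d').coeff 2) * t ^ 2 := by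
  rw [evT_of_le (qT_deg h e d d').1]
  simp only [Finset.sum_range_succ, Finset.range_zero, Finset.sum_empty, pow_zero, pow_one,
    mul_one, zero_add]

theorem genout_c {R : Type*} [Field R] [Algebra ℂ R] (x : S6 → R) (t : R) (d d' d'' : Fin 3 → ℂ) :
    evT x t (cT h e d d' d'') = aeval x ((cT h e d d' d'').coeff 0) +
      aeval x ((cT h e d d' d'').coeff 1) * t + aeval x ((cT h e d d' d'').coeff 2) * t ^ 2 +
        aeval x ((cT h e d d' d'').coeff 3) * t ^ 3 := by
  rw [evT_of_le (cT_deg h e d d' d'').1]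
  simp only [Finset.sum_range_succ, Finset.range_zero, Finset.sum_empty, pow_zero, pow_one,
    mul_one, zero_add]

theorem genout_qf (hS : Sit adj B G h e A) {z : Z ℂ} (hz : z ∈ G) {s : Fin 3 → ℂ}
    (hn : gr h (fp z s) (.inr e) ≠ 0) (d d' : Fin 3 → ℂ) :
    eval (fp z s) ((qT h e d d').coeff 0) + eval (fp z s) ((qT h e d d').coeff 1) * z.1 e +
      eval (fp z s) ((qT h e d d').coeff 2) * z.1 e ^ 2 = 0 := by
  have h1 := qT_flat e (hS.van z hz) hn d d'
  rwa [genout_q, aeval_eq_eval] at h1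

theorem genout_disc (hS : Sit adj B G h e A) (hA : 70000 ≤ A) {d d' : Fin 3 → ℂ}
    (hQ : ¬ h ∣ (qT h e d d').coeff 2) : ¬ h ∣ (qT h e d d').coeff 1 * (qT h e d d').coeff 1 -
      4 * ((qT h e d d').coeff 2 * (qT h e d d').coeff 0) := by
  intro hD
  obtain ⟨z, hz, h1⟩ := hS.exists_pair hA hQ (((qT_deg h e d d').2 2).trans (by omega))
  obtain ⟨w, hw⟩ := card_pos.1 (Nat.zero_lt_of_lt h1)
  obtain ⟨hw, s, e1, h2, h3, h4⟩ := mem_filter.1 hw
  have a1 := genout_qf hS hw h3 d d'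
  have a2 := genout_qf hS hz (e1 ▸ h3) d d'
  have a3 := genout_dvd (hS.van w hw) hD s
  rw [e1] at a2
  simp only [map_sub, map_mul, map_ofNat] at a3
  generalize eval (fp w s) ((qT h e d d').coeff 0) = q₀ at a1 a2 a3
  generalize eval (fp w s) ((qT h e d d').coeff 1) = q₁ at a1 a2 a3
  generalize eval (fp w s) ((qT h e d d').coeff 2) = q₂ at a1 a2 a3 h4
  have b1 : 2 * q₂ * w.1 e + q₁ = 0 :=
    pow_eq_zero_iff two_ne_zero |>.1 (by linear_combination a3 + 4 * q₂ * a1)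
  have b2 : 2 * q₂ * z.1 e + q₁ = 0 :=
    pow_eq_zero_iff two_ne_zero |>.1 (by linear_combination a3 + 4 * q₂ * a2)
  exact h2 (mul_left_cancel₀ (mul_ne_zero two_ne_zero h4) (by linear_combination b1 - b2))

theorem genout_q2 (hS : Sit adj B G h e A) (hA : 70000 ≤ A) (hξ : IsGen (Ideal.span {h}) ξ)
    {d₀ d₀' : Fin 3 → ℂ} (hQ : ¬ h ∣ (qT h e d₀ d₀').coeff 2) {t : Ω}
    (ht : evT ξ t (qT h e d₀ d₀') = 0) (d d' : Fin 3 → ℂ) : evT ξ t (qT h e d d') = 0 := by
  have g0 := (qT_deg h e d₀ d₀').2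
  have g1 := (qT_deg h e d d').2
  obtain ⟨a0, a1⟩ := genout_lin hS hA
    ((genout_sub (genout_deg (g0 2) (g1 0)) (genout_deg (g1 2) (g0 0))).trans (by omega))
    ((genout_sub (genout_deg (g0 2) (g1 1)) (genout_deg (g1 2) (g0 1))).trans (by omega))
    fun z hz s hn => by
      simp only [map_sub, map_mul]
      linear_combination eval (fp z s) ((qT h e d₀ d₀').coeff 2) * genout_qf hS hz hn d d' -
        eval (fp z s) ((qT h e d d').coeff 2) * genout_qf hS hz hn d₀ d₀'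
  have b0 := (genout_gen hξ _).2 a0
  have b1 := (genout_gen hξ _).2 a1
  simp only [map_sub, map_mul] at b0 b1
  rw [genout_q] at ht ⊢
  refine (mul_eq_zero.1 ?_).resolve_left fun h0 => hQ ((genout_gen hξ _).1 h0)
  linear_combination b0 + t * b1 + aeval ξ ((qT h e d d').coeff 2) * ht

theorem genout_c2 (hS : Sit adj B G h e A) (hA : 70000 ≤ A) (hξ : IsGen (Ideal.span {h}) ξ)
    {d₀ d₀' : Fin 3 → ℂ} (hQ : ¬ h ∣ (qT h e d₀ d₀').coeff 2) {t : Ω}
    (ht : evT ξ t (qT h e d₀ d₀') = 0) (d d' d'' : Fin 3 → ℂ) :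
    evT ξ t (cT h e d d' d'') = 0 := by
  have g0 := (qT_deg h e d₀ d₀').2
  have g1 := (cT_deg h e d d' d'').2
  have g2 := genout_sub (genout_deg (g0 2) (g1 2)) (genout_deg (g0 1) (g1 3))
  obtain ⟨a0, a1⟩ := genout_lin hS hA
    (genout_sub (genout_deg (g0 2) (genout_deg (g0 2) (g1 0))) (genout_deg (g0 0) g2))
    (genout_sub (genout_sub (genout_deg (g0 2) (genout_deg (g0 2) (g1 1)))
      (genout_deg (g0 0) (genout_deg (g0 2) (g1 3)))) (genout_deg (g0 1) g2))
    fun z hz s hn => by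
      have h1 := cT_flat e (hS.van z hz) hn d d' d''
      rw [genout_c, aeval_eq_eval] at h1
      have h2 := genout_qf hS hz hn d₀ d₀'
      simp only [map_sub, map_mul]
      linear_combination eval (fp z s) ((qT h e d₀ d₀').coeff 2) ^ 2 * h1 -
        (eval (fp z s) ((qT h e d₀ d₀').coeff 2) * eval (fp z s) ((cT h e d d' d'').coeff 3) *
          z.1 e + (eval (fp z s) ((qT h e d₀ d₀').coeff 2) *
            eval (fp z s) ((cT h e d d' d'').coeff 2) - eval (fp z s) ((qT h e d₀ d₀').coeff 1) *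
              eval (fp z s) ((cT h e d d' d'').coeff 3))) * h2
  have b0 := (genout_gen hξ _).2 a0
  have b1 := (genout_gen hξ _).2 a1
  simp only [map_sub, map_mul] at b0 b1
  rw [genout_q] at ht
  rw [genout_c]
  refine (mul_eq_zero.1 ?_).resolve_left
    (pow_ne_zero 2 fun h0 => hQ ((genout_gen hξ _).1 h0))
  linear_combination b0 + t * b1 + (aeval ξ ((qT h e d₀ d₀').coeff 2) *
    aeval ξ ((cT h e d d' d'').coeff 3) * t + (aeval ξ ((qT h e d₀ d₀').coeff 2) *
      aeval ξ ((cT h e d d' d'').coeff 2) - aeval ξ ((qT h e d₀ d₀').coeff 1) *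
        aeval ξ ((cT h e d d' d'').coeff 3))) * ht

theorem Sit.gen_out [IsAlgClosed Ω] (hS : Sit adj B G h e A) (hA : 70000 ≤ A)
    (hξ : IsGen (Ideal.span {h}) ξ) :
    (∀ d d' i, h ∣ (qT h e d d').coeff i) ∨
      ∃ (d₀ d₀' : Fin 3 → ℂ) (t₁ t₂ : Ω), t₁ ≠ t₂ ∧ ¬ h ∣ (qT h e d₀ d₀').coeff 2 ∧
        (∀ t, evT ξ t (qT h e d₀ d₀') =
          aeval ξ ((qT h e d₀ d₀').coeff 2) * (t - t₁) * (t - t₂)) ∧
        ∀ t, t = t₁ ∨ t = t₂ → (∀ d d', evT ξ t (qT h e d d') = 0) ∧
          ∀ d d' d'', evT ξ t (cT h e d d' d'') = 0 := by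
  by_cases hc : ∀ d d', h ∣ (qT h e d d').coeff 2
  · refine Or.inl fun d d' i => ?_
    have g1 := (qT_deg h e d d').2
    have key := genout_lin hS hA ((g1 0).trans (by omega)) ((g1 1).trans (by omega))
      fun z hz s hn => by
        have h1 := genout_qf hS hz hn d d'
        rwa [genout_dvd (hS.van z hz) (hc d d'), zero_mul, add_zero] at h1
    rcases i with _ | _ | _ | i
    · exact key.1
    · exact key.2
    · exact hc d d'
    · rw [Polynomial.coeff_eq_zero_of_natDegree_lt ((qT_deg h e d d').1.trans_lt (by omega))]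
      exact dvd_zero _
  push Not at hc
  obtain ⟨d₀, d₀', hQ⟩ := hc
  have : CharZero Ω := charZero_of_injective_algebraMap (algebraMap ℂ Ω).injective
  have hD := fun h0 => genout_disc hS hA hQ ((genout_gen hξ _).1 h0)
  have hQ' := fun h0 => hQ ((genout_gen hξ _).1 h0)
  have hq := fun t => genout_q (h := h) (e := e) ξ t d₀ d₀'
  simp only [map_sub, map_mul, map_ofNat] at hD
  obtain ⟨r, hr⟩ := IsAlgClosed.exists_eq_mul_self (aeval ξ ((qT h e d₀ d₀').coeff 1) *
    aeval ξ ((qT h e d₀ d₀').coeff 1) -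
      4 * (aeval ξ ((qT h e d₀ d₀').coeff 2) * aeval ξ ((qT h e d₀ d₀').coeff 0)))
  have r0 : r ≠ 0 := fun h0 => hD (by rw [hr, h0, mul_zero])
  have hf : ∀ t, evT ξ t (qT h e d₀ d₀') = aeval ξ ((qT h e d₀ d₀').coeff 2) *
      (t - (-aeval ξ ((qT h e d₀ d₀').coeff 1) + r) / (2 * aeval ξ ((qT h e d₀ d₀').coeff 2))) *
      (t - (-aeval ξ ((qT h e d₀ d₀').coeff 1) - r) / (2 * aeval ξ ((qT h e d₀ d₀').coeff 2))) := by
    intro t
    rw [hq]
    have h2 : aeval ξ ((qT h e d₀ d₀').coeff 2) ≠ 0 := hQ'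
    field_simp
    linear_combination -hr
  refine Or.inr ⟨d₀, d₀', _, _, fun h0 => r0 ?_, hQ, hf, fun t ht => ?_⟩
  · rw [div_left_inj' (mul_ne_zero two_ne_zero hQ')] at h0
    linear_combination h0 / 2
  · have h0 : evT ξ t (qT h e d₀ d₀') = 0 := by
      rw [hf]
      rcases ht with rfl | rfl <;> simp
    exact ⟨genout_q2 hS hA hξ hQ h0, genout_c2 hS hA hξ hQ h0⟩

end Vale.Agent.P054
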