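import Vale.Agent.P054.Hilb

/-! Krull: curves through a point, good slices, generic points (about 250 lines).
`exists_curve`: `Ideal.exists_minimalPrimes_le`; height at most 2 by `Ideal.height_le_card_of_mem_minimalPrimes_span`; the kernel of evaluation at `y` has height at least 3 (chain of kernels of the substitutions that fix 3, 2, 1, 0 variables), so some `f` vanishing at `y` is not in `q`.
`slice`: for `l` distinct bad values `c` with primes `q c` and coordinates `i c`, the elements `L_c(ν ⬝ᵥ X) * X (i c) ^ k` (`L_c` Lagrange polynomials of degree `l - 1`, `k ≤ T - l + 1`) are linearly independent modulo `⨅ q c`; compare with `hilb2` (`n = 1`) for large `T`: `l ≤ deg h * deg g`. So the bad set is finite.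
`exists_gen`: the images of the variables in `Om I`.
-/

noncomputable section

open Classical MvPolynomial Matrix Finset

namespace Vale.Agent.P054

/-- substitution of the coordinates in `S` -/
def krull_sub {F : Type*} [Field F] (y : Fin 3 → F) (S : Finset (Fin 3)) :
    MvPolynomial (Fin 3) F →ₐ[F] MvPolynomial (Fin 3) F :=
  aeval fun i => if i ∈ S then C (y i) else X i

theorem krull_lt {F : Type*} [Field F] (y : Fin 3 → F) {S : Finset (Fin 3)} {j : Fin 3}
    (hj : j ∉ S) : RingHom.ker (krull_sub y S) < RingHom.ker (krull_sub y (insert j S)) := by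
  have e : (krull_sub y (insert j S)).comp (krull_sub y S) = krull_sub y (insert j S) := by
    ext1 i
    by_cases hi : i ∈ S
    · simp [krull_sub, hi]
    · simp [krull_sub, hi]
  refine lt_of_le_of_ne (fun f hf => ?_) fun h => ?_
  · rw [RingHom.mem_ker] at hf ⊢
    rw [← e, AlgHom.comp_apply, hf, map_zero]
  · have h1 : X j - C (y j) ∈ RingHom.ker (krull_sub y (insert j S)) := by
      simp [RingHom.mem_ker, krull_sub]
    rw [← h, RingHom.mem_ker] at h1
    have h2 := congrArg (eval fun _ => y j + 1) h1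
    simp [krull_sub, hj] at h2

theorem krull_three {F : Type*} [Field F] (y : Fin 3 → F) :
    3 ≤ (RingHom.ker (eval y : MvPolynomial (Fin 3) F →+* F)).height := by
  have hp : ∀ S, (RingHom.ker (krull_sub y S)).IsPrime := fun S => RingHom.ker_isPrime _
  have h1 := Ideal.height_add_one_le_of_lt_of_isPrime (krull_lt y (S := ∅) (j := 0) (by simp))
  have h2 := Ideal.height_add_one_le_of_lt_of_isPrime
    (krull_lt y (S := insert 0 ∅) (j := 1) (by simp))
  have h3 := Ideal.height_add_one_le_of_lt_of_isPrime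
    (krull_lt y (S := insert 1 (insert 0 ∅)) (j := 2) (by simp))
  have e : RingHom.ker (krull_sub y (insert 2 (insert 1 (insert 0 ∅)))) =
      RingHom.ker (eval y : MvPolynomial (Fin 3) F →+* F) := by
    have e1 : ∀ f, krull_sub y (insert 2 (insert 1 (insert 0 ∅))) f = C (eval y f) := by
      intro f
      have e2 : krull_sub y (insert 2 (insert 1 (insert 0 ∅))) =
          (Algebra.ofId F _).comp (aeval y) := by
        ext1 i
        fin_cases i <;> simp [krull_sub]
      rw [e2]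
      rfl
    ext f
    rw [RingHom.mem_ker, RingHom.mem_ker, e1, C_eq_zero]
  rw [e] at h3
  calc (3 : ℕ∞) = 0 + 1 + 1 + 1 := by norm_num
    _ ≤ _ := le_trans (add_le_add_left (le_trans (add_le_add_left
        (le_trans (add_le_add_left zero_le 1) h1) 1) h2) 1) h3

theorem krull_min {h g : P3} (hh : h ≠ 0) (hr : IsRelPrime h g) {q : Ideal P3} (hq : q.IsPrime)
    (h1 : h ∈ q) (h2 : g ∈ q) {i : Fin 3}
    (hi : ∀ f : Polynomial ℂ, Polynomial.aeval (X i : P3) f ∈ q → f = 0) :
    q ∈ (Ideal.span {h, g}).minimalPrimes := by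
  have hle : Ideal.span {h, g} ≤ q := by
    rw [Ideal.span_le]
    rintro x (rfl | rfl)
    exacts [h1, h2]
  obtain ⟨p, hp, hpq⟩ := Ideal.exists_minimalPrimes_le hle
  rcases hpq.eq_or_lt with e | hlt
  · exact e ▸ hp
  exfalso
  have hpp : p.IsPrime := hp.1.1
  have hhp : h ∈ p := hp.1.2 (Ideal.subset_span (Set.mem_insert _ _))
  have hgp : g ∈ p := hp.1.2 (Ideal.subset_span (Set.mem_insert_of_mem _ rfl))
  obtain ⟨s, hs, u, hu⟩ := UniqueFactorizationMonoid.exists_prime_factors h hh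
  have hsp : s.prod ∈ p := by
    have := p.mul_mem_right (↑u⁻¹) hhp
    rwa [← hu, Units.mul_inv_cancel_right] at this
  obtain ⟨π, hπ, hπp⟩ := (hpp.multiset_prod_mem_iff_exists_mem s).1 hsp
  have hπ1 := hs π hπ
  have hπh : π ∣ h := hu ▸ (Multiset.dvd_prod hπ).mul_right _
  have i1 : (Ideal.span {π}).IsPrime := (Ideal.span_singleton_prime hπ1.ne_zero).2 hπ1
  have l1 : (⊥ : Ideal P3) < Ideal.span {π} :=
    bot_lt_iff_ne_bot.2 (mt Ideal.span_singleton_eq_bot.1 hπ1.ne_zero)
  have l2 : Ideal.span {π} < p := by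
    refine lt_of_le_of_ne ((Ideal.span_singleton_le_iff_mem _).2 hπp) fun e => ?_
    rw [← e, Ideal.mem_span_singleton] at hgp
    exact hπ1.not_isUnit (hr hπh hgp)
  obtain ⟨m, hm, hqm⟩ := Ideal.exists_le_maximal q hq.ne_top
  have l4 : q < m := by
    refine lt_of_le_of_ne hqm fun e => ?_
    obtain ⟨x, hx⟩ := isMaximal_iff_eq_vanishingIdeal_singleton.1 hm
    refine Polynomial.X_sub_C_ne_zero (x i) (hi _ ?_)
    rw [e, hx, mem_vanishingIdeal_singleton_iff]
    simp
  have i2 := hm.isPrime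
  have a1 := Ideal.height_add_one_le_of_lt_of_isPrime l1
  have a2 := Ideal.height_add_one_le_of_lt_of_isPrime l2
  have a3 := Ideal.height_add_one_le_of_lt_of_isPrime hlt
  have a4 := Ideal.height_add_one_le_of_lt_of_isPrime l4
  have a5 : (4 : ℕ∞) ≤ m.height :=
    calc (4 : ℕ∞) = 0 + 1 + 1 + 1 + 1 := by norm_num
      _ ≤ _ := le_trans (add_le_add_left (le_trans (add_le_add_left (le_trans (add_le_add_left
        (le_trans (add_le_add_left zero_le 1) a1) 1) a2) 1) a3) 1) a4
  have a6 := Ideal.height_le_ringKrullDim_of_ne_top hm.ne_top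
  rw [MvPolynomial.ringKrullDim_of_isNoetherianRing, ringKrullDim_eq_zero_of_field, zero_add,
    Nat.card_fin] at a6
  have a7 : ((4 : ℕ∞) : WithBot ℕ∞) ≤ (3 : ℕ) := (WithBot.coe_le_coe.2 a5).trans a6
  exact absurd a7 (by decide)

theorem exists_curve {F : Type*} [Field F] (g₁ g₂ : MvPolynomial (Fin 3) F) {y : Fin 3 → F}
    (h1 : eval y g₁ = 0) (h2 : eval y g₂ = 0) :
    ∃ q ∈ (Ideal.span {g₁, g₂}).minimalPrimes, (∀ f ∈ q, eval y f = 0) ∧
      ∃ f, eval y f = 0 ∧ f ∉ q := by
  have hm : (RingHom.ker (eval y : MvPolynomial (Fin 3) F →+* F)).IsPrime := RingHom.ker_isPrime _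
  have hle : Ideal.span {g₁, g₂} ≤ RingHom.ker (eval y : MvPolynomial (Fin 3) F →+* F) := by
    rw [Ideal.span_le]
    rintro x (rfl | rfl)
    exacts [h1, h2]
  obtain ⟨q, hq, hqm⟩ := Ideal.exists_minimalPrimes_le hle
  refine ⟨q, hq, fun f hf => hqm hf, ?_⟩
  by_contra hc
  push Not at hc
  have e : q = RingHom.ker (eval y : MvPolynomial (Fin 3) F →+* F) :=
    le_antisymm hqm fun f hf => hc f hf
  have a1 := Ideal.height_le_card_of_mem_minimalPrimes_span (Set.toFinite _) hq
  have a2 : ({g₁, g₂} : Set (MvPolynomial (Fin 3) F)).ncard ≤ 2 := by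
    refine (Set.ncard_insert_le _ _).trans ?_
    rw [Set.ncard_singleton]
  have a3 := krull_three y
  rw [← e] at a3
  have a4 : (3 : ℕ∞) ≤ (2 : ℕ) := a3.trans (a1.trans (by exact_mod_cast a2))
  exact absurd a4 (by decide)

theorem slice {h g : P3} (hh : h ≠ 0) (hg : g ≠ 0) (hr : IsRelPrime h g) (ν : Fin 3 → ℂ) :
    {c : ℂ | ∃ q : Ideal P3, q.IsPrime ∧ h ∈ q ∧ g ∈ q ∧ lin ν c ∈ q ∧
      ∃ i, ∀ f : Polynomial ℂ, Polynomial.aeval (X i : P3) f ∈ q → f = 0}.Finite := by
  have _ := hg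
  refine Set.Finite.subset (Set.Finite.biUnion
    (Ideal.finite_minimalPrimes_of_isNoetherianRing P3 (Ideal.span {h, g}))
    (t := fun q => {c : ℂ | lin ν c ∈ q}) fun q hq => Set.Subsingleton.finite ?_) ?_
  · intro c hc c' hc'
    by_contra hne
    have h1 : lin ν c - lin ν c' ∈ q := q.sub_mem hc hc'
    have h2 : lin ν c - lin ν c' = C (c' - c) := by
      simp only [lin, map_sub]
      ring
    rw [h2] at h1
    exact hq.1.1.ne_top (q.eq_top_of_isUnit_mem h1
      ((sub_ne_zero.2 (Ne.symm hne)).isUnit.map C))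
  · rintro c ⟨q, hq, h1, h2, h3, i, hi⟩
    exact Set.mem_biUnion (krull_min hh hr hq h1 h2 hi) h3

theorem exists_gen {σ : Type} (I : Ideal (MvPolynomial σ ℂ)) [I.IsPrime] :
    ∃ ξ : σ → Om I, IsGen I ξ := by
  let φ : MvPolynomial σ ℂ →ₐ[ℂ] Om I :=
    (IsScalarTower.toAlgHom ℂ (MvPolynomial σ ℂ ⧸ I) (Om I)).comp (Ideal.Quotient.mkₐ ℂ I)
  refine ⟨φ ∘ X, fun f => ?_⟩
  rw [← aeval_unique φ]
  have hinj : Function.Injective (algebraMap (MvPolynomial σ ℂ ⧸ I) (Om I)) := by
    rw [IsScalarTower.algebraMap_eq (MvPolynomial σ ℂ ⧸ I) (FractionRing (MvPolynomial σ ℂ ⧸ I))]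
    exact (algebraMap (FractionRing (MvPolynomial σ ℂ ⧸ I)) (Om I)).injective.comp
      (IsFractionRing.injective _ _)
  change algebraMap (MvPolynomial σ ℂ ⧸ I) (Om I) (Ideal.Quotient.mk I f) = 0 ↔ _
  rw [map_eq_zero_iff _ hinj, Ideal.Quotient.eq_zero_iff_mem]

end Vale.Agent.P054
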