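import Vale.Agent.P054.StructA

/-! StructB: the exceptional subspace.
`W = ratl ℂ (stab ẑ₂)`; `const_span` gives the span and the rank. Rank at least 3: for `δ` from `exists_F t₁ d` the vector `δ ẑ₂` has `δ u₂ - s × δ y₂ = d × (y₂ - y₁)`; the linear map `Φ v = (v (inr (some i)) - (s × v (inl (some ·))) i - σ i * v (inl none))_i` kills `ẑ₂ ≠ 0` and its image on `stab ẑ₂` contains all `d × h_σ`, a space of rank 2 (`h_σ e ≠ 0`); rank-nullity.
If the rank is 3, `stab ẑ₂` is spanned by `ẑ₂` and two derivatives, all orthogonal to `ẑ₂` (`bf ẑ ẑ = 0`, `der_bf`, `bf` symmetric). Then `{v | ∀ a ∈ W, bf a v = 0}` is stable and contains `ẑ₂`, so it contains `stab ẑ₂` and `W` is isotropic (`algebraMap` injective).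
-/

noncomputable section

open Classical MvPolynomial Matrix Finset

namespace Vale.Agent.P054

variable {Ω : Type*} [Field Ω] [Algebra ℂ Ω] {h : P6} {e : Fin 3} {ξ : S6 → Ω}

/-- `bf` as a linear form in the first argument -/
def structb_L (b : S8 → Ω) : (S8 → Ω) →ₗ[Ω] Ω where
  toFun a := bf a b
  map_add' a a' := by
    simp only [bf, Pi.add_apply, ← sum_add_distrib]
    exact sum_congr rfl fun _ _ => by ring
  map_smul' c a := by
    simp only [bf, Pi.smul_apply, smul_eq_mul, RingHom.id_apply, mul_sum]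
    exact sum_congr rfl fun _ _ => by ring

omit [Algebra ℂ Ω] in
theorem structb_comm (a b : S8 → Ω) : bf a b = bf b a := sum_congr rfl fun _ _ => by ring

omit [Algebra ℂ Ω] in
theorem structb_zero (a : S8 → Ω) : bf a 0 = 0 := by simp [bf]

omit [Algebra ℂ Ω] in
theorem structb_hat (z : Z Ω) : bf (hat z) (hat z) = 0 := by
  simp only [bf, hat, Fintype.sum_option, Sum.elim_inl, Sum.elim_inr, Option.elim, dotProduct,
    Fin.sum_univ_three]
  ring

theorem structb_der (δ : Derivation ℂ Ω Ω) (z : Z Ω) : bf (fun i => δ (hat z i)) (hat z) = 0 := by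
  have : CharZero Ω := charZero_of_injective_algebraMap (algebraMap ℂ Ω).injective
  have h := der_bf δ (hat z) (hat z)
  rw [structb_hat, map_zero, structb_comm (hat z), ← two_mul] at h
  exact (mul_eq_zero.1 h.symm).resolve_left two_ne_zero

theorem structb_cross (δ : Derivation ℂ Ω Ω) (a b : Fin 3 → Ω) :
    (fun i => δ ((a ⨯₃ b) i)) = (fun i => δ (a i)) ⨯₃ b + a ⨯₃ fun i => δ (b i) := by
  funext i
  fin_cases i <;> simp [cross_apply] <;> ring

omit [Algebra ℂ Ω] in
theorem structb_par {d w : Fin 3 → Ω} (h0 : d ⨯₃ w = 0) (i j : Fin 3) : d i * w j = d j * w i := by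
  have h1 := sub_eq_zero.1 (congrFun h0 0)
  have h2 := sub_eq_zero.1 (congrFun h0 1)
  have h3 := sub_eq_zero.1 (congrFun h0 2)
  fin_cases i <;> fin_cases j
  exacts [rfl, h3, h2.symm, h3.symm, rfl, h1, h2, h1.symm, rfl]

/-- the test map -/
def structb_F (ξ : S6 → Ω) : (S8 → Ω) →ₗ[Ω] Fin 3 → Ω :=
  LinearMap.funLeft Ω Ω (fun i => .inr (some i)) -
    crossProduct (fun i => ξ (.inl i)) ∘ₗ LinearMap.funLeft Ω Ω (fun i => .inl (some i)) -
    (LinearMap.proj (.inl none) : (S8 → Ω) →ₗ[Ω] Ω).smulRight fun i => ξ (.inr i)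

omit [Algebra ℂ Ω] in
theorem structb_F_apply (ξ : S6 → Ω) (v : S8 → Ω) : structb_F ξ v = (fun i => v (.inr (some i))) -
    (fun i => ξ (.inl i)) ⨯₃ (fun i => v (.inl (some i))) - v (.inl none) • fun i => ξ (.inr i) :=
  rfl

theorem structb_F_der (t : Ω) {δ : Derivation ℂ Ω Ω} {y d : Fin 3 → Ω}
    (hδ : ∀ a, δ (ξ a) = tv y d a) :
    structb_F ξ (fun i => δ (hat (zt h e ξ t) i)) = d ⨯₃ (yt h e ξ t - y) := by
  have h1 : (fun i => δ (hat (zt h e ξ t) (.inr (some i)))) = (fun i => δ (ξ (.inr i))) +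
      fun i => δ (((fun i => ξ (.inl i)) ⨯₃ yt h e ξ t) i) := funext fun i => map_add δ _ _
  rw [structb_F_apply, h1, structb_cross]
  simp only [hδ, tv, hat, zt, Sum.elim_inl, Sum.elim_inr, Option.elim, Derivation.map_one_eq_zero,
    zero_smul, map_sub]
  change -(d ⨯₃ y) + (d ⨯₃ _ + _) - _ - _ = _
  abel

theorem structb_rank (hg : GenH h e ξ) {t₁ t₂ : Ω} (ht : t₁ ≠ t₂) {T : Submodule Ω (S8 → Ω)}
    (h0 : hat (zt h e ξ t₂) ∈ T)
    (h1 : ∀ δ : Derivation ℂ Ω Ω, (fun i => δ (hat (zt h e ξ t₂) i)) ∈ T) :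
    3 ≤ Module.finrank Ω T := by
  choose δ hδ using hg.exists_F t₁
  have hw : (yt h e ξ t₂ - yt h e ξ t₁) e ≠ 0 := by
    rw [hg.yt_sub]
    exact mul_ne_zero (div_ne_zero (sub_ne_zero.2 ht.symm) hg.n_ne) hg.n_ne
  let v : Fin 3 → T := fun j => if j = e then ⟨_, h0⟩ else ⟨_, h1 (δ (Pi.single j 1))⟩
  have h2 : ∀ j, structb_F ξ (v j) =
      Pi.single j (if j = e then 0 else 1) ⨯₃ (yt h e ξ t₂ - yt h e ξ t₁) := fun j => by
    simp only [v]
    split_ifs
    · rw [Pi.single_zero, map_zero, LinearMap.zero_apply, structb_F_apply]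
      exact sub_eq_zero.2 ((add_sub_cancel_right _ _).trans (one_smul _ _).symm)
    · exact structb_F_der t₂ (hδ _)
  refine (Fintype.card_fin 3).symm.trans_le (LinearIndependent.fintype_card_le_finrank
    (b := v) (Fintype.linearIndependent_iff.2 fun c hc => ?_))
  have h3 := congrArg (fun x : T => structb_F ξ x) hc
  simp only [Submodule.coe_sum, Submodule.coe_smul, map_sum, map_smul, h2, ZeroMemClass.coe_zero,
    map_zero] at h3
  simp only [← LinearMap.map_smul₂] at h3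
  rw [← LinearMap.map_sum₂] at h3
  have h4 : ∀ j, j ≠ e → c j = 0 := fun j hj => by
    simpa [Pi.single_apply, hj, hw, -Pi.sub_apply] using structb_par h3 j e
  have h5 : c e = 0 := by
    rw [sum_eq_single e (fun j _ hj => by rw [h4 j hj, zero_smul]) (by simp)] at hc
    simpa [v, hat] using congrArg (fun x : T => x.1 (.inl none)) hc
  exact fun j => (eq_or_ne j e).elim (fun hj => hj ▸ h5) (h4 j)

theorem GenH.struct (hg : GenH h e ξ) (t₂ : Ω) : ∃ W : Submodule ℂ (S8 → ℂ), ∀ t₁, t₁ ≠ t₂ →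
    Root h e ξ t₁ → Root h e ξ t₂ →
      Exc W ∧ ∀ a ∈ W, bf (up Ω a) (hat (zt h e ξ t₁)) = 0 := by
  refine ⟨ratl ℂ (stab (hat (zt h e ξ t₂))), fun t₁ ht r1 r2 =>
    ⟨?_, fun a ha => hg.stab_perp ht r1 r2 _ ha⟩⟩
  have h1 := (const_span (K := ℂ) _ (stab_stable (hat (zt h e ξ t₂)))).2
  have h2 := structb_rank hg ht
    (T := stab (hat (zt h e ξ t₂)) ⊓ LinearMap.ker (structb_L (hat (zt h e ξ t₂))))
    ⟨mem_stab _, structb_hat _⟩ fun δ => ⟨stab_stable _ δ _ (mem_stab _), structb_der δ _⟩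
  have h3 := h2.trans (Submodule.finrank_mono inf_le_left)
  rw [Exc, h1]
  refine h3.lt_or_eq.imp id fun h4 => ⟨h4.symm, fun a ha b hb => ?_⟩
  have h5 := inf_eq_left.1 (Submodule.eq_of_le_of_finrank_le inf_le_left (h4.symm.trans_le h2))
  have h6 : stab (hat (zt h e ξ t₂)) ≤ LinearMap.ker (structb_L (up Ω b)) :=
    stab_le ((structb_comm _ _).trans (h5 hb)) fun δ u hu => by
      have h7 := der_bf δ u (up Ω b)
      rw [show bf u (up Ω b) = 0 from hu, map_zero, show (fun i => δ (up Ω b i)) = 0 from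
        funext fun i => δ.map_algebraMap _, structb_zero, add_zero] at h7
      exact h7.symm
  refine (algebraMap ℂ Ω).injective (Eq.trans ?_ ((h6 ha).trans (map_zero _).symm))
  simp only [bf, map_sum, map_add, map_mul]
  rfl

end Vale.Agent.P054
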