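import Vale.Agent.P054.Good
import Vale.Agent.P054.GenOut
import Vale.Agent.P054.StructB
import Vale.Agent.P054.Krull

/-! Core: non-concentrated configurations do not exist (about 250 lines).
`good_min` with `A = 70000`, `ξ` from `exists_gen (span {h})` (prime: `Irreducible.prime`, `Ideal.span_singleton_prime`), `Sit.gen_out`.
First case: all constants are roots (`root_const`). Pick `c₂ ∉ {w.1 e}`, `W` from `GenH.struct`; for `w ∈ G'`, `a ∈ W` and `p` from `hat_poly`, `p.eval (C (w.1 e))` vanishes at `ξ`, so `h` divides it; evaluate at a point of the flat of `w` with `n ≠ 0` (`zt_flat`): all of `G'` is orthogonal to `W`, but `2 B₀ < |G'|`.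
Second case: `root_simple` twice, `W₂ ⊥ ẑ(t₁)`, `W₁ ⊥ ẑ(t₂)`. For `a ∈ W₂`, `b ∈ W₁` the polynomial `C Q * p_a * p_b - C ((p_a p_b).coeff 2) * q` has degree `≤ 1` and the roots `t₁ ≠ t₂` at `ξ`, so `h` divides its coefficients. At the points given by `exists_pair` for `g = Q` (`qT_flat`) this gives `bf a ŵ * bf b ŵ = 0`; so more than `2 B₀` points are orthogonal to `W₁` or to `W₂`.
-/

noncomputable section

open Classical MvPolynomial Matrix Finset

namespace Vale.Agent.P054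

theorem core_evalC {R : Type*} [Field R] [Algebra ℂ R] (ξ : S6 → R) (c : ℂ) (p : Polynomial P6) :
    aeval ξ (p.eval (C c)) = evT ξ (algebraMap ℂ R c) p := by
  have h1 := Polynomial.eval₂_at_apply (p := p) (aeval ξ : P6 →ₐ[ℂ] R).toRingHom (C c)
  have h2 : (aeval ξ : P6 →ₐ[ℂ] R).toRingHom (C c) = algebraMap ℂ R c := aeval_C _ _
  rw [h2] at h1
  exact h1.symm

theorem core_dvd {h f : P6} {w : Z ℂ} (hw : res w h = 0) (hf : h ∣ f) (s : Fin 3 → ℂ) :
    aeval (fp w s) f = 0 := by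
  obtain ⟨g, rfl⟩ := hf
  rw [map_mul, aeval_eq_eval, res_eq_zero.1 hw s, zero_mul]

theorem core_hat {h : P6} {e : Fin 3} {w : Z ℂ} (hw : res w h = 0) {s : Fin 3 → ℂ}
    (hn : gr h (fp w s) (.inr e) ≠ 0) {a : S8 → ℂ} {p : Polynomial P6}
    (hp : ∀ (R : Type) [Field R] [Algebra ℂ R] (ξ : S6 → R) (t : R), gr h ξ (.inr e) ≠ 0 →
      evT ξ t p = gr h ξ (.inr e) * bf (up R a) (hat (zt h e ξ t)))
    (h0 : evT (fp w s) (w.1 e) p = 0) : bf a (hat w) = 0 := by
  rw [hp ℂ _ _ hn, zt_flat hw hn] at h0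
  exact (mul_eq_zero.1 h0).resolve_left hn

theorem core_lin {Ω : Type*} [Field Ω] [Algebra ℂ Ω] {h : P6} {ξ : S6 → Ω}
    (hξ : IsGen (Ideal.span {h}) ξ) {r : Polynomial P6} (hr : r.natDegree ≤ 1) {t₁ t₂ : Ω}
    (hne : t₁ ≠ t₂) (h1 : evT ξ t₁ r = 0) (h2 : evT ξ t₂ r = 0) {w : Z ℂ} (hw : res w h = 0)
    (s : Fin 3 → ℂ) (t : ℂ) : evT (fp w s) t r = 0 := by
  rw [evT_of_le hr] at h1 h2 ⊢
  simp only [sum_range_succ, range_zero, sum_empty, zero_add, pow_zero, mul_one, pow_one]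
    at h1 h2 ⊢
  have a1 : aeval ξ (r.coeff 1) = 0 := by
    have : aeval ξ (r.coeff 1) * (t₁ - t₂) = 0 := by linear_combination h1 - h2
    exact (mul_eq_zero.1 this).resolve_right (sub_ne_zero.2 hne)
  have a0 : aeval ξ (r.coeff 0) = 0 := by
    rw [a1, zero_mul, add_zero] at h1
    exact h1
  rw [core_dvd hw (Ideal.mem_span_singleton.1 ((hξ _).1 a0)),
    core_dvd hw (Ideal.mem_span_singleton.1 ((hξ _).1 a1)), zero_mul, add_zero]

theorem core_deg {p q : Polynomial P6} (hp : p.natDegree ≤ 2) (hq : q.natDegree ≤ 2) :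
    (Polynomial.C (q.coeff 2) * p - Polynomial.C (p.coeff 2) * q).natDegree ≤ 1 := by
  rw [Polynomial.natDegree_le_iff_coeff_eq_zero]
  intro N hN
  rw [Polynomial.coeff_sub, Polynomial.coeff_C_mul, Polynomial.coeff_C_mul]
  rcases (show N = 2 ∨ 2 < N by omega) with rfl | h2
  · ring
  · rw [Polynomial.coeff_eq_zero_of_natDegree_lt (hp.trans_lt h2),
      Polynomial.coeff_eq_zero_of_natDegree_lt (hq.trans_lt h2), mul_zero, mul_zero, sub_zero]

theorem core : ∃ A : ℕ, ∀ (adj : Z ℂ → Z ℂ → Prop) (B₀ τ : ℕ) (G : Finset (Z ℂ)), G.Nonempty →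
    (∀ z w, adj z w → w.1 ≠ z.1) →
    (∀ W, Exc W → (G.filter fun z => ∀ a ∈ W, bf a (hat z) = 0).card ≤ B₀) →
    120 * G.card ≤ τ ^ 3 → ¬ NC adj (2 * B₀) G (A * τ) := by
  refine ⟨70000 + 1, fun adj B₀ τ G hne hadj hW hτ hnc => ?_⟩
  obtain ⟨G', hG', h, e, hS⟩ := good_min hne hadj (by norm_num) hτ hnc
  have hpr : Prime h := hS.irr.prime
  have : (Ideal.span {h}).IsPrime := (Ideal.span_singleton_prime hpr.ne_zero).2 hpr
  obtain ⟨ξ, hξ⟩ := exists_gen (Ideal.span {h})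
  have hg : GenH h e ξ := hS.genH le_rfl hξ
  rcases hS.gen_out le_rfl hξ with hc | ⟨d₀, d₀', t₁, t₂, ht, hQ, h0, hr⟩
  · have hroot : ∀ c : ℂ, Root h e ξ (algebraMap ℂ _ c) := fun c =>
      hg.root_const c fun d d' => by
        rw [evT_of_le (qT_deg h e d d').1]
        exact sum_eq_zero fun i _ => by
          rw [(hξ _).2 (Ideal.mem_span_singleton.2 (hc d d' i)), zero_mul]
    obtain ⟨c₂, hc₂⟩ := Infinite.exists_notMem_finset (G'.image fun w => w.1 e)
    obtain ⟨W, hW'⟩ := hg.struct (algebraMap ℂ _ c₂)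
    have hw : ∀ w ∈ G', Exc W ∧
        ∀ a ∈ W, bf (up _ a) (hat (zt h e ξ (algebraMap ℂ _ (w.1 e)))) = 0 := fun w hw =>
      hW' _ (fun h1 => hc₂ (mem_image.2 ⟨w, hw, (algebraMap ℂ _).injective h1⟩))
        (hroot _) (hroot _)
    obtain ⟨z, hz⟩ := hS.ne
    have h1 := hW W (hw z hz).1
    have h2 := (hS.nc z hz 1 one_ne_zero (by simp)).trans_le (card_filter_le _ _)
    have h3 : G' ⊆ G.filter fun z => ∀ a ∈ W, bf a (hat z) = 0 := by
      intro w hw'
      refine mem_filter.2 ⟨hG' hw', fun a ha => ?_⟩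
      obtain ⟨p, -, hp⟩ := hat_poly h e a
      have h4 := hp _ ξ (algebraMap ℂ _ (w.1 e)) hg.n_ne
      rw [(hw w hw').2 a ha, mul_zero, ← core_evalC] at h4
      have h5 := Ideal.mem_span_singleton.1 ((hξ _).1 h4)
      obtain ⟨s, hs⟩ := not_forall.1 (mt res_eq_zero.2 (hS.nsing w hw'))
      refine core_hat (hS.van w hw') (s := s) hs hp ?_
      have h6 := core_dvd (hS.van w hw') h5 s
      rw [core_evalC] at h6
      exact h6
    have := card_le_card h3
    omega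
  · have hQ' : aeval ξ ((qT h e d₀ d₀').coeff 2) ≠ 0 := fun h1 =>
      hQ (Ideal.mem_span_singleton.1 ((hξ _).1 h1))
    have r1 : Root h e ξ t₁ := hg.root_simple ht hQ' h0 (hr t₁ (.inl rfl)).1 (hr t₁ (.inl rfl)).2
    have r2 : Root h e ξ t₂ := hg.root_simple ht.symm hQ' (fun t => by rw [h0, mul_right_comm])
      (hr t₂ (.inr rfl)).1 (hr t₂ (.inr rfl)).2
    obtain ⟨W₂, hW₂⟩ := hg.struct t₂
    obtain ⟨W₁, hW₁⟩ := hg.struct t₁
    obtain ⟨e₂, o₂⟩ := hW₂ t₁ ht r1 r2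
    obtain ⟨e₁, o₁⟩ := hW₁ t₂ ht.symm r2 r1
    obtain ⟨z, -, hz⟩ := hS.exists_pair le_rfl hQ
      (((qT_deg h e d₀ d₀').2 2).trans (Nat.mul_le_mul_right _ (by norm_num)))
    have h3 : (G'.filter fun w => ∃ s, fp z s = fp w s ∧ w.1 e ≠ z.1 e ∧
        gr h (fp w s) (.inr e) ≠ 0 ∧ eval (fp w s) ((qT h e d₀ d₀').coeff 2) ≠ 0) ⊆
        (G.filter fun z => ∀ a ∈ W₂, bf a (hat z) = 0) ∪
          G.filter fun z => ∀ a ∈ W₁, bf a (hat z) = 0 := by
      intro w hw
      obtain ⟨hw', s, -, -, hn, hq⟩ := mem_filter.1 hw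
      rw [mem_union, mem_filter, mem_filter]
      by_cases ha : ∀ a ∈ W₂, bf a (hat w) = 0
      · exact .inl ⟨hG' hw', ha⟩
      refine .inr ⟨hG' hw', fun b hb => ?_⟩
      push Not at ha
      obtain ⟨a, ha, ha'⟩ := ha
      obtain ⟨p, dp, hp⟩ := hat_poly h e a
      obtain ⟨p', dp', hp'⟩ := hat_poly h e b
      have hd := core_deg (p := p * p') (q := qT h e d₀ d₀')
        (Polynomial.natDegree_mul_le.trans (Nat.add_le_add dp dp')) (qT_deg h e d₀ d₀').1
      have h4 := core_lin hξ hd ht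
        (by rw [evT_sub, evT_mul, evT_mul, evT_mul, (hr t₁ (.inl rfl)).1, hp _ ξ t₁ hg.n_ne,
          o₂ a ha]; ring)
        (by rw [evT_sub, evT_mul, evT_mul, evT_mul, (hr t₂ (.inr rfl)).1, hp' _ ξ t₂ hg.n_ne,
          o₁ b hb]; ring)
        (hS.van w hw') s (w.1 e)
      rw [evT_sub, evT_mul, evT_mul, evT_mul, qT_flat e (hS.van w hw') hn, mul_zero, sub_zero,
        evT_C] at h4
      rcases mul_eq_zero.1 ((mul_eq_zero.1 h4).resolve_left hq) with h5 | h5
      · exact absurd (core_hat (hS.van w hw') hn hp h5) ha'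
      · exact core_hat (hS.van w hw') hn hp' h5
    have h4 := (card_le_card h3).trans (card_union_le _ _)
    have h5 := hW W₂ e₂
    have h6 := hW W₁ e₁
    omega

end Vale.Agent.P054
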