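import Vale.Agent.P054.PCurve

/-! CountF: neighbours on a curve of lines (about 300 lines).
With `a = p' - p`, `b = q' - q` one has `plk z w = (a + b, b - a)`. `count_proj`: proportional `plk` give parallel `a ≠ 0`, and then `a` determines the factor and `b`; so the classes have at most `k` elements (`Loc`), take representatives.
`count_fam`: let `I_a` be the comap of `I` under the substitution `X i ↦ (X (inl i) - X (inr i))/2` (prime, `Hom` since the substitution preserves homogeneous components), `Y` the set of the `cv a`; apply `plane_curve`. In the first case `CurveB` for the substituted form and `count_proj` give `k * (e * 4ρ)`. The same for `b` with `(X (inl i) + X (inr i))/2`. If both give two independent linear forms, all `a` are parallel to one of them (real vectors orthogonal to `ν, ν'` are multiples of `ν × ν'`), all `b` too, so `|Nb| ≤ k^2`.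
-/

noncomputable section

open Classical MvPolynomial Matrix Finset

namespace Vale.Agent.P054

def plk (z w : V × V) : S6 → ℂ := Sum.elim ((cz w).1 - (cz z).1) ((cz w).2 - (cz z).2)

variable {z : V × V} {S₁ S₂ : Finset V} {k ρ : ℕ} {Nb : Finset (V × V)}

theorem cf_inj : Function.Injective cv := fun _ _ h => funext fun i =>
  Complex.ofReal_injective (congrFun h i)

theorem cf_cross {a b : V} (h : cv a ⨯₃ cv b = 0) : a ⨯₃ b = 0 := by
  apply cf_inj
  refine Eq.trans ?_ (h.trans ?_)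
  · ext i
    fin_cases i <;> simp [cv, cross_apply]
  · ext i
    simp [cv]

theorem cf_ne {p x : V} (h : x ≠ p) : cv (x - p) ≠ 0 := fun e =>
  h (sub_eq_zero.1 (cf_inj (e.trans (by ext i; simp [cv]))))

theorem cf_par {n y y' : Fin 3 → ℂ} (hn : n ≠ 0) (h : n ⨯₃ y = 0) (h' : n ⨯₃ y' = 0) :
    y ⨯₃ y' = 0 := by
  have key : ∀ u : Fin 3 → ℂ, n ⨯₃ u = 0 → ∀ j l, n j * u l = n l * u j := by
    intro u hu j l
    have h0 := congrFun hu 0
    have h1 := congrFun hu 1
    have h2 := congrFun hu 2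
    simp only [cross_apply, cons_val_zero, cons_val_one, Matrix.cons_val,
      Pi.zero_apply] at h0 h1 h2
    fin_cases j <;> fin_cases l <;> simp only [Fin.zero_eta, Fin.mk_one, Fin.reduceFinMk] <;>
      first
        | linear_combination h0
        | linear_combination -h0
        | linear_combination h1
        | linear_combination -h1
        | linear_combination h2
        | linear_combination -h2
  obtain ⟨i, hi⟩ := Function.ne_iff.1 hn
  have e : ∀ a b, y a * y' b - y b * y' a = 0 := fun a b => by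
    refine (mul_eq_zero.1 ?_).resolve_left hi
    linear_combination y a * key y' h' i b - y b * key y' h' i a + y' i * key y h b a
  ext j
  fin_cases j <;> simp only [cross_apply, Fin.zero_eta, Fin.mk_one, Fin.reduceFinMk,
    cons_val_zero, cons_val_one, Matrix.cons_val, Pi.zero_apply] <;> exact e _ _

/-- the two substitutions -/
def cf_sub (s : ℂ) (i : Fin 3) : P6 := C (1 / 2) * X (.inl i) + C (s / 2) * X (.inr i)

theorem cf_sub_hom (s : ℂ) (i : Fin 3) : (cf_sub s i).IsHomogeneous 1 :=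
  (isHomogeneous_C_mul_X _ _).add (isHomogeneous_C_mul_X _ _)

theorem cf_sub_fst (z w : V × V) (i : Fin 3) :
    eval (plk z w) (cf_sub (-1) i) = cv (w.1 - z.1) i := by
  simp [cf_sub, plk, cz, cv]
  ring

theorem cf_sub_snd (z w : V × V) (i : Fin 3) :
    eval (plk z w) (cf_sub 1 i) = cv (w.2 - z.2) i := by
  simp [cf_sub, plk, cz, cv]
  ring

theorem cf_plk_inj (z : V × V) : Function.Injective (plk z) := by
  intro w w' h
  refine Prod.ext (sub_left_injective (b := z.1) (cf_inj (funext fun i => ?_)))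
    (sub_left_injective (b := z.2) (cf_inj (funext fun i => ?_)))
  · simp only [← cf_sub_fst, h]
  · simp only [← cf_sub_snd, h]

theorem cf_eval (σ : Fin 3 → P6) (y : S6 → ℂ) (g : P3) :
    eval y (aeval σ g) = eval (fun i => eval y (σ i)) g := by
  exact MvPolynomial.comp_aeval_apply σ (aeval y : P6 →ₐ[ℂ] ℂ) g

theorem cf_comp {σ : Fin 3 → P6} (hσ : ∀ i, (σ i).IsHomogeneous 1) (ψ : P3) (j : ℕ) :
    aeval σ (homogeneousComponent j ψ) = homogeneousComponent j (aeval σ ψ) := by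
  have h : ∀ l, aeval σ (homogeneousComponent l ψ) ∈ homogeneousSubmodule S6 ℂ l := fun l => by
    have := (homogeneousComponent_isHomogeneous l ψ).aeval σ hσ
    rwa [one_mul] at this
  conv_rhs => rw [← sum_homogeneousComponent ψ, map_sum, map_sum]
  simp only [homogeneousComponent_of_mem (h _)]
  rw [Finset.sum_ite_eq]
  split_ifs with hj
  · rfl
  · rw [homogeneousComponent_eq_zero, map_zero]
    simp only [Finset.mem_range] at hj
    omega

section Half
variable {f : V × V → V} {p : V} {S : Finset V} {σ : Fin 3 → P6}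

theorem cf_smul (hσ : ∀ i, (σ i).IsHomogeneous 1)
    (he : ∀ w i, eval (plk z w) (σ i) = cv (f w - p) i) {w w' : V × V} {c : ℂ}
    (h : plk z w' = c • plk z w) : cv (f w' - p) = c • cv (f w - p) := by
  ext i
  rw [← he, h, Pi.smul_apply, ← he, smul_eq_mul]
  exact (pc_eval_smul (hσ i) c (plk z w)).trans (by rw [pow_one])

theorem cf_plk_ne (hσ : ∀ i, (σ i).IsHomogeneous 1)
    (he : ∀ w i, eval (plk z w) (σ i) = cv (f w - p) i) {w : V × V} (h : f w ≠ p) :
    plk z w ≠ 0 := fun e => cf_ne h (by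
  rw [cf_smul hσ he (w := w) (c := 0) (by rw [e, smul_zero]), zero_smul])

theorem cf_proj (hL : Loc p S k ρ) (hf : ∀ w ∈ Nb, f w ∈ S) (hσ : ∀ i, (σ i).IsHomogeneous 1)
    (he : ∀ w i, eval (plk z w) (σ i) = cv (f w - p) i) {m : ℕ}
    (hm : ∀ Y ⊆ Nb, (∀ w ∈ Y, ∀ w' ∈ Y, ∀ c : ℂ, plk z w' = c • plk z w → w' = w) → Y.card ≤ m) :
    Nb.card ≤ k * m := by
  have hp : ∀ w ∈ Nb, f w ≠ p := fun w hw e => hL.1 (e ▸ hf w hw)
  obtain ⟨u, hu, hb⟩ := Set.exists_subset_bijOn (Nb : Set (V × V)) fun w => ℂ ∙ plk z w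
  lift u to Finset (V × V) using Nb.finite_toSet.subset hu
  have hu' : u ⊆ Nb := hu
  refine (card_le_mul_card_image_of_maps_to (f := fun w => ℂ ∙ plk z w)
    (t := u.image fun w => ℂ ∙ plk z w) (fun a ha => ?_) k fun b hb' => ?_).trans
    (Nat.mul_le_mul_left _ (card_image_le.trans (hm u hu' fun w hw w' hw' c hc => ?_)))
  · obtain ⟨x, hx, e⟩ := hb.surjOn ⟨a, ha, rfl⟩
    exact mem_image.2 ⟨x, hx, e⟩
  · obtain ⟨w, hw, rfl⟩ := mem_image.1 hb'
    have h0 := hp w (hu' hw)
    have hc : ∀ x ∈ Nb.filter fun a => (ℂ ∙ plk z a) = ℂ ∙ plk z w,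
        ∃ c : ℂ, plk z x = c • plk z w := fun x hx => by
      have := Submodule.mem_span_singleton_self (R := ℂ) (plk z x)
      rw [(mem_filter.1 hx).2, Submodule.mem_span_singleton] at this
      exact this.imp fun c hc => hc.symm
    refine le_trans (card_le_card_of_injOn f (fun x hx => ?_) fun x hx x' hx' e => ?_)
      (hL.2.1 (f w - p) (sub_ne_zero.2 h0))
    · obtain ⟨c, hc⟩ := hc x hx
      refine mem_filter.2 ⟨hf x (mem_filter.1 hx).1, cf_cross ?_⟩
      rw [cf_smul hσ he hc, map_smul, cross_self, smul_zero]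
    · obtain ⟨c, h1⟩ := hc x hx
      obtain ⟨c', h2⟩ := hc x' hx'
      have h3 := cf_smul hσ he h1
      rw [e, cf_smul hσ he h2] at h3
      apply cf_plk_inj z
      rw [h1, h2, smul_left_injective ℂ (cf_ne h0) h3]
  · refine hb.injOn hw' hw ?_
    have hc0 : c ≠ 0 := fun e => cf_plk_ne hσ he (hp w' (hu' hw')) (by rw [hc, e, zero_smul])
    simp only [hc]
    exact Submodule.span_singleton_smul_eq hc0.isUnit _

theorem cf_half (hL : Loc p S k ρ) (hf : ∀ w ∈ Nb, f w ∈ S) (hσ : ∀ i, (σ i).IsHomogeneous 1)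
    (he : ∀ w i, eval (plk z w) (σ i) = cv (f w - p) i) (hc : S.card ≤ ρ ^ 2) {I : Ideal P6}
    {e : ℕ} (hI : CurveB I e) (hz : ∀ w ∈ Nb, ∀ g ∈ I, eval (plk z w) g = 0) :
    Nb.card ≤ k * (e * (4 * ρ)) ∨ (Nb.image f).card ≤ k := by
  have hp : ∀ w ∈ Nb, f w ≠ p := fun w hw e => hL.1 (e ▸ hf w hw)
  have hev : ∀ w g, eval (plk z w) (aeval σ g) = eval (cv (f w - p)) g := fun w g => by
    rw [cf_eval, funext (he w)]
  have := hI.1
  have hY : ∀ w ∈ Nb, ∀ g ∈ I.comap (aeval σ : P3 →ₐ[ℂ] P6), eval (cv (f w - p)) g = 0 :=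
    fun w hw g hg => by rw [← hev, hz w hw _ hg]
  rcases plane_curve (I := I.comap (aeval σ : P3 →ₐ[ℂ] P6)) (Ideal.comap_isPrime _ _)
    (fun ψ hψ j => by
      rw [Ideal.mem_comap, cf_comp hσ]
      exact hI.2.1 _ hψ j) (Nb.image fun w => cv (f w - p)) (ρ := ρ)
    (fun y hy => by
      obtain ⟨w, hw, rfl⟩ := mem_image.1 hy
      exact hY w hw)
    (by
      refine le_trans (card_le_card (t := S.image fun x => cv (x - p)) fun y hy => ?_)
        (card_image_le.trans hc)
      obtain ⟨w, hw, rfl⟩ := mem_image.1 hy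
      exact mem_image_of_mem _ (hf w hw))
    (fun φ δ h1 h2 => by
      refine le_trans (card_le_card (t := (S.filter fun x => eval (cv (x - p)) φ = 0).image
        fun x => cv (x - p)) fun y hy => ?_) (card_image_le.trans (hL.2.2 φ δ h1 h2))
      obtain ⟨hy, h0⟩ := mem_filter.1 hy
      obtain ⟨w, hw, rfl⟩ := mem_image.1 hy
      exact mem_image_of_mem _ (mem_filter.2 ⟨hf w hw, h0⟩)) with
    ⟨τ, hτ, ψ, h1, h2, h3⟩ | ⟨ν, ν', h1, h2, h3⟩
  · refine Or.inl (cf_proj hL hf hσ he fun Y hYN hY' => ?_)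
    rw [← card_image_of_injective Y (cf_plk_inj z)]
    refine (hI.2.2 τ (aeval σ ψ) (by simpa using h1.aeval σ hσ) h2 _ (fun π hπ => ?_)
      fun π hπ π' hπ' c h => ?_).trans (Nat.mul_le_mul_left _ hτ)
    · obtain ⟨w, hw, rfl⟩ := mem_image.1 hπ
      refine ⟨cf_plk_ne hσ he (hp w (hYN hw)), hz w (hYN hw), ?_⟩
      rw [hev]
      exact h3 _ (mem_image_of_mem _ (hYN hw))
    · obtain ⟨w, hw, rfl⟩ := mem_image.1 hπ
      obtain ⟨w', hw', rfl⟩ := mem_image.1 hπ'
      rw [hY' w hw w' hw' c h]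
  · right
    rcases Nb.eq_empty_or_nonempty with rfl | ⟨w, hw⟩
    · simp
    have hn : ∀ x ∈ Nb, (ν ⨯₃ ν') ⨯₃ cv (f x - p) = 0 := fun x hx => by
      have a1 := hY x hx _ h2
      have a2 := hY x hx _ h3
      rw [eval_lin, sub_zero] at a1 a2
      rw [cross_cross_eq_smul_sub_smul, a1, a2, zero_smul, zero_smul, sub_zero]
    refine le_trans (card_le_card fun y hy => ?_) (hL.2.1 (f w - p) (sub_ne_zero.2 (hp w hw)))
    obtain ⟨x, hx, rfl⟩ := mem_image.1 hy
    exact mem_filter.2 ⟨hf x hx, cf_cross (cf_par h1 (hn w hw) (hn x hx))⟩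

end Half

theorem count_proj (h1 : Loc z.1 S₁ k ρ) (hN : Nb ⊆ S₁ ×ˢ S₂) {m : ℕ}
    (hm : ∀ Y ⊆ Nb, (∀ w ∈ Y, ∀ w' ∈ Y, ∀ c : ℂ, plk z w' = c • plk z w → w' = w) → Y.card ≤ m) :
    Nb.card ≤ k * m := by
  exact cf_proj (f := Prod.fst) h1 (fun w hw => (mem_product.1 (hN hw)).1) (cf_sub_hom (-1))
    (cf_sub_fst z) hm

theorem count_fam (h1 : Loc z.1 S₁ k ρ) (h2 : Loc z.2 S₂ k ρ) (c1 : S₁.card ≤ ρ ^ 2)
    (c2 : S₂.card ≤ ρ ^ 2) (hN : Nb ⊆ S₁ ×ˢ S₂) {I : Ideal P6} {e : ℕ} (hI : CurveB I e)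
    (hz : ∀ w ∈ Nb, ∀ f ∈ I, eval (plk z w) f = 0) : Nb.card ≤ k * (e * (4 * ρ)) + k ^ 2 := by
  rcases cf_half (f := Prod.fst) h1 (fun w hw => (mem_product.1 (hN hw)).1) (cf_sub_hom (-1))
    (cf_sub_fst z) c1 hI hz with a | a
  · exact a.trans (Nat.le_add_right _ _)
  rcases cf_half (f := Prod.snd) h2 (fun w hw => (mem_product.1 (hN hw)).2) (cf_sub_hom 1)
    (cf_sub_snd z) c2 hI hz with b | b
  · exact b.trans (Nat.le_add_right _ _)
  refine le_trans ?_ (Nat.le_add_left _ _)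
  refine (card_le_card subset_product).trans ?_
  rw [card_product, pow_two]
  exact Nat.mul_le_mul a b

end Vale.Agent.P054
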