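import Vale.Agent.P054.Planar

/-! Crossing: the crossing lemma for straight-line graphs (about 200 lines).
(1) `E.card ≤ 3 S.card + cr`: delete the first edge of every crossing pair and use `planar_edges`. (2) Distinct crossing edges have four distinct ends (a common end and a common inner point make the affine functions equal, then `NoV.nov` or equality).
(3) Apply (1) to every `A ⊆ S` with the induced edges, multiply by `p^|A| (1-p)^(n-|A|)` and sum; `∑ A ∈ powerset S, w A * [B ⊆ A] = p^|B|` (`Finset.prod_add` or `Finset.prod_one_add` applied to `∏ (p + [x ∉ B] (1-p))`). This gives `p^2 e ≤ 3 p n + p^4 cr`; take `p = 4n/e`.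
-/

noncomputable section

open Classical MvPolynomial Matrix Finset

namespace Vale.Agent.P054

def crN (E : Finset (Pt × Pt)) : ℕ := ((E ×ˢ E).filter fun x => x.1 ≠ x.2 ∧ Cross x.1 x.2).card

theorem crs_weak {S : Finset Pt} {E : Finset (Pt × Pt)} (h : NoV S E) :
    E.card ≤ 3 * S.card + crN E := by
  have h1 := planar_edges (S := S)
    (E := E \ ((E ×ˢ E).filter fun x => x.1 ≠ x.2 ∧ Cross x.1 x.2).image Prod.fst)
    ⟨h.inj, fun e he => h.mem e (mem_sdiff.1 he).1, fun e he => h.nov e (mem_sdiff.1 he).1⟩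
    fun e he f hf hne hc => (mem_sdiff.1 he).2 (mem_image.2 ⟨(e, f), mem_filter.2
      ⟨mem_product.2 ⟨(mem_sdiff.1 he).1, (mem_sdiff.1 hf).1⟩, hne, hc⟩, rfl⟩)
  exact card_le_card_sdiff_add_card.trans (Nat.add_le_add h1 card_image_le)

theorem crs_left (e : Pt × Pt) : ht e e.1.1 = e.1.2 := by simp [ht]

theorem crs_right {e : Pt × Pt} (h : e.1.1 < e.2.1) : ht e e.2.1 = e.2.2 := by
  have := (sub_pos.2 h).ne'
  unfold ht
  field_simp
  ring

theorem crs_aff {e f : Pt × Pt} {a b : ℝ} (ha : ht e a = ht f a) (hb : ht e b = ht f b)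
    (hab : a ≠ b) (x : ℝ) : ht e x = ht f x := by
  unfold ht at *
  generalize (e.2.2 - e.1.2) / (e.2.1 - e.1.1) = s at *
  generalize (f.2.2 - f.1.2) / (f.2.1 - f.1.1) = t at *
  have h1 : s = t := mul_left_cancel₀ (sub_ne_zero.2 hab) (by linarith)
  subst h1
  linarith

theorem crs_same {S : Finset Pt} {E : Finset (Pt × Pt)} (h : NoV S E) {e f : Pt × Pt} (he : e ∈ E)
    (hf : f ∈ E) {x : ℝ} (a1 : e.1.1 < x) (a2 : x < e.2.1) (a3 : f.1.1 < x) (a4 : x < f.2.1)
    (hh : ∀ y, ht e y = ht f y) : e = f := by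
  obtain ⟨e1, e2, e3⟩ := h.mem e he
  obtain ⟨f1, f2, f3⟩ := h.mem f hf
  refine Prod.ext (h.inj _ e1 _ f1 ?_) (h.inj _ e2 _ f2 ?_)
  · rcases lt_trichotomy e.1.1 f.1.1 with c | c | c
    · exact absurd (by rw [hh, crs_left]) (h.nov e he _ f1 c (a3.trans a2))
    · exact c
    · exact absurd (by rw [← hh, crs_left]) (h.nov f hf _ e1 c (a1.trans a4))
  · rcases lt_trichotomy e.2.1 f.2.1 with c | c | c
    · exact absurd (by rw [← hh, crs_right e3]) (h.nov f hf _ e2 (a3.trans a2) c)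
    · exact c
    · exact absurd (by rw [hh, crs_right f3]) (h.nov e he _ f2 (a1.trans a4) c)

theorem crs_four {S : Finset Pt} {E : Finset (Pt × Pt)} (h : NoV S E) {e f : Pt × Pt} (he : e ∈ E)
    (hf : f ∈ E) (hne : e ≠ f) (hc : Cross e f) : ({e.1, e.2, f.1, f.2} : Finset Pt).card = 4 := by
  obtain ⟨x, a1, a2, a3, a4, a5⟩ := hc
  have n : ∀ {a b : Pt}, a.1 < x → x < b.1 → a ≠ b := fun h1 h2 e => by
    rw [e] at h1
    exact lt_asymm h1 h2
  have b1 : e.1 ≠ f.1 := fun c => hne (crs_same h he hf a1 a2 a3 a4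
    (crs_aff a5 (by rw [crs_left, c, crs_left]) a1.ne'))
  have b2 : e.2 ≠ f.2 := fun c => hne (crs_same h he hf a1 a2 a3 a4
    (crs_aff a5 (by rw [crs_right (a1.trans a2), c, crs_right (a3.trans a4)]) a2.ne))
  rw [card_insert_of_notMem, card_insert_of_notMem, card_pair (n a3 a4)]
  · simp only [mem_insert, mem_singleton, not_or]
    exact ⟨(n a3 a2).symm, b2⟩
  · simp only [mem_insert, mem_singleton, not_or]
    exact ⟨n a1 a2, b1, n a1 a4⟩

theorem crs_exp {α : Type*} [DecidableEq α] (S B : Finset α) (hB : B ⊆ S) (p : ℝ) :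
    ∑ A ∈ S.powerset, ((∏ _i ∈ A, p) * ∏ _i ∈ S \ A, (1 - p)) * (if B ⊆ A then 1 else 0) =
      p ^ B.card := by
  have h := prod_add (fun _ => p) (fun i => if i ∈ B then 0 else 1 - p) S
  have e : ∏ i ∈ S, (p + if i ∈ B then 0 else 1 - p) = ∏ i ∈ S, if i ∈ B then p else 1 :=
    prod_congr rfl fun i _ => by split_ifs <;> ring
  rw [e, prod_ite_mem, inter_eq_right.2 hB, prod_const] at h
  rw [h]
  refine sum_congr rfl fun A _ => ?_
  split_ifs with c
  · rw [mul_one]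
    congr 1
    exact prod_congr rfl fun i hi => (if_neg fun hb => (mem_sdiff.1 hi).2 (c hb)).symm
  · obtain ⟨i, h1, h2⟩ := not_subset.1 c
    rw [mul_zero, prod_eq_zero (f := fun i => if i ∈ B then (0 : ℝ) else 1 - p)
      (mem_sdiff.2 ⟨hB h1, h2⟩) (if_pos h1), mul_zero]

theorem crs_sum {α ι : Type*} [DecidableEq α] (S : Finset α) (I : Finset ι) (B : ι → Finset α) (n : ℕ)
    (hB : ∀ i ∈ I, B i ⊆ S ∧ (B i).card = n) (p : ℝ) :
    ∑ A ∈ S.powerset, ((∏ _i ∈ A, p) * ∏ _i ∈ S \ A, (1 - p)) *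
      ((I.filter fun i => B i ⊆ A).card : ℝ) = I.card * p ^ n := by
  simp only [card_filter, Nat.cast_sum, mul_sum, Nat.cast_ite, Nat.cast_one, Nat.cast_zero]
  rw [sum_comm, sum_congr rfl fun i hi => (crs_exp S (B i) (hB i hi).1 p).trans
    (congrArg _ (hB i hi).2), sum_const, nsmul_eq_mul]

theorem crs_avg {S : Finset Pt} {E : Finset (Pt × Pt)} (h : NoV S E) {p : ℝ} (p0 : 0 ≤ p)
    (p1 : p ≤ 1) : E.card * p ^ 2 ≤ 3 * (S.card * p ^ 1) + crN E * p ^ 4 := by
  have s1 := crs_sum S S (fun x => {x}) 1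
    (fun x hx => ⟨singleton_subset_iff.2 hx, card_singleton x⟩) p
  have s2 := crs_sum S E (fun e => {e.1, e.2}) 2 (fun e he => by
    obtain ⟨e1, e2, e3⟩ := h.mem e he
    exact ⟨insert_subset e1 (singleton_subset_iff.2 e2),
      card_pair fun c => e3.ne (congrArg Prod.fst c)⟩) p
  have s3 := crs_sum S ((E ×ˢ E).filter fun x => x.1 ≠ x.2 ∧ Cross x.1 x.2)
    (fun x => {x.1.1, x.1.2, x.2.1, x.2.2}) 4 (fun x hx => by
      obtain ⟨a1, a2, a3⟩ := mem_filter.1 hx
      obtain ⟨he, hf⟩ := mem_product.1 a1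
      exact ⟨insert_subset (h.mem _ he).1 (insert_subset (h.mem _ he).2.1 (insert_subset
        (h.mem _ hf).1 (singleton_subset_iff.2 (h.mem _ hf).2.1))), crs_four h he hf a2 a3⟩) p
  rw [← s1, ← s2, crN, ← s3, mul_sum, ← sum_add_distrib]
  refine sum_le_sum fun A hA => ?_
  rw [mem_powerset] at hA
  rw [mul_left_comm, ← mul_add]
  refine mul_le_mul_of_nonneg_left ?_ (mul_nonneg (prod_nonneg fun _ _ => p0)
    (prod_nonneg fun _ _ => sub_nonneg.2 p1))
  have h1 := crs_weak (S := A) (E := E.filter fun e => {e.1, e.2} ⊆ A)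
    ⟨fun a ha b hb => h.inj a (hA ha) b (hA hb), fun e he => by
      obtain ⟨a1, a2⟩ := mem_filter.1 he
      exact ⟨a2 (by simp), a2 (by simp), (h.mem e a1).2.2⟩,
      fun e he c hc => h.nov e (mem_filter.1 he).1 c (hA hc)⟩
  have h2 : A.card ≤ (S.filter fun x => {x} ⊆ A).card :=
    card_le_card fun x hx => mem_filter.2 ⟨hA hx, singleton_subset_iff.2 hx⟩
  have h3 : crN (E.filter fun e => {e.1, e.2} ⊆ A) ≤
      (((E ×ˢ E).filter fun x => x.1 ≠ x.2 ∧ Cross x.1 x.2).filter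
        fun x => {x.1.1, x.1.2, x.2.1, x.2.2} ⊆ A).card := by
    refine card_le_card fun x hx => ?_
    obtain ⟨a1, a2⟩ := mem_filter.1 hx
    obtain ⟨he, hf⟩ := mem_product.1 a1
    rw [mem_filter] at he hf
    exact mem_filter.2 ⟨mem_filter.2 ⟨mem_product.2 ⟨he.1, hf.1⟩, a2⟩,
      insert_subset (he.2 (by simp)) (insert_subset (he.2 (by simp)) hf.2)⟩
  exact_mod_cast h1.trans (Nat.add_le_add (Nat.mul_le_mul_left 3 h2) h3)

theorem crossing {S : Finset Pt} {E : Finset (Pt × Pt)} (h : NoV S E)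
    (h4 : 4 * S.card ≤ E.card) : E.card ^ 3 ≤ 64 * S.card ^ 2 * crN E := by
  rcases E.eq_empty_or_nonempty with rfl | ⟨e, he⟩
  · simp
  have e0 : (0 : ℝ) < E.card := Nat.cast_pos.2 (card_pos.2 ⟨e, he⟩)
  have n0 : (0 : ℝ) < S.card := Nat.cast_pos.2 (card_pos.2 ⟨_, (h.mem e he).1⟩)
  have h5 : (4 : ℝ) * S.card ≤ E.card := by exact_mod_cast h4
  have h1 := crs_avg h (p := 4 * S.card / E.card) (by positivity) ((div_le_one e0).2 h5)
  have h2 : (E.card : ℝ) ^ 3 ≤ 64 * S.card ^ 2 * crN E := by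
    generalize (E.card : ℝ) = a at *
    generalize (S.card : ℝ) = n at *
    generalize (crN E : ℝ) = c at *
    have h3 := mul_le_mul_of_nonneg_right h1 (show 0 ≤ a ^ 4 / (4 * n ^ 2) by positivity)
    have e1 : a * (4 * n / a) ^ 2 * (a ^ 4 / (4 * n ^ 2)) = 4 * a ^ 3 := by
      field_simp
    have e2 : (3 * (n * (4 * n / a) ^ 1) + c * (4 * n / a) ^ 4) * (a ^ 4 / (4 * n ^ 2)) =
        3 * a ^ 3 + 64 * n ^ 2 * c := by
      field_simp
      ring
    linarith
  exact_mod_cast h2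

end Vale.Agent.P054
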