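import Vale.Agent.P054.CurveH1

/-! CurveH: the degree of a projective curve is bounded by the generic fibre of a base point free pencil (about 350 lines).
Let `m_i = aeval π (lin μ_i 0)`. If `m₂ = 0` or `u = m₁/m₂` is algebraic (then in `ℂ`), `VH_rec` gives `VH (j+1) ≤ m * VH j` for one element `m`, the rank is bounded and `curveB_of_growth` applies with `e * j + c ≥ c`.
Otherwise let `W j = m₂^(-j) VH j`; `W (N + k) ⊆ ∑ i ≤ k, u^i W N`. Let `K₀ = ℂ⟮u⟯`, `F = K₀(π / m₂)`: the coordinates are integral over `ℂ[u]` (they act on the finitely generated faithful module `ℂ[u] W N`; note `W j ≤ W (j+1)` and `W 1 * W j ≤ W (j+1)`), so `F / K₀` is finite and separable, and `finrank K₀ F` is the number of `K₀`-embeddings into `R = AlgebraicClosure K₀` (`AlgHom.card`), which is at most `e` by `hc` (an embedding `θ` gives the point `θ (π / m₂)`, different embeddings give different points).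
With a `K₀`-basis `b` of `F` and a common denominator `g(u)`, `W (N + k)` lies in the span of `u^i b_l / g(u)`, `i ≤ k + c`.
-/

noncomputable section

open Classical MvPolynomial Matrix Finset

namespace Vale.Agent.P054

variable {σ : Type} [Fintype σ] {Ω : Type} [Field Ω] [Algebra ℂ Ω]

theorem ch_den {ι : Type} [Fintype ι] (u : Ω) (r : ι → Ω)
    (hr : ∀ j, r j ∈ IntermediateField.adjoin ℂ {u}) :
    ∃ g : Ω, g ≠ 0 ∧ ∃ c, ∀ j, ∃ p : Polynomial ℂ, p.natDegree ≤ c ∧
      g * r j = Polynomial.aeval u p := by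
  have h1 : ∀ j, ∃ p q : Polynomial ℂ, Polynomial.aeval u q ≠ 0 ∧
      Polynomial.aeval u q * r j = Polynomial.aeval u p := by
    intro j
    obtain ⟨p, q, h⟩ := (IntermediateField.mem_adjoin_simple_iff ℂ _).1 (hr j)
    by_cases hq : Polynomial.aeval u q = 0
    · exact ⟨0, 1, by simp, by simp [h, hq]⟩
    · exact ⟨p, q, hq, by rw [h, mul_div_cancel₀ _ hq]⟩
  choose p q hq hp using h1
  refine ⟨∏ j, Polynomial.aeval u (q j), prod_ne_zero_iff.2 fun j _ => hq j,
    univ.sup fun j => ((∏ i ∈ univ.erase j, q i) * p j).natDegree, fun j =>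
      ⟨(∏ i ∈ univ.erase j, q i) * p j,
        le_sup (f := fun j => ((∏ i ∈ univ.erase j, q i) * p j).natDegree) (mem_univ j), ?_⟩⟩
  rw [map_mul, map_prod, ← hp, ← mul_assoc, prod_erase_mul _ _ (mem_univ j)]

/-- the span of the `u ^ i * b l` with `i ≤ k` -/
def chS {d : ℕ} (u : Ω) (b : Fin d → Ω) (k : ℕ) : Submodule ℂ Ω :=
  Submodule.span ℂ (Set.range fun x : Fin (k + 1) × Fin d => u ^ (x.1 : ℕ) * b x.2)

theorem chS_mem {d : ℕ} (u : Ω) (b : Fin d → Ω) {k i : ℕ} (hi : i ≤ k) (l : Fin d) :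
    u ^ i * b l ∈ chS u b k :=
  Submodule.subset_span ⟨(⟨i, Nat.lt_succ_of_le hi⟩, l), rfl⟩

theorem chS_poly {d : ℕ} (u : Ω) (b : Fin d → Ω) {k : ℕ} {p : Polynomial ℂ}
    (hp : p.natDegree ≤ k) (l : Fin d) : Polynomial.aeval u p * b l ∈ chS u b k := by
  rw [Polynomial.aeval_eq_sum_range' (Nat.lt_succ_of_le hp), sum_mul]
  refine Submodule.sum_mem _ fun i hi => ?_
  rw [smul_mul_assoc]
  exact Submodule.smul_mem _ _ (chS_mem u b (Nat.le_of_lt_succ (mem_range.1 hi)) l)

theorem chS_succ {d : ℕ} (u : Ω) (b : Fin d → Ω) {k : ℕ} {x : Ω} (hx : x ∈ chS u b k) :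
    x ∈ chS u b (k + 1) ∧ u * x ∈ chS u b (k + 1) := by
  induction hx using Submodule.span_induction with
  | mem x hx =>
    obtain ⟨⟨i, l⟩, rfl⟩ := hx
    have hi := i.2
    refine ⟨chS_mem u b (by omega) l, ?_⟩
    show u * (u ^ (i : ℕ) * b l) ∈ _
    rw [← mul_assoc, ← pow_succ']
    exact chS_mem u b (by omega) l
  | zero => exact ⟨Submodule.zero_mem _, by rw [mul_zero]; exact Submodule.zero_mem _⟩
  | add x y _ _ hx hy =>
    exact ⟨Submodule.add_mem _ hx.1 hy.1, by rw [mul_add]; exact Submodule.add_mem _ hx.2 hy.2⟩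
  | smul a x _ hx =>
    exact ⟨Submodule.smul_mem _ _ hx.1, by rw [mul_smul_comm]; exact Submodule.smul_mem _ _ hx.2⟩

theorem ch_rank {V W : Submodule ℂ Ω} [Module.Finite ℂ W] {g : Ω} (hg : g ≠ 0)
    (h : ∀ x ∈ V, g * x ∈ W) : Module.finrank ℂ V ≤ Module.finrank ℂ W := by
  refine LinearMap.finrank_le_finrank_of_injective
    (f := ((LinearMap.mulLeft ℂ g).comp V.subtype).codRestrict W fun x => h x x.2) ?_
  intro x y hxy
  exact Subtype.ext (mul_left_cancel₀ hg (congrArg Subtype.val hxy))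

theorem ch_span {d N : ℕ} (u : Ω) (b : Fin d → Ω) (V : ℕ → Submodule ℂ Ω)
    [Module.Finite ℂ (V N)]
    (hV : ∀ j, N ≤ j → ∀ x ∈ V (j + 1), ∃ a ∈ V j, ∃ a' ∈ V j, x = u * a + a')
    (hN : ∀ x ∈ V N, ∃ r : Fin d → Ω, (∀ l, r l ∈ IntermediateField.adjoin ℂ {u}) ∧
      x = ∑ l, r l * b l) :
    ∃ c, ∀ j, N ≤ j → Module.finrank ℂ (V j) ≤ d * j + c := by
  let v := Module.finBasis ℂ (V N)
  choose r hr hv using fun i => hN (v i) (v i).2
  obtain ⟨g, hg, c, hc⟩ := ch_den u (fun x : _ × Fin d => r x.1 x.2) fun x => hr x.1 x.2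
  have h1 : ∀ k, ∀ x ∈ V (N + k), g * x ∈ chS u b (c + k) := by
    intro k
    induction k with
    | zero =>
      intro x hx
      have h2 : x = ∑ i, v.repr ⟨x, hx⟩ i • (v i : Ω) := by
        have := congrArg (V N).subtype (v.sum_repr ⟨x, hx⟩)
        rw [map_sum] at this
        exact this.symm
      rw [h2, mul_sum]
      refine Submodule.sum_mem _ fun i _ => ?_
      rw [mul_smul_comm, hv, mul_sum]
      refine Submodule.smul_mem _ _ (Submodule.sum_mem _ fun l _ => ?_)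
      obtain ⟨p, hp, e⟩ := hc (i, l)
      rw [← mul_assoc, e]
      exact chS_poly u b hp l
    | succ k ih =>
      intro x hx
      obtain ⟨a, ha, a', ha', rfl⟩ := hV (N + k) (Nat.le_add_right _ _) x hx
      rw [mul_add, mul_left_comm]
      exact Submodule.add_mem _ (chS_succ u b (ih a ha)).2 (chS_succ u b (ih a' ha')).1
  refine ⟨d * (c + 1), fun j hj => ?_⟩
  obtain ⟨k, rfl⟩ := Nat.exists_eq_add_of_le hj
  have : Module.Finite ℂ (chS u b (c + k)) := Module.Finite.span_of_finite _ (Set.finite_range _)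
  refine (ch_rank hg (h1 k)).trans ((finrank_range_le_card _).trans ?_)
  rw [Fintype.card_prod, Fintype.card_fin, Fintype.card_fin]
  nlinarith [Nat.zero_le (d * N)]

theorem ch_card {K F : Type} [Field K] [Field F] [Algebra ℂ K] [Algebra K F] [Algebra ℂ F]
    [IsScalarTower ℂ K F] [FiniteDimensional K F] (x : σ → F)
    (hx : ∀ θ θ' : F →ₐ[K] AlgebraicClosure K, (∀ a, θ (x a) = θ' (x a)) → θ = θ') {u : K}
    (hu : Transcendental ℂ u) {I : Ideal (MvPolynomial σ ℂ)} {l₁ l₂ : MvPolynomial σ ℂ}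
    (hI : ∀ f ∈ I, aeval x f = 0) (h1 : aeval x l₁ = algebraMap K F u) (h2 : aeval x l₂ = 1)
    {e : ℕ} (hc : ∀ (R : Type) [Field R] [Algebra ℂ R] (u : R), Transcendental ℂ u →
      ∀ Y : Finset (σ → R), (∀ y ∈ Y, (∀ f ∈ I, aeval y f = 0) ∧
        aeval y l₁ = u ∧ aeval y l₂ = 1) → Y.card ≤ e) : Module.finrank K F ≤ e := by
  have : CharZero K := charZero_of_injective_algebraMap (algebraMap ℂ K).injective
  have hi : Function.Injective fun (θ : F →ₐ[K] AlgebraicClosure K) a => θ (x a) :=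
    fun θ θ' h => hx θ θ' (congrFun h)
  rw [← AlgHom.card K F (AlgebraicClosure K), ← card_univ, ← card_image_of_injective _ hi]
  refine hc _ (algebraMap K _ u)
    ((transcendental_algebraMap_iff (algebraMap K _).injective).2 hu) _ fun y hy => ?_
  obtain ⟨θ, -, rfl⟩ := mem_image.1 hy
  have e : ∀ f : MvPolynomial σ ℂ, aeval (fun a => θ (x a)) f = θ (aeval x f) := fun f =>
    (comp_aeval_apply x (θ.restrictScalars ℂ) f).symm
  refine ⟨fun f hf => by rw [e, hI f hf, map_zero], by rw [e, h1, θ.commutes],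
    by rw [e, h2, map_one]⟩

omit [Fintype σ] in
theorem ch_ker {π : σ → Ω} {f : MvPolynomial σ ℂ} (hf : f ∈ hker ℂ π) : aeval π f = 0 := by
  rw [← sum_homogeneousComponent f, map_sum]
  exact sum_eq_zero fun k _ => (mem_hker_iff π f).1 hf k

omit [Fintype σ] in
theorem ch_scale (π : σ → Ω) {t : Ω} (ht : t ≠ 0) : hker ℂ (fun a => t * π a) = hker ℂ π := by
  ext f
  rw [mem_hker_iff, mem_hker_iff]
  refine forall_congr' fun k => ?_
  rw [pc_scale t π (homogeneousComponent_isHomogeneous k f), mul_eq_zero,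
    or_iff_right (pow_ne_zero _ ht)]

theorem ch_one (π : σ → Ω) {N e : ℕ} {m : Ω}
    (h : ∀ j, N ≤ j → ∀ x ∈ VH π (j + 1), ∃ a ∈ VH π j, x = m * a) : CurveB (hker ℂ π) e := by
  have h1 : ∀ k, Module.finrank ℂ (VH π (N + k)) ≤ Module.finrank ℂ (VH π N) := by
    intro k
    induction k with
    | zero => exact le_rfl
    | succ k ih =>
      have := VH_finite π (N + k)
      refine le_trans ?_ ((Submodule.finrank_map_le (LinearMap.mulLeft ℂ m) _).trans ih)
      refine Submodule.finrank_mono fun x hx => ?_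
      obtain ⟨a, ha, rfl⟩ := h (N + k) (Nat.le_add_right _ _) x hx
      exact ⟨a, ha, rfl⟩
  refine curveB_of_growth π (j₀ := N) (c := Module.finrank ℂ (VH π N)) fun j hj => ?_
  obtain ⟨k, rfl⟩ := Nat.exists_eq_add_of_le hj
  exact (h1 k).trans (Nat.le_add_left _ _)

theorem ch_main (π : σ → Ω) (μ₁ μ₂ : σ → ℂ) {e : ℕ} (h2 : aeval π (lin μ₂ 0) = 1)
    (hb : ∀ π₀ : σ → ℂ, (∀ f ∈ hker ℂ π, eval π₀ f = 0) → μ₁ ⬝ᵥ π₀ = 0 → μ₂ ⬝ᵥ π₀ = 0 → π₀ = 0)
    (hc : ∀ (R : Type) [Field R] [Algebra ℂ R] (u : R), Transcendental ℂ u →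
      ∀ Y : Finset (σ → R), (∀ y ∈ Y, (∀ f ∈ hker ℂ π, aeval y f = 0) ∧
        aeval y (lin μ₁ 0) = u ∧ aeval y (lin μ₂ 0) = 1) → Y.card ≤ e) :
    CurveB (hker ℂ π) e := by
  obtain ⟨N, hN⟩ := VH_rec π μ₁ μ₂ hb
  simp only [h2, one_mul] at hN
  generalize h1 : aeval π (lin μ₁ 0) = u at hN
  by_cases hu : IsAlgebraic ℂ u
  · obtain ⟨c, rfl⟩ := minpoly.mem_range_of_degree_eq_one ℂ u
        (IsAlgClosed.degree_eq_one_of_irreducible ℂ (minpoly.irreducible hu.isIntegral))
    refine ch_one π (N := N) (m := 1) fun j hj x hx => ?_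
    obtain ⟨a, ha, a', ha', rfl⟩ := hN j hj x hx
    refine ⟨_, Submodule.add_mem _ (Submodule.smul_mem _ c ha) ha', ?_⟩
    rw [one_mul, Algebra.smul_def]
  have := VH_finite π N
  let K := IntermediateField.adjoin ℂ {u}
  have hint : ∀ x ∈ Set.range π, IsIntegral K x := by
    rintro _ ⟨a, rfl⟩
    refine isIntegral_of_smul_mem_submodule (Submodule.span K (VH π N : Set Ω)) ?_ ?_ _ ?_
    · refine (Submodule.ne_bot_iff _).2 ⟨1, Submodule.subset_span ?_, one_ne_zero⟩
      have h3 := ch1_mem (π := π) ((ch1_lin μ₂).pow N)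
      rwa [map_pow, h2, one_pow, one_mul] at h3
    · obtain ⟨s, hs⟩ := (Module.Finite.iff_fg.1 this)
      rw [← hs, Submodule.span_span_of_tower]
      exact ⟨s, rfl⟩
    · intro n hn
      induction hn using Submodule.span_induction with
      | mem x hx =>
        obtain ⟨f, hf, rfl⟩ := hx
        have hf' : f.IsHomogeneous N := hf
        obtain ⟨b, hb, b', hb', e⟩ := hN N le_rfl _ (ch1_mem (hf'.mul (isHomogeneous_X ℂ a)))
        rw [map_mul, aeval_X] at e
        have e' : π a • (aeval π : MvPolynomial σ ℂ →ₐ[ℂ] Ω).toLinearMap f =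
            (⟨u, IntermediateField.mem_adjoin_simple_self ℂ u⟩ : K) • b + b' := by
          rw [smul_eq_mul, mul_comm]
          exact e
        rw [e']
        exact Submodule.add_mem _ (Submodule.smul_mem _ _ (Submodule.subset_span hb))
          (Submodule.subset_span hb')
      | zero => rw [smul_zero]; exact Submodule.zero_mem _
      | add x y _ _ hx hy => rw [smul_add]; exact Submodule.add_mem _ hx hy
      | smul c x _ hx => rw [smul_comm]; exact Submodule.smul_mem _ _ hx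
  let F := IntermediateField.adjoin K (Set.range π)
  have : FiniteDimensional K F := IntermediateField.finiteDimensional_adjoin hint
  let x : σ → F := fun a => ⟨π a, IntermediateField.subset_adjoin _ _ ⟨a, rfl⟩⟩
  have hx : ∀ f : MvPolynomial σ ℂ, ((aeval x f : F) : Ω) = aeval π f := fun f =>
    comp_aeval_apply x (F.val.restrictScalars ℂ) f
  have hd : Module.finrank K F ≤ e := by
    refine ch_card x (fun θ θ' h => IntermediateField.adjoin_algHom_ext K ?_)
      (u := ⟨u, IntermediateField.mem_adjoin_simple_self ℂ u⟩)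
      ((transcendental_algebraMap_iff (algebraMap K Ω).injective).1 hu)
      (fun f hf => Subtype.ext ((hx f).trans (ch_ker hf))) (Subtype.ext ((hx _).trans h1))
      (Subtype.ext ((hx _).trans h2)) hc
    rintro _ ⟨a, rfl⟩
    exact h a
  let b := Module.finBasis K F
  obtain ⟨c, hc'⟩ := ch_span u (fun l => (b l : Ω)) (VH π) hN (by
    rintro _ ⟨f, -, rfl⟩
    refine ⟨fun l => (b.repr (aeval x f) l : Ω), fun l => (b.repr (aeval x f) l).2, ?_⟩
    have h3 := congrArg F.val (b.sum_repr (aeval x f))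
    rw [map_sum] at h3
    exact (hx f).symm.trans h3.symm)
  exact curveB_of_growth π (c := c) fun j hj =>
    (hc' j hj).trans (Nat.add_le_add_right (Nat.mul_le_mul_right _ hd) _)

theorem curveB_of_pencil (π : σ → Ω) (μ₁ μ₂ : σ → ℂ) {e : ℕ}
    (hb : ∀ π₀ : σ → ℂ, (∀ f ∈ hker ℂ π, eval π₀ f = 0) → μ₁ ⬝ᵥ π₀ = 0 → μ₂ ⬝ᵥ π₀ = 0 → π₀ = 0)
    (hc : ∀ (R : Type) [Field R] [Algebra ℂ R] (u : R), Transcendental ℂ u →
      ∀ Y : Finset (σ → R), (∀ y ∈ Y, (∀ f ∈ hker ℂ π, aeval y f = 0) ∧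
        aeval y (lin μ₁ 0) = u ∧ aeval y (lin μ₂ 0) = 1) → Y.card ≤ e) :
    CurveB (hker ℂ π) e := by
  by_cases h2 : aeval π (lin μ₂ 0) = 0
  · obtain ⟨N, hN⟩ := VH_rec π μ₁ μ₂ hb
    refine ch_one π (N := N) (m := aeval π (lin μ₁ 0)) fun j hj x hx => ?_
    obtain ⟨a, ha, a', -, e⟩ := hN j hj x hx
    exact ⟨a, ha, by rw [e, h2, zero_mul, add_zero]⟩
  · rw [← ch_scale π (inv_ne_zero h2)] at hb hc ⊢
    refine ch_main _ μ₁ μ₂ ?_ hb hc
    rw [pc_scale _ π (ch1_lin μ₂), pow_one, inv_mul_cancel₀ h2]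

end Vale.Agent.P054
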