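import Vale.Agent.P054.PCurve

/-! CurveH1: growth of the homogeneous coordinate ring (about 300 lines).
`VH π j` is the space of values at `π` of forms of degree `j`. `curveB_of_growth`: for `j ≥ |Y|` the evaluation at the points of `Y` is well defined on `VH π (j + τ)` (`mem_hker`), surjective onto `ℂ^Y` (products of linear forms: for non-proportional nonzero vectors there is a linear form vanishing at one and not at the other; pad with a form nonzero at the chosen point) and kills `ψ(π) * VH π j`; use `growth`.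
`VH_rec`: Nullstellensatz (`MvPolynomial.vanishingIdeal_zeroLocus_eq_radical`) for `hker ⊔ span {lin μ₁ 0, lin μ₂ 0}` gives `X a ^ N` in this ideal, so every monomial of large degree is in it; take the homogeneous component of degree `j + 1` of `f + A l₁ + B l₂`.
-/

noncomputable section

open Classical MvPolynomial Matrix Finset

namespace Vale.Agent.P054

variable {σ : Type} [Fintype σ] {Ω : Type} [Field Ω] [Algebra ℂ Ω]

def VH (π : σ → Ω) (j : ℕ) : Submodule ℂ Ω :=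
  (homogeneousSubmodule σ ℂ j).map (aeval π : MvPolynomial σ ℂ →ₐ[ℂ] Ω).toLinearMap

theorem VH_finite (π : σ → Ω) (j : ℕ) : Module.Finite ℂ (VH π j) := by
  have := finite_hom (σ := σ) (F := ℂ) j
  exact Module.Finite.map _ _

omit [Fintype σ] in
theorem ch1_mem {π : σ → Ω} {j : ℕ} {f : MvPolynomial σ ℂ} (hf : f.IsHomogeneous j) :
    aeval π f ∈ VH π j := ⟨f, hf, rfl⟩

omit [Fintype σ] in
theorem ch1_form {y y' : σ → ℂ} (h0 : y' ≠ 0) (h : ∀ c : ℂ, y ≠ c • y') :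
    ∃ l : MvPolynomial σ ℂ, l.IsHomogeneous 1 ∧ eval y l ≠ 0 ∧ eval y' l = 0 := by
  obtain ⟨k, hk⟩ := Function.ne_iff.1 h0
  have hk' : y' k ≠ 0 := hk
  obtain ⟨i, hi⟩ := Function.ne_iff.1 (h (y k / y' k))
  refine ⟨C (y' k) * X i - C (y' i) * X k,
    (isHomogeneous_C_mul_X _ _).sub (isHomogeneous_C_mul_X _ _), fun h1 => hi ?_, ?_⟩
  · simp only [map_sub, map_mul, eval_C, eval_X] at h1
    simp only [Pi.smul_apply, smul_eq_mul]
    field_simp
    linear_combination h1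
  · simp only [map_sub, map_mul, eval_C, eval_X]
    ring

omit [Fintype σ] in
theorem ch1_sep (Y : Finset (σ → ℂ)) (h0 : ∀ y ∈ Y, y ≠ 0)
    (hY : ∀ y ∈ Y, ∀ y' ∈ Y, ∀ c : ℂ, y' = c • y → y' = y) {n : ℕ} (hn : Y.card ≤ n)
    {y : σ → ℂ} (hy : y ∈ Y) : ∃ f : MvPolynomial σ ℂ, f.IsHomogeneous n ∧ eval y f ≠ 0 ∧
      ∀ y' ∈ Y, y' ≠ y → eval y' f = 0 := by
  have h1 : ∀ y' : σ → ℂ, ∃ l : MvPolynomial σ ℂ, y' ∈ Y.erase y →
      l.IsHomogeneous 1 ∧ eval y l ≠ 0 ∧ eval y' l = 0 := by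
    intro y'
    by_cases hy' : y' ∈ Y.erase y
    · obtain ⟨l, hl⟩ := ch1_form (y := y) (h0 y' (mem_of_mem_erase hy')) fun c hc =>
        ne_of_mem_erase hy' (hY y' (mem_of_mem_erase hy') y hy c hc).symm
      exact ⟨l, fun _ => hl⟩
    · exact ⟨0, fun h => absurd h hy'⟩
  choose l hl using h1
  obtain ⟨i, hi⟩ := Function.ne_iff.1 (h0 y hy)
  have hi' : y i ≠ 0 := hi
  have hc : (Y.erase y).card ≤ n := (card_le_card (erase_subset _ _)).trans hn
  refine ⟨(∏ y' ∈ Y.erase y, l y') * X i ^ (n - (Y.erase y).card), ?_, ?_, fun y' h1 h2 => ?_⟩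
  · have h2 := (IsHomogeneous.prod (Y.erase y) l (fun _ => 1) fun y' hy' => (hl y' hy').1).mul
      (isHomogeneous_X_pow i (n - (Y.erase y).card))
    rwa [sum_const, smul_eq_mul, mul_one, Nat.add_sub_cancel' hc] at h2
  · rw [map_mul, map_prod, map_pow, eval_X]
    exact mul_ne_zero (prod_ne_zero_iff.2 fun y' hy' => (hl y' hy').2.1) (pow_ne_zero _ hi')
  · have h3 : y' ∈ Y.erase y := mem_erase.2 ⟨h2, h1⟩
    rw [map_mul, map_prod, prod_eq_zero h3 (hl y' h3).2.2, zero_mul]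

theorem ch1_step (π : σ → Ω) {τ : ℕ} {ψ : MvPolynomial σ ℂ} (hψ : ψ.IsHomogeneous τ)
    (hu : aeval π ψ ≠ 0) (Y : Finset (σ → ℂ))
    (h0 : ∀ y ∈ Y, y ≠ 0 ∧ (∀ f ∈ hker ℂ π, eval y f = 0) ∧ eval y ψ = 0)
    (hY : ∀ y ∈ Y, ∀ y' ∈ Y, ∀ c : ℂ, y' = c • y → y' = y) {j : ℕ} (hj : Y.card ≤ j) :
    Y.card + Module.finrank ℂ (VH π j) ≤ Module.finrank ℂ (VH π (j + τ)) := by
  have := VH_finite π j
  have := VH_finite π (j + τ)
  choose f hf using fun y : Y => ch1_sep Y (fun y hy => (h0 y hy).1) hY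
    (hj.trans (Nat.le_add_right j τ)) y.2
  let L : ((Y → ℂ) × VH π j) →ₗ[ℂ] Ω :=
    (Fintype.linearCombination ℂ fun y : Y => aeval π (f y)).coprod
      ((LinearMap.mulLeft ℂ (aeval π ψ)).comp (VH π j).subtype)
  have hL : ∀ (c : Y → ℂ) (g : MvPolynomial σ ℂ) (hg : g.IsHomogeneous j),
      L (c, ⟨aeval π g, ch1_mem hg⟩) = aeval π (∑ y, C (c y) * f y + g * ψ) := by
    intro c g hg
    simp [L, Fintype.linearCombination_apply, Algebra.smul_def, mul_comm]
  have hH : ∀ (c : Y → ℂ) (g : MvPolynomial σ ℂ), g.IsHomogeneous j →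
      (∑ y, C (c y) * f y + g * ψ).IsHomogeneous (j + τ) := fun c g hg =>
    (IsHomogeneous.sum _ _ _ fun y _ => (hf y).1.C_mul _).add (hg.mul hψ)
  have hm : ∀ x, L x ∈ VH π (j + τ) := by
    rintro ⟨c, _, g, hg, rfl⟩
    have h1 := hL c g hg
    exact h1 ▸ ch1_mem (hH c g hg)
  have hi : Function.Injective (L.codRestrict _ hm) := by
    rw [injective_iff_map_eq_zero]
    rintro ⟨c, _, g, hg, rfl⟩ hx
    have h1 : aeval π (∑ y, C (c y) * f y + g * ψ) = 0 :=
      (hL c g hg).symm.trans (congrArg Subtype.val hx)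
    have h2 := (mem_hker π (hH c g hg)).2 h1
    have h3 : c = 0 := by
      funext y
      have h4 := (h0 y y.2).2.1 _ h2
      rw [map_add, map_mul, (h0 y y.2).2.2, mul_zero, add_zero, map_sum,
        sum_eq_single y (fun y' _ hy' => by
          rw [map_mul, (hf y').2.2 y y.2 fun h => hy' (Subtype.ext h).symm, mul_zero])
          (fun h => absurd (mem_univ y) h), map_mul, eval_C] at h4
      exact (mul_eq_zero.1 h4).resolve_right (hf y).2.1
    subst h3
    have h5 : aeval π g * aeval π ψ = 0 := by simpa using h1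
    exact Prod.ext rfl (Subtype.ext ((mul_eq_zero.1 h5).resolve_right hu))
  have h6 := LinearMap.finrank_le_finrank_of_injective hi
  rwa [Module.finrank_prod, Module.finrank_fintype_fun_eq_card, Fintype.card_coe] at h6

theorem curveB_of_growth (π : σ → Ω) {e c j₀ : ℕ}
    (hV : ∀ j, j₀ ≤ j → Module.finrank ℂ (VH π j) ≤ e * j + c) : CurveB (hker ℂ π) e := by
  refine ⟨hker_prime π, hker_hom π, fun τ ψ hψ hI Y h0 hY => ?_⟩
  exact growth (a := fun j => Module.finrank ℂ (VH π j)) (j₀ := max j₀ Y.card) (c := c)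
    (fun j hj => ch1_step π hψ (fun h => hI ((mem_hker π hψ).2 h)) Y h0 hY (le_of_max_le_right hj))
    fun j hj => hV j (le_of_max_le_left hj)

theorem ch1_lin (μ : σ → ℂ) : (lin μ 0).IsHomogeneous 1 := by
  rw [lin, map_zero, sub_zero]
  exact IsHomogeneous.sum _ _ _ fun i _ => isHomogeneous_C_mul_X _ _

theorem VH_rec (π : σ → Ω) (μ₁ μ₂ : σ → ℂ)
    (hb : ∀ π₀ : σ → ℂ, (∀ f ∈ hker ℂ π, eval π₀ f = 0) → μ₁ ⬝ᵥ π₀ = 0 → μ₂ ⬝ᵥ π₀ = 0 → π₀ = 0) :
    ∃ N, ∀ j, N ≤ j → ∀ x ∈ VH π (j + 1), ∃ a ∈ VH π j, ∃ b ∈ VH π j,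
      x = aeval π (lin μ₁ 0) * a + aeval π (lin μ₂ 0) * b := by
  set J : Ideal (MvPolynomial σ ℂ) := hker ℂ π ⊔ Ideal.span {lin μ₁ 0, lin μ₂ 0} with hJ
  have h1 : idealOfVars σ ℂ ≤ J.radical := by
    rw [← vanishingIdeal_zeroLocus_eq_radical (K := ℂ), idealOfVars, Ideal.span_le]
    rintro _ ⟨a, rfl⟩ x hx
    have h2 : ∀ μ, lin μ 0 ∈ ({lin μ₁ 0, lin μ₂ 0} : Set (MvPolynomial σ ℂ)) → μ ⬝ᵥ x = 0 := by
      intro μ hμ
      have := hx _ (Ideal.mem_sup_right (Ideal.subset_span hμ))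
      rwa [aeval_eq_eval, eval_lin, sub_zero] at this
    rw [hb x (fun f hf => hx f (Ideal.mem_sup_left hf)) (h2 _ (Set.mem_insert _ _))
      (h2 _ (Set.mem_insert_of_mem _ rfl)), aeval_X, Pi.zero_apply]
  obtain ⟨N, hN⟩ := Ideal.exists_pow_le_of_le_radical_of_fg h1 (IsNoetherian.noetherian _)
  refine ⟨N, ?_⟩
  rintro j hj _ ⟨f, hf, rfl⟩
  have hf' : f.IsHomogeneous (j + 1) := hf
  have h3 : f ∈ J := hN ((mem_pow_idealOfVars_iff _ _).2 fun x hx => by
    have := hf' (mem_support_iff.1 hx)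
    rw [Finsupp.degree_eq_weight_one]
    exact (hj.trans (Nat.le_succ j)).trans_eq this.symm)
  obtain ⟨g, hg, r, hr, e⟩ := Submodule.mem_sup.1 h3
  obtain ⟨A, B, rfl⟩ := Ideal.mem_span_pair.1 hr
  refine ⟨_, ch1_mem (homogeneousComponent_isHomogeneous j A), _,
    ch1_mem (homogeneousComponent_isHomogeneous j B), ?_⟩
  have h4 := congrArg (fun p : MvPolynomial σ ℂ =>
    (aeval (fun a => Polynomial.X * Polynomial.C (π a)) p : Polynomial Ω).coeff (j + 1)) e
  have h5 : aeval (fun a => Polynomial.X * Polynomial.C (π a)) g = 0 := hg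
  simp only [map_add, map_mul, h5, zero_add, pc_hom π hf', pc_hom π (ch1_lin μ₁),
    pc_hom π (ch1_lin μ₂), Polynomial.coeff_add, Polynomial.coeff_mul_monomial, pc_coeff,
    Polynomial.coeff_monomial_same] at h4
  show aeval π f = _
  rw [← h4]
  ring

end Vale.Agent.P054
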