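import Vale.Agent.P054.CurveL1
import Vale.Agent.P054.CurveH

/-! CurveL: the lines of a ruled surface form a curve of degree at most twice the degree (about 350 lines).
Take `c, o` from `good_plane`, a basis `f₁, f₂` of `ν^⊥` with functionals `φ_i ⬝ᵥ f_j = δ_ij` (every `y ⊥ ν` is `(φ₁ ⬝ᵥ y) f₁ + (φ₂ ⬝ᵥ y) f₂`, also over `R`), `y(α, β) = ν × β + c α - (ν ⬝ᵥ α) o ⊥ ν`, `μ_i = φ_i ∘ y`; apply `curveB_of_pencil`.
Base points: `y = 0`. If `ν ⬝ᵥ α ≠ 0` then `o × α = β` (use `α ⬝ᵥ β = 0`), against `zero_line`; if `ν ⬝ᵥ α = 0`, `α ≠ 0` the line lies in the plane; if `α = 0` then `β ∥ ν` and `zero_inf` contradicts `TopNe` unless `β = 0`.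
Fibre: `y = u f₁ + f₂`. If `ν ⬝ᵥ α = 0` then `h_top(u f₁ + f₂) = 0` (for `α ≠ 0`: `y` is parallel to `α` when... see below), impossible since `u` is transcendental and `TopNe`. Precisely: `zero_line`/`zero_inf` come from `H(ν ⬝ᵥ α, ν × β + c α) = 0`; for `α = 0` use `zero_inf`; for `α ≠ 0` take `s` on the line, `y = (c - ν ⬝ᵥ s) α`, and the leading coefficient of `T ↦ h(s + T α) = 0` is `h_top(α)`.
Otherwise `s = o + λ (u f₁ + f₂)`, `λ = 1/(ν ⬝ᵥ α)`, lies on the line, `λ` is a root of a nonzero polynomial of degree `≤ r`, `s` is not complex, so `sff ≠ 0` at `s` and `two_dirs` bounds the fibres of `π ↦ λ` by 2 (`β = s × α`, parallel `α` with equal `ν ⬝ᵥ α` are equal).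
-/

noncomputable section

open Classical MvPolynomial Matrix Finset

namespace Vale.Agent.P054

section cl

variable {R : Type} [Field R] [Algebra ℂ R]

/-- a complex vector read over `R` -/
def clam (R : Type) [Field R] [Algebra ℂ R] (a : Fin 3 → ℂ) : Fin 3 → R :=
  fun i => algebraMap ℂ R (a i)

theorem clam_self (a : Fin 3 → ℂ) : clam ℂ a = a := rfl

theorem clam_dot (a b : Fin 3 → ℂ) : clam R a ⬝ᵥ clam R b = algebraMap ℂ R (a ⬝ᵥ b) := by
  simp [clam, dotProduct]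

theorem cl_aeval_clam (a : Fin 3 → ℂ) (g : P3) :
    aeval (clam R a) g = algebraMap ℂ R (eval a g) := by
  have := MvPolynomial.comp_aeval_apply a (Algebra.ofId ℂ R) g
  exact this.symm

theorem cl_lin (ν : Fin 3 → ℂ) (c : ℂ) (s : Fin 3 → R) :
    aeval s (lin ν c) = clam R ν ⬝ᵥ s - algebraMap ℂ R c := by
  simp [lin, clam, dotProduct]

/-- restriction of a polynomial to a line -/
def clp (g : P3) (s w : Fin 3 → R) : Polynomial R :=
  aeval (fun i => Polynomial.C (w i) * Polynomial.X + Polynomial.C (s i)) g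

theorem clp_eval (g : P3) (s w : Fin 3 → R) (t : R) :
    (clp g s w).eval t = aeval (s + t • w) g := by
  have := MvPolynomial.comp_aeval_apply
    (fun i => Polynomial.C (w i) * Polynomial.X + Polynomial.C (s i))
    ((Polynomial.aeval t : Polynomial R →ₐ[R] R).restrictScalars ℂ) g
  rw [AlgHom.restrictScalars_apply, Polynomial.coe_aeval_eq_eval] at this
  rw [clp, this]
  refine congrArg (fun z => aeval z g) (funext fun i => ?_)
  simp only [AlgHom.restrictScalars_apply, map_add, map_mul, Polynomial.aeval_C, Polynomial.aeval_X,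
    Algebra.algebraMap_self, RingHom.id_apply, Pi.add_apply, Pi.smul_apply, smul_eq_mul]
  ring

theorem clp_deg (g : P3) (s w : Fin 3 → R) : (clp g s w).natDegree ≤ g.totalDegree := by
  rw [clp, ← MvPolynomial.aeval_map_algebraMap R]
  refine (aeval_natDegree_le _ (m := g.totalDegree) ?_ _
    fun i => Polynomial.natDegree_linear_le).trans_eq (mul_one _)
  exact Finset.sup_mono (support_map_subset _ _)

theorem clp_aeval (g : P3) (s w : Fin 3 → ℂ) (u : R) :
    Polynomial.aeval u (clp g s w) = aeval (clam R s + u • clam R w) g := by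
  have := MvPolynomial.comp_aeval_apply
    (fun i => Polynomial.C (w i) * Polynomial.X + Polynomial.C (s i))
    (Polynomial.aeval u : Polynomial ℂ →ₐ[ℂ] R) g
  rw [clp, this]
  refine congrArg (fun z => aeval z g) (funext fun i => ?_)
  simp only [clam, map_add, map_mul, Polynomial.aeval_C, Polynomial.aeval_X, Pi.add_apply,
    Pi.smul_apply, smul_eq_mul]
  ring

theorem cl_smul {g : P3} {k : ℕ} (hg : g.IsHomogeneous k) (t : R) (x : Fin 3 → R) :
    aeval (t • x) g = t ^ k * aeval x g := pc_scale t x hg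

theorem cl_top {g : P3} {n : ℕ} (hn : g.totalDegree ≤ n) {s α : Fin 3 → R}
    (hl : ∀ T : R, aeval (s + T • α) g = 0) : aeval α (homogeneousComponent n g) = 0 := by
  have hinf : Infinite R := Infinite.of_injective _ (algebraMap ℂ R).injective
  have hs : ∑ k ∈ range (n + 1), homogeneousComponent k g = g := by
    conv_rhs => rw [← sum_homogeneousComponent g]
    refine (Finset.sum_subset (range_mono (by omega)) fun k _ hk => ?_).symm
    exact homogeneousComponent_eq_zero _ _ (by rw [mem_range] at hk; omega)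
  set q : Polynomial R := ∑ k ∈ range (n + 1),
    Polynomial.X ^ (n - k) * clp (homogeneousComponent k g) α s with hq
  have hev : ∀ a : R, q.eval a =
      ∑ k ∈ range (n + 1), a ^ (n - k) * aeval (α + a • s) (homogeneousComponent k g) := by
    intro a
    rw [hq, Polynomial.eval_finsetSum]
    refine Finset.sum_congr rfl fun k _ => ?_
    rw [Polynomial.eval_mul, Polynomial.eval_pow, Polynomial.eval_X, clp_eval]
  have h0 : q = 0 := by
    refine Polynomial.eq_zero_of_infinite_isRoot q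
      ((Set.finite_singleton (0 : R)).infinite_compl.mono fun a ha => ?_)
    have ha' : a ≠ 0 := ha
    have e : α + a • s = a • (s + a⁻¹ • α) := by
      rw [smul_add, smul_smul, mul_inv_cancel₀ ha', one_smul, add_comm]
    show q.eval a = 0
    rw [hev, e]
    have : ∀ k ∈ range (n + 1), a ^ (n - k) * aeval (a • (s + a⁻¹ • α))
        (homogeneousComponent k g) = a ^ n * aeval (s + a⁻¹ • α) (homogeneousComponent k g) := by
      intro k hk
      rw [cl_smul (homogeneousComponent_isHomogeneous k g), ← mul_assoc, ← pow_add,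
        Nat.sub_add_cancel (by rw [mem_range] at hk; omega)]
    rw [Finset.sum_congr rfl this, ← Finset.mul_sum, ← map_sum, hs, hl, mul_zero]
  have h1 := hev 0
  rw [h0, Polynomial.eval_zero, Finset.sum_range_succ, Finset.sum_eq_zero, Nat.sub_self, pow_zero,
    one_mul, zero_smul, add_zero, zero_add] at h1
  · exact h1.symm
  · intro k hk
    rw [zero_pow (by rw [mem_range] at hk; omega), zero_mul]

theorem cl_basis {ν : Fin 3 → ℂ} (hν : ν ≠ 0) : ∃ (i j : Fin 3) (f₁ f₂ : Fin 3 → ℂ),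
    ∀ (R : Type) [Field R] [Algebra ℂ R] (y : Fin 3 → R), clam R ν ⬝ᵥ y = 0 →
      y = y j • clam R f₂ + y i • clam R f₁ := by
  obtain ⟨k, hk⟩ := Function.ne_iff.1 hν
  have hk' : ∀ (R : Type) [Field R] [Algebra ℂ R], algebraMap ℂ R (ν k) ≠ 0 := fun R _ _ =>
    (map_ne_zero _).2 hk
  fin_cases k
  · refine ⟨1, 2, ![-(ν 1 / ν 0), 1, 0], ![-(ν 2 / ν 0), 0, 1], fun R _ _ y hy => ?_⟩
    have h := hk' R
    simp only [clam, dotProduct, Fin.sum_univ_three, Fin.zero_eta] at hy h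
    ext l
    fin_cases l <;> simp [clam]
    field_simp
    linear_combination hy
  · refine ⟨0, 2, ![1, -(ν 0 / ν 1), 0], ![0, -(ν 2 / ν 1), 1], fun R _ _ y hy => ?_⟩
    have h := hk' R
    simp only [clam, dotProduct, Fin.sum_univ_three, Fin.mk_one] at hy h
    ext l
    fin_cases l <;> simp [clam]
    field_simp
    linear_combination hy
  · refine ⟨0, 1, ![1, 0, -(ν 0 / ν 2)], ![0, 1, -(ν 1 / ν 2)], fun R _ _ y hy => ?_⟩
    have h := hk' R
    simp only [clam, dotProduct, Fin.sum_univ_three, Fin.reduceFinMk] at hy h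
    ext l
    fin_cases l <;> simp [clam]
    field_simp
    linear_combination hy

theorem cl_trans {h : P3} {ν f₁ f₂ : Fin 3 → ℂ} {i j : Fin 3} (ht : TopNe h ν)
    (hb : ∀ y : Fin 3 → ℂ, ν ⬝ᵥ y = 0 → y = y j • f₂ + y i • f₁) {u : R}
    (hu : Transcendental ℂ u) :
    aeval (clam R f₂ + u • clam R f₁) (homogeneousComponent h.totalDegree h) ≠ 0 := by
  intro h0
  obtain ⟨v, hv, hv'⟩ := ht
  have hH := homogeneousComponent_isHomogeneous h.totalDegree h
  set g := homogeneousComponent h.totalDegree h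
  rw [← clp_aeval] at h0
  have h1 : clp g f₂ f₁ = 0 := by
    by_contra hne
    exact hu ⟨_, hne, h0⟩
  have h2 : ∀ t : ℂ, aeval (f₂ + t • f₁) g = 0 := fun t => by
    rw [← clp_eval, h1, Polynomial.eval_zero]
  have h3 := cl_top hH.totalDegree_le h2
  rw [homogeneousComponent_eq_self hH] at h3
  refine hv' ?_
  show aeval v g = 0
  rw [hb v hv]
  by_cases hj : v j = 0
  · rw [hj, zero_smul, zero_add, cl_smul hH, h3, mul_zero]
  · have e : v j • f₂ + v i • f₁ = v j • (f₂ + (v i / v j) • f₁) := by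
      rw [smul_add, smul_smul, mul_div_cancel₀ _ hj]
    rw [e, cl_smul hH, h2, mul_zero]

/-- the intersection of the line with the plane, relative to `o` -/
def clY (n : Fin 3 → R) (c : R) (o α β : Fin 3 → R) : Fin 3 → R :=
  n ⨯₃ β + c • α - (n ⬝ᵥ α) • o

/-- coordinates of `clY` as linear forms -/
def clmu (ν : Fin 3 → ℂ) (c : ℂ) (o : Fin 3 → ℂ) (i : Fin 3) : S6 → ℂ :=
  Sum.elim (c • Pi.single i 1 - o i • ν) (Pi.single i 1 ⨯₃ ν)

theorem cl_mu (ν : Fin 3 → ℂ) (c : ℂ) (o : Fin 3 → ℂ) (i : Fin 3) (α β : Fin 3 → R) :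
    aeval (Sum.elim α β) (lin (clmu ν c o i) 0) =
      clY (clam R ν) (algebraMap ℂ R c) (clam R o) α β i := by
  fin_cases i <;>
    simp [lin, clmu, clY, clam, Fintype.sum_sum_type, Fin.sum_univ_three, cross_apply,
      dotProduct, vecHead, vecTail, Algebra.smul_def] <;> ring

end cl

section vec

variable {R : Type} [Field R] {n o α β s : Fin 3 → R} {c : R}

theorem clY_perp (ho : n ⬝ᵥ o = c) : n ⬝ᵥ clY n c o α β = 0 := by
  subst ho
  simp [clY, cross_apply, dotProduct, Fin.sum_univ_three, vecHead, vecTail]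
  ring

theorem clY_cross (hp : α ⬝ᵥ β = 0) : clY n c o α β ⨯₃ α = (n ⬝ᵥ α) • (β - o ⨯₃ α) := by
  simp only [dotProduct, Fin.sum_univ_three] at hp
  ext l
  fin_cases l <;> simp [clY, cross_apply, dotProduct, Fin.sum_univ_three, vecHead, vecTail]
  · linear_combination (-n 0) * hp
  · linear_combination (-n 1) * hp
  · linear_combination (-n 2) * hp

theorem clY_par (h0 : n ⬝ᵥ α = 0) (hs : s ⨯₃ α = β) : clY n c o α β = (c - n ⬝ᵥ s) • α := by
  subst hs
  rw [clY, h0, zero_smul, sub_zero]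
  simp only [dotProduct, Fin.sum_univ_three] at h0
  ext l
  fin_cases l <;> simp [cross_apply, dotProduct, Fin.sum_univ_three]
  · linear_combination (s 0) * h0
  · linear_combination (s 1) * h0
  · linear_combination (s 2) * h0

theorem cl_bac (a b c : Fin 3 → R) : a ⨯₃ (b ⨯₃ c) = (a ⬝ᵥ c) • b - (a ⬝ᵥ b) • c := by
  ext l
  fin_cases l <;> simp [cross_apply, dotProduct, Fin.sum_univ_three] <;> ring

theorem cl_move (hs : s ⨯₃ α = β) (T : R) : (s + T • α) ⨯₃ α = β := by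
  rw [map_add, LinearMap.add_apply, hs, map_smul, LinearMap.smul_apply, cross_self, smul_zero,
    add_zero]

end vec

section main

variable {Ω : Type} [Field Ω] [Algebra ℂ Ω] {h : P3} {ξ v : Fin 3 → Ω} {ν o : Fin 3 → ℂ} {c : ℂ}

theorem cl_base (hl : ∀ T : Ω, aeval (ξ + T • v) h = 0) (hν : ν ≠ 0) (ht : TopNe h ν)
    (ho : eval o h ≠ 0)
    (hP : ∀ s α : Fin 3 → ℂ, α ≠ 0 → ν ⬝ᵥ s = c → ν ⬝ᵥ α = 0 → ∃ T : ℂ, eval (s + T • α) h ≠ 0)
    {α β : Fin 3 → ℂ}
    (hπ : ∀ f ∈ hker ℂ (Sum.elim v (ξ ⨯₃ v) : S6 → Ω), aeval (Sum.elim α β) f = 0)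
    (hY : clY ν c o α β = 0) : α = 0 ∧ β = 0 := by
  have hp := zero_pl hπ
  by_cases hα : α = 0
  · subst hα
    refine ⟨rfl, ?_⟩
    by_contra hβ
    obtain ⟨w, hw, hw'⟩ := ht
    refine hw' (zero_inf hl hπ hβ ?_)
    have h1 : ν ⨯₃ β = 0 := by simpa [clY] using hY
    have h2 := cl_bac w ν β
    rw [h1, map_zero, dotProduct_comm w ν, hw, zero_smul, sub_zero, eq_comm, smul_eq_zero] at h2
    rw [dotProduct_comm]
    exact h2.resolve_right hν
  exfalso
  by_cases h0 : ν ⬝ᵥ α = 0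
  · obtain ⟨s, hs⟩ := exists_on_line hα hp
    rw [clY_par h0 hs, smul_eq_zero, sub_eq_zero] at hY
    obtain ⟨T, hT⟩ := hP s α hα (hY.resolve_right hα).symm h0
    exact hT (zero_line hl hπ hα (cl_move hs T))
  · have h1 := clY_cross (n := ν) (c := c) (o := o) hp
    rw [hY, map_zero, LinearMap.zero_apply, eq_comm, smul_eq_zero, sub_eq_zero] at h1
    exact ho (zero_line hl hπ hα (h1.resolve_left h0).symm)

variable {R : Type} [Field R] [Algebra ℂ R]

theorem cl_fib (hl : ∀ T : Ω, aeval (ξ + T • v) h = 0) {n o' w : Fin 3 → R} {c' : R}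
    (hw : w ≠ 0) (htop : aeval w (homogeneousComponent h.totalDegree h) ≠ 0) {α β : Fin 3 → R}
    (hπ : ∀ f ∈ hker ℂ (Sum.elim v (ξ ⨯₃ v) : S6 → Ω), aeval (Sum.elim α β) f = 0)
    (hY : clY n c' o' α β = w) :
    n ⬝ᵥ α ≠ 0 ∧ (o' + (n ⬝ᵥ α)⁻¹ • w) ⨯₃ α = β ∧
      ∀ T : R, aeval (o' + (n ⬝ᵥ α)⁻¹ • w + T • α) h = 0 := by
  have hp := zero_pl hπ
  have h0 : n ⬝ᵥ α ≠ 0 := by
    intro h0
    by_cases hα : α = 0
    · subst hα
      have h1 : n ⨯₃ β = w := by simpa [clY] using hY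
      have hβ : β ≠ 0 := fun hb => hw (by rw [← h1, hb, map_zero])
      exact htop (zero_inf hl hπ hβ (by rw [← h1]; exact dot_cross_self n β))
    · obtain ⟨s, hs⟩ := exists_on_line hα hp
      rw [clY_par h0 hs] at hY
      have h2 := cl_top le_rfl fun T => zero_line hl hπ hα (cl_move hs T)
      refine htop ?_
      rw [← hY, cl_smul (homogeneousComponent_isHomogeneous _ _), h2, mul_zero]
  have hα : α ≠ 0 := fun hα => h0 (by rw [hα, dotProduct_zero])
  have hs : (o' + (n ⬝ᵥ α)⁻¹ • w) ⨯₃ α = β := by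
    rw [map_add, LinearMap.add_apply, map_smul, LinearMap.smul_apply, ← hY, clY_cross hp,
      smul_smul, inv_mul_cancel₀ h0, one_smul, add_sub_cancel]
  exact ⟨h0, hs, fun T => zero_line hl hπ hα (cl_move hs T)⟩

omit [Algebra ℂ R] in
theorem cl_eq {n α α' : Fin 3 → R} (h0 : n ⬝ᵥ α ≠ 0) (he : (n ⬝ᵥ α)⁻¹ = (n ⬝ᵥ α')⁻¹)
    (hc : α ⨯₃ α' = 0) : α = α' := by
  have h1 := cl_bac n α α'
  rw [hc, map_zero, ← inv_inj.1 he, ← smul_sub, eq_comm, smul_eq_zero, sub_eq_zero] at h1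
  exact h1.resolve_left h0

end main

theorem curveB_line {Ω : Type} [Field Ω] [Algebra ℂ Ω] {h : P3} (hi : Irreducible h)
    {ν : Fin 3 → ℂ} (hν : ¬ h ∣ sff h ν ν) (ht : TopNe h ν) {ξ v : Fin 3 → Ω}
    (hl : ∀ T : Ω, aeval (ξ + T • v) h = 0) :
    CurveB (hker ℂ (Sum.elim v (ξ ⨯₃ v) : S6 → Ω)) (2 * h.totalDegree) := by
  obtain ⟨hν0, c, o, hoc, ho, hP, hQ⟩ := good_plane hi hν
  obtain ⟨i, j, f₁, f₂, hb⟩ := cl_basis hν0
  refine curveB_of_pencil _ (clmu ν c o i) (clmu ν c o j) ?_ ?_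
  · intro π₀ hπ h1 h2
    obtain ⟨α, β, rfl⟩ : ∃ α β : Fin 3 → ℂ, π₀ = Sum.elim α β :=
      ⟨π₀ ∘ Sum.inl, π₀ ∘ Sum.inr, (Sum.elim_comp_inl_inr π₀).symm⟩
    have e : ∀ k, clmu ν c o k ⬝ᵥ Sum.elim α β = clY ν c o α β k := fun k => by
      refine Eq.trans ?_ (cl_mu ν c o k α β)
      simp [lin, dotProduct]
    have hY := hb ℂ (clY ν c o α β) (clY_perp hoc)
    rw [← e i, ← e j, h1, h2, zero_smul, zero_smul, add_zero] at hY
    obtain ⟨rfl, rfl⟩ := cl_base hl hν0 ht ho hP hπ hY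
    exact Sum.elim_zero_zero
  intro R _ _ u hu Y hY
  set n := clam R ν with hn
  set o' := clam R o with ho'
  set w := clam R f₂ + u • clam R f₁ with hw
  have hno : n ⬝ᵥ o' = algebraMap ℂ R c := by rw [clam_dot, hoc]
  have htop := cl_trans (R := R) (f₁ := f₁) (f₂ := f₂) ht (hb ℂ) hu
  rw [← hw] at htop
  have key : ∀ y ∈ Y, clY n (algebraMap ℂ R c) o' (y ∘ Sum.inl) (y ∘ Sum.inr) = w ∧
      w i = u ∧ w j = 1 ∧ n ⬝ᵥ w = 0 := by
    intro y hy
    obtain ⟨-, h1, h2⟩ := hY y hy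
    rw [← Sum.elim_comp_inl_inr y, cl_mu] at h1 h2
    have h3 := hb R _ (clY_perp (α := y ∘ Sum.inl) (β := y ∘ Sum.inr) hno)
    rw [h1, h2, one_smul] at h3
    exact ⟨h3, hw ▸ h3 ▸ h1, hw ▸ h3 ▸ h2, hw ▸ h3 ▸ clY_perp hno⟩
  have fib : ∀ y ∈ Y, n ⬝ᵥ (y ∘ Sum.inl) ≠ 0 ∧
      (o' + (n ⬝ᵥ (y ∘ Sum.inl))⁻¹ • w) ⨯₃ (y ∘ Sum.inl) = y ∘ Sum.inr ∧
      ∀ T : R, aeval (o' + (n ⬝ᵥ (y ∘ Sum.inl))⁻¹ • w + T • (y ∘ Sum.inl)) h = 0 := by
    intro y hy
    obtain ⟨h1, -, h3, -⟩ := key y hy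
    refine cl_fib hl (fun h0 => ?_) htop ?_ h1
    · rw [h0] at h3
      exact zero_ne_one h3
    · rw [Sum.elim_comp_inl_inr]
      exact (hY y hy).1
  have hp0 : clp h o' w ≠ 0 := fun h0 => by
    have := clp_eval h o' w 0
    rw [h0, Polynomial.eval_zero, zero_smul, add_zero, ho', cl_aeval_clam, eq_comm,
      map_eq_zero] at this
    exact ho this
  refine (Finset.card_le_mul_card_image_of_maps_to (t := (clp h o' w).roots.toFinset)
    (f := fun y => (n ⬝ᵥ (y ∘ Sum.inl))⁻¹) (fun y hy => ?_) 2 fun b _ => ?_).trans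
    (Nat.mul_le_mul_left 2 ((Multiset.toFinset_card_le _).trans
      ((Polynomial.card_roots' _).trans (clp_deg h o' w))))
  · rw [Multiset.mem_toFinset, Polynomial.mem_roots hp0, Polynomial.IsRoot, clp_eval]
    simpa using (fib y hy).2.2 0
  by_contra hlt
  obtain ⟨y₁, m₁, y₂, m₂, y₃, m₃, n₁₂, n₁₃, n₂₃⟩ := Finset.two_lt_card.1 (not_le.1 hlt)
  rw [Finset.mem_filter] at m₁ m₂ m₃
  have hb0 : b ≠ 0 := m₁.2 ▸ inv_ne_zero (fib y₁ m₁.1).1
  obtain ⟨-, wi, wj, nw⟩ := key y₁ m₁.1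
  have hs : aeval (o' + b • w) (sff h ν ν) ≠ 0 := by
    intro h0
    have h1 : aeval (o' + b • w) h = 0 := by
      have := (fib y₁ m₁.1).2.2 0
      rwa [zero_smul, add_zero, m₁.2] at this
    have h2 := hQ R (o' + b • w)
      (by rw [cl_lin, ← hn, dotProduct_add, dotProduct_smul, nw, hno, smul_zero, add_zero,
        sub_self]) h1 h0
    obtain ⟨a₁, e₁⟩ := h2 i
    obtain ⟨a₂, e₂⟩ := h2 j
    simp only [Pi.add_apply, Pi.smul_apply, smul_eq_mul, wi, wj, ho', clam, mul_one] at e₁ e₂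
    have e₃ : u = algebraMap ℂ R ((a₁ - o i) / (a₂ - o j)) := by
      rw [map_div₀, map_sub, map_sub, ← e₁, ← e₂, add_sub_cancel_left, add_sub_cancel_left,
        mul_div_cancel_left₀ _ hb0]
    exact hu (e₃ ▸ isAlgebraic_algebraMap _)
  have jets : ∀ y ∈ Y, (n ⬝ᵥ (y ∘ Sum.inl))⁻¹ = b →
      d1 h (o' + b • w) (y ∘ Sum.inl) = 0 ∧
        d2 h (o' + b • w) (y ∘ Sum.inl) (y ∘ Sum.inl) = 0 := fun y hy e => by
    have := line_jets (fib y hy).2.2
    rw [e] at this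
    exact ⟨this.1, this.2.1⟩
  have same : ∀ y ∈ Y, ∀ y' ∈ Y, (n ⬝ᵥ (y ∘ Sum.inl))⁻¹ = b → (n ⬝ᵥ (y' ∘ Sum.inl))⁻¹ = b →
      (y ∘ Sum.inl) ⨯₃ (y' ∘ Sum.inl) = 0 → y = y' := fun y hy y' hy' e e' hc => by
    have h1 := cl_eq (fib y hy).1 (e.trans e'.symm) hc
    have h2 := (fib y hy).2.1
    rw [h1, (fib y' hy').2.1] at h2
    rw [← Sum.elim_comp_inl_inr y, ← Sum.elim_comp_inl_inr y', h1, h2]
  rcases two_dirs hs (jets y₁ m₁.1 m₁.2) (jets y₂ m₂.1 m₂.2) (jets y₃ m₃.1 m₃.2) with q | q | q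
  · exact n₁₂ (same _ m₁.1 _ m₂.1 m₁.2 m₂.2 q)
  · exact n₁₃ (same _ m₁.1 _ m₃.1 m₁.2 m₃.2 q)
  · exact n₂₃ (same _ m₂.1 _ m₃.1 m₂.2 m₃.2 q)

end Vale.Agent.P054
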