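import Vale.Agent.P054.Flat
import Vale.Agent.P054.Const
import Vale.Agent.P054.Krull

/-! Sff: a nonlinear surface has a nonzero second fundamental form (about 250 lines).
`gr_ne`: some `pderiv i h` is nonzero (`eq_C_of_pderiv`) of smaller degree, so `h` does not divide it.
`sff_ne`: let `ξ` be a generic point (`exists_gen`) and suppose that `h` divides all `sff h ζ ζ`. By polarization and multilinearity `d2 h ξ v w = 0` for all tangent `v, w` (tangent vectors are `gr × ζ`, `ζ ∈ Ω³`). For a derivation `δ`, `v = δ ξ` is tangent and `(δ gr) ⬝ᵥ w = d2 h ξ w v = 0` for all tangent `w`, so `gr × δ gr = 0`; `const_dir` gives `gr = κ ν₀`; `δ (ν₀ ⬝ᵥ ξ) = 0` for all `δ`, `const_mem` gives `c`, and `h ∣ lin ν₀ c` contradicts the degree.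
`exists_nu`: take `ζ` from `sff_ne`, `η` with `ζ × η ≠ 0`, `ν = ζ + κ η`. The first condition fails for at most two `κ` (a quadratic polynomial in `κ` modulo the prime `h`), the second for at most `deg h` values (`hyp_vanish` for the top form, which is nonzero).
-/

noncomputable section

open Classical MvPolynomial Matrix Finset

namespace Vale.Agent.P054

theorem gr_ne {h : P3} (hi : Irreducible h) : ∃ i, ¬ h ∣ pderiv i h := by
  by_contra H
  push Not at H
  have h1 : h = C (coeff 0 h) := by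
    by_cases h2 : ∀ a, pderiv a h = 0
    · exact eq_C_of_pderiv h2
    · push Not at h2
      obtain ⟨a, ha⟩ := h2
      have h3 := totalDegree_le_of_dvd_of_isDomain (H a) ha
      have h4 := degree_pderiv_le h a
      exact totalDegree_eq_zero_iff_eq_C.1 (by omega)
  refine hi.not_isUnit ?_
  rw [h1]
  refine IsUnit.map C (IsUnit.mk0 _ fun h2 => hi.ne_zero ?_)
  rw [h1, h2, map_zero]

section
variable {Ω : Type*} [CommRing Ω] [Algebra ℂ Ω]

/-- the second fundamental form as a bilinear form -/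
def sff_B (h : P3) (ξ : Fin 3 → Ω) : LinearMap.BilinForm Ω (Fin 3 → Ω) :=
  LinearMap.mk₂ Ω (fun a b => d2 h ξ (gr h ξ ⨯₃ a) (gr h ξ ⨯₃ b))
    (fun a b c => by rw [map_add, d2_add])
    (fun t a c => by rw [map_smul, d2_smul, smul_eq_mul])
    (fun a b c => by rw [map_add, d2_comm, d2_add, d2_comm, d2_comm h ξ (gr h ξ ⨯₃ c)])
    (fun t a c => by rw [map_smul, d2_comm, d2_smul, smul_eq_mul, d2_comm])

theorem sff_comm (h : P3) (ξ a b : Fin 3 → Ω) : sff_B h ξ a b = sff_B h ξ b a :=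
  d2_comm h ξ (gr h ξ ⨯₃ a) (gr h ξ ⨯₃ b)

theorem sff_aeval (h : P3) (ξ : Fin 3 → Ω) (ζ ζ' : Fin 3 → ℂ) : aeval ξ (sff h ζ ζ') =
    sff_B h ξ (fun i => algebraMap ℂ Ω (ζ i)) fun i => algebraMap ℂ Ω (ζ' i) := by
  have e1 : ∀ i, aeval ξ (gr h X i) = gr h ξ i := fun i => by
    exact congrArg (aeval ξ) (aeval_X_left_apply (pderiv i h))
  have e : ∀ ζ : Fin 3 → ℂ, (fun a => aeval ξ ((gr h X ⨯₃ fun i => (C (ζ i) : P3)) a)) =
      gr h ξ ⨯₃ fun i => algebraMap ℂ Ω (ζ i) := fun ζ => by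
    funext a
    fin_cases a <;> simp [cross_apply, e1]
  rw [sff, map_d2, e, e]
  simp only [aeval_X]
  rfl

end

theorem sff_core {Ω : Type*} [Field Ω] [Algebra ℂ Ω] {h : P3} (hi : Irreducible h)
    (hr : 2 ≤ h.totalDegree) {ξ : Fin 3 → Ω} (hξ : IsGen (Ideal.span {h}) ξ)
    (H : ∀ ζ, h ∣ sff h ζ ζ) : False := by
  have : CharZero Ω := charZero_of_injective_algebraMap (algebraMap ℂ Ω).injective
  obtain ⟨k, hk⟩ := gr_ne hi
  have hk' : gr h ξ k ≠ 0 := fun e => hk (Ideal.mem_span_singleton.1 ((hξ _).1 e))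
  have h1 : ∀ ζ : Fin 3 → ℂ,
      sff_B h ξ (fun i => algebraMap ℂ Ω (ζ i)) (fun i => algebraMap ℂ Ω (ζ i)) = 0 := fun ζ => by
    rw [← sff_aeval]
    exact (hξ _).2 (Ideal.mem_span_singleton.2 (H ζ))
  have h2 : sff_B h ξ = 0 := by
    refine LinearMap.BilinForm.ext_basis (Pi.basisFun Ω (Fin 3)) fun i j => ?_
    have e : ∀ i : Fin 3, (fun l => algebraMap ℂ Ω (Pi.single (M := fun _ => ℂ) i 1 l)) =
        Pi.basisFun Ω (Fin 3) i := fun i => by
      funext l
      simp [Pi.single_apply]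
    have a1 := h1 (Pi.single i 1)
    have a2 := h1 (Pi.single j 1)
    have a3 := h1 (Pi.single i 1 + Pi.single j 1)
    have e2 : (fun l => algebraMap ℂ Ω ((Pi.single i 1 + Pi.single j 1 : Fin 3 → ℂ) l)) =
        Pi.basisFun Ω (Fin 3) i + Pi.basisFun Ω (Fin 3) j := by
      rw [← e, ← e]
      funext l
      exact map_add _ _ _
    rw [e] at a1 a2
    rw [e2, LinearMap.map_add₂, map_add, map_add, a1, a2, sff_comm h ξ (Pi.basisFun Ω (Fin 3) j)] at a3
    rw [LinearMap.zero_apply, LinearMap.zero_apply]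
    linear_combination (1 / 2 : Ω) * a3
  have h3 : ∀ δ : Derivation ℂ Ω Ω, gr h ξ ⬝ᵥ (fun i => δ (ξ i)) = 0 := fun δ => by
    have a1 := der_aeval h ξ δ
    rw [(hξ h).2 (Ideal.mem_span_singleton_self h), map_zero] at a1
    rw [dotProduct_comm]
    exact a1.symm
  have h4 : ∀ δ : Derivation ℂ Ω Ω, gr h ξ ⨯₃ (fun i => δ (gr h ξ i)) = 0 := fun δ => by
    have a1 : gr h ξ ⨯₃ ((gr h ξ k)⁻¹ • ((fun i => δ (ξ i)) ⨯₃ Pi.single k 1)) =
        fun i => δ (ξ i) := by
      rw [map_smul, cross_cross_eq_smul_sub_smul', dotProduct_comm (fun i => δ (ξ i)), h3,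
        zero_smul, sub_zero, dotProduct_single_one, smul_smul, inv_mul_cancel₀ hk', one_smul]
    have a2 : ∀ a, (gr h ξ ⨯₃ a) ⬝ᵥ (fun i => δ (gr h ξ i)) = 0 := fun a => by
      have a3 : d2 h ξ _ _ = 0 :=
        congrArg (fun B => B a ((gr h ξ k)⁻¹ • ((fun i => δ (ξ i)) ⨯₃ Pi.single k 1))) h2
      rw [a1] at a3
      rw [← a3]
      exact sum_congr rfl fun i _ => congrArg _ (der_aeval _ ξ δ)
    funext i
    have a3 := a2 (Pi.single i 1)
    rw [dotProduct_comm, ← triple_product_permutation, single_one_dotProduct,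
      ← cross_anticomm] at a3
    exact neg_eq_zero.1 a3
  obtain ⟨κ, ν, hν, h5⟩ := const_dir h4
  have hκ : κ ≠ 0 := fun e => hk' (by rw [h5, e, zero_smul]; rfl)
  obtain ⟨c, hc⟩ := const_mem (K := ℂ) (u := ∑ i, ν i • ξ i) fun δ => by
    have a1 := h3 δ
    rw [h5, smul_dotProduct, smul_eq_mul, mul_eq_zero] at a1
    rw [map_sum, ← a1.resolve_left hκ]
    exact sum_congr rfl fun i _ => by rw [δ.map_smul, Algebra.smul_def]
  have h6 : h ∣ lin ν c := Ideal.mem_span_singleton.1 ((hξ _).1 (by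
    simp only [lin, map_sub, map_sum, map_mul, aeval_C, aeval_X, hc, Algebra.smul_def, sub_self]))
  have h7 : lin ν c ≠ 0 := fun e => hν (by
    have a1 := eval_lin ν 0 c
    funext i
    have a2 := eval_lin ν (Pi.single i 1) c
    rw [e, map_zero] at a1 a2
    rw [dotProduct_zero] at a1
    rw [dotProduct_single_one] at a2
    rw [Pi.zero_apply]
    linear_combination a1 - a2)
  have h8 := totalDegree_le_of_dvd_of_isDomain h6 h7
  have h9 := degree_lin_le ν c
  omega

theorem sff_ne {h : P3} (hi : Irreducible h) (hr : 2 ≤ h.totalDegree) : ∃ ζ, ¬ h ∣ sff h ζ ζ := by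
  by_contra H
  push Not at H
  have : (Ideal.span {h}).IsPrime := (Ideal.span_singleton_prime hi.ne_zero).2 hi.prime
  obtain ⟨ξ, hξ⟩ := exists_gen (Ideal.span {h})
  exact sff_core hi hr hξ H

theorem sff_fin1 {Ω : Type*} [Field Ω] [Algebra ℂ Ω] {h : P3} {ξ : Fin 3 → Ω}
    (hξ : IsGen (Ideal.span {h}) ξ) {ζ : Fin 3 → ℂ} (hζ : ¬ h ∣ sff h ζ ζ) (η : Fin 3 → ℂ) :
    {κ : ℂ | h ∣ sff h (ζ + κ • η) (ζ + κ • η)}.Finite := by
  set a : Fin 3 → Ω := fun i => algebraMap ℂ Ω (ζ i) with ha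
  set b : Fin 3 → Ω := fun i => algebraMap ℂ Ω (η i) with hb
  have hp : (Polynomial.C (sff_B h ξ b b) * Polynomial.X ^ 2 +
      Polynomial.C (2 * sff_B h ξ a b) * Polynomial.X + Polynomial.C (sff_B h ξ a a)) ≠ 0 := by
    intro e
    have h1 := congrArg (Polynomial.eval 0) e
    refine hζ (Ideal.mem_span_singleton.1 ((hξ _).1 ?_))
    rw [sff_aeval]
    simpa using h1
  refine ((Polynomial.finite_setOf_isRoot hp).preimage
    (algebraMap ℂ Ω).injective.injOn).subset fun κ hκ => ?_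
  have h1 := (hξ _).2 (Ideal.mem_span_singleton.2 hκ)
  have e : (fun i => algebraMap ℂ Ω ((ζ + κ • η) i)) = a + algebraMap ℂ Ω κ • b := by
    funext i
    simp only [ha, hb, Pi.add_apply, Pi.smul_apply, smul_eq_mul, map_add, map_mul]
  rw [sff_aeval, e] at h1
  simp only [LinearMap.add_apply, LinearMap.smul_apply, map_add, map_smul, smul_eq_mul,
    sff_comm h ξ b a] at h1
  simp only [Set.mem_preimage, Set.mem_ofPred_eq, Polynomial.IsRoot.def, Polynomial.eval_add,
    Polynomial.eval_mul, Polynomial.eval_C, Polynomial.eval_pow, Polynomial.eval_X]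
  linear_combination h1

theorem sff_fin2 {h : P3} (hh : h ≠ 0) {ζ η : Fin 3 → ℂ} {k : Fin 3} (hη : (ζ ⨯₃ η) k ≠ 0) :
    {κ : ℂ | ¬ TopNe h (ζ + κ • η)}.Finite := by
  by_contra H
  obtain ⟨I, hI, hc⟩ := Set.Infinite.exists_subset_card_eq H (h.totalDegree + 1)
  have h1 := hyp_vanish (homogeneousComponent_isHomogeneous h.totalDegree h).totalDegree_le 0 ⊤ I
    (by omega) (fun κ => ζ + κ • η) (fun _ => 0) (fun κ _ => ⟨η ⨯₃ Pi.single k 1, trivial, by
      rwa [add_dotProduct, smul_dotProduct, dot_self_cross, smul_zero, add_zero,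
        ← triple_product_permutation, single_one_dotProduct]⟩)
    (fun i _ j _ hij => ⟨Pi.single k 1 ⨯₃ (ζ + i • η), trivial, by
      rw [zero_add, dot_cross_self], by
      rw [zero_add, triple_product_permutation, single_one_dotProduct]
      have e : (ζ + i • η) ⨯₃ (ζ + j • η) = (j - i) • ζ ⨯₃ η := by
        simp only [LinearMap.add_apply, LinearMap.smul_apply, map_add, map_smul, cross_self,
          ← cross_anticomm ζ η]
        module
      rw [e]
      exact mul_ne_zero (sub_ne_zero.2 hij.symm) hη⟩)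
    fun κ hκ u _ hu => by
      by_contra h2
      exact hI hκ ⟨_, hu, h2⟩
  have h2 : homogeneousComponent h.totalDegree h = 0 :=
    MvPolynomial.funext fun u => by simpa using h1 u trivial
  obtain ⟨d, hd, h3⟩ := exists_mem_eq_sup _ (support_nonempty.2 hh) fun s => s.sum fun _ e => e
  have h4 := coeff_homogeneousComponent h.totalDegree h d
  have h5 : d.degree = h.totalDegree := h3.symm
  rw [h2, coeff_zero, if_pos h5] at h4
  exact mem_support_iff.1 hd h4.symm

theorem exists_nu {h : P3} (hi : Irreducible h) (hr : 2 ≤ h.totalDegree) :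
    ∃ ν, ¬ h ∣ sff h ν ν ∧ TopNe h ν := by
  obtain ⟨ζ, hζ⟩ := sff_ne hi hr
  have : (Ideal.span {h}).IsPrime := (Ideal.span_singleton_prime hi.ne_zero).2 hi.prime
  obtain ⟨ξ, hξ⟩ := exists_gen (Ideal.span {h})
  have h0 : ζ ≠ 0 := fun e => hζ (Ideal.mem_span_singleton.1 ((hξ _).1 (by
    rw [sff_aeval, e]
    simp only [Pi.zero_apply, map_zero]
    exact map_zero _)))
  obtain ⟨η, k, hη⟩ : ∃ (η : Fin 3 → ℂ) (k : Fin 3), (ζ ⨯₃ η) k ≠ 0 := by
    by_contra H
    push Not at H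
    refine h0 (funext fun i => ?_)
    fin_cases i
    · simpa [cross_apply] using H (Pi.single 1 1) 2
    · simpa [cross_apply] using H (Pi.single 2 1) 0
    · simpa [cross_apply] using H (Pi.single 0 1) 1
  obtain ⟨κ, hκ⟩ := ((sff_fin1 hξ hζ η).union (sff_fin2 hi.ne_zero hη)).exists_notMem
  rw [Set.mem_union, not_or] at hκ
  exact ⟨_, hκ.1, not_not.1 hκ.2⟩

end Vale.Agent.P054
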