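import Vale.Agent.P054.LineZ
import Vale.Agent.P054.Sff

/-! CurveL1: asymptotic directions and a good plane (about 300 lines).
`aeval_sff`: `map_d2`. `sff_on_line`: `gr h s` and `ν` are orthogonal to `α ≠ 0`, so `gr × ν` is a multiple of `α`; `line_jets`.
`two_dirs`: `w = gr × ν` has `d2 w w ≠ 0`, so `gr ≠ 0`, `w ≠ 0`; an asymptotic `α₁ ≠ 0` is independent of `w`, write `α_i = a_i α₁ + b_i w` and solve the quadratic equation `2 a b d2 α₁ w + b^2 d2 w w = 0`.
`good_plane`: `ν ≠ 0`; take `c` outside the finite set of `slice h (sff h ν ν) ν`. A point `s` with a transcendental coordinate gives the prime `RingHom.ker (aeval s)`; an algebraic coordinate is complex. A complex line `s + T α` in the plane and in the surface gives a point over `RatFunc ℂ` (or the prime kernel into `ℂ[T]`) that contradicts this, by `sff_on_line` at all complex points. If `h` vanished on the plane it would contain such a line.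
-/

noncomputable section

open Classical MvPolynomial Matrix Finset

namespace Vale.Agent.P054

variable {R : Type*} [Field R] [Algebra ℂ R] {h : P3}

theorem cl1_cross (s : Fin 3 → R) (ζ : Fin 3 → ℂ) :
    (fun a => aeval s ((gr h X ⨯₃ fun i => (C (ζ i) : P3)) a)) =
      gr h s ⨯₃ fun i => algebraMap ℂ R (ζ i) := by
  funext a
  fin_cases a <;> simp [cross_apply, gr]

theorem aeval_sff (s : Fin 3 → R) (ζ ζ' : Fin 3 → ℂ) : aeval s (sff h ζ ζ') =
    d2 h s (gr h s ⨯₃ fun i => algebraMap ℂ R (ζ i)) (gr h s ⨯₃ fun i => algebraMap ℂ R (ζ' i)) := by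
  rw [sff, map_d2, cl1_cross, cl1_cross]
  simp only [aeval_X]

theorem cl1_deg (ζ : Fin 3 → ℂ) (a : Fin 3) :
    ((gr h X ⨯₃ fun i => (C (ζ i) : P3)) a).totalDegree ≤ h.totalDegree := by
  have h1 : ∀ (i : Fin 3) (c : ℂ), (gr h X i * C c : P3).totalDegree ≤ h.totalDegree := by
    intro i c
    refine (totalDegree_mul _ _).trans ?_
    rw [totalDegree_C, add_zero, gr, aeval_X_left_apply]
    exact (degree_pderiv_le h i).trans (Nat.sub_le _ _)
  fin_cases a <;> exact (totalDegree_sub _ _).trans (max_le (h1 _ _) (h1 _ _))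

theorem degree_sff_le (ζ ζ' : Fin 3 → ℂ) : (sff h ζ ζ').totalDegree ≤ 3 * h.totalDegree :=
  (degree_d2_le h (cl1_deg ζ) (cl1_deg ζ')).trans (by omega)

omit [Algebra ℂ R] in
theorem cl1_par {α w : Fin 3 → R} (hα : α ≠ 0) (hw : α ⨯₃ w = 0) : ∃ c : R, w = c • α := by
  obtain ⟨i, hi⟩ := Function.ne_iff.1 hα
  have h0 := congrFun hw 0
  have h1 := congrFun hw 1
  have h2 := congrFun hw 2
  simp only [cross_apply, cons_val_zero, cons_val_one, Matrix.cons_val, Pi.zero_apply] at h0 h1 h2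
  have key : ∀ i j, α i * w j = w i * α j := by
    intro i j
    fin_cases i <;> fin_cases j <;> simp only [Fin.zero_eta, Fin.mk_one, Fin.reduceFinMk] <;>
      first
      | ring1
      | linear_combination h0
      | linear_combination -h0
      | linear_combination h1
      | linear_combination -h1
      | linear_combination h2
      | linear_combination -h2
  refine ⟨w i / α i, funext fun j => ?_⟩
  rw [Pi.smul_apply, smul_eq_mul, div_mul_eq_mul_div, eq_div_iff hi, mul_comm, key]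

omit [Algebra ℂ R] in
theorem cl1_span {g a b x : Fin 3 → R} (hg : g ≠ 0) (ha : a ⬝ᵥ g = 0) (hb : b ⬝ᵥ g = 0)
    (hx : x ⬝ᵥ g = 0) (hab : a ⨯₃ b ≠ 0) : ∃ p q : R, x = p • a + q • b := by
  obtain ⟨c, hc⟩ := cl1_par (w := a ⨯₃ b) hg (by
    rw [cross_cross_eq_smul_sub_smul', ha, dotProduct_comm, hb, zero_smul, zero_smul, sub_zero])
  have h0 : x ⬝ᵥ (a ⨯₃ b) = 0 := by rw [hc, dotProduct_smul, hx, smul_zero]
  obtain ⟨i, hi⟩ := Function.ne_iff.1 hab
  have key : ∀ j, (a ⨯₃ b) i * x j = (x ⨯₃ b) i * a j + (a ⨯₃ x) i * b j := by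
    intro j
    simp only [cross_apply, dotProduct, Fin.sum_univ_three, cons_val_zero, cons_val_one,
      Matrix.cons_val] at h0
    fin_cases i <;> fin_cases j <;>
      simp only [cross_apply, Fin.zero_eta, Fin.mk_one, Fin.reduceFinMk, cons_val_zero,
        cons_val_one, Matrix.cons_val] <;>
      first
      | ring1
      | linear_combination h0
  have hi' : (a ⨯₃ b) i ≠ 0 := hi
  refine ⟨(x ⨯₃ b) i / (a ⨯₃ b) i, (a ⨯₃ x) i / (a ⨯₃ b) i, funext fun j => ?_⟩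
  simp only [Pi.add_apply, Pi.smul_apply, smul_eq_mul]
  field_simp
  linear_combination key j

theorem cl1_smul (s α β : Fin 3 → R) (c : R) : d2 h s α (c • β) = c * d2 h s α β := by
  rw [d2_comm, d2_smul, d2_comm]

theorem cl1_quad (s a b : Fin 3 → R) (p q : R) : d2 h s (p • a + q • b) (p • a + q • b) =
    p ^ 2 * d2 h s a a + 2 * (p * q * d2 h s a b) + q ^ 2 * d2 h s b b := by
  rw [d2_add, d2_smul, d2_smul, d2_comm h s a, d2_comm h s b, d2_add, d2_add, d2_smul, d2_smul,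
    d2_smul, d2_smul, d2_comm h s b a]
  ring

theorem sff_on_line {s α : Fin 3 → R} (hα : α ≠ 0) (hl : ∀ T : R, aeval (s + T • α) h = 0)
    {ν : Fin 3 → ℂ} (hν : (fun i => algebraMap ℂ R (ν i)) ⬝ᵥ α = 0) : aeval s (sff h ν ν) = 0 := by
  obtain ⟨h1, h2, -⟩ := line_jets hl
  have h3 : α ⬝ᵥ gr h s = 0 := h1
  obtain ⟨c, hc⟩ := cl1_par (w := gr h s ⨯₃ fun i => algebraMap ℂ R (ν i)) hα (by
    rw [cross_cross_eq_smul_sub_smul', dotProduct_comm, hν, dotProduct_comm, h3, zero_smul,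
      zero_smul, sub_zero])
  rw [aeval_sff, hc, d2_smul, cl1_smul, h2, mul_zero, mul_zero]

theorem two_dirs {s : Fin 3 → R} {ν : Fin 3 → ℂ} (hs : aeval s (sff h ν ν) ≠ 0)
    {α₁ α₂ α₃ : Fin 3 → R} (h1 : d1 h s α₁ = 0 ∧ d2 h s α₁ α₁ = 0)
    (h2 : d1 h s α₂ = 0 ∧ d2 h s α₂ α₂ = 0) (h3 : d1 h s α₃ = 0 ∧ d2 h s α₃ α₃ = 0) :
    α₁ ⨯₃ α₂ = 0 ∨ α₁ ⨯₃ α₃ = 0 ∨ α₂ ⨯₃ α₃ = 0 := by
  haveI : CharZero R := charZero_of_injective_algebraMap (algebraMap ℂ R).injective
  by_contra hc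
  simp only [not_or] at hc
  obtain ⟨c1, c2, c3⟩ := hc
  rw [aeval_sff] at hs
  have hg : gr h s ≠ 0 := fun h0 => hs (by
    rw [h0, map_zero, LinearMap.zero_apply]
    simp [d2])
  obtain ⟨p, q, e1⟩ := cl1_span hg h1.1 h2.1 h3.1 c1
  obtain ⟨p', q', e2⟩ := cl1_span (x := gr h s ⨯₃ fun i => algebraMap ℂ R (ν i)) hg h1.1 h2.1
    (by rw [dotProduct_comm, dot_self_cross]) c1
  have hp : p ≠ 0 := fun h0 => c3 (by
    rw [e1, h0, zero_smul, zero_add, map_smul, cross_self, smul_zero])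
  have hq : q ≠ 0 := fun h0 => c2 (by
    rw [e1, h0, zero_smul, add_zero, map_smul, cross_self, smul_zero])
  have h4 := h3.2
  rw [e1, cl1_quad, h1.2, h2.2, mul_zero, mul_zero, zero_add, add_zero] at h4
  have h5 : d2 h s α₁ α₂ = 0 :=
    (mul_eq_zero.1 ((mul_eq_zero.1 h4).resolve_left two_ne_zero)).resolve_left (mul_ne_zero hp hq)
  apply hs
  rw [e2, cl1_quad, h1.2, h2.2, h5]
  ring

theorem cl1_ker {s α : Fin 3 → ℂ} {f : P3} (hf : ∀ T : ℂ, eval (s + T • α) f = 0) :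
    f ∈ RingHom.ker (ln_Hyp s α) :=
  Polynomial.funext fun T => by
    rw [Polynomial.eval_zero, ← hf T]
    exact ev_Hyp s α f T

theorem good_plane (hi : Irreducible h) {ν : Fin 3 → ℂ} (hν : ¬ h ∣ sff h ν ν) :
    ν ≠ 0 ∧ ∃ (c : ℂ) (o : Fin 3 → ℂ), ν ⬝ᵥ o = c ∧ eval o h ≠ 0 ∧
      (∀ s α : Fin 3 → ℂ, α ≠ 0 → ν ⬝ᵥ s = c → ν ⬝ᵥ α = 0 → ∃ T : ℂ, eval (s + T • α) h ≠ 0) ∧
      ∀ (R : Type) [Field R] [Algebra ℂ R] (s : Fin 3 → R), aeval s (lin ν c) = 0 →
        aeval s h = 0 → aeval s (sff h ν ν) = 0 → ∀ i, ∃ a : ℂ, s i = algebraMap ℂ R a := by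
  have hg : sff h ν ν ≠ 0 := fun h0 => hν (h0 ▸ dvd_zero h)
  have hν0 : ν ≠ 0 := fun h0 => hg (by
    have e : (fun i => (C (ν i) : P3)) = 0 := funext fun i => by simp [h0]
    rw [sff, e, map_zero]
    simp [d2])
  obtain ⟨c, hc⟩ :=
    (slice hi.ne_zero hg (hi.isRelPrime_iff_not_dvd.2 hν) ν).exists_notMem
  have hL : ∀ s α : Fin 3 → ℂ, α ≠ 0 → ν ⬝ᵥ s = c → ν ⬝ᵥ α = 0 →
      ∃ T : ℂ, eval (s + T • α) h ≠ 0 := by
    intro s α hα hs hα'
    by_contra hn
    simp only [not_exists, not_not] at hn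
    obtain ⟨i, hi⟩ := Function.ne_iff.1 hα
    have hi' : α i ≠ 0 := hi
    refine hc ⟨RingHom.ker (ln_Hyp s α), RingHom.ker_isPrime _, cl1_ker hn,
      cl1_ker fun T => ?_, cl1_ker fun T => ?_, i, fun f hf => Polynomial.funext fun x => ?_⟩
    · refine sff_on_line (R := ℂ) hα (fun T' => ?_) hα'
      rw [add_assoc, ← add_smul]
      exact hn _
    · rw [eval_lin, dotProduct_add, dotProduct_smul, hs, hα', smul_zero, add_zero, sub_self]
    · have h1 := ev_Hyp s α (Polynomial.aeval (X i : P3) f) ((x - s i) / α i)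
      rw [RingHom.mem_ker.1 hf, Polynomial.eval_zero, ← aeval_eq_eval,
        ← Polynomial.aeval_algHom_apply, aeval_X, Pi.add_apply, Pi.smul_apply, smul_eq_mul,
        div_mul_cancel₀ _ hi', add_sub_cancel] at h1
      rw [Polynomial.eval_zero]
      exact h1.symm
  obtain ⟨α, hα, hα'⟩ : ∃ α : Fin 3 → ℂ, α ≠ 0 ∧ ν ⬝ᵥ α = 0 := by
    by_cases h0 : ν 0 = 0
    · exact ⟨![1, 0, 0], fun e => by simpa using congrFun e 0, by
        simp [dotProduct, Fin.sum_univ_three, h0]⟩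
    · exact ⟨![-ν 1, ν 0, 0], fun e => h0 (by simpa using congrFun e 1), by
        simp [dotProduct, Fin.sum_univ_three, mul_comm]⟩
  obtain ⟨j, hj⟩ := Function.ne_iff.1 hν0
  have hs : ν ⬝ᵥ Pi.single j (c / ν j) = c := by
    rw [dotProduct_single, mul_div_cancel₀ _ hj]
  obtain ⟨T, hT⟩ := hL _ α hα hs hα'
  refine ⟨hν0, c, _, ?_, hT, hL, fun R _ _ s h1 h2 h3 i => ?_⟩
  · rw [dotProduct_add, dotProduct_smul, hs, hα', smul_zero, add_zero]
  · by_contra hn
    refine hc ⟨RingHom.ker (aeval s : P3 →ₐ[ℂ] R), RingHom.ker_isPrime _, h2, h3, h1, i,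
      fun f hf => by_contra fun hf0 => hn ?_⟩
    have h4 : Polynomial.aeval (s i) f = 0 := by
      have h5 : (aeval s : P3 →ₐ[ℂ] R) (Polynomial.aeval (X i : P3) f) = 0 := hf
      rwa [← Polynomial.aeval_algHom_apply, aeval_X] at h5
    have h6 : IsIntegral ℂ (s i) := IsAlgebraic.isIntegral ⟨f, hf0, h4⟩
    obtain ⟨a, ha⟩ := minpoly.mem_range_of_degree_eq_one ℂ (s i)
      (IsAlgClosed.degree_eq_one_of_irreducible ℂ (minpoly.irreducible h6))
    exact ⟨a, ha.symm⟩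

end Vale.Agent.P054
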