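import Vale.Agent.P054.SegB

/-! Segre: few vertices see a second point behind the generic point of a curve (about 200 lines).
Choose `ξ' p`, `μ p` for `p ∈ Y`. The map `p ↦ ξ' p` is injective (`μ ≠ 1`, so `p` is on the line through `ξ` and `ξ'`; two such `p ≠ p'` put `ξ` on a complex line, against `NL I`). Apply `bezout3` over `Ω` to the images of `g₁', g₂'` (`relPrime_map`; nonzero since `Crv.tr`) and `psi g₁' g₂' ξ (tng g₁ g₂ ξ)` (degree `≤ deg g₁' + deg g₂'`, zero at `ξ'` by `sec_det`), with the primes from `exists_curve`; `planar_of_psi` would give `InPl I p`.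
-/

noncomputable section

open Classical MvPolynomial Matrix Finset

namespace Vale.Agent.P054

section Aux
variable {Ω : Type} [Field Ω] [Algebra ℂ Ω]

theorem segre_line {I : Ideal P3} (hn : NL I) {ξ : Fin 3 → Ω} (hξ : IsGen I ξ) {p d : Fin 3 → ℂ}
    (h : up Ω d ⨯₃ (ξ - up Ω p) = 0) : d = 0 := by
  have h0 := congrFun h 0
  have h1 := congrFun h 1
  have h2 := congrFun h 2
  simp only [cross_apply, cons_val_zero, cons_val_one, Matrix.cons_val, Pi.zero_apply,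
    Pi.sub_apply, up] at h0 h1 h2
  have hν : ∀ e : Fin 3 → ℂ, lin (e ⨯₃ d) ((e ⨯₃ d) ⬝ᵥ p) ∈ I := fun e => by
    refine (hξ _).1 ?_
    rw [aeval_lin]
    simp only [cross_apply, up, dotProduct, Fin.sum_univ_three, cons_val_zero, cons_val_one,
      Matrix.cons_val, map_add, map_sub, map_mul]
    linear_combination algebraMap ℂ Ω (e 0) * h0 + algebraMap ℂ Ω (e 1) * h1 +
      algebraMap ℂ Ω (e 2) * h2
  have a0 := congrFun (hn _ _ _ _ (hν ![0, 1, 0]) (hν ![0, 0, 1])) 0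
  have a1 := congrFun (hn _ _ _ _ (hν ![0, 0, 1]) (hν ![1, 0, 0])) 1
  have a2 := congrFun (hn _ _ _ _ (hν ![1, 0, 0]) (hν ![0, 1, 0])) 2
  simp [cross_apply] at a0 a1 a2
  ext i
  fin_cases i
  exacts [a0, a1, a2]

theorem segre_ne {I : Ideal P3} {g₁ g₂ : P3} (hc : Crv I g₁ g₂) : g₁ ≠ 0 ∧ g₂ ≠ 0 := by
  obtain ⟨i, hi⟩ := hc.tr
  have h0 : gr (0 : P3) (X : Fin 3 → P3) = 0 := by
    ext1 a
    simp [gr]
  constructor
  · rintro rfl
    rw [h0, LinearMap.map_zero₂] at hi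
    exact hi I.zero_mem
  · rintro rfl
    rw [h0, map_zero] at hi
    exact hi I.zero_mem

theorem segre_deg (g₁ g₂ : P3) (ξ t : Fin 3 → Ω) :
    (psi g₁ g₂ ξ t).totalDegree ≤ 1 + (g₁.totalDegree - 1 + (g₂.totalDegree - 1)) := by
  have h1 : ∀ i j, (gr g₁ X i * gr g₂ X j : P3).totalDegree ≤
      g₁.totalDegree - 1 + (g₂.totalDegree - 1) := fun i j => by
    refine (totalDegree_mul _ _).trans ?_
    simp only [gr, aeval_X_left_apply]
    exact Nat.add_le_add (degree_pderiv_le _ _) (degree_pderiv_le _ _)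
  have h2 : ∀ i, ((gr g₁ X ⨯₃ gr g₂ X : Fin 3 → P3) i).totalDegree ≤
      g₁.totalDegree - 1 + (g₂.totalDegree - 1) := fun i => by
    fin_cases i <;> exact (totalDegree_sub _ _).trans (max_le (h1 _ _) (h1 _ _))
  have h3 : ∀ i j, (C (t i) * MvPolynomial.map (algebraMap ℂ Ω)
      ((gr g₁ X ⨯₃ gr g₂ X : Fin 3 → P3) j)).totalDegree ≤
      g₁.totalDegree - 1 + (g₂.totalDegree - 1) := fun i j => by
    refine (totalDegree_mul _ _).trans ?_
    rw [totalDegree_C, zero_add]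
    exact (Finset.sup_mono (support_map_subset _ _)).trans (h2 j)
  refine totalDegree_finsetSum_le fun i _ => (totalDegree_mul _ _).trans (Nat.add_le_add ?_ ?_)
  · exact (totalDegree_sub_C_le _ _).trans (totalDegree_X i).le
  · fin_cases i <;> exact (totalDegree_sub _ _).trans (max_le (h3 _ _) (h3 _ _))

theorem segre_mu {ξ ξ' p : Fin 3 → Ω} {μ : Ω} (h : ξ' ≠ ξ) (hμ : ξ' - p = μ • (ξ - p)) :
    1 - μ ≠ 0 := fun e => h (by
  rw [← sub_eq_zero.1 e, one_smul] at hμ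
  exact sub_left_injective hμ)

end Aux

theorem segre {Ω : Type} [Field Ω] [Algebra ℂ Ω] [IsAlgClosed Ω] {I : Ideal P3} {g₁ g₂ g₁' g₂' : P3}
    (hc : Crv I g₁ g₂) {ξ : Fin 3 → Ω} (hξ : IsGen I ξ) (Y : Finset V)
    (hY : ∀ p ∈ Y, (∃ I', Crv I' g₁' g₂' ∧ Sec I' p ξ) ∧ ¬ InPl I p) :
    Y.card ≤ g₁'.totalDegree * g₂'.totalDegree * (g₁'.totalDegree + g₂'.totalDegree) := by
  rcases Y.eq_empty_or_nonempty with rfl | ⟨p₀, hp₀⟩
  · simp
  obtain ⟨n1, n2⟩ : g₁' ≠ 0 ∧ g₂' ≠ 0 := by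
    obtain ⟨I', h, -⟩ := (hY p₀ hp₀).1
    exact segre_ne h
  have hex : ∀ p ∈ Y, ∃ ξ' : Fin 3 → Ω, ∃ I', ∃ μ : Ω, Crv I' g₁' g₂' ∧ IsGen I' ξ' ∧ ξ' ≠ ξ ∧
      ξ' - up Ω (cv p) = μ • (ξ - up Ω (cv p)) := fun p hp => by
    obtain ⟨I', h, ξ', μ, h'⟩ := (hY p hp).1
    exact ⟨ξ', I', μ, h, h'⟩
  choose! ξ' hξ' using hex
  have hinj : Set.InjOn ξ' Y := fun p hp p' hp' e => by
    obtain ⟨-, μ, -, -, a1, a2⟩ := hξ' p hp
    obtain ⟨-, μ', -, -, b1, b2⟩ := hξ' p' hp'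
    have h1 : up Ω (cv p - cv p') ⨯₃ (ξ - up Ω (cv p)) = 0 := by
      have e1 : up Ω (cv p - cv p') = (ξ - up Ω (cv p')) - (ξ - up Ω (cv p)) := by
        ext i
        simp [up]
      have e2 : (1 - μ') • (ξ - up Ω (cv p')) = (1 - μ) • (ξ - up Ω (cv p)) := by
        rw [sub_smul, sub_smul, ← a2, ← b2, e, one_smul, one_smul]
        abel
      have e3 : (1 - μ') • ((ξ - up Ω (cv p')) ⨯₃ (ξ - up Ω (cv p))) = 0 := by
        rw [← LinearMap.map_smul₂, e2, LinearMap.map_smul₂, cross_self, smul_zero]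
      rw [e1, LinearMap.map_sub₂, cross_self, sub_zero]
      exact (smul_eq_zero.1 e3).resolve_left (segre_mu b1 b2)
    have h2 := sub_eq_zero.1 (segre_line hc.nl hξ h1)
    exact funext fun i => Complex.ofReal_injective (congrFun h2 i)
  have hm := MvPolynomial.map_injective (σ := Fin 3) _ (algebraMap ℂ Ω).injective
  have hd : ∀ g : P3, (MvPolynomial.map (algebraMap ℂ Ω) g).totalDegree ≤ g.totalDegree :=
    fun g => Finset.sup_mono (support_map_subset _ _)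
  rw [← card_image_of_injOn hinj]
  refine (bezout3 (ψ := psi g₁' g₂' ξ (tng g₁ g₂ ξ)) ((map_ne_zero_iff _ hm).2 n1)
    ((map_ne_zero_iff _ hm).2 n2) (relPrime_map n1 n2 ?_) _ fun y hy => ?_).trans ?_
  · obtain ⟨I', h, -⟩ := (hY p₀ hp₀).1
    exact h.rp
  · obtain ⟨p, hp, rfl⟩ := mem_image.1 hy
    obtain ⟨I', μ, a1, a2, a3, a4⟩ := hξ' p hp
    have hv : ∀ g ∈ ({g₁', g₂'} : Set P3),
        eval (ξ' p) (MvPolynomial.map (algebraMap ℂ Ω) g) = 0 := fun g hg => by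
      rw [eval_map, ← aeval_def]
      exact (a2 g).2 (a1.min.1.2 (Ideal.subset_span hg))
    obtain ⟨q, q1, q2, q3⟩ := exists_curve _ _ (hv g₁' (by simp)) (hv g₂' (by simp))
    have m1 := q1.1.2 (Ideal.subset_span (Set.mem_insert _ _))
    have m2 := q1.1.2 (Ideal.subset_span (Set.mem_insert_of_mem _ (Set.mem_singleton _)))
    refine ⟨by rw [eval_psi, sec_det hc a1 hξ a2 a4], q, q1.1.1, m1, m2, fun hψ => ?_, q2⟩
    obtain ⟨ν, c, b1, b2, b3⟩ :=
      planar_of_psi a1 a2 (hc.tng_ne hξ) q1.1.1 ⟨m1, m2⟩ q2 q3 hψ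
    refine (hY p hp).2 ⟨ν, c, b1, (hξ _).1 b3, (algebraMap ℂ Ω).injective ?_⟩
    have b4 := (a2 _).2 b2
    rw [aeval_lin, sub_eq_zero] at b3 b4
    have b5 := congrArg (up Ω ν ⬝ᵥ ·) a4
    simp only [dotProduct_smul, dotProduct_sub, b3, b4, smul_eq_mul] at b5
    have b6 : up Ω ν ⬝ᵥ up Ω (cv p) = algebraMap ℂ Ω (ν ⬝ᵥ cv p) := by
      simp [up, dotProduct]
    rw [← b6]
    refine mul_left_cancel₀ (segre_mu a3 a4) ?_
    linear_combination -b5
  · rcases Nat.eq_zero_or_pos g₁'.totalDegree with h0 | h0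
    · rw [Nat.le_zero.1 ((hd g₁').trans h0.le), zero_mul, zero_mul]
      exact Nat.zero_le _
    · exact Nat.mul_le_mul (Nat.mul_le_mul (hd _) (hd _)) ((segre_deg _ _ _ _).trans (by omega))

end Vale.Agent.P054
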