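import Vale.Agent.P054.Transp
import Vale.Agent.P054.CurveH1
import Vale.Agent.P054.Segre

/-! CurveP: a curve that projects birationally onto a cone has small degree (about 350 lines).
Let `d = ξ - p`, `S m = VH d m`; `finrank (S m) ≤ δ (m + 1)` by `hilb1`. There are a linear form with value `ℓ ≠ 0` at `d` and `b k ∈ S (k + 1)`, `1 ≤ k ≤ N`, with `ℓ = ∑ b k`: if `φ ∈ I`, `φ(p) ≠ 0`, then `1 = -∑_{k ≥ 1} φ_k(d)/φ₀` for the homogeneous components of `shift (cv p) φ`; multiply by any nonzero coordinate `ℓ`. If all of `I` vanishes at `p` and the tangent at `p` is nonzero, take `φ = g₁` or `g₂` with linear part nonzero at `d` (`NL`).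
Then `ℓ^N = ∑ (b k ℓ^(k-1)) ℓ^(N-k)` with coefficients in `S (2k)`, so `ℓ^a ∈ ∑_{l < N, l ≤ a} S (2 (a - l)) ℓ^l`; with `a₀ = A(d) = B(d)` one has `a₀^N ℓ^l ∈ S (N k + 2 l)`. Hence `a₀^N ℓ^τ f(ξ) ∈ S (2 τ + N k)` for `deg f ≤ τ` (split `f(ξ)` into components `S j`, `ℓ^τ = ℓ^(τ-j) ℓ^j`), and `pts_le_of_growth` with `e = 2 δ` applies (the quotient by `I` embeds in `Ω`).
`curve_pack`: `ξ` from `exists_gen`, `Bad I' p = Sec I' p ξ`; `segre`, `not_inPl`, `sec_of_same`, `rat_of_not_sec`, `curve_pts`.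
-/

noncomputable section

open Classical MvPolynomial Matrix Finset

namespace Vale.Agent.P054

section

variable {Ω : Type} [Field Ω] [Algebra ℂ Ω] {d : Fin 3 → Ω}

theorem cp_mul {m n : ℕ} {x y : Ω} (hx : x ∈ VH d m) (hy : y ∈ VH d n) : x * y ∈ VH d (m + n) := by
  obtain ⟨f, hf, rfl⟩ := hx
  obtain ⟨g, hg, rfl⟩ := hy
  exact ⟨f * g, IsHomogeneous.mul hf hg, map_mul (aeval d) f g⟩

theorem cp_pow {m : ℕ} {x : Ω} (hx : x ∈ VH d m) (n : ℕ) : x ^ n ∈ VH d (m * n) := by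
  obtain ⟨f, hf, rfl⟩ := hx
  exact ⟨f ^ n, IsHomogeneous.pow hf n, map_pow (aeval d) f n⟩

theorem cp_rec {l a : Ω} {k N : ℕ} {b : ℕ → Ω} (hl : l ∈ VH d 1) (hb : ∀ j, b j ∈ VH d (j + 2))
    (e : l = ∑ j ∈ range N, b j) (ha : a ∈ VH d k) (ha' : a ∈ VH d (k + 1)) (m : ℕ) :
    a ^ N * l ^ m ∈ VH d (2 * m + N * k) := by
  induction m using Nat.strong_induction_on with
  | _ m ih =>
  rcases le_or_gt m N with h | h
  · obtain ⟨r, rfl⟩ := Nat.exists_eq_add_of_le h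
    have h1 := cp_mul (cp_mul (cp_pow ha' m) (cp_pow ha r)) (cp_pow hl m)
    rwa [← pow_add, show (k + 1) * m + k * r + 1 * m = 2 * m + (m + r) * k by ring] at h1
  · obtain ⟨m, rfl⟩ := Nat.exists_eq_add_one_of_ne_zero (Nat.ne_zero_of_lt h)
    rw [pow_succ, ← mul_assoc]
    nth_rewrite 2 [e]
    rw [mul_sum]
    refine Submodule.sum_mem _ fun j hj => ?_
    obtain ⟨r, rfl⟩ := Nat.exists_eq_add_of_le (show j ≤ m by have := mem_range.1 hj; omega)
    have h1 := cp_mul (ih r (by omega)) (cp_mul (cp_pow hl j) (hb j))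
    rwa [show a ^ N * l ^ r * (l ^ j * b j) = a ^ N * l ^ (j + r) * b j by ring,
      show 2 * r + N * k + (1 * j + (j + 2)) = 2 * (j + r + 1) + N * k by ring] at h1

/-- the restriction to the line `p + T d` -/
def cpL (p : Fin 3 → ℂ) (d : Fin 3 → Ω) : P3 →ₐ[ℂ] Polynomial Ω :=
  aeval fun i => Polynomial.X * Polynomial.C (d i) + Polynomial.C (up Ω p i)

theorem cp_coeff (p : Fin 3 → ℂ) (F : P3) (j : ℕ) :
    (cpL p d F).coeff j = aeval d (homogeneousComponent j (shift p F)) := by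
  rw [← pc_coeff, shift, comp_aeval_apply, cpL]
  simp [up]

theorem cp_mem (p : Fin 3 → ℂ) (F : P3) (j : ℕ) : (cpL p d F).coeff j ∈ VH d j := by
  rw [cp_coeff]
  exact ch1_mem (homogeneousComponent_isHomogeneous _ _)

theorem cp_deg (p : Fin 3 → ℂ) (F : P3) : (cpL p d F).natDegree ≤ F.totalDegree := by
  refine Polynomial.natDegree_le_iff_coeff_eq_zero.2 fun j hj => ?_
  have h1 := degree_aeval_le (fun i => (X i + C (p i) : P3)) (a := 1)
    (fun i => (totalDegree_add _ _).trans (by simp)) F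
  rw [one_mul] at h1
  rw [cp_coeff, shift, homogeneousComponent_eq_zero _ _ (h1.trans_lt hj), map_zero]

theorem cp_eval (p : Fin 3 → ℂ) (F : P3) (t : Ω) :
    (cpL p d F).eval t = aeval (t • d + up Ω p) F := by
  have h1 := comp_aeval_apply
    (fun i => Polynomial.X * Polynomial.C (d i) + Polynomial.C (up Ω p i))
    ((Polynomial.aeval t).restrictScalars ℂ) F
  simp only [AlgHom.coe_restrictScalars', Polynomial.coe_aeval_eq_eval, Polynomial.eval_add,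
    Polynomial.eval_mul, Polynomial.eval_X, Polynomial.eval_C] at h1
  exact h1

theorem cp_up (p : Fin 3 → ℂ) (F : P3) : aeval (up Ω p) F = algebraMap ℂ Ω (eval p F) :=
  aeval_algebraMap_apply Ω p F

theorem cp_zero (p : Fin 3 → ℂ) (F : P3) : (cpL p d F).coeff 0 = algebraMap ℂ Ω (eval p F) := by
  rw [Polynomial.coeff_zero_eq_eval_zero, cp_eval, zero_smul, zero_add, cp_up]

theorem cp_one (p : Fin 3 → ℂ) (F : P3) : (cpL p d F).coeff 1 = up Ω (gr F p) ⬝ᵥ d := by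
  have h1 := der_aeval F (fun i => Polynomial.X * Polynomial.C (d i) + Polynomial.C (up Ω p i))
    (Polynomial.derivative'.restrictScalars ℂ)
  have h2 := congrArg (Polynomial.coeff · 0) h1
  simp only [Derivation.coe_restrictScalars, Polynomial.derivative'_apply, d1,
    Polynomial.coeff_derivative, Polynomial.finsetSum_coeff] at h2
  refine Eq.trans (by simp [cpL]) (h2.trans (sum_congr rfl fun i _ => ?_))
  have h3 := cp_zero (d := d) p (pderiv i F)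
  rw [cpL] at h3
  rw [Polynomial.mul_coeff_zero, h3, mul_comm]
  simp [up, gr]

theorem cp_sum (p : Fin 3 → ℂ) {F : P3} {n : ℕ} (h : F.totalDegree ≤ n) :
    aeval (d + up Ω p) F = ∑ j ∈ range (n + 1), (cpL p d F).coeff j := by
  have h1 := Polynomial.eval_eq_sum_range' (Nat.lt_succ_of_le ((cp_deg (d := d) p F).trans h)) 1
  rw [cp_eval, one_smul] at h1
  simpa using h1

end

theorem cp_exists {Ω : Type} [Field Ω] [Algebra ℂ Ω] {I : Ideal P3} {g₁ g₂ : P3}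
    {ξ : Fin 3 → Ω} {p : Fin 3 → ℂ} (hc : Crv I g₁ g₂) (hξ : IsGen I ξ) (hd : ξ - up Ω p ≠ 0)
    (hp : (∀ f ∈ I, eval p f = 0) → tng g₁ g₂ p ≠ 0) :
    ∃ F ∈ I, eval p F = 0 ∧ up Ω (gr F p) ⬝ᵥ (ξ - up Ω p) ≠ 0 := by
  by_cases h : ∀ f ∈ I, eval p f = 0
  · have h1 : g₁ ∈ I := hc.min.1.2 (Ideal.subset_span (by simp))
    have h2 : g₂ ∈ I := hc.min.1.2 (Ideal.subset_span (by simp))
    have h3 : ∀ ν : Fin 3 → ℂ, up Ω ν ⬝ᵥ (ξ - up Ω p) = 0 → lin ν (ν ⬝ᵥ p) ∈ I := fun ν e => by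
      rw [← hξ, aeval_lin, ← e, dotProduct_sub]
      simp [dotProduct, up]
    by_contra hn
    push Not at hn
    exact hp h (hc.nl _ _ _ _ (h3 _ (hn _ h1 (h _ h1))) (h3 _ (hn _ h2 (h _ h2))))
  · push Not at h
    obtain ⟨f, hf, h0⟩ := h
    obtain ⟨i, hi⟩ := Function.ne_iff.1 hd
    refine ⟨f * (X i - C (p i)), I.mul_mem_right _ hf, by simp, ?_⟩
    have e : up Ω (gr (f * (X i - C (p i))) p) = Pi.single i (algebraMap ℂ Ω (eval p f)) := by
      funext j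
      by_cases hj : j = i
      · simp [up, gr, hj]
      · simp [up, gr, hj, pderiv_X_of_ne (Ne.symm hj)]
    rw [e, single_dotProduct]
    exact mul_ne_zero ((map_ne_zero _).2 h0) hi

theorem curve_pts {Ω : Type} [Field Ω] [Algebra ℂ Ω] {I : Ideal P3} {g₁ g₂ G : P3}
    {ξ : Fin 3 → Ω} {p : V} (hc : Crv I g₁ g₂) (hξ : IsGen I ξ) (h0 : G ≠ 0)
    (hG : G.IsHomogeneous G.totalDegree) (hm : coneAt p G ∈ I) {k : ℕ} {A B : P3}
    (hA : A.IsHomogeneous k) (hB : B.IsHomogeneous (k + 1)) (ha : aeval (ξ - up Ω (cv p)) A ≠ 0)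
    (hab : aeval (ξ - up Ω (cv p)) A = aeval (ξ - up Ω (cv p)) B)
    (hp : (∀ f ∈ I, eval (cv p) f = 0) → tng g₁ g₂ (cv p) ≠ 0) {ψ : P3} (hψ : ψ ∉ I)
    (Y : Finset (Fin 3 → ℂ)) (hY : ∀ y ∈ Y, eval y ψ = 0 ∧ ∀ f ∈ I, eval y f = 0) :
    Y.card ≤ 2 * G.totalDegree * ψ.totalDegree := by
  have hd : ξ - up Ω (cv p) ≠ 0 := fun e => by
    have h1 := pc_scale (0 : Ω) (0 : Fin 3 → Ω) hB
    rw [hab, e] at ha
    simp only [zero_mul, zero_pow (Nat.succ_ne_zero k)] at h1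
    exact ha h1
  obtain ⟨F, hF, hF0, hF1⟩ := cp_exists hc hξ hd hp
  have hG0 : aeval (ξ - up Ω (cv p)) G = 0 := (aeval_coneAt p G ξ).symm.trans ((hξ _).2 hm)
  have hx : ξ = ξ - up Ω (cv p) + up Ω (cv p) := (sub_add_cancel _ _).symm
  generalize ξ - up Ω (cv p) = d at *
  rw [← cp_one] at hF1
  have h1 := cp_sum (d := d) (cv p) (Nat.le_succ F.totalDegree)
  rw [← hx, (hξ F).2 hF, sum_range_succ', sum_range_succ', cp_zero, hF0, map_zero, add_zero,
    zero_add, eq_comm, add_eq_zero_iff_eq_neg] at h1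
  have h2 := cp_rec (b := fun j => (cpL (cv p) d F).coeff (j + 1 + 1))
    (neg_mem (cp_mem (cv p) F 1)) (fun j => cp_mem (cv p) F _) h1.symm (ch1_mem hA)
    (hab ▸ ch1_mem hB)
  have hl := neg_mem (cp_mem (d := d) (cv p) F 1)
  rw [← neg_ne_zero] at hF1
  generalize -(cpL (cv p) d F).coeff 1 = l at hl h2 hF1
  refine pts_le_of_growth I (fun C h => (hc.min.1.1.mem_or_mem h).resolve_left hψ) (j₀ := 0)
    (c := G.totalDegree * (F.totalDegree * k + 1)) (fun τ _ => ?_) Y hY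
  have h3 : ∀ f : P3, f.totalDegree ≤ τ →
      aeval d A ^ F.totalDegree * l ^ τ * aeval ξ f ∈ VH d (2 * τ + F.totalDegree * k) := by
    intro f hf
    rw [hx, cp_sum _ hf, mul_sum]
    refine Submodule.sum_mem _ fun j hj => ?_
    obtain ⟨r, rfl⟩ := Nat.exists_eq_add_of_le (Nat.lt_succ_iff.1 (mem_range.1 hj))
    have h4 := cp_mul (h2 r) (cp_mul (cp_pow hl j) (cp_mem (cv p) f j))
    rwa [← mul_assoc, mul_assoc _ (l ^ r), ← pow_add, add_comm r j, show 2 * r + F.totalDegree * k +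
      (1 * j + j) = 2 * (j + r) + F.totalDegree * k by ring] at h4
  let L : (P3 ⧸ I) →ₗ[ℂ] Ω := LinearMap.mulLeft ℂ (aeval d A ^ F.totalDegree * l ^ τ) ∘ₗ
    (Ideal.Quotient.liftₐ I (aeval ξ) fun f hf => (hξ f).2 hf).toLinearMap
  have hL : Function.Injective L := (injective_iff_map_eq_zero L).2 fun x hx => by
    obtain ⟨f, rfl⟩ := Ideal.Quotient.mk_surjective x
    exact Ideal.Quotient.eq_zero_iff_mem.2 ((hξ f).1 ((mul_eq_zero.1 hx).resolve_left
      (mul_ne_zero (pow_ne_zero _ ha) (pow_ne_zero _ hF1))))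
  have := VH_finite d (2 * τ + F.totalDegree * k)
  rw [(Submodule.equivMapOfInjective L hL _).finrank_eq]
  refine (Submodule.finrank_mono (t := VH d (2 * τ + F.totalDegree * k)) ?_).trans
    ((hilb1 hG h0 (aeval d).toLinearMap (fun C => ?_) _).trans_eq (by ring))
  · rintro _ ⟨_, ⟨f, hf, rfl⟩, rfl⟩
    exact h3 f ((mem_restrictTotalDegree _ _ _).1 hf)
  · rw [AlgHom.toLinearMap_apply, map_mul, hG0, zero_mul]

/-- a good cone with vertex `p` through the curve -/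
def ConeIn (I : Ideal P3) (p : V) (G : P3) : Prop :=
  Irreducible G ∧ G.IsHomogeneous G.totalDegree ∧ 2 ≤ G.totalDegree ∧ coneAt p G ∈ I

theorem curve_pack {I : Ideal P3} {g₁ g₂ : P3} (hc : Crv I g₁ g₂) :
    ∃ Bad : Ideal P3 → V → Prop,
      (∀ (g₁' g₂' : P3) (Y : Finset V),
        (∀ p ∈ Y, (∃ I', Crv I' g₁' g₂' ∧ Bad I' p) ∧ ∃ G, ConeIn I p G) →
        Y.card ≤ g₁'.totalDegree * g₂'.totalDegree * (g₁'.totalDegree + g₂'.totalDegree)) ∧
      (∀ p I' g₁' g₂' G, Crv I' g₁' g₂' → I ≠ I' → ConeIn I p G → ConeIn I' p G → Bad I' p) ∧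
      ∀ p G, ¬ Bad I p → ConeIn I p G →
        ((∀ f ∈ I, eval (cv p) f = 0) → tng g₁ g₂ (cv p) ≠ 0) → ∀ ψ ∉ I, ∀ Y : Finset (Fin 3 → ℂ),
          (∀ y ∈ Y, eval y ψ = 0 ∧ ∀ f ∈ I, eval y f = 0) →
          Y.card ≤ 2 * G.totalDegree * ψ.totalDegree := by
  have hI : I.IsPrime := hc.min.1.1
  obtain ⟨ξ, hξ⟩ := exists_gen I
  refine ⟨fun I' p => Sec I' p ξ, fun g₁' g₂' Y hY => segre hc hξ Y fun p hp => ⟨(hY p hp).1, ?_⟩,
    fun p I' g₁' g₂' G hc' hne h h' => sec_of_same hc hc' hne hξ h.1 h.2.1 h.2.2.2 h'.2.2.2,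
    fun p G hs h hp ψ hψ Y hY => ?_⟩
  · obtain ⟨G, h⟩ := (hY p hp).2
    exact not_inPl hI hc.nl h.1 h.2.1 h.2.2.1 h.2.2.2
  · obtain ⟨k, A, B, hA, hB, ha, hab⟩ := rat_of_not_sec hc hξ hs
    exact curve_pts hc hξ h.1.ne_zero h.2.1 h.2.2.2 hA hB ha hab hp hψ Y hY

end Vale.Agent.P054
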