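import Mathlib

/-! Definitions for P054 (distinct distances in dimension three). Do not edit. Overview in PROOF.md.
-/

noncomputable section

open Classical MvPolynomial Matrix Finset

namespace Vale.Agent.P054

abbrev V := Fin 3 → ℝ
abbrev S6 := Fin 3 ⊕ Fin 3
abbrev S8 := Option (Fin 3) ⊕ Option (Fin 3)
abbrev Z (K : Type*) := (Fin 3 → K) × (Fin 3 → K)
abbrev P3 := MvPolynomial (Fin 3) ℂ
abbrev P6 := MvPolynomial S6 ℂ

/-- squared distance -/
def sq (p q : V) : ℝ := (p - q) ⬝ᵥ (p - q)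

/-- number of distinct nonzero distances -/
def nD (P : Finset V) : ℕ := (P.offDiag.image fun e => sq e.1 e.2).card

/-- number of points of `S` on the line through `x` and `y` -/
def rich (S : Finset V) (x y : V) : ℕ := (S.filter fun z => (y - x) ⨯₃ (z - x) = 0).card

/-- every plane has at most `B` points of `S` -/
def PlaneLe (S : Finset V) (B : ℕ) : Prop :=
  ∀ ν : V, ν ≠ 0 → ∀ c : ℝ, (S.filter fun x => ν ⬝ᵥ x = c).card ≤ B

/-- many points, many directions, many planes through each of the lines -/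
def BeckStr (r : ℕ) (S : Finset V) : Prop :=
  ∃ W ⊆ S, r < W.card ∧ ∀ w ∈ W, ∃ A ⊆ S, r + 1 < A.card ∧ w ∉ A ∧
    (∀ a ∈ A, ∀ a' ∈ A, a ≠ a' → (a - w) ⨯₃ (a' - w) ≠ 0) ∧
    ∀ a ∈ A, ∃ A' ⊆ S, r + 1 < A'.card ∧ (∀ b ∈ A', (a - w) ⨯₃ (b - w) ≠ 0) ∧
      ∀ b ∈ A', ∀ b' ∈ A', b ≠ b' → (a - w) ⬝ᵥ ((b - w) ⨯₃ (b' - w)) ≠ 0

def cv (a : V) : Fin 3 → ℂ := fun i => (a i : ℂ)

/-- the pair `(p, q)` in the coordinates `(p + q, q - p)` -/
def cz (z : V × V) : Z ℂ := (cv (z.1 + z.2), cv (z.2 - z.1))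

/-- `z` and `w` lie on the orientation reversing motion with data `(ν, c)` -/
def rel (ν : V) (c : ℝ) (z w : V × V) : Prop :=
  ν ⬝ᵥ (w.1 + w.2 - (z.1 + z.2)) = 0 ∧
    ν ⨯₃ (w.2 - w.1 - (z.2 - z.1)) + c • (w.1 + w.2 - (z.1 + z.2)) = 0

def mir (X : Finset (V × V)) (ν : V) (c : ℝ) (z : V × V) : Finset (V × V) := X.filter (rel ν c z)

def mirs (X : Finset (V × V)) : Finset (Finset (V × V)) :=
  X.powerset.filter fun K => ∃ ν c z, ν ≠ 0 ∧ z ∈ X ∧ K = mir X ν c z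

/-- `S` is a set of points that are good seen from `p` -/
def Loc (p : V) (S : Finset V) (k ρ : ℕ) : Prop :=
  p ∉ S ∧ (∀ v : V, v ≠ 0 → (S.filter fun x => v ⨯₃ (x - p) = 0).card ≤ k) ∧
    ∀ (φ : P3) (δ : ℕ), Irreducible φ → φ.IsHomogeneous δ →
      (S.filter fun x => eval (cv (x - p)) φ = 0).card ≤ ρ * δ

section Alg
variable {σ : Type*} {K R : Type*} [CommRing K] [CommRing R] [Algebra K R]

/-- translation of the variables -/
def shift (y : σ → K) : MvPolynomial σ K →ₐ[K] MvPolynomial σ K := aeval fun i => X i + C (y i)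

/-- vanishing order at least `k` at `y` -/
def Ord (y : σ → K) (k : ℕ) (F : MvPolynomial σ K) : Prop := shift y F ∈ idealOfVars σ K ^ k

def Hom (I : Ideal (MvPolynomial σ K)) : Prop := ∀ ψ ∈ I, ∀ k, homogeneousComponent k ψ ∈ I

/-- the homogeneous ideal of the point `π` -/
def hker (K : Type*) [CommRing K] [Algebra K R] (π : σ → R) : Ideal (MvPolynomial σ K) :=
  RingHom.ker (aeval fun a => Polynomial.X * Polynomial.C (π a) :
    MvPolynomial σ K →ₐ[K] Polynomial R)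

/-- `ξ` is a generic point of `I` -/
def IsGen (I : Ideal (MvPolynomial σ K)) (ξ : σ → R) : Prop := ∀ f, aeval ξ f = 0 ↔ f ∈ I

variable [Fintype σ]

def lin (ν : σ → K) (c : K) : MvPolynomial σ K := ∑ i, C (ν i) * X i - C c

def gr (h : MvPolynomial σ K) (ξ : σ → R) : σ → R := fun a => aeval ξ (pderiv a h)

def d1 (h : MvPolynomial σ K) (ξ ω : σ → R) : R := ∑ a, ω a * aeval ξ (pderiv a h)

def d2 (h : MvPolynomial σ K) (ξ ω ω' : σ → R) : R := ∑ a, ω a * d1 (pderiv a h) ξ ω'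

def d3 (h : MvPolynomial σ K) (ξ ω ω' ω'' : σ → R) : R := ∑ a, ω a * d2 (pderiv a h) ξ ω' ω''

/-- the derivations tangent to `h = 0` -/
def tD (h : MvPolynomial σ K) (e j : σ) (g : MvPolynomial σ K) : MvPolynomial σ K :=
  pderiv e h * pderiv j g - pderiv j h * pderiv e g

/-- all words of length less than `k` in the tangent derivations vanish at `y` -/
def JK (h : MvPolynomial σ K) (e : σ) (y : σ → K) : ℕ → MvPolynomial σ K → Prop
  | 0, _ => True
  | k + 1, g => eval y g = 0 ∧ ∀ j, JK h e y k (tD h e j g)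

/-- Bezout bound for a projective curve -/
def CurveB (I : Ideal (MvPolynomial σ ℂ)) (e : ℕ) : Prop :=
  I.IsPrime ∧ Hom I ∧ ∀ (τ : ℕ) (ψ : MvPolynomial σ ℂ), ψ.IsHomogeneous τ → ψ ∉ I →
    ∀ Y : Finset (σ → ℂ), (∀ π ∈ Y, π ≠ 0 ∧ (∀ f ∈ I, eval π f = 0) ∧ eval π ψ = 0) →
      (∀ π ∈ Y, ∀ π' ∈ Y, ∀ c : ℂ, π' = c • π → π' = π) → Y.card ≤ e * τ

/-- the point with parameter `s` of the flat of `z` -/
def fp (z : Z R) (s : Fin 3 → R) : S6 → R := Sum.elim s (z.2 - s ⨯₃ z.1)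

/-- tangent vector of a flat -/
def tv (y d : Fin 3 → R) : S6 → R := Sum.elim d (-(d ⨯₃ y))

def hat (z : Z R) : S8 → R :=
  Sum.elim (fun o => o.elim 1 z.1) (fun o => o.elim (-(z.2 ⬝ᵥ z.1)) z.2)

def bf (a b : S8 → R) : R := ∑ o, (a (.inl o) * b (.inr o) + a (.inr o) * b (.inl o))

end Alg

/-- generic field of a prime -/
abbrev Om {σ : Type} (I : Ideal (MvPolynomial σ ℂ)) [I.IsPrime] : Type :=
  AlgebraicClosure (FractionRing (MvPolynomial σ ℂ ⧸ I))

/-- restriction to the flat of `z` -/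
def res (z : Z ℂ) : P6 →ₐ[ℂ] P3 := aeval (fp (fun i => C (z.1 i), fun i => C (z.2 i)) X)

/-- `H` vanishes on the line with Pluecker coordinates `(α, β)` -/
def OnL (H : P3) (α β : Fin 3 → ℂ) : Prop := ∀ s, s ⨯₃ α = β → eval s H = 0

def Exc (W : Submodule ℂ (S8 → ℂ)) : Prop :=
  4 ≤ Module.finrank ℂ W ∨ (Module.finrank ℂ W = 3 ∧ ∀ a ∈ W, ∀ b ∈ W, bf a b = 0)

/-- non-concentration of the neighbours -/
def NC (adj : Z ℂ → Z ℂ → Prop) (B : ℕ) (G : Finset (Z ℂ)) (t : ℕ) : Prop :=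
  ∀ z ∈ G, ∀ H : P3, H ≠ 0 → H.totalDegree ≤ t →
    B < (G.filter fun w => adj z w ∧ ¬ OnL H (w.1 - z.1) (w.2 - z.2)).card

/-- the minimal situation -/
structure Sit (adj : Z ℂ → Z ℂ → Prop) (B : ℕ) (G : Finset (Z ℂ)) (h : P6) (e : Fin 3) (A : ℕ) :
    Prop where
  ne : G.Nonempty
  adj_ne : ∀ z w, adj z w → w.1 ≠ z.1
  irr : Irreducible h
  van : ∀ z ∈ G, res z h = 0
  nsing : ∀ z ∈ G, res z (pderiv (.inr e) h) ≠ 0
  nc : NC adj B G (A * h.totalDegree)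
  min : ∀ g : P6, g ≠ 0 → (∀ z ∈ G, res z g = 0) → h.totalDegree ≤ 2 * g.totalDegree

section Gen
variable {Ω : Type*} [Field Ω] [Algebra ℂ Ω]

/-- the point with parameter `t` on the line given by the gradient of `h` at `ξ` -/
def yt (h : P6) (e : Fin 3) (ξ : S6 → Ω) (t : Ω) : Fin 3 → Ω :=
  (gr h ξ (.inr e))⁻¹ • (Pi.single e 1 ⨯₃ (fun i => gr h ξ (.inl i)) + t • fun i => gr h ξ (.inr i))

def zt (h : P6) (e : Fin 3) (ξ : S6 → Ω) (t : Ω) : Z Ω :=
  (yt h e ξ t, (fun i => ξ (.inr i)) + (fun i => ξ (.inl i)) ⨯₃ yt h e ξ t)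

/-- `yt t` is constant along the tangent space of its own flat -/
def Root (h : P6) (e : Fin 3) (ξ : S6 → Ω) (t : Ω) : Prop :=
  ∀ (δ : Derivation ℂ Ω Ω) (d : Fin 3 → Ω), (∀ a, δ (ξ a) = tv (yt h e ξ t) d a) →
    ∀ i, δ (yt h e ξ t i) = 0

/-- the generic point of a null hypersurface -/
structure GenH (h : P6) (e : Fin 3) (ξ : S6 → Ω) : Prop where
  gen : IsGen (Ideal.span {h}) ξ
  n_ne : gr h ξ (.inr e) ≠ 0
  null : (fun i => gr h ξ (.inl i)) ⬝ᵥ (fun i => gr h ξ (.inr i)) = 0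

end Gen

/-- coefficients of `n • tv y d` as a polynomial in `t` -/
def om0 (h : P6) (e : Fin 3) (d : Fin 3 → ℂ) : S6 → P6 :=
  Sum.elim (fun i => C (d i) * pderiv (.inr e) h)
    (-((fun i => C (d i)) ⨯₃ (Pi.single e 1 ⨯₃ fun i => pderiv (.inl i) h)))

def om1 (h : P6) (d : Fin 3 → ℂ) : S6 → P6 :=
  Sum.elim 0 (-((fun i => C (d i)) ⨯₃ fun i => pderiv (.inr i) h))

def omT (h : P6) (e : Fin 3) (d : Fin 3 → ℂ) : S6 → Polynomial P6 :=
  fun a => Polynomial.C (om0 h e d a) + Polynomial.X * Polynomial.C (om1 h d a)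

/-- the second order form, a polynomial of degree at most two in `t` -/
def qT (h : P6) (e : Fin 3) (d d' : Fin 3 → ℂ) : Polynomial P6 :=
  d2 h (fun a => Polynomial.C (X a : P6)) (omT h e d) (omT h e d')

/-- the third order form, a polynomial of degree at most three in `t` -/
def cT (h : P6) (e : Fin 3) (d d' d'' : Fin 3 → ℂ) : Polynomial P6 :=
  d3 h (fun a => Polynomial.C (X a : P6)) (omT h e d) (omT h e d') (omT h e d'')

/-- evaluation of a polynomial in `t` with coefficients in `P6` -/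
def evT {R : Type*} [CommRing R] [Algebra ℂ R] (ξ : S6 → R) (t : R) (p : Polynomial P6) : R :=
  Polynomial.eval₂ (aeval ξ : P6 →ₐ[ℂ] R).toRingHom t p

/-- second fundamental form of the surface `h = 0` on the tangent fields `∇h × ζ` -/
def sff (h : P3) (ζ ζ' : Fin 3 → ℂ) : P3 :=
  d2 h X (gr h X ⨯₃ fun i => C (ζ i)) (gr h X ⨯₃ fun i => C (ζ' i))

/-- the top form of `h` does not vanish on the plane orthogonal to `ν` -/
def TopNe (h : P3) (ν : Fin 3 → ℂ) : Prop :=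
  ∃ v : Fin 3 → ℂ, ν ⬝ᵥ v = 0 ∧ eval v (homogeneousComponent h.totalDegree h) ≠ 0

/-- the variety of `I` is not contained in a line -/
def NL (I : Ideal P3) : Prop :=
  ∀ (ν ν' : Fin 3 → ℂ) (c c' : ℂ), lin ν c ∈ I → lin ν' c' ∈ I → ν ⨯₃ ν' = 0

/-- a space curve cut out generically transversally by `g₁, g₂` -/
structure Crv (I : Ideal P3) (g₁ g₂ : P3) : Prop where
  min : I ∈ (Ideal.span {g₁, g₂}).minimalPrimes
  rp : IsRelPrime g₁ g₂
  tr : ∃ i, (gr g₁ X ⨯₃ gr g₂ X) i ∉ I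
  nl : NL I

/-- the cone with vertex `p` and homogeneous equation `G` -/
def coneAt (p : V) (G : P3) : P3 := shift (-cv p) G

end Vale.Agent.P054
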