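import Vale.Agent.P054.Defs

/-! Dim: dimension counts and interpolation (about 250 lines).
`finrank_le_deg`, `finrank_hom`: the monomials form bases (`basisRestrictSupport`, `Finset.card_finsuppAntidiag_nat_eq_choose`, `Sym.card_sym_eq_choose` or hockey stick `Nat.sum_range_add_choose`).
`interp`: the linear map from polynomials of degree `≤ τ` in 6 variables to the product of the spaces of degree `≤ τ` in 3 variables has a kernel because `|I| * C(τ+3,3) < C(τ+6,6)`; `degree_aeval_le` bounds the degree of a substitution.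
`interp_hom`: forms of degree `τ` in 3 variables have dimension `C(τ+2,2)`. `interp_not_dvd`: the forms of degree `τ` vanishing on `Y` have dimension at least `C(τ+2,2) - |Y|`, the multiples of `φ` among them at most `C(τ-δ+2,2)` (a homogeneous multiple `φ * A` equals `φ` times the component of `A` of degree `τ - δ`).
`sep_points`: products of affine linear forms separate points.
-/

noncomputable section

open Classical MvPolynomial Matrix Finset

namespace Vale.Agent.P054

variable {σ F : Type*} [Fintype σ] [Field F]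

theorem card_Dim {α : Type*} (s : Finset α) [Fintype (s : Set α)] :
    Fintype.card (s : Set α) = s.card := by simp

theorem finrank_le_deg (T : ℕ) :
    Module.finrank F (restrictTotalDegree σ F T) = (T + Fintype.card σ).choose (Fintype.card σ) := by
  have h1 : restrictTotalDegree σ F T = restrictSupport F
      (((range (T + 1)).biUnion fun j => univ.finsuppAntidiag j : Finset (σ →₀ ℕ)) :
        Set (σ →₀ ℕ)) := by
    rw [restrictTotalDegree]
    refine congrArg _ (Set.ext fun d => ?_)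
    simp [mem_finsuppAntidiag, Finsupp.sum_fintype, Nat.lt_succ_iff]
  rw [h1, Module.finrank_eq_card_basis (basisRestrictSupport F _), card_Dim,
    card_biUnion, ← Nat.sum_range_multichoose]
  · exact sum_congr rfl fun j _ => card_finsuppAntidiag_nat_eq_multichoose j
  · intro i _ j _ h
    exact disjoint_left.2 fun d h1 h2 =>
      h ((mem_finsuppAntidiag.1 h1).1.symm.trans (mem_finsuppAntidiag.1 h2).1)

theorem finrank_hom (n T : ℕ) (hσ : Fintype.card σ = n + 1) :
    Module.finrank F (homogeneousSubmodule σ F T) = (T + n).choose n := by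
  have h1 : homogeneousSubmodule σ F T =
      restrictSupport F ((univ.finsuppAntidiag T : Finset (σ →₀ ℕ)) : Set (σ →₀ ℕ)) := by
    rw [homogeneousSubmodule_eq_finsupp_supported, restrictSupport]
    refine congrArg _ (Set.ext fun d => ?_)
    simp [mem_finsuppAntidiag, Finsupp.degree_eq_sum]
  rw [h1, Module.finrank_eq_card_basis (basisRestrictSupport F _), card_Dim,
    card_finsuppAntidiag_nat_eq_choose, card_univ, hσ, ← Nat.choose_symm_add]
  exact congrArg (fun m => Nat.choose m T) (show n + 1 + T - 1 = T + n by omega)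

theorem finite_hom (T : ℕ) : Module.Finite F (homogeneousSubmodule σ F T) :=
  Module.Finite.iff_fg.mpr (homogeneousSubmodule_fg σ F T)

theorem degree_aeval_le {τ K : Type*} [CommRing K] (φ : σ → MvPolynomial τ K) {a : ℕ}
    (hφ : ∀ i, (φ i).totalDegree ≤ a) (f : MvPolynomial σ K) :
    (aeval φ f).totalDegree ≤ a * f.totalDegree := by
  rw [aeval_def, eval₂_eq]
  refine totalDegree_finsetSum_le fun d hd => (totalDegree_mul _ _).trans ?_
  rw [algebraMap_eq, totalDegree_C, zero_add]
  refine (totalDegree_finsetProd _ _).trans ((sum_le_sum fun i _ => (totalDegree_pow _ _).trans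
    (Nat.mul_le_mul_left (d i) (hφ i))).trans ?_)
  rw [← sum_mul, mul_comm]
  exact Nat.mul_le_mul_left a (le_totalDegree hd)

theorem interp {ι : Type*} (I : Finset ι) (φ : ι → S6 → P3) (hφ : ∀ i a, (φ i a).totalDegree ≤ 1)
    {τ : ℕ} (hτ : 120 * I.card ≤ τ ^ 3) :
    ∃ f : P6, f ≠ 0 ∧ f.totalDegree ≤ τ ∧ ∀ i ∈ I, aeval (φ i) f = 0 := by
  have hm : ∀ i, ∀ f ∈ restrictTotalDegree S6 ℂ τ,
      (aeval (φ i) : P6 →ₐ[ℂ] P3).toLinearMap f ∈ restrictTotalDegree (Fin 3) ℂ τ := fun i f hf =>
    (mem_restrictTotalDegree _ _ _).2 ((degree_aeval_le _ (hφ i) f).trans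
      ((one_mul _).trans_le ((mem_restrictTotalDegree _ _ _).1 hf)))
  obtain ⟨f, h1, h2⟩ := (Submodule.ne_bot_iff _).1 (LinearMap.ker_ne_bot_of_finrank_lt
    (f := LinearMap.pi fun i : I => (aeval (φ i) : P6 →ₐ[ℂ] P3).toLinearMap.restrict (hm i)) (by
      rw [Module.finrank_pi_fintype, sum_const, finrank_le_deg, finrank_le_deg, card_univ,
        Fintype.card_coe, smul_eq_mul]
      have e1 := Nat.add_one_mul_choose_eq (τ + 3) 3
      have e2 := Nat.add_one_mul_choose_eq (τ + 4) 4
      have e3 := Nat.add_one_mul_choose_eq (τ + 5) 5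
      have e4 : 0 < (τ + 3).choose 3 := Nat.choose_pos (by omega)
      have e5 : 120 * (τ + 6).choose 6 = (τ + 6) * (τ + 5) * (τ + 4) * (τ + 3).choose 3 := by
        rw [mul_assoc, e1, mul_assoc, ← mul_assoc (τ + 5), e2, ← mul_assoc, ← mul_assoc, e3]
        ring
      have e6 : τ ^ 3 < (τ + 6) * (τ + 5) * (τ + 4) := by nlinarith [Nat.zero_le τ]
      have e7 := Nat.mul_lt_mul_of_pos_right (hτ.trans_lt e6) e4
      simp only [Fintype.card_sum, Fintype.card_fin]
      rw [← e5, mul_assoc] at e7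
      exact Nat.lt_of_mul_lt_mul_left e7))
  exact ⟨f, fun h => h2 (Subtype.ext h), (mem_restrictTotalDegree _ _ _).1 f.2, fun i hi =>
    congrArg Subtype.val (congrFun (LinearMap.mem_ker.1 h1) ⟨i, hi⟩)⟩

/-- evaluation at the points of `Y` -/
def ev_Dim (Y : Finset (σ → F)) (T : ℕ) : homogeneousSubmodule σ F T →ₗ[F] Y → F :=
  LinearMap.pi fun y => (aeval y.1 : MvPolynomial σ F →ₐ[F] F).toLinearMap.domRestrict _

omit [Fintype σ] in
theorem ker_Dim {Y : Finset (σ → F)} {T : ℕ} {f : homogeneousSubmodule σ F T}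
    (h : f ∈ LinearMap.ker (ev_Dim Y T)) : ∀ y ∈ Y, eval y f.1 = 0 := fun y hy =>
  congrFun (LinearMap.mem_ker.1 h) ⟨y, hy⟩

omit [Fintype σ] in
theorem comp_Dim {φ : MvPolynomial σ F} {δ : ℕ} (hφ : φ.IsHomogeneous δ) (k : ℕ)
    (A : MvPolynomial σ F) : homogeneousComponent (k + δ) (φ * A) = φ * homogeneousComponent k A := by
  induction A using MvPolynomial.induction_on' with
  | monomial d c =>
    have h := isHomogeneous_monomial (d := d) c rfl
    rw [homogeneousComponent_of_mem (hφ.mul h), homogeneousComponent_of_mem h, mul_ite, mul_zero]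
    exact if_congr (by omega) rfl rfl
  | add p q hp hq => rw [mul_add, map_add, map_add, hp, hq, mul_add]

theorem interp_hom (Y : Finset (Fin 3 → F)) {τ : ℕ} (hτ : Y.card < (τ + 2).choose 2) :
    ∃ ψ : MvPolynomial (Fin 3) F, ψ ≠ 0 ∧ ψ.IsHomogeneous τ ∧ ∀ y ∈ Y, eval y ψ = 0 := by
  have := finite_hom (σ := Fin 3) (F := F) τ
  obtain ⟨f, h1, h2⟩ := (Submodule.ne_bot_iff _).1 (LinearMap.ker_ne_bot_of_finrank_lt
    (f := ev_Dim Y τ) (by
      rwa [Module.finrank_fintype_fun_eq_card, Fintype.card_coe, finrank_hom 2 τ rfl]))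
  exact ⟨f, fun h => h2 (Subtype.ext h), f.2, ker_Dim h1⟩

theorem interp_not_dvd (Y : Finset (Fin 3 → F)) {φ : MvPolynomial (Fin 3) F} {δ k : ℕ}
    (hφ : φ.IsHomogeneous δ) (h0 : φ ≠ 0) (hδ : 1 ≤ δ) (hY : Y.card ≤ k * δ) :
    ∃ ψ : MvPolynomial (Fin 3) F, ψ.IsHomogeneous (k + δ) ∧ ¬ φ ∣ ψ ∧ ∀ y ∈ Y, eval y ψ = 0 := by
  have := finite_hom (σ := Fin 3) (F := F) (k + δ)
  have := finite_hom (σ := Fin 3) (F := F) k
  by_contra hcon
  have h1 : (LinearMap.ker (ev_Dim Y (k + δ))).map (Submodule.subtype _) ≤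
      (homogeneousSubmodule (Fin 3) F k).map (LinearMap.mulLeft F φ) := by
    rintro _ ⟨f, hf, rfl⟩
    obtain ⟨A, hA⟩ : φ ∣ f.1 := by_contra fun h => hcon ⟨f, f.2, h, ker_Dim hf⟩
    exact ⟨_, homogeneousComponent_mem k A, (comp_Dim hφ k A).symm.trans
      (hA ▸ homogeneousComponent_eq_self f.2)⟩
  have h2 := (Submodule.finrank_mono h1).trans (Submodule.finrank_map_le _ _)
  have h3 := (ev_Dim Y (k + δ)).finrank_range_add_finrank_ker
  have h4 := (LinearMap.range (ev_Dim Y (k + δ))).finrank_le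
  rw [Submodule.finrank_map_subtype_eq, finrank_hom 2 k rfl] at h2
  rw [finrank_hom 2 _ rfl] at h3
  rw [Module.finrank_fintype_fun_eq_card, Fintype.card_coe] at h4
  have e1 := Nat.add_one_mul_choose_eq (k + 1) 1
  have e2 := Nat.add_one_mul_choose_eq (k + δ + 1) 1
  rw [Nat.choose_one_right] at e1 e2
  have e3 : (k + δ + 2).choose 2 ≤ k * δ + (k + 2).choose 2 := by omega
  change _ = (k + 2).choose 2 * 2 at e1
  change _ = (k + δ + 2).choose 2 * 2 at e2
  nlinarith

theorem sep_points (Y : Finset (σ → F)) {y : σ → F} (hy : y ∈ Y) :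
    ∃ f : MvPolynomial σ F, f.totalDegree ≤ Y.card ∧ eval y f = 1 ∧
      ∀ y' ∈ Y, y' ≠ y → eval y' f = 0 := by
  have h : ∀ z : σ → F, ∃ g : MvPolynomial σ F, g.totalDegree ≤ 1 ∧ eval y g = 1 ∧
      (z ≠ y → eval z g = 0) := fun z => by
    by_cases hz : z = y
    · exact ⟨1, by simp, by simp, fun h => absurd hz h⟩
    obtain ⟨j, hj⟩ := Function.ne_iff.1 hz
    refine ⟨C (y j - z j)⁻¹ * (X j - C (z j)), (totalDegree_mul _ _).trans ?_, ?_, fun _ => by simp⟩
    · rw [totalDegree_C, zero_add]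
      exact (totalDegree_sub_C_le _ _).trans (totalDegree_X j).le
    · simp [inv_mul_cancel₀ (sub_ne_zero.2 hj.symm)]
  choose g h1 h2 h3 using h
  refine ⟨∏ z ∈ Y, g z, (totalDegree_finsetProd _ _).trans ((sum_le_card_nsmul _ _ 1
    fun z _ => h1 z).trans_eq (by simp)), ?_, fun z hz hne => ?_⟩
  · rw [map_prod]
    exact prod_eq_one fun z _ => h2 z
  · rw [map_prod]
    exact prod_eq_zero hz (h3 z hne)

end Vale.Agent.P054
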