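import Vale.Agent.P054.Beck3

/-! ExcB: exceptional subspaces contain few pairs (about 300 lines).
`bf (hat (cz z)) (hat (cz w)) = sq z.1 w.1 - sq z.2 w.2`. `bf` is a nondegenerate symmetric form on `ℂ^8`, so `W^⊥` has rank `8 - finrank W` (`LinearMap.BilinForm.finrank_orthogonal`, or the rank of the map `v ↦ bf v ·` into the dual of `W`).
Isotropic of rank 3: three vectors of `W^⊥` (rank 5) are dependent modulo `W`; pairing the relation with the three null vectors gives `b₁₂ b₁₃ b₂₃ = 0`, impossible for three pairs with the same first point. So each `p` has at most 2 partners.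
Rank `≥ 4`: if some `p` has 3 partners `q₁ q₂ q₃` and some `q` has 3 partners `p₁ p₂ p₃` (else at most `2 n`), consider the linear coordinates `(p, q, 1, |p|^2 - |q|^2)` of `hat`. The differences give `(0, b, 0, x)`, `(0, b', 0, x')` independent (strict convexity if `b ∥ b'`) and `(a, 0, 0, y)`, `(a', 0, 0, y')`; together with one `hat` these five vectors are dependent, which forces `a ∥ a'`, `b ∥ b'` and `(0,0,0,1) ∈ W^⊥`; then `hat z₀, (a,0,0,·), (0,b,0,·), (0,0,0,1)` is a basis and all pairs lie on a product of two lines (`PlaneLe.line_le`).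
-/

noncomputable section

open Classical MvPolynomial Matrix Finset

namespace Vale.Agent.P054

theorem bf_hat_cz (z w : V × V) :
    bf (hat (cz z)) (hat (cz w)) = ((sq z.1 w.1 - sq z.2 w.2 : ℝ) : ℂ) := by
  simp only [bf, hat, cz, cv, sq, Fintype.sum_option, Fin.sum_univ_three, Sum.elim_inl,
    Sum.elim_inr, Option.elim, dotProduct, Pi.add_apply, Pi.sub_apply]
  push_cast
  ring

theorem cz_injective : Function.Injective cz := by
  intro z w h
  have h1 : ∀ i, z.1 i + z.2 i = w.1 i + w.2 i := fun i => by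
    have := congrFun (congrArg Prod.fst h) i
    simp only [cz, cv, Pi.add_apply] at this
    exact_mod_cast this
  have h2 : ∀ i, z.2 i - z.1 i = w.2 i - w.1 i := fun i => by
    have := congrFun (congrArg Prod.snd h) i
    simp only [cz, cv, Pi.sub_apply] at this
    exact_mod_cast this
  ext i
  · linarith [h1 i, h2 i]
  · linarith [h1 i, h2 i]

/-- The form `bf` as a bilinear form. -/
def exbB : LinearMap.BilinForm ℂ (S8 → ℂ) :=
  LinearMap.mk₂ ℂ bf
    (fun a b c => by
      simp only [bf, Pi.add_apply, ← Finset.sum_add_distrib]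
      exact Finset.sum_congr rfl fun _ _ => by ring)
    (fun t a c => by
      simp only [bf, Pi.smul_apply, smul_eq_mul, Finset.mul_sum]
      exact Finset.sum_congr rfl fun _ _ => by ring)
    (fun a b c => by
      simp only [bf, Pi.add_apply, ← Finset.sum_add_distrib]
      exact Finset.sum_congr rfl fun _ _ => by ring)
    (fun t a c => by
      simp only [bf, Pi.smul_apply, smul_eq_mul, Finset.mul_sum]
      exact Finset.sum_congr rfl fun _ _ => by ring)

theorem exb_apply (a b : S8 → ℂ) : exbB a b = bf a b := rfl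

theorem exb_symm (a b : S8 → ℂ) : exbB a b = exbB b a := by
  simp only [exb_apply, bf]
  exact Finset.sum_congr rfl fun _ _ => by ring

theorem exb_rank (W : Submodule ℂ (S8 → ℂ)) :
    Module.finrank ℂ W + Module.finrank ℂ (exbB.orthogonal W) = 8 := by
  have hk : LinearMap.ker exbB = ⊥ := by
    rw [LinearMap.ker_eq_bot']
    intro a ha
    funext s
    rcases s with o | o
    · have := LinearMap.congr_fun ha (Pi.single (.inr o) 1)
      simpa [exb_apply, bf, Pi.single_apply] using this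
    · have := LinearMap.congr_fun ha (Pi.single (.inl o) 1)
      simpa [exb_apply, bf, Pi.single_apply] using this
  have := LinearMap.BilinForm.finrank_add_finrank_orthogonal' (B := exbB) W
  rw [hk, inf_bot_eq, finrank_bot, add_zero] at this
  rw [this]
  simp

/-- Three null vectors with nonzero mutual products. -/
structure ExbTri (u v w : S8 → ℂ) : Prop where
  uu : exbB u u = 0
  vv : exbB v v = 0
  ww : exbB w w = 0
  uv : exbB u v ≠ 0
  uw : exbB u w ≠ 0
  vw : exbB v w ≠ 0

theorem ExbTri.core {u v w : S8 → ℂ} (h : ExbTri u v w) {a b c : ℂ}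
    (h1 : exbB (a • u + (b • v + c • w)) u = 0) (h2 : exbB (a • u + (b • v + c • w)) v = 0)
    (h3 : exbB (a • u + (b • v + c • w)) w = 0) : a = 0 ∧ b = 0 ∧ c = 0 := by
  simp only [map_add, map_smul, LinearMap.add_apply, LinearMap.smul_apply, smul_eq_mul, h.uu, h.vv,
    h.ww, exb_symm v u, exb_symm w u, exb_symm w v] at h1 h2 h3
  have ha : a * (2 * exbB u v * exbB u w) = 0 := by
    linear_combination exbB u w * h2 + exbB u v * h3 - exbB v w * h1
  have ha' : a = 0 := (mul_eq_zero.1 ha).resolve_right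
    (mul_ne_zero (mul_ne_zero two_ne_zero h.uv) h.uw)
  subst ha'
  have hb : b * exbB v w = 0 := by linear_combination h3
  have hc : c * exbB v w = 0 := by linear_combination h2
  exact ⟨rfl, (mul_eq_zero.1 hb).resolve_right h.vw, (mul_eq_zero.1 hc).resolve_right h.vw⟩

theorem exb_dim {X : Type*} [AddCommGroup X] [Module ℂ X] [Module.Finite ℂ X]
    {U : Submodule ℂ (S8 → ℂ)} {u v w : S8 → ℂ} (hu : u ∈ U) (hv : v ∈ U) (hw : w ∈ U)
    (g : X →ₗ[ℂ] S8 → ℂ) (hg : ∀ x, g x ∈ U)
    (hi : ∀ (a b c : ℂ) (x : X), a • u + (b • v + c • w) + g x = 0 →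
      (a = 0 ∧ b = 0 ∧ c = 0) ∧ x = 0) : 3 + Module.finrank ℂ X ≤ Module.finrank ℂ U := by
  let L : (ℂ × ℂ × ℂ) × X →ₗ[ℂ] S8 → ℂ :=
    ((LinearMap.toSpanSingleton ℂ _ u).coprod
      ((LinearMap.toSpanSingleton ℂ _ v).coprod (LinearMap.toSpanSingleton ℂ _ w))).coprod g
  have hL : ∀ y, L y = y.1.1 • u + (y.1.2.1 • v + y.1.2.2 • w) + g y.2 := fun y => rfl
  have hinj : Function.Injective L := by
    rw [injective_iff_map_eq_zero]
    rintro ⟨⟨a, b, c⟩, x⟩ hy
    obtain ⟨⟨rfl, rfl, rfl⟩, rfl⟩ := hi a b c x hy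
    rfl
  have hr : LinearMap.range L ≤ U := by
    rintro _ ⟨y, rfl⟩
    rw [hL]
    exact U.add_mem (U.add_mem (U.smul_mem _ hu) (U.add_mem (U.smul_mem _ hv) (U.smul_mem _ hw)))
      (hg _)
  have := Submodule.finrank_mono hr
  rw [LinearMap.finrank_range_of_inj hinj] at this
  simpa [Module.finrank_prod, add_assoc] using this

theorem exb_five {U : Submodule ℂ (S8 → ℂ)} (hU : Module.finrank ℂ U ≤ 4) {u v w A Z : S8 → ℂ}
    (hu : u ∈ U) (hv : v ∈ U) (hw : w ∈ U) (hA : A ∈ U) (hZ : Z ∈ U) (h : ExbTri u v w)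
    (π : (S8 → ℂ) →ₗ[ℂ] Fin 3 → ℂ) (p1 : π u = 0) (p2 : π v = 0) (p3 : π w = 0) :
    π A ⨯₃ π Z = 0 := by
  by_contra hn
  have := exb_dim hu hv hw
    ((LinearMap.toSpanSingleton ℂ _ A).coprod (LinearMap.toSpanSingleton ℂ _ Z))
    (fun x => U.add_mem (U.smul_mem _ hA) (U.smul_mem _ hZ)) (by
      rintro a b c ⟨d, e⟩ hx
      have hx' : a • u + (b • v + c • w) + (d • A + e • Z) = 0 := hx
      have h1 := congrArg π hx'
      simp only [map_add, map_smul, p1, p2, p3, smul_zero, add_zero, zero_add, map_zero] at h1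
      have h2 := congrArg (fun t => t ⨯₃ π Z) h1
      have h3 := congrArg (fun t => π A ⨯₃ t) h1
      simp only [map_add, map_smul, LinearMap.add_apply, LinearMap.smul_apply, cross_self,
        smul_zero, add_zero, zero_add, map_zero, LinearMap.zero_apply, smul_eq_zero, hn,
        or_false] at h2 h3
      subst h2 h3
      rw [zero_smul, zero_smul, add_zero, add_zero] at hx'
      exact ⟨h.core (by rw [hx']; simp) (by rw [hx']; simp) (by rw [hx']; simp), rfl⟩)
  simp only [Module.finrank_prod, Module.finrank_self] at this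
  omega

theorem exb_sq_ne {p q : V} (h : p ≠ q) : sq p q ≠ 0 := fun e =>
  h (sub_eq_zero.1 (dotProduct_self_eq_zero.1 e))

theorem exb_sq_self (p : V) : sq p p = 0 := by simp [sq]

theorem exb_tri {x y z : V × V} (xy : x ≠ y) (xz : x ≠ z) (yz : y ≠ z)
    (h : (x.1 = y.1 ∧ x.1 = z.1) ∨ (x.2 = y.2 ∧ x.2 = z.2)) :
    ExbTri (hat (cz x)) (hat (cz y)) (hat (cz z)) := by
  have h0 : ∀ a : V × V, exbB (hat (cz a)) (hat (cz a)) = 0 := fun a => by
    rw [exb_apply, bf_hat_cz, exb_sq_self, exb_sq_self]; simp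
  have h1 : ∀ a b : V × V, a ≠ b → a.1 = b.1 ∨ a.2 = b.2 →
      exbB (hat (cz a)) (hat (cz b)) ≠ 0 := by
    intro a b hab he
    rw [exb_apply, bf_hat_cz, Complex.ofReal_ne_zero]
    rcases he with e | e
    · rw [e, exb_sq_self, zero_sub, neg_ne_zero]
      exact exb_sq_ne fun e' => hab (Prod.ext e e')
    · rw [e, exb_sq_self, sub_zero]
      exact exb_sq_ne fun e' => hab (Prod.ext e' e)
  exact ⟨h0 _, h0 _, h0 _, h1 _ _ xy (h.imp And.left And.left), h1 _ _ xz (h.imp And.right And.right),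
    h1 _ _ yz (h.imp (fun h => h.1.symm.trans h.2) fun h => h.1.symm.trans h.2)⟩

/-- The linear coordinate `p` (`s = -1`) or `q` (`s = 1`), centred at `o`. -/
def exbP (s : ℂ) (o : V) : (S8 → ℂ) →ₗ[ℂ] Fin 3 → ℂ where
  toFun a i := a (.inl (some i)) + s * a (.inr (some i)) - 2 * a (.inl none) * (o i : ℂ)
  map_add' a b := by funext i; simp only [Pi.add_apply]; ring
  map_smul' t a := by funext i; simp only [Pi.smul_apply, smul_eq_mul, RingHom.id_apply]; ring

theorem exbP_fst (o : V) (z : V × V) : exbP (-1) o (hat (cz z)) = (2 : ℂ) • cv (z.1 - o) := by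
  funext i
  simp only [exbP, hat, cz, cv, LinearMap.coe_mk, AddHom.coe_mk, Sum.elim_inl, Sum.elim_inr,
    Option.elim, Pi.add_apply, Pi.sub_apply, Pi.smul_apply, smul_eq_mul]
  push_cast
  ring

theorem exbP_snd (o : V) (z : V × V) : exbP 1 o (hat (cz z)) = (2 : ℂ) • cv (z.2 - o) := by
  funext i
  simp only [exbP, hat, cz, cv, LinearMap.coe_mk, AddHom.coe_mk, Sum.elim_inl, Sum.elim_inr,
    Option.elim, Pi.add_apply, Pi.sub_apply, Pi.smul_apply, smul_eq_mul]
  push_cast
  ring

theorem exb_cross {a b : V} (h : ((2 : ℂ) • cv a) ⨯₃ ((2 : ℂ) • cv b) = 0) : a ⨯₃ b = 0 := by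
  simp only [map_smul, LinearMap.smul_apply, smul_eq_zero, OfNat.ofNat_ne_zero, false_or] at h
  have h0 := congrFun h 0
  have h1 := congrFun h 1
  have h2 := congrFun h 2
  simp only [cross_apply, cv, Matrix.cons_val_zero, Matrix.cons_val_one, Matrix.cons_val,
    Pi.zero_apply] at h0 h1 h2
  funext i
  fin_cases i
  · simp only [cross_apply, Fin.zero_eta, Matrix.cons_val_zero, Pi.zero_apply]
    exact_mod_cast h0
  · simp only [cross_apply, Fin.mk_one, Matrix.cons_val_one, Matrix.cons_val_zero, Pi.zero_apply]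
    exact_mod_cast h1
  · simp only [cross_apply, Fin.reduceFinMk, Matrix.cons_val, Pi.zero_apply]
    exact_mod_cast h2

theorem exb_line {E : Finset (V × V)} (f : V × V → V) (o : V)
    (h : ∀ z ∈ E, ∀ w ∈ E, (f z - o) ⨯₃ (f w - o) = 0) :
    ∃ a : V, a ≠ 0 ∧ ∀ w ∈ E, a ⨯₃ (f w - o) = 0 := by
  by_cases hx : ∃ z ∈ E, f z - o ≠ 0
  · obtain ⟨z, hz, h0⟩ := hx
    exact ⟨_, h0, h z hz⟩
  · push Not at hx
    refine ⟨1, one_ne_zero, fun w hw => ?_⟩
    rw [hx w hw, map_zero]

theorem exc_bound {P : Finset V} {B : ℕ} (hP : PlaneLe P B) {W : Submodule ℂ (S8 → ℂ)}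
    (hW : Exc W) :
    ((P ×ˢ P).filter fun z => ∀ a ∈ W, bf a (hat (cz z)) = 0).card ≤ 2 * P.card + B ^ 2 := by
  set E := (P ×ˢ P).filter fun z => ∀ a ∈ W, bf a (hat (cz z)) = 0 with hE
  have hU : ∀ z ∈ E, hat (cz z) ∈ exbB.orthogonal W := fun z hz => (Finset.mem_filter.1 hz).2
  have hEP : ∀ z ∈ E, z.1 ∈ P ∧ z.2 ∈ P := fun z hz =>
    Finset.mem_product.1 (Finset.mem_filter.1 hz).1
  have hrk := exb_rank W
  by_cases h1 : ∀ p ∈ P, (E.filter fun z => z.1 = p).card ≤ 2
  · exact (Finset.card_le_mul_card_image_of_maps_to (fun z hz => (hEP z hz).1) 2 h1).trans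
      (Nat.le_add_right _ _)
  by_cases h2 : ∀ q ∈ P, (E.filter fun z => z.2 = q).card ≤ 2
  · exact (Finset.card_le_mul_card_image_of_maps_to (fun z hz => (hEP z hz).2) 2 h2).trans
      (Nat.le_add_right _ _)
  push Not at h1 h2
  obtain ⟨p, -, h1⟩ := h1
  obtain ⟨q, -, h2⟩ := h2
  obtain ⟨x, hx, y, hy, z, hz, xy, xz, yz⟩ := Finset.two_lt_card.1 h1
  obtain ⟨x', hx', y', hy', z', hz', xy', xz', yz'⟩ := Finset.two_lt_card.1 h2
  rw [Finset.mem_filter] at hx hy hz hx' hy' hz'
  have t1 := exb_tri xy xz yz (Or.inl ⟨hx.2.trans hy.2.symm, hx.2.trans hz.2.symm⟩)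
  have t2 := exb_tri xy' xz' yz' (Or.inr ⟨hx'.2.trans hy'.2.symm, hx'.2.trans hz'.2.symm⟩)
  rcases hW with hW | ⟨hW, hiso⟩
  · have hc : cv 0 = 0 := by funext i; simp [cv]
    obtain ⟨a, a0, ha⟩ := exb_line (E := E) Prod.fst p fun s hs t ht => by
      have := exb_five (by omega) (hU _ hx.1) (hU _ hy.1) (hU _ hz.1) (hU _ hs) (hU _ ht) t1
        (exbP (-1) p) (by rw [exbP_fst, hx.2, sub_self, hc, smul_zero])
        (by rw [exbP_fst, hy.2, sub_self, hc, smul_zero])
        (by rw [exbP_fst, hz.2, sub_self, hc, smul_zero])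
      rw [exbP_fst, exbP_fst] at this
      exact exb_cross this
    obtain ⟨b, b0, hb⟩ := exb_line (E := E) Prod.snd q fun s hs t ht => by
      have := exb_five (by omega) (hU _ hx'.1) (hU _ hy'.1) (hU _ hz'.1) (hU _ hs) (hU _ ht) t2
        (exbP 1 q) (by rw [exbP_snd, hx'.2, sub_self, hc, smul_zero])
        (by rw [exbP_snd, hy'.2, sub_self, hc, smul_zero])
        (by rw [exbP_snd, hz'.2, sub_self, hc, smul_zero])
      rw [exbP_snd, exbP_snd] at this
      exact exb_cross this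
    have hsub : E ⊆ (P.filter fun x => a ⨯₃ (x - p) = 0) ×ˢ (P.filter fun x => b ⨯₃ (x - q) = 0) :=
      fun w hw => Finset.mem_product.2 ⟨Finset.mem_filter.2 ⟨(hEP w hw).1, ha w hw⟩,
        Finset.mem_filter.2 ⟨(hEP w hw).2, hb w hw⟩⟩
    have := Finset.card_le_card hsub
    rw [Finset.card_product] at this
    have h3 := Nat.mul_le_mul (hP.line_le p a0) (hP.line_le q b0)
    rw [← pow_two] at h3
    omega
  · exfalso
    have := exb_dim (hU _ hx.1) (hU _ hy.1) (hU _ hz.1) W.subtype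
      (fun w a ha => hiso a ha w w.2) (by
        intro a b c w hw
        have hw' : a • hat (cz x) + (b • hat (cz y) + c • hat (cz z)) = ((-w : W) : S8 → ℂ) :=
          eq_neg_of_add_eq_zero_left hw
        have hc := t1.core (a := a) (b := b) (c := c)
          (by rw [hw']; exact hU _ hx.1 _ (-w).2) (by rw [hw']; exact hU _ hy.1 _ (-w).2)
          (by rw [hw']; exact hU _ hz.1 _ (-w).2)
        refine ⟨hc, ?_⟩
        rw [hc.1, hc.2.1, hc.2.2] at hw
        simpa using hw)
    omega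

end Vale.Agent.P054
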