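import Vale.Agent.P054.FatD
import Vale.Agent.P054.Beck3

/-! Fat: the number of rich planes (about 300 lines).
Let `m = |S|`, `N = |𝒜|`. Cauchy-Schwarz: `(N a)^2 ≤ m Z`, `Z = ∑_{A, A'} |A ∩ A'|`. Diagonal: `≤ N A₁`. Light pairs (`4 m |A ∩ A'| ≤ a^2`): `4 m * sum ≤ N^2 a^2`.
Heavy pairs `A ≠ A'`: `A ∩ A'` is a line section (`pl_inter`) with at least `l = a^2 / (4 m) + 1` points, `l^2 ≥ 2 A₁`. Let `j = N a^2 / (8 m A₁)`. If at most `j` members contain `A ∩ A'`: for fixed `A` the different sets `A ∩ A'` have total size `≤ 2 |A|` (`pack`, `ln_inter`), each occurs at most `j` times, total `≤ N j 2 A₁`. Otherwise the dual pair is `(j+1)`-rich (`fat_dual`), and `beck3` with `m / b` bounds the number of these pairs, each contributes at most `L`.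
-/

noncomputable section

open Classical MvPolynomial Matrix Finset

namespace Vale.Agent.P054

theorem fat_cs {S : Finset V} {𝒜 : Finset (Finset V)} (h : ∀ A ∈ 𝒜, A ⊆ S) :
    (∑ A ∈ 𝒜, A.card) ^ 2 ≤ S.card * ∑ A ∈ 𝒜, ∑ A' ∈ 𝒜, (A ∩ A').card := by
  have e0 : ∀ A ⊆ S, A.card = ∑ x ∈ S, if x ∈ A then 1 else 0 := fun A hA => by
    rw [← card_filter, filter_mem_eq_inter, inter_eq_right.2 hA]
  have e1 : ∑ A ∈ 𝒜, A.card = ∑ x ∈ S, ∑ A ∈ 𝒜, if x ∈ A then 1 else 0 := by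
    rw [sum_comm]
    exact sum_congr rfl fun A hA => e0 A (h A hA)
  have e2 : ∑ x ∈ S, (∑ A ∈ 𝒜, if x ∈ A then 1 else 0) ^ 2 =
      ∑ A ∈ 𝒜, ∑ A' ∈ 𝒜, (A ∩ A').card := by
    simp only [pow_two, sum_mul_sum]
    rw [sum_comm]
    refine sum_congr rfl fun A hA => ?_
    rw [sum_comm]
    refine sum_congr rfl fun A' _ => ?_
    rw [e0 _ (inter_subset_left.trans (h A hA))]
    refine sum_congr rfl fun x _ => ?_
    by_cases h1 : x ∈ A <;> by_cases h2 : x ∈ A' <;> simp [h1, h2]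
  rw [e1, ← e2]
  exact sq_sum_le_card_mul_sum_sq

theorem fat_few {S A : Finset V} {𝒜 H : Finset (Finset V)} {l j : ℕ} (hA : IsPl S A)
    (hl : 2 * A.card ≤ l ^ 2) (hl1 : 1 ≤ l) (hH : H ⊆ 𝒜)
    (h : ∀ A' ∈ H, IsPl S A' ∧ A ≠ A' ∧ l ≤ (A ∩ A').card ∧
      (𝒜.filter fun A'' => A ∩ A' ⊆ A'').card ≤ j) :
    ∑ A' ∈ H, (A ∩ A').card ≤ j * (2 * A.card) := by
  have hln : ∀ F ∈ H.image (fun A' => A ∩ A'), ∃ p v : V, v ≠ 0 ∧ F = ln S p v := by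
    intro F hF
    obtain ⟨A', hA', rfl⟩ := mem_image.1 hF
    obtain ⟨h1, h2, h3, -⟩ := h A' hA'
    exact pl_inter hA h1 h2 (card_pos.1 (by omega))
  have h2 : ∀ F ∈ H.image (fun A' => A ∩ A'), ∀ F' ∈ H.image (fun A' => A ∩ A'), F ≠ F' →
      (F ∩ F').card ≤ 1 := fun F hF F' hF' hne => by
    obtain ⟨p, v, hv, rfl⟩ := hln F hF
    obtain ⟨p', v', hv', rfl⟩ := hln F' hF'
    exact ln_inter hv hv' hne
  have hp : ∑ F ∈ H.image (fun A' => A ∩ A'), F.card ≤ 2 * A.card := by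
    refine pack A _ (l := l) (fun F hF => ?_)
      (fun F hF F' hF' hne => le_of_eq_of_le (congrArg card ?_) (h2 F hF F' hF' hne)) hl
    · obtain ⟨A', hA', rfl⟩ := mem_image.1 hF
      exact ⟨inter_subset_left, (h A' hA').2.2.1⟩
    · ext x
      simp only [mem_inter]
  rw [sum_comp (fun F : Finset V => F.card) (fun A' => A ∩ A')]
  refine le_trans ?_ (Nat.mul_le_mul_left j hp)
  rw [mul_sum]
  refine sum_le_sum fun F hF => ?_
  rw [smul_eq_mul]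
  refine Nat.mul_le_mul_right _ ?_
  obtain ⟨A', hA', rfl⟩ := mem_image.1 hF
  refine le_trans (card_le_card fun A'' hA'' => ?_) (h A' hA').2.2.2
  obtain ⟨h3, h4⟩ := mem_filter.1 hA''
  exact mem_filter.2 ⟨hH h3, h4 ▸ inter_subset_right⟩

theorem fat_row {S A : Finset V} {𝒜 : Finset (Finset V)} {l j A₁ L : ℕ} (hA : A ∈ 𝒜)
    (h : ∀ A ∈ 𝒜, IsPl S A ∧ A.card ≤ A₁) (hL : LineLe S L) (hl : 2 * A₁ ≤ (l + 1) ^ 2)
    (hl1 : 1 ≤ l) (r : Finset V → ℕ) (hr : ∀ A' ∈ 𝒜, 2 ≤ (A ∩ A').card →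
      (𝒜.filter fun A'' => A ∩ A' ⊆ A'').card ≤ r A') :
    ∑ A' ∈ 𝒜, (A ∩ A').card ≤ A₁ + 𝒜.card * l + j * (2 * A₁) +
      (𝒜.filter fun A' => A ≠ A' ∧ j + 1 ≤ r A').card * L := by
  have h1 := fat_few (S := S) (A := A) (𝒜 := 𝒜) (l := l + 1) (j := j)
    (H := 𝒜.filter fun A' => A ≠ A' ∧ l + 1 ≤ (A ∩ A').card ∧
      (𝒜.filter fun A'' => A ∩ A' ⊆ A'').card ≤ j) (h A hA).1
    (le_trans (Nat.mul_le_mul_left 2 (h A hA).2) hl) (by omega) (filter_subset _ _)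
    fun A' hA' => ⟨(h A' (mem_filter.1 hA').1).1, (mem_filter.1 hA').2⟩
  have h2 : ∀ A' ∈ 𝒜, (A ∩ A').card ≤ (if A = A' then A₁ else 0) + l +
      (if A ≠ A' ∧ l + 1 ≤ (A ∩ A').card ∧ (𝒜.filter fun A'' => A ∩ A' ⊆ A'').card ≤ j
        then (A ∩ A').card else 0) + (if A ≠ A' ∧ j + 1 ≤ r A' then L else 0) := by
    intro A' hA'
    by_cases e : A = A'
    · have := (card_le_card (inter_subset_left (s₁ := A) (s₂ := A'))).trans (h A hA).2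
      rw [if_pos e]
      omega
    by_cases e2 : l + 1 ≤ (A ∩ A').card
    swap
    · omega
    by_cases e3 : (𝒜.filter fun A'' => A ∩ A' ⊆ A'').card ≤ j
    · rw [if_pos (And.intro e (And.intro e2 e3))]
      omega
    · have h3 := hr A' hA' (by omega)
      obtain ⟨p, v, hv, h4⟩ := pl_inter (h A hA).1 (h A' hA').1 e (card_pos.1 (by omega))
      have h5 : (A ∩ A').card ≤ L := h4 ▸ hL p v hv
      rw [if_pos (And.intro e (by omega : j + 1 ≤ r A'))]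
      omega
  refine (sum_le_sum h2).trans ?_
  rw [sum_add_distrib, sum_add_distrib, sum_add_distrib, sum_ite_eq, if_pos hA, ← sum_filter,
    ← sum_filter, sum_const, sum_const, smul_eq_mul, smul_eq_mul]
  have h6 := Nat.mul_le_mul_left j (Nat.mul_le_mul_left 2 (h A hA).2)
  omega

theorem fat_rich {𝒜 : Finset (Finset V)} {f : Finset V → V} (hf : Set.InjOn f 𝒜) {q : ℕ}
    (h : ∀ A ∈ 𝒜, ∀ A' ∈ 𝒜, A ≠ A' → rich (𝒜.image f) (f A) (f A') ≤ q) (j : ℕ) :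
    j * ∑ A ∈ 𝒜, (𝒜.filter fun A' => A ≠ A' ∧ j ≤ rich (𝒜.image f) (f A) (f A')).card ≤
      4096 * (𝒜.card ^ 2 + j * 𝒜.card * q) := by
  have h1 := beck3 (S := 𝒜.image f) (L := q) (fun x hx y hy hxy => by
    obtain ⟨A, hA, rfl⟩ := mem_image.1 hx
    obtain ⟨A', hA', rfl⟩ := mem_image.1 hy
    exact h A hA A' hA' fun e => hxy (congrArg f e)) j
  rw [card_image_of_injOn hf] at h1
  refine le_trans (Nat.mul_le_mul_left j ?_) h1
  have e : ∑ A ∈ 𝒜, (𝒜.filter fun A' => A ≠ A' ∧ j ≤ rich (𝒜.image f) (f A) (f A')).card =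
      ((𝒜 ×ˢ 𝒜).filter fun e => e.1 ≠ e.2 ∧ j ≤ rich (𝒜.image f) (f e.1) (f e.2)).card := by
    simp only [card_filter, sum_product]
  rw [e]
  refine card_le_card_of_injOn (fun e => (f e.1, f e.2)) (fun e he => ?_) fun e he e' he' h2 => ?_
  · obtain ⟨h3, h4, h5⟩ := mem_filter.1 (mem_coe.1 he)
    obtain ⟨h6, h7⟩ := mem_product.1 h3
    exact mem_coe.2 (mem_filter.2 ⟨mem_offDiag.2 ⟨mem_image_of_mem f h6, mem_image_of_mem f h7,
      fun e' => h4 (hf h6 h7 e')⟩, h5⟩)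
  · obtain ⟨h6, h7⟩ := mem_product.1 (mem_filter.1 (mem_coe.1 he)).1
    obtain ⟨h8, h9⟩ := mem_product.1 (mem_filter.1 (mem_coe.1 he')).1
    exact Prod.ext (hf h6 h8 (congrArg Prod.fst h2)) (hf h7 h9 (congrArg Prod.snd h2))

theorem fat_arith {N m a A₁ b L l j q R Z : ℕ} (hN : 0 < N) (h1 : (N * a) ^ 2 ≤ m * Z)
    (h2 : Z ≤ N * (A₁ + N * l + j * (2 * A₁)) + R * L) (h3 : l * (4 * m) ≤ a ^ 2)
    (h4 : j * (8 * m * A₁) ≤ N * a ^ 2) (h5 : N * a ^ 2 ≤ (j + 1) * (8 * m * A₁))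
    (h6 : q * b ≤ m) (h7 : (j + 1) * R ≤ 4096 * (N ^ 2 + (j + 1) * N * q)) :
    N * a ^ 4 * b ≤ 65536 * (m * A₁ * a ^ 2 * b + L * m ^ 2 * (A₁ * b + a ^ 2)) := by
  have k1 : R * (a ^ 2 * b) ≤ 4096 * (N * m * (8 * A₁ * b + a ^ 2)) := by
    refine Nat.le_of_mul_le_mul_left ?_ (Nat.succ_pos j)
    have k2 := Nat.mul_le_mul_right (a ^ 2 * b) h7
    have k3 := Nat.mul_le_mul_right (N * b) h5
    have k4 := Nat.mul_le_mul_right ((j + 1) * N * a ^ 2) h6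
    rw [Nat.succ_eq_add_one]
    linarith
  have k5 : (N * a) ^ 2 ≤ 2 * (m * N * A₁) + 2 * (m * (R * L)) := by
    have k6 := Nat.mul_le_mul_left m h2
    have k7 := Nat.mul_le_mul_left (N ^ 2) h3
    have k8 := Nat.mul_le_mul_left N h4
    linarith
  refine Nat.le_of_mul_le_mul_left ?_ hN
  have k9 := Nat.mul_le_mul_right (a ^ 2 * b) k5
  have k10 := Nat.mul_le_mul_left (m * L) k1
  have k11 := Nat.zero_le (N * (m * A₁ * a ^ 2 * b))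
  have k12 := Nat.zero_le (N * (L * m ^ 2 * a ^ 2))
  linarith

theorem fat_one {S : Finset V} {𝒜 : Finset (Finset V)} {a A₁ b L : ℕ} (hb : 1 ≤ b)
    (h : ∀ A ∈ 𝒜, IsPl S A ∧ Off A b ∧ a ≤ A.card ∧ A.card ≤ A₁) (hL : LineLe S L)
    (ha : 32 * S.card ^ 2 * A₁ ≤ a ^ 4) :
    𝒜.card * a ^ 4 * b ≤
      65536 * (S.card * A₁ * a ^ 2 * b + L * S.card ^ 2 * (A₁ * b + a ^ 2)) := by
  rcases 𝒜.eq_empty_or_nonempty with rfl | ⟨A₀, hA₀⟩
  · simp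
  rcases Nat.eq_zero_or_pos a with rfl | ha0
  · simp
  have hS : ∀ A ∈ 𝒜, A ⊆ S := fun A hA => by
    obtain ⟨ν, c, -, e⟩ := (h A hA).1
    rw [e]
    exact filter_subset _ _
  have hm : 0 < S.card := ha0.trans_le ((h A₀ hA₀).2.2.1.trans (card_le_card (hS A₀ hA₀)))
  have hA₁ : 0 < A₁ := ha0.trans_le ((h A₀ hA₀).2.2.1.trans (h A₀ hA₀).2.2.2)
  obtain ⟨f, hf, hf1, hf2⟩ := fat_dual hb fun A hA => ⟨(h A hA).1, (h A hA).2.1⟩
  obtain ⟨l, hl1, hl2⟩ : ∃ l, l * (4 * S.card) ≤ a ^ 2 ∧ a ^ 2 < (l + 1) * (4 * S.card) :=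
    ⟨a ^ 2 / (4 * S.card), Nat.div_mul_le_self _ _,
      (Nat.div_lt_iff_lt_mul (by omega)).1 (Nat.lt_succ_self _)⟩
  obtain ⟨j, hj1, hj2⟩ : ∃ j, j * (8 * S.card * A₁) ≤ 𝒜.card * a ^ 2 ∧
      𝒜.card * a ^ 2 < (j + 1) * (8 * S.card * A₁) :=
    ⟨𝒜.card * a ^ 2 / (8 * S.card * A₁), Nat.div_mul_le_self _ _,
      (Nat.div_lt_iff_lt_mul (by positivity)).1 (Nat.lt_succ_self _)⟩
  have hl3 : 2 * A₁ ≤ (l + 1) ^ 2 := by
    refine Nat.le_of_mul_le_mul_left ?_ (show 0 < 16 * S.card ^ 2 by positivity)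
    have := Nat.pow_le_pow_left hl2.le 2
    linarith
  have hl4 : 1 ≤ l := by
    rcases Nat.eq_zero_or_pos l with rfl | hl
    · omega
    · exact hl
  refine fat_arith (l := l) (j := j) (q := S.card / b) (Z := ∑ A ∈ 𝒜, ∑ A' ∈ 𝒜, (A ∩ A').card)
    (R := ∑ A ∈ 𝒜, (𝒜.filter fun A' => A ≠ A' ∧ j + 1 ≤ rich (𝒜.image f) (f A) (f A')).card)
    (card_pos.2 ⟨A₀, hA₀⟩) ?_ ?_ hl1 hj1 hj2.le (Nat.div_mul_le_self _ _)
    (fat_rich hf (fun A hA A' hA' e => (Nat.le_div_iff_mul_le hb).2 (hf2 A hA A' hA' e)) (j + 1))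
  · refine le_trans (Nat.pow_le_pow_left ?_ 2) (fat_cs hS)
    exact card_nsmul_le_sum 𝒜 (fun A => A.card) a fun A hA => (h A hA).2.2.1
  · refine (sum_le_sum fun A hA => fat_row (j := j) hA (fun A hA => ⟨(h A hA).1, (h A hA).2.2.2⟩) hL
      hl3 hl4 (fun A' => rich (𝒜.image f) (f A) (f A')) (hf1 A hA)).trans ?_
    rw [sum_add_distrib, sum_const, smul_eq_mul, sum_mul]

end Vale.Agent.P054
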