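import Vale.Agent.P054.Pack

/-! FatD: planes as points of the dual space (about 200 lines).
Choose `ν A, c A`, and `o` on none of the planes (`o = t • u` with `ν A ⬝ᵥ u ≠ 0` for all `A` and `t` outside a finite set; `bez_nu` or `Module.exists_dual_forall_apply_ne_zero`); `f A = (c A - ν A ⬝ᵥ o)⁻¹ • ν A`, so `A = S.filter (f A ⬝ᵥ (x - o) = 1)`.
Second clause: for `x ≠ x'` in `A ∩ A'` the vectors `x - o`, `x' - o` are independent and orthogonal to `f A' - f A` and `f A'' - f A`.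
Third clause: a dual point on the line is `f A + t (f A' - f A)`; two different such planes meet exactly in `A ∩ A'`, which lies on a line (`pl_inter`) or is empty, so the sets `A'' \ (A ∩ A')` are disjoint with at least `b` points.
-/

noncomputable section

open Classical MvPolynomial Matrix Finset

namespace Vale.Agent.P054

theorem fatD_pt {ι : Type*} (𝒜 : Finset ι) (ν : ι → V) (c : ι → ℝ) (h : ∀ A ∈ 𝒜, ν A ≠ 0) :
    ∃ o : V, ∀ A ∈ 𝒜, c A - ν A ⬝ᵥ o ≠ 0 := by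
  obtain ⟨p, hp⟩ : ∃ p : ι → Polynomial ℝ, p = fun A => Polynomial.C (c A) -
      (Polynomial.monomial 1 (ν A 0) + Polynomial.monomial 2 (ν A 1) +
        Polynomial.monomial 3 (ν A 2)) := ⟨_, rfl⟩
  obtain ⟨t, ht⟩ := Infinite.exists_notMem_finset (𝒜.biUnion fun A => (p A).roots.toFinset)
  refine ⟨![t, t ^ 2, t ^ 3], fun A hA e => ht (mem_biUnion.2 ⟨A, hA, ?_⟩)⟩
  rw [Multiset.mem_toFinset, Polynomial.mem_roots']
  refine ⟨fun e0 => h A hA ?_, ?_⟩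
  · have e1 := congrArg (fun q => Polynomial.coeff q 1) e0
    have e2 := congrArg (fun q => Polynomial.coeff q 2) e0
    have e3 := congrArg (fun q => Polynomial.coeff q 3) e0
    simp [hp, Polynomial.coeff_monomial] at e1 e2 e3
    ext i
    fin_cases i
    · exact e1
    · exact e2
    · exact e3
  · simp only [dotProduct, Fin.sum_univ_three, cons_val_zero, cons_val_one, Matrix.cons_val] at e
    simp only [hp, Polynomial.IsRoot.def, Polynomial.eval_sub, Polynomial.eval_add,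
      Polynomial.eval_C, Polynomial.eval_monomial, pow_one]
    exact e

theorem fatD_f {S : Finset V} {𝒜 : Finset (Finset V)} (h : ∀ A ∈ 𝒜, IsPl S A) :
    ∃ (f : Finset V → V) (o : V), ∀ A ∈ 𝒜, ∀ x, x ∈ A ↔ x ∈ S ∧ f A ⬝ᵥ (x - o) = 1 := by
  have h1 : ∀ A, ∃ (ν : V) (c : ℝ), A ∈ 𝒜 → ν ≠ 0 ∧ A = pl S ν c := by
    intro A
    by_cases hA : A ∈ 𝒜
    · obtain ⟨ν, c, h2⟩ := h A hA
      exact ⟨ν, c, fun _ => h2⟩
    · exact ⟨0, 0, fun h2 => absurd h2 hA⟩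
  choose ν c hν using h1
  obtain ⟨o, ho⟩ := fatD_pt 𝒜 ν c fun A hA => (hν A hA).1
  refine ⟨fun A => (c A - ν A ⬝ᵥ o)⁻¹ • ν A, o, fun A hA x => ?_⟩
  have h2 := ho A hA
  have h3 : x ∈ A ↔ x ∈ pl S (ν A) (c A) := by rw [← (hν A hA).2]
  rw [h3, pl, mem_filter, smul_dotProduct, dotProduct_sub, smul_eq_mul, inv_mul_eq_one₀ h2]
  exact and_congr_right fun _ => ⟨fun e => by rw [e], fun e => by linarith⟩

theorem fatD_cross {g a b u u' : V} (hne : u ≠ u') (h1 : g ⬝ᵥ u = 1) (h2 : g ⬝ᵥ u' = 1)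
    (a1 : a ⬝ᵥ u = 0) (a2 : a ⬝ᵥ u' = 0) (b1 : b ⬝ᵥ u = 0) (b2 : b ⬝ᵥ u' = 0) : a ⨯₃ b = 0 := by
  have hu : u ≠ 0 := by
    rintro rfl
    simp at h1
  have hn : u ⨯₃ u' ≠ 0 := by
    intro e
    obtain ⟨t, rfl⟩ := par_of_cross hu e
    rw [dotProduct_smul, h1, smul_eq_mul, mul_one] at h2
    exact hne (by rw [h2, one_smul])
  have key : ∀ a : V, a ⬝ᵥ u = 0 → a ⬝ᵥ u' = 0 → ∃ t : ℝ, a = t • (u ⨯₃ u') := by
    intro a a1 a2
    refine par_of_cross hn ?_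
    rw [cross_cross_eq_smul_sub_smul, dotProduct_comm u a, dotProduct_comm u' a, a1, a2]
    simp
  obtain ⟨s, rfl⟩ := key a a1 a2
  obtain ⟨t, rfl⟩ := key b b1 b2
  simp

theorem fat_dual {S : Finset V} {𝒜 : Finset (Finset V)} {b : ℕ} (hb : 1 ≤ b)
    (h : ∀ A ∈ 𝒜, IsPl S A ∧ Off A b) : ∃ f : Finset V → V, Set.InjOn f 𝒜 ∧
      (∀ A ∈ 𝒜, ∀ A' ∈ 𝒜, 2 ≤ (A ∩ A').card →
        (𝒜.filter fun A'' => A ∩ A' ⊆ A'').card ≤ rich (𝒜.image f) (f A) (f A')) ∧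
      ∀ A ∈ 𝒜, ∀ A' ∈ 𝒜, A ≠ A' → rich (𝒜.image f) (f A) (f A') * b ≤ S.card := by
  obtain ⟨f, o, hf⟩ := fatD_f fun A hA => (h A hA).1
  have inj : Set.InjOn f 𝒜 := by
    intro A hA A' hA' e
    ext x
    rw [hf A hA, hf A' hA', e]
  refine ⟨f, inj, fun A hA A' hA' h2 => ?_, fun A hA A' hA' hne => ?_⟩
  · obtain ⟨x, hx, x', hx', hxx⟩ := one_lt_card.1 h2
    refine card_le_card_of_injOn f (fun B hB => ?_) (inj.mono fun B hB => (mem_filter.1 hB).1)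
    obtain ⟨hB1, hB2⟩ := mem_filter.1 (mem_coe.1 hB)
    refine mem_coe.2 (mem_filter.2 ⟨mem_image_of_mem f hB1, ?_⟩)
    have a1 := ((hf A hA x).1 (mem_inter.1 hx).1).2
    have a2 := ((hf A hA x').1 (mem_inter.1 hx').1).2
    have b1 := ((hf A' hA' x).1 (mem_inter.1 hx).2).2
    have b2 := ((hf A' hA' x').1 (mem_inter.1 hx').2).2
    have c1 := ((hf B hB1 x).1 (hB2 hx)).2
    have c2 := ((hf B hB1 x').1 (hB2 hx')).2
    refine fatD_cross (fun e => hxx (sub_left_injective e)) a1 a2 ?_ ?_ ?_ ?_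
    · rw [sub_dotProduct, a1, b1, sub_self]
    · rw [sub_dotProduct, a2, b2, sub_self]
    · rw [sub_dotProduct, a1, c1, sub_self]
    · rw [sub_dotProduct, a2, c2, sub_self]
  · have hd : f A' - f A ≠ 0 := fun e => hne (inj hA' hA (sub_eq_zero.1 e)).symm
    obtain ⟨𝓑, h𝓑⟩ : ∃ 𝓑 : Finset (Finset V),
        𝓑 = 𝒜.filter fun B => (f A' - f A) ⨯₃ (f B - f A) = 0 := ⟨_, rfl⟩
    have hB : ∀ B ∈ 𝓑, B ∈ 𝒜 ∧ ∃ t : ℝ, f B = f A + t • (f A' - f A) := by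
      intro B hB
      rw [h𝓑, mem_filter] at hB
      obtain ⟨t, ht⟩ := par_of_cross hd hB.2
      exact ⟨hB.1, t, by rw [← ht]; abel⟩
    have h1 : rich (𝒜.image f) (f A) (f A') ≤ 𝓑.card := by
      refine le_trans (card_le_card fun y hy => ?_) (card_image_le (f := f))
      obtain ⟨hy1, hy2⟩ := mem_filter.1 hy
      obtain ⟨B, hB1, rfl⟩ := mem_image.1 hy1
      exact mem_image_of_mem f (h𝓑 ▸ mem_filter.2 ⟨hB1, hy2⟩)
    have hsub : ∀ B ∈ 𝓑, A ∩ A' ⊆ B := by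
      intro B hB1 x hx
      obtain ⟨hB2, t, ht⟩ := hB B hB1
      obtain ⟨a0, a1⟩ := (hf A hA x).1 (mem_inter.1 hx).1
      have b1 := ((hf A' hA' x).1 (mem_inter.1 hx).2).2
      refine (hf B hB2 x).2 ⟨a0, ?_⟩
      rw [ht, add_dotProduct, smul_dotProduct, sub_dotProduct, a1, b1]
      simp
    obtain ⟨p, v, hv, hpv⟩ : ∃ p v : V, v ≠ 0 ∧ A ∩ A' ⊆ ln S p v := by
      rcases (A ∩ A').eq_empty_or_nonempty with e | e
      · exact ⟨0, f A' - f A, hd, by rw [e]; exact empty_subset _⟩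
      · obtain ⟨p, v, hv, e1⟩ := pl_inter (h A hA).1 (h A' hA').1 hne e
        exact ⟨p, v, hv, e1.subset⟩
    have hc : ∀ B ∈ 𝓑, b ≤ (B \ (A ∩ A')).card := by
      intro B hB1
      have k1 := (h B (hB B hB1).1).2 p v hv
      have k2 : (A ∩ A').card ≤ (ln B p v).card := card_le_card fun x hx =>
        mem_filter.2 ⟨hsub B hB1 hx, (mem_filter.1 (hpv hx)).2⟩
      have k3 := le_card_sdiff (A ∩ A') B
      omega
    have hdis : (𝓑 : Set (Finset V)).PairwiseDisjoint fun B => B \ (A ∩ A') := by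
      intro B hB1 B' hB1' hBB
      refine disjoint_left.2 fun x hx hx' => (mem_sdiff.1 hx).2 ?_
      obtain ⟨hB2, t, ht⟩ := hB B hB1
      obtain ⟨hB2', t', ht'⟩ := hB B' hB1'
      obtain ⟨a0, a1⟩ := (hf B hB2 x).1 (mem_sdiff.1 hx).1
      have a2 := ((hf B' hB2' x).1 (mem_sdiff.1 hx').1).2
      have htt : t - t' ≠ 0 := fun e => hBB (inj hB2 hB2' (by rw [ht, ht', sub_eq_zero.1 e]))
      rw [ht, add_dotProduct, smul_dotProduct, sub_dotProduct, smul_eq_mul] at a1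
      rw [ht', add_dotProduct, smul_dotProduct, sub_dotProduct, smul_eq_mul] at a2
      have a3 : f A' ⬝ᵥ (x - o) - f A ⬝ᵥ (x - o) = 0 :=
        (mul_eq_zero.1 (by linear_combination a1 - a2)).resolve_left htt
      rw [a3, mul_zero, add_zero] at a1
      exact mem_inter.2 ⟨(hf A hA x).2 ⟨a0, a1⟩, (hf A' hA' x).2 ⟨a0, by linarith⟩⟩
    calc rich (𝒜.image f) (f A) (f A') * b ≤ 𝓑.card * b := Nat.mul_le_mul_right _ h1
      _ ≤ ∑ B ∈ 𝓑, (B \ (A ∩ A')).card := card_nsmul_le_sum 𝓑 _ b hc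
      _ = (𝓑.biUnion fun B => B \ (A ∩ A')).card := (card_biUnion hdis).symm
      _ ≤ S.card := card_le_card fun x hx => by
        obtain ⟨B, hB1, hx1⟩ := mem_biUnion.1 hx
        exact ((hf B (hB B hB1).1 x).1 (mem_sdiff.1 hx1).1).1

end Vale.Agent.P054
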