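import Vale.Agent.P054.Fat

/-! FatX: second moments of rich planes (about 250 lines).
`fat_sum`: for the class `a ≤ |A| < 2 a`, `a = 2^i a₀`, `fat_one` with `A₁ = 2 a`, `b = a - L` (`a ≤ 2 b`) gives `N a^3 ≤ C (2 m a^2 + 4 L m^2)`; only classes with `a ≤ B` are nonempty; sum the two geometric series (induction on the number of classes).
`fat_cell`: the `A` with `|A| ≤ 2 L` by `fat_one` with `a = b`, `A₁ = 2 L` (note `b ≤ |A| ≤ m`), the others by `fat_sum` with `a₀ = 2 L`, `B = m`.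
`fat_pairs`: such a pair lies in `A ×ˢ A` for a member of the family of all plane sections with at least `a₀` points (a filter of `P.powerset`).
-/

noncomputable section

open Classical MvPolynomial Matrix Finset

namespace Vale.Agent.P054

theorem fatx_sub {S A : Finset V} (h : IsPl S A) : A ⊆ S := by
  obtain ⟨ν, c, -, rfl⟩ := h
  exact filter_subset _ _

theorem fatx_sq (𝒜 : Finset (Finset V)) {a : ℕ} (h : ∀ A ∈ 𝒜, A.card ≤ 2 * a) :
    ∑ A ∈ 𝒜, A.card ^ 2 ≤ 𝒜.card * (4 * a ^ 2) :=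
  sum_le_card_nsmul _ _ _ fun A hA => (Nat.pow_le_pow_left (h A hA) 2).trans (le_of_eq (by ring))

theorem fatx_class {S : Finset V} {𝒜 : Finset (Finset V)} {L a : ℕ} (hL : LineLe S L) (h1 : 1 ≤ a)
    (h : ∀ A ∈ 𝒜, IsPl S A ∧ a ≤ A.card ∧ A.card ≤ 2 * a) (h2 : 2 * L ≤ a)
    (h3 : 64 * S.card ^ 2 ≤ a ^ 3) : a * ∑ A ∈ 𝒜, A.card ^ 2 ≤
      262144 * (2 * S.card * a ^ 2 + 4 * L * S.card ^ 2) := by
  obtain ⟨b, rfl⟩ : ∃ b, a = b + L := ⟨a - L, by omega⟩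
  have hb : 1 ≤ b := by omega
  have k := fat_one (a := b + L) (A₁ := 2 * (b + L)) hb (fun A hA => ⟨(h A hA).1, fun p v hv =>
    (Nat.add_le_add_left (hL.mono (fatx_sub (h A hA).1) p v hv) b).trans (h A hA).2.1,
      (h A hA).2⟩) hL (by
    have := Nat.mul_le_mul_right (b + L) h3
    calc _ = 64 * S.card ^ 2 * (b + L) := by ring
      _ ≤ _ := this.trans (le_of_eq (by ring)))
  have k2 := fatx_sq 𝒜 fun A hA => (h A hA).2.2
  have k3 : b + L ≤ 2 * b := by omega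
  generalize b + L = a at *
  have k4 : 𝒜.card * a ^ 3 ≤ 65536 * (2 * S.card * a ^ 2 + 4 * L * S.card ^ 2) := by
    refine Nat.le_of_mul_le_mul_right ?_ (Nat.mul_pos h1 hb)
    have := Nat.mul_le_mul_left (65536 * L * S.card ^ 2 * a) k3
    calc _ = 𝒜.card * a ^ 4 * b := by ring
      _ ≤ _ := k
      _ ≤ _ := by linarith
  have := Nat.mul_le_mul_left a k2
  linarith

theorem fatx_ind {S : Finset V} {L B : ℕ} (hL : LineLe S L) (n : ℕ) :
    ∀ (a : ℕ) (𝒜 : Finset (Finset V)), B < a + n → 1 ≤ a → a ≤ 2 * B →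
      (∀ A ∈ 𝒜, IsPl S A ∧ a ≤ A.card ∧ A.card ≤ B) → 2 * L ≤ a → 64 * S.card ^ 2 ≤ a ^ 3 →
      a * ∑ A ∈ 𝒜, A.card ^ 2 + 524288 * S.card * a ^ 2 ≤
        262144 * (4 * S.card * a * B + 8 * L * S.card ^ 2) := by
  have top : ∀ (a : ℕ) (𝒜 : Finset (Finset V)), B < a → a ≤ 2 * B →
      (∀ A ∈ 𝒜, IsPl S A ∧ a ≤ A.card ∧ A.card ≤ B) →
      a * ∑ A ∈ 𝒜, A.card ^ 2 + 524288 * S.card * a ^ 2 ≤
        262144 * (4 * S.card * a * B + 8 * L * S.card ^ 2) := fun a 𝒜 h1 h2 h => by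
    rw [sum_eq_zero fun A hA => absurd ((h A hA).2.1.trans (h A hA).2.2) (by omega)]
    have := Nat.mul_le_mul_left (524288 * S.card * a) h2
    have := Nat.zero_le (L * S.card ^ 2)
    linarith
  induction n with
  | zero => exact fun a 𝒜 h1 _ h2 h _ _ => top a 𝒜 h1 h2 h
  | succ n ih =>
    intro a 𝒜 h0 h1 h2 h h3 h4
    rcases lt_or_ge B a with hB | hB
    · exact top a 𝒜 hB h2 h
    have k1 := ih (2 * a) (𝒜.filter fun A => ¬A.card ≤ 2 * a) (by omega) (by omega) (by omega)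
      (fun A hA => ⟨(h A (mem_filter.1 hA).1).1, (not_le.1 (mem_filter.1 hA).2).le,
        (h A (mem_filter.1 hA).1).2.2⟩) (by omega)
      (h4.trans (Nat.pow_le_pow_left (by omega) 3))
    have k2 := fatx_class (𝒜 := 𝒜.filter fun A => A.card ≤ 2 * a) hL h1
      (fun A hA => ⟨(h A (mem_filter.1 hA).1).1, (h A (mem_filter.1 hA).1).2.1,
        (mem_filter.1 hA).2⟩) h3 h4
    rw [← sum_filter_add_sum_filter_not 𝒜 fun A => A.card ≤ 2 * a]
    linarith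

theorem fat_sum : ∃ C : ℕ, ∀ (S : Finset V) (𝒜 : Finset (Finset V)) (L a₀ B : ℕ), LineLe S L →
    (∀ A ∈ 𝒜, IsPl S A ∧ a₀ ≤ A.card ∧ A.card ≤ B) → 2 * L ≤ a₀ → 64 * S.card ^ 2 ≤ a₀ ^ 3 →
      a₀ * ∑ A ∈ 𝒜, A.card ^ 2 ≤ C * (S.card * B * a₀ + L * S.card ^ 2) := by
  refine ⟨2097152, fun S 𝒜 L a B hL h h1 h2 => ?_⟩
  rcases Nat.eq_zero_or_pos a with rfl | ha
  · simp
  rcases lt_or_ge B a with hB | hB
  · rw [sum_eq_zero fun A hA => absurd ((h A hA).2.1.trans (h A hA).2.2) (by omega)]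
    exact Nat.zero_le _
  have := fatx_ind hL B a 𝒜 (by omega) ha (by omega) h h1 h2
  have := Nat.zero_le (S.card * a ^ 2)
  have := Nat.zero_le (S.card * B * a)
  linarith

theorem fat_cell : ∃ C : ℕ, ∀ (S : Finset V) (𝒜 : Finset (Finset V)) (L b m : ℕ), S.card ≤ m →
    LineLe S L → (∀ A ∈ 𝒜, IsPl S A ∧ Off A b) → 1 ≤ b → b ≤ L → 64 * m ^ 2 * L ≤ b ^ 4 →
      (∑ A ∈ 𝒜, A.card ^ 2) * b ^ 4 ≤ C * m ^ 2 * L ^ 4 := by
  obtain ⟨C, hC⟩ := fat_sum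
  refine ⟨1310720 + 2 * C, fun S 𝒜 L b m hm hL h hb hbL h1 => ?_⟩
  rcases 𝒜.eq_empty_or_nonempty with rfl | ⟨A0, hA0⟩
  · simp
  have hle : ∀ A ∈ 𝒜, b ≤ A.card ∧ A.card ≤ m := fun A hA =>
    ⟨le_of_add_le_left ((h A hA).2 0 1 one_ne_zero), (card_le_card (fatx_sub (h A hA).1)).trans hm⟩
  have hbm := (hle A0 hA0).1.trans (hle A0 hA0).2
  have hL1 : 1 ≤ L := hb.trans hbL
  have hm2 := Nat.pow_le_pow_left hm 2
  have hb4 := Nat.pow_le_pow_left hbL 4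
  have k1 := fat_one (𝒜 := 𝒜.filter fun A => A.card ≤ 2 * L) (a := b) (A₁ := 2 * L) hb
    (fun A hA => ⟨(h A (mem_filter.1 hA).1).1, (h A (mem_filter.1 hA).1).2,
      (hle A (mem_filter.1 hA).1).1, (mem_filter.1 hA).2⟩) hL (by
      have := Nat.mul_le_mul_right (64 * L) hm2
      linarith)
  have k2 := fatx_sq (𝒜.filter fun A => A.card ≤ 2 * L) fun A hA => (mem_filter.1 hA).2
  have k3 := hC S (𝒜.filter fun A => ¬A.card ≤ 2 * L) L (2 * L) m hL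
    (fun A hA => ⟨(h A (mem_filter.1 hA).1).1, (not_le.1 (mem_filter.1 hA).2).le,
      (hle A (mem_filter.1 hA).1).2⟩) le_rfl (by
      refine Nat.le_of_mul_le_mul_right ?_ hL1
      have := Nat.mul_le_mul_right (64 * L) hm2
      have := Nat.zero_le (L ^ 4)
      linarith)
  rw [← sum_filter_add_sum_filter_not 𝒜 fun A => A.card ≤ 2 * L]
  generalize (𝒜.filter fun A => A.card ≤ 2 * L).card = N at k1 k2
  generalize ∑ A ∈ 𝒜 with A.card ≤ 2 * L, A.card ^ 2 = x at k2 ⊢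
  generalize ∑ A ∈ 𝒜 with ¬A.card ≤ 2 * L, A.card ^ 2 = y at k3 ⊢
  generalize S.card = s at *
  have a1 : N * b ^ 4 ≤ 327680 * (m ^ 2 * L ^ 2) := by
    refine Nat.le_of_mul_le_mul_right (k1.trans ?_) hb
    have b1 : s * L * b * b * b ≤ m * L * m * L * b := by gcongr
    have b2 : L * s ^ 2 * L * b ≤ L * m ^ 2 * L * b := by gcongr
    have b3 : L * s ^ 2 * b * b ≤ L * m ^ 2 * L * b := by gcongr
    linarith
  have a2 : y ≤ 2 * C * m ^ 2 := by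
    refine Nat.le_of_mul_le_mul_left (k3.trans ?_) (by omega : 0 < 2 * L)
    have b1 : C * (s * m * L) ≤ C * (m * m * L) := by gcongr
    have b2 : C * (L * s ^ 2) ≤ C * (L * m ^ 2) := by gcongr
    have := Nat.zero_le (C * (L * m ^ 2))
    linarith
  have a3 := Nat.mul_le_mul a2 hb4
  have a4 := Nat.mul_le_mul_right (b ^ 4) k2
  have a5 := Nat.mul_le_mul_left (4 * L ^ 2) a1
  linarith

theorem fat_pairs : ∃ C : ℕ, ∀ (P : Finset V) (B L a₀ : ℕ), PlaneLe P B → LineLe P L →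
    2 * L ≤ a₀ → 64 * P.card ^ 2 ≤ a₀ ^ 3 →
      a₀ * (P.offDiag.filter fun e => ∃ ν : V, ν ≠ 0 ∧ ν ⬝ᵥ (e.2 - e.1) = 0 ∧
        a₀ ≤ (pl P ν (ν ⬝ᵥ e.1)).card).card ≤ C * (P.card * B * a₀ + L * P.card ^ 2) := by
  obtain ⟨C, hC⟩ := fat_sum
  refine ⟨C, fun P B L a hB hL h1 h2 => le_trans (Nat.mul_le_mul_left _ ?_)
    (hC P (P.powerset.filter fun A => IsPl P A ∧ a ≤ A.card) L a B hL (fun A hA => ?_) h1 h2)⟩
  · refine le_trans (card_le_card fun e he => ?_) ((card_biUnion_le (t := fun A => A ×ˢ A)).trans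
      (le_of_eq (sum_congr rfl fun A _ => by rw [card_product, pow_two])))
    obtain ⟨he, ν, h0, h3, h4⟩ := mem_filter.1 he
    obtain ⟨h5, h6, -⟩ := mem_offDiag.1 he
    rw [dotProduct_sub, sub_eq_zero] at h3
    exact mem_biUnion.2 ⟨_, mem_filter.2 ⟨mem_powerset.2 (filter_subset _ _), ⟨ν, _, h0, rfl⟩, h4⟩,
      mem_product.2 ⟨mem_filter.2 ⟨h5, rfl⟩, mem_filter.2 ⟨h6, h3⟩⟩⟩
  · obtain ⟨-, h3, h4⟩ := mem_filter.1 hA
    refine ⟨h3, h4, ?_⟩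
    obtain ⟨ν, c, h0, rfl⟩ := h3
    exact hB ν h0 c

end Vale.Agent.P054
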