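import Vale.Agent.P054.Defs
import Vale.Agent.P041.Final

/-! PlaneP: points in a plane determine many distances (about 120 lines).
Take an orthonormal basis `f₁, f₂` of the orthogonal complement of `ν` (in `EuclideanSpace ℝ (Fin 3)`, or explicit vectors) and map `x ↦ (f₁ ⬝ᵥ x, f₂ ⬝ᵥ x)`; on the plane it preserves squared distances. Apply `Vale.Agent.P041.exists_pin` to the image and inject the pinned distances into the squared distances of `P`.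
-/

noncomputable section

open Classical MvPolynomial Matrix Finset

namespace Vale.Agent.P054

theorem planep_perp {ν : V} (hν : ν ≠ 0) : ∃ a : V, a ≠ 0 ∧ ν ⬝ᵥ a = 0 := by
  by_cases h : ν 0 = 0
  · exact ⟨![1, 0, 0], fun e => by simpa using congrFun e 0, by
      simp [dotProduct, Fin.sum_univ_three, h]⟩
  · exact ⟨![ν 1, -ν 0, 0], fun e => h (by simpa using congrFun e 1), by
      simp [dotProduct, Fin.sum_univ_three, mul_comm]⟩

theorem planep_gram (ν a v : V) : ((ν ⨯₃ a) ⬝ᵥ v) ^ 2 =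
    (ν ⬝ᵥ ν) * (a ⬝ᵥ a) * (v ⬝ᵥ v) + 2 * (ν ⬝ᵥ a) * (a ⬝ᵥ v) * (ν ⬝ᵥ v) -
      (ν ⬝ᵥ ν) * (a ⬝ᵥ v) ^ 2 - (a ⬝ᵥ a) * (ν ⬝ᵥ v) ^ 2 - (v ⬝ᵥ v) * (ν ⬝ᵥ a) ^ 2 := by
  simp [cross_apply, dotProduct, Fin.sum_univ_three]
  ring

theorem planep_map {ν : V} (hν : ν ≠ 0) : ∃ f : V → EuclideanSpace ℝ (Fin 2),
    ∀ x y, ν ⬝ᵥ x = ν ⬝ᵥ y → dist (f x) (f y) = √(sq x y) := by
  obtain ⟨a, ha, h0⟩ := planep_perp hν
  have pos : ∀ v : V, v ≠ 0 → 0 < v ⬝ᵥ v := fun v hv =>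
    (Finset.sum_nonneg fun i _ => mul_self_nonneg (v i)).lt_of_ne'
      fun e => hv (dotProduct_self_eq_zero.1 e)
  have p1 := pos a ha
  have p2 := pos ν hν
  refine ⟨fun x => !₂[a ⬝ᵥ x / √(a ⬝ᵥ a), (ν ⨯₃ a) ⬝ᵥ x / √((ν ⬝ᵥ ν) * (a ⬝ᵥ a))],
    fun x y h => ?_⟩
  have h1 := planep_gram ν a (x - y)
  rw [h0, dotProduct_sub ν, h, sub_self] at h1
  rw [EuclideanSpace.dist_eq, Fin.sum_univ_two]
  congr 1
  simp only [Real.dist_eq, sq_abs, cons_val_zero, cons_val_one, cons_val_fin_one]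
  rw [← sub_div, ← sub_div, ← dotProduct_sub, ← dotProduct_sub, div_pow, div_pow,
    Real.sq_sqrt p1.le, Real.sq_sqrt (mul_pos p2 p1).le, h1, sq]
  field_simp
  ring

theorem plane_bound (ε : ℝ) (hε : 0 < ε) : ∃ n₀ : ℕ, ∀ (P : Finset V) (ν : V) (c : ℝ), ν ≠ 0 →
    n₀ ≤ (P.filter fun x => ν ⬝ᵥ x = c).card →
      ((P.filter fun x => ν ⬝ᵥ x = c).card : ℝ) ^ (1 - ε) ≤ nD P := by
  obtain ⟨n₀, h⟩ := Vale.Agent.P041.exists_pin ε hε
  refine ⟨n₀, fun P ν c hν hn => ?_⟩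
  obtain ⟨f, hf⟩ := planep_map hν
  obtain ⟨S, hS⟩ : ∃ S, S = P.filter fun x => ν ⬝ᵥ x = c := ⟨_, rfl⟩
  rw [← hS] at hn ⊢
  have hm : ∀ x ∈ S, x ∈ P ∧ ν ⬝ᵥ x = c := fun x hx => by
    rw [hS] at hx
    exact mem_filter.1 hx
  have hd : ∀ x ∈ S, ∀ y ∈ S, dist (f x) (f y) = √(sq x y) := fun x hx y hy =>
    hf x y ((hm x hx).2.trans (hm y hy).2.symm)
  have hc : (S.image f).card = S.card := card_image_of_injOn fun x hx y hy e => by
    have h1 := hd x hx y hy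
    rw [e, dist_self, eq_comm, Real.sqrt_eq_zero'] at h1
    exact sub_eq_zero.1 (dotProduct_self_eq_zero.1
      (le_antisymm h1 (Finset.sum_nonneg fun i _ => mul_self_nonneg ((x - y) i))))
  obtain ⟨x', hx', hb⟩ := h (S.image f) (by rw [hc]; exact hn)
  obtain ⟨x, hx, rfl⟩ := mem_image.1 hx'
  rw [hc] at hb
  have h3 : (((S.image f).erase (f x)).image fun y => dist y (f x)) ⊆
      (P.offDiag.image fun e : V × V => sq e.1 e.2).image Real.sqrt := by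
    intro d hd'
    obtain ⟨y', hy', e1⟩ := mem_image.1 hd'
    obtain ⟨y, hy, e2⟩ := mem_image.1 (mem_of_mem_erase hy')
    have h1 : (y, x) ∈ P.offDiag := mem_offDiag.2 ⟨(hm y hy).1, (hm x hx).1,
      fun e => ne_of_mem_erase hy' (e2.symm.trans (congrArg f e))⟩
    have h2 := mem_image_of_mem Real.sqrt (mem_image_of_mem (fun e : V × V => sq e.1 e.2) h1)
    rw [← e1, ← e2, hd y hy x hx]
    exact h2
  have h4 := (card_le_card h3).trans card_image_le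
  exact hb.trans (Nat.cast_le.2 h4)

end Vale.Agent.P054
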