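import Vale.Agent.P054.Main
import Vale.Agent.P054.PlaneP

/-! Final: asymptotics and the Euclidean statement (about 250 lines).
`dicho`: `ρ = ⌈n^(2/3)⌉`, so `n^2 ≤ ρ^3`, `ρ ≤ 2 n^(2/3)`, `ρ ≤ n` for `n ≥ 8`. Let `B` be the largest number of points on a plane. Either `C (B + 1) > ρ`, or `nD P + 1 > ρ`, or `main0` applies; `Nat.log 2 n + 1 ≤ 3 * Real.log n` for large `n`.
`final_eps`: in the first case `plane_bound (ε)`, note `(c n^(2/3))^(1-ε) ≥ n^(2/3 - ε)` for large `n`; in the second `c / log n ≥ n^(-ε)` for large `n` (`isLittleO_log_rpow_atTop`).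
Transfer: `P.image (fun x => x.ofLp)`; `dist x y ^ 2 = sq`, `EuclideanSpace.dist_eq`; the number of distances is unchanged.
-/

noncomputable section

open Classical MvPolynomial Matrix Finset

namespace Vale.Agent.P054

theorem final_log {n : ℕ} (hn : 3 ≤ n) :
    1 ≤ Real.log n ∧ (Nat.log 2 n : ℝ) + 1 ≤ 3 * Real.log n := by
  have h3 : (3 : ℝ) ≤ n := by exact_mod_cast hn
  have h1 : 1 ≤ Real.log n :=
    (Real.le_log_iff_exp_le (by linarith)).2 (by linarith [Real.exp_one_lt_d9])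
  have h2 : (2 : ℝ) ^ Nat.log 2 n ≤ n := by exact_mod_cast Nat.pow_log_le_self 2 (by omega)
  have h4 := Real.log_le_log (by positivity) h2
  rw [Real.log_pow] at h4
  refine ⟨h1, ?_⟩
  nlinarith [Real.log_two_gt_d9, (Nat.cast_nonneg (Nat.log 2 n) : (0 : ℝ) ≤ _)]

theorem final_ev {a : ℝ} (ha : 0 < a) (K : ℝ) : ∀ᶠ n : ℕ in Filter.atTop, K ≤ (n : ℝ) ^ a :=
  ((tendsto_rpow_atTop ha).comp tendsto_natCast_atTop_atTop).eventually_ge_atTop K

theorem dicho : ∃ c : ℝ, 0 < c ∧ ∃ n₀ : ℕ, ∀ P : Finset V, n₀ ≤ P.card →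
    (∃ (ν : V) (b : ℝ), ν ≠ 0 ∧
      c * (P.card : ℝ) ^ (2 / 3 : ℝ) ≤ (P.filter fun x => ν ⬝ᵥ x = b).card) ∨
    c * (P.card : ℝ) ^ (2 / 3 : ℝ) / Real.log P.card ≤ nD P := by
  obtain ⟨C, hC⟩ := main0
  obtain ⟨n₀, h0⟩ := Filter.eventually_atTop.1
    ((final_ev (a := 2 / 3) (by norm_num) (2 * C + 2)).and (Filter.eventually_ge_atTop 3))
  obtain ⟨c, hc⟩ : ∃ c : ℝ, c = 1 / (100 * (C + 1)) := ⟨_, rfl⟩
  have C0 : (0 : ℝ) ≤ C := Nat.cast_nonneg _
  have c0 : 0 < c := by rw [hc]; positivity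
  have c1 : c * (100 * (C + 1)) = 1 := by rw [hc]; field_simp
  refine ⟨c, c0, n₀, fun P hP => ?_⟩
  obtain ⟨h1, h2⟩ := h0 _ hP
  obtain ⟨l1, l2⟩ := final_log h2
  have n1 : (1 : ℝ) ≤ P.card := by exact_mod_cast (by omega : 1 ≤ P.card)
  have x3 : ((P.card : ℝ) ^ (2 / 3 : ℝ)) ^ 3 = (P.card : ℝ) ^ 2 := by
    rw [← Real.rpow_natCast, ← Real.rpow_mul (by positivity)]
    norm_num
  have xn : (P.card : ℝ) ^ (2 / 3 : ℝ) ≤ P.card := Real.rpow_le_self_of_one_le n1 (by norm_num)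
  generalize (P.card : ℝ) ^ (2 / 3 : ℝ) = x at *
  have x0 : 0 < x := by linarith
  have r1 := Nat.le_ceil x
  have r2 := Nat.ceil_lt_add_one x0.le
  have cx : 0 < c * x := by positivity
  have cx1 : c * x * (100 * (C + 1)) = x := by rw [mul_right_comm, c1, one_mul]
  by_contra! H
  obtain ⟨H1, H2⟩ := H
  rw [lt_div_iff₀ (by linarith)] at H2
  have d0 : (0 : ℝ) ≤ nD P := Nat.cast_nonneg _
  have k := hC P ⌊c * x⌋₊ ⌈x⌉₊ (fun ν hν b => Nat.le_floor (H1 ν b hν).le)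
    (by exact_mod_cast (x3 ▸ pow_le_pow_left₀ x0.le r1 3 : (P.card : ℝ) ^ 2 ≤ _))
    (by
      have : (C : ℝ) * (⌊c * x⌋₊ + 1) ≤ ⌈x⌉₊ := by
        nlinarith [mul_le_mul_of_nonneg_left (Nat.floor_le cx.le) C0]
      exact_mod_cast this)
    (by
      have : (nD P : ℝ) + 1 ≤ ⌈x⌉₊ := by nlinarith [mul_nonneg cx.le C0]
      exact_mod_cast this) (Nat.ceil_le.2 xn)
  have k1 : (P.card : ℝ) ^ 4 ≤ C * nD P * (⌈x⌉₊ : ℝ) ^ 5 * (Nat.log 2 P.card + 1) := by
    exact_mod_cast k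
  have k2 : (P.card : ℝ) ^ 4 = x ^ 6 := by
    rw [show 6 = 3 * 2 from rfl, pow_mul, x3, ← pow_mul]
  have k3 : x ^ 6 < x ^ 6 :=
    calc x ^ 6 ≤ C * nD P * (2 * x) ^ 5 * (3 * Real.log P.card) := by
          refine (k2 ▸ k1).trans ?_
          gcongr
          linarith
      _ = 96 * C * x ^ 5 * (nD P * Real.log P.card) := by ring
      _ ≤ 96 * C * x ^ 5 * (c * x) := by gcongr
      _ = 96 * C * c * x ^ 6 := by ring
      _ < x ^ 6 := mul_lt_of_lt_one_left (by positivity) (by nlinarith)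
  exact lt_irrefl _ k3

theorem final_eps (ε : ℝ) (hε : 0 < ε) : ∃ n₀ : ℕ, ∀ P : Finset V, n₀ ≤ P.card →
    (P.card : ℝ) ^ (2 / 3 - ε) ≤ nD P := by
  obtain ⟨c, hc, n₀, h0⟩ := dicho
  have δ0 : 0 < min ε 1 := by positivity
  have δ1 := min_le_left ε 1
  have δ2 := min_le_right ε 1
  generalize min ε 1 = δ at *
  obtain ⟨n₁, h1⟩ := plane_bound δ δ0
  obtain ⟨n₂, h2⟩ := Filter.eventually_atTop.1 ((final_ev (a := 2 / 3) (by norm_num) (n₁ / c)).and
    ((final_ev (a := δ / 3) (by positivity) (1 / c ^ (1 - δ))).and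
      ((tendsto_natCast_atTop_atTop.eventually ((isLittleO_log_rpow_atTop δ0).bound hc)).and
        (Filter.eventually_ge_atTop 3))))
  refine ⟨max n₀ n₂, fun P hP => ?_⟩
  obtain ⟨k1, k2, k3, k4⟩ := h2 _ (le_of_max_le_right hP)
  have n1 : (1 : ℝ) ≤ P.card := by exact_mod_cast (by omega : 1 ≤ P.card)
  have n0 : (0 : ℝ) < P.card := by linarith
  refine (Real.rpow_le_rpow_of_exponent_le n1 (sub_le_sub_left δ1 _)).trans ?_
  rcases h0 P (le_of_max_le_left hP) with ⟨ν, b, hν, h⟩ | h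
  · rw [div_le_iff₀' hc] at k1
    refine le_trans ?_ (h1 P ν b hν (by exact_mod_cast k1.trans h))
    refine le_trans ?_ (Real.rpow_le_rpow (by positivity) h (by linarith))
    rw [div_le_iff₀' (by positivity)] at k2
    rw [Real.mul_rpow hc.le (by positivity), ← Real.rpow_mul n0.le,
      show 2 / 3 * (1 - δ) = δ / 3 + (2 / 3 - δ) by ring, Real.rpow_add n0, ← mul_assoc]
    exact le_mul_of_one_le_left (by positivity) k2
  · refine le_trans ?_ h
    have l1 := (final_log k4).1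
    rw [Real.norm_of_nonneg (by linarith), Real.norm_of_nonneg (by positivity)] at k3
    rw [le_div_iff₀ (by linarith)]
    refine (mul_le_mul_of_nonneg_left k3 (by positivity)).trans (le_of_eq ?_)
    rw [mul_left_comm, ← Real.rpow_add n0, sub_add_cancel]

theorem final_nD (P : Finset (EuclideanSpace ℝ (Fin 3))) :
    nD (P.image fun x => x.ofLp) ≤ (P.offDiag.image fun e => dist e.1 e.2).card := by
  refine le_trans (card_le_card fun r hr => ?_) (card_image_le (f := fun r : ℝ => r ^ 2))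
  obtain ⟨⟨p, q⟩, he, rfl⟩ := mem_image.1 hr
  obtain ⟨h1, h2, h3⟩ := mem_offDiag.1 he
  obtain ⟨x, hx, rfl⟩ := mem_image.1 h1
  obtain ⟨y, hy, rfl⟩ := mem_image.1 h2
  refine mem_image.2 ⟨dist x y, mem_image.2 ⟨(x, y), mem_offDiag.2 ⟨hx, hy, fun h => h3 ?_⟩, rfl⟩, ?_⟩
  · exact congrArg WithLp.ofLp h
  · simp only [EuclideanSpace.dist_sq_eq, Real.dist_eq, sq_abs]
    exact sum_congr rfl fun i _ => pow_two _

theorem final :
    (∀ ε : ℝ, 0 < ε → ∃ n₀ : ℕ, ∀ P : Finset (EuclideanSpace ℝ (Fin 3)), n₀ ≤ P.card →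
      (P.card : ℝ) ^ (2 / 3 - ε) ≤ ((P.offDiag.image fun e => dist e.1 e.2).card : ℝ)) ∧
    ∃ c : ℝ, 0 < c ∧ ∃ n₀ : ℕ, ∀ P : Finset (EuclideanSpace ℝ (Fin 3)), n₀ ≤ P.card →
      (∃ (ν : EuclideanSpace ℝ (Fin 3)) (b : ℝ), ν ≠ 0 ∧
        c * (P.card : ℝ) ^ (2 / 3 : ℝ) ≤ (P.filter fun x => inner ℝ ν x = b).card) ∨
      c * (P.card : ℝ) ^ (2 / 3 : ℝ) / Real.log P.card ≤
        ((P.offDiag.image fun e => dist e.1 e.2).card : ℝ) := by
  have hc : ∀ P : Finset (EuclideanSpace ℝ (Fin 3)), (P.image fun x => x.ofLp).card = P.card :=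
    fun P => card_image_of_injective _ (WithLp.ofLp_injective 2)
  constructor
  · intro ε hε
    obtain ⟨n₀, h⟩ := final_eps ε hε
    refine ⟨n₀, fun P hP => ?_⟩
    have := h _ ((hc P).symm ▸ hP)
    rw [hc] at this
    exact this.trans (Nat.cast_le.2 (final_nD P))
  · obtain ⟨c, c0, n₀, h⟩ := dicho
    refine ⟨c, c0, n₀, fun P hP => ?_⟩
    have := h _ ((hc P).symm ▸ hP)
    rw [hc] at this
    refine this.imp (fun ⟨ν, b, hν, k⟩ => ⟨WithLp.toLp 2 ν, b, fun e => hν (congrArg WithLp.ofLp e),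
      k.trans (Nat.cast_le.2 ?_)⟩) fun k => k.trans (Nat.cast_le.2 (final_nD P))
    rw [filter_image]
    refine card_image_le.trans (le_of_eq (congrArg _ (filter_congr fun x _ => ?_)))
    rw [EuclideanSpace.inner_eq_star_dotProduct, star_trivial, dotProduct_comm]

end Vale.Agent.P054
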