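import Vale.Agent.P054.GoodP
import Vale.Agent.P054.FatX

/-! GoodQ: good pairs when planes may be rich (about 200 lines; copy and adapt `greedy` in ConeB and `good_pairs` in GoodP).
`greedy'`: an irreducible form of degree 1 is `lin ν 0` (`eq_lin_of_degree`, homogeneity kills the constant), its real points lie on a real plane through `p`.
`good_pairs'`: `LineLe P ρ` by `lineLe_nD`. `S p` = the `x ∈ P` that are not on a plane through `p` with at least `K ρ` points of `P`; `greedy' p` for `S p` with `K ρ`; `U` also excludes the pairs of `fat_pairs` with `a₀ = K ρ` (symmetric, at most `n^2 / 16`); `beck3` with `L = ρ`.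
-/

noncomputable section

open Classical MvPolynomial Matrix Finset

namespace Vale.Agent.P054

theorem gq_two {φ : P3} (hi : Irreducible φ) (hh : φ.IsHomogeneous φ.totalDegree) (p : V)
    {S : Finset V} {ρ : ℕ} (hS : ∀ ν : V, ν ≠ 0 → (S.filter fun x => ν ⬝ᵥ (x - p) = 0).card ≤ ρ)
    (h : ρ * φ.totalDegree < (S.filter fun x => eval (cv (x - p)) φ = 0).card) :
    2 ≤ φ.totalDegree := by
  by_contra h2
  have h0 : φ.totalDegree ≠ 0 := fun h0 => hi.not_isUnit (pc_unit hi.ne_zero h0)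
  have h1 : φ.totalDegree = 1 := by omega
  obtain ⟨ν, c, rfl⟩ := eq_lin_of_degree h1.le
  have hν : ν ≠ 0 := by
    rintro rfl
    exact h0 (by simp [lin])
  have hc : c = 0 := by
    have h3 := pc_eval_smul hh 0 0
    rw [h1, eval_lin] at h3
    simpa [dotProduct] using h3
  rw [h1, mul_one] at h
  simp only [eval_lin, hc, sub_zero] at h
  by_cases h3 : (fun i => (ν i).re) = 0
  · have h' : (fun i => (ν i).im) ≠ 0 := fun h' => hν (funext fun i =>
      Complex.ext (congrFun h3 i) (congrFun h' i))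
    refine h.not_ge (le_trans (card_le_card fun x hx => ?_) (hS _ h'))
    rw [mem_filter] at hx ⊢
    exact ⟨hx.1, by simpa [dotProduct, cv, Fin.sum_univ_three] using congrArg Complex.im hx.2⟩
  · refine h.not_ge (le_trans (card_le_card fun x hx => ?_) (hS _ h3))
    rw [mem_filter] at hx ⊢
    exact ⟨hx.1, by simpa [dotProduct, cv, Fin.sum_univ_three] using congrArg Complex.re hx.2⟩

theorem greedy' (p : V) (ρ : ℕ) (S : Finset V)
    (hS : ∀ ν : V, ν ≠ 0 → (S.filter fun x => ν ⬝ᵥ (x - p) = 0).card ≤ ρ) :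
    ∃ 𝒢 : Finset P3, (∀ G ∈ 𝒢, Irreducible G ∧ G.IsHomogeneous G.totalDegree ∧ 2 ≤ G.totalDegree) ∧
      (∑ G ∈ 𝒢, G.totalDegree) * ρ ≤ S.card ∧
      ∀ (φ : P3) (δ : ℕ), Irreducible φ → φ.IsHomogeneous δ →
        (S.filter fun x => (∀ G ∈ 𝒢, eval (cv (x - p)) G ≠ 0) ∧ eval (cv (x - p)) φ = 0).card ≤
          ρ * δ := by
  induction hn : S.card using Nat.strong_induction_on generalizing S with
  | _ n ih =>
  by_cases h : ∀ (φ : P3) (δ : ℕ), Irreducible φ → φ.IsHomogeneous δ →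
      (S.filter fun x => eval (cv (x - p)) φ = 0).card ≤ ρ * δ
  · refine ⟨∅, by simp, by simp, fun φ δ h1 h2 => ?_⟩
    simpa using h φ δ h1 h2
  push Not at h
  obtain ⟨φ, δ, h1, h2, h3⟩ := h
  obtain rfl := h2.totalDegree h1.ne_zero
  have h4 := gq_two h1 h2 p hS h3
  have h5 := card_filter_add_card_filter_not (s := S) fun x => eval (cv (x - p)) φ = 0
  obtain ⟨𝒢, g1, g2, g3⟩ := ih _ (by omega) (S.filter fun x => ¬ eval (cv (x - p)) φ = 0)
    (fun ν hν => (card_le_card (filter_subset_filter _ (filter_subset _ _))).trans (hS ν hν))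
    rfl
  refine ⟨insert φ 𝒢, fun G hG => ?_, ?_, fun ψ δ i1 i2 => ?_⟩
  · rcases mem_insert.mp hG with rfl | hG
    · exact ⟨h1, h2, h4⟩
    · exact g1 G hG
  · have h6 : ∑ G ∈ insert φ 𝒢, G.totalDegree ≤ φ.totalDegree + ∑ G ∈ 𝒢, G.totalDegree := by
      by_cases h7 : φ ∈ 𝒢
      · rw [insert_eq_of_mem h7]
        omega
      · rw [sum_insert h7]
    refine (Nat.mul_le_mul_right _ h6).trans ?_
    rw [add_mul, mul_comm φ.totalDegree]
    omega
  · refine le_trans (card_le_card fun x hx => ?_) (g3 ψ δ i1 i2)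
    simp only [mem_filter, mem_insert, forall_eq_or_imp] at hx ⊢
    exact ⟨⟨hx.1, hx.2.1.1⟩, hx.2.1.2, hx.2.2⟩

theorem good_pairs' : ∃ C k : ℕ, 1 ≤ C ∧ 1 ≤ k ∧ ∀ (P : Finset V) (B ρ : ℕ), PlaneLe P B →
    P.card ^ 2 ≤ ρ ^ 3 → C * (B + 1) ≤ P.card → nD P + 1 ≤ ρ → C * ρ ≤ P.card →
    ∃ U ⊆ P.offDiag, (∀ e ∈ U, e.swap ∈ U) ∧ P.card ^ 2 ≤ 4 * U.card ∧
      ∀ p, Loc p (P.filter fun x => (p, x) ∈ U) k (C * ρ) := by
  obtain ⟨C₀, hC₀⟩ := rare
  obtain ⟨C₁, hC₁⟩ := fat_pairs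
  refine ⟨3 * 65537 * (C₀ + 1) + 32 * C₁, 65536, by omega, by norm_num,
    fun P B ρ hP h1 h2 h3 h4 => ?_⟩
  obtain ⟨K, hK⟩ : ∃ K, K = 3 * 65537 * (C₀ + 1) + 32 * C₁ := ⟨_, rfl⟩
  rw [← hK] at h2 h4 ⊢
  have hK1 : 65536 ≤ K := by omega
  have hKB : K * 1 ≤ K * (B + 1) := Nat.mul_le_mul_left _ (by omega)
  have hρ : 65536 * ρ ≤ K * ρ := Nat.mul_le_mul_right _ hK1
  have hL : LineLe P ρ := fun p v hv => (lineLe_nD P p v hv).trans h3
  obtain ⟨F, hF₀⟩ : ∃ F : V × V → Prop, ∀ e, F e ↔ ∃ ν : V, ν ≠ 0 ∧ ν ⬝ᵥ (e.2 - e.1) = 0 ∧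
    K * ρ ≤ (pl P ν (ν ⬝ᵥ e.1)).card := ⟨_, fun _ => Iff.rfl⟩
  have hFs : ∀ e, F e.swap → F e := fun e he => by
    obtain ⟨ν, a1, a2, a3⟩ := (hF₀ _).1 he
    rw [dotProduct_sub, sub_eq_zero] at a2
    exact (hF₀ _).2 ⟨ν, a1, by rw [dotProduct_sub, sub_eq_zero]; exact a2.symm,
      (congrArg (fun c => K * ρ ≤ (pl P ν c).card) a2).mpr a3⟩
  have hf : 16 * (P.offDiag.filter F).card ≤ P.card * P.card := by
    have a1 := hC₁ P B ρ (K * ρ) hP hL (by omega) (by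
      rw [mul_pow]
      exact Nat.mul_le_mul (le_trans (by norm_num) (Nat.pow_le_pow_left hK1 3)) h1)
    rw [← filter_congr fun e _ => hF₀ e] at a1
    have a2 : K * B ≤ P.card := (Nat.mul_le_mul_left _ B.le_succ).trans h2
    refine Nat.le_of_mul_le_mul_left (c := K * ρ) ?_ (by omega)
    calc _ = 16 * (K * ρ * (P.offDiag.filter F).card) := by ring
      _ ≤ 16 * (C₁ * (P.card * (K * B) * ρ + ρ * P.card ^ 2)) :=
        Nat.mul_le_mul_left _ (a1.trans_eq (by ring))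
      _ ≤ 16 * (C₁ * (P.card * P.card * ρ + ρ * P.card ^ 2)) := by gcongr
      _ = 32 * C₁ * ρ * (P.card * P.card) := by ring
      _ ≤ _ := by gcongr; omega
  choose 𝒢 g1 g2 g3 using fun p => greedy' p (K * ρ) (P.filter fun x => ¬F (p, x)) fun ν hν => by
    by_cases a : K * ρ ≤ (pl P ν (ν ⬝ᵥ p)).card
    · rw [filter_filter, filter_false_of_mem fun x _ h => h.1 ((hF₀ _).2 ⟨ν, hν, h.2, a⟩)]
      exact Nat.zero_le _
    · refine le_trans (card_le_card fun x hx => ?_) (not_le.1 a).le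
      obtain ⟨b1, b2⟩ := mem_filter.1 hx
      rw [dotProduct_sub, sub_eq_zero] at b2
      exact mem_filter.2 ⟨(mem_filter.1 b1).1, b2⟩
  obtain ⟨T, hT⟩ : ∃ T, T = P.card / (K * ρ) := ⟨_, rfl⟩
  have hF : Fam 𝒢 T := fun p =>
    ⟨g1 p, hT ▸ (Nat.le_div_iff_mul_le (by omega)).2 ((g2 p).trans (card_filter_le _ _))⟩
  have t1 : T * (K * ρ) ≤ P.card := hT ▸ Nat.div_mul_le_self _ _
  have t2 : T ^ 3 * K ≤ P.card := by
    have a1 : (T * (K * ρ)) ^ 3 ≤ P.card ^ 3 := Nat.pow_le_pow_left t1 3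
    have a2 : T ^ 3 * K ^ 3 * P.card ^ 2 ≤ P.card * P.card ^ 2 :=
      calc _ ≤ T ^ 3 * K ^ 3 * ρ ^ 3 := Nat.mul_le_mul_left _ h1
        _ = (T * (K * ρ)) ^ 3 := by ring
        _ ≤ P.card ^ 3 := a1
        _ = _ := by ring
    have a3 := Nat.le_of_mul_le_mul_right a2 (Nat.pow_pos (by omega))
    exact (Nat.mul_le_mul_left _ (Nat.le_self_pow (by norm_num) K)).trans a3
  have t3 : T * (nD P + 1) * K ≤ P.card :=
    calc _ ≤ T * ρ * K := Nat.mul_le_mul_right _ (Nat.mul_le_mul_left _ h3)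
      _ = T * (K * ρ) := by ring
      _ ≤ _ := t1
  have t4 : T ^ 2 ≤ T ^ 3 := by
    rcases Nat.eq_zero_or_pos T with h | h
    · simp [h]
    · exact Nat.pow_le_pow_right h (by norm_num)
  have hr := hC₀ P 𝒢 T 65536 B hF hP (by
    have b1 : C₀ * T ^ 2 ≤ C₀ * T ^ 3 := Nat.mul_le_mul_left _ t4
    have b0 : 3 * 65537 * (C₀ + 1) ≤ K := by omega
    have b2 := (Nat.mul_le_mul_right _ b0).trans h2
    replace t2 := (Nat.mul_le_mul_left _ b0).trans t2
    replace t3 := (Nat.mul_le_mul_left _ b0).trans t3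
    nlinarith [Nat.zero_le (T ^ 3), Nat.zero_le (T * (nD P + 1)), Nat.zero_le (C₀ * B),
      Nat.zero_le (C₀ * (T * (nD P + 1)))])
  have hb := beck3 (S := P) (L := ρ) (fun x _ y _ h => hL x _ (sub_ne_zero.2 h.symm)) 65537
  obtain ⟨U, hU⟩ : ∃ U, U = P.offDiag.filter fun e => rich P e.1 e.2 ≤ 65536 ∧
    (∀ G ∈ 𝒢 e.1, eval (cv (e.2 - e.1)) G ≠ 0) ∧ (∀ G ∈ 𝒢 e.2, eval (cv (e.1 - e.2)) G ≠ 0) ∧ ¬F e :=
    ⟨_, rfl⟩
  have hsw : ∀ e ∈ P.offDiag, e.swap ∈ P.offDiag := fun e he => by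
    obtain ⟨a1, a2, a3⟩ := mem_offDiag.1 he
    exact mem_offDiag.2 ⟨a2, a1, a3.symm⟩
  refine ⟨U, hU ▸ filter_subset _ _, fun e he => ?_, ?_, fun p => ⟨?_, fun v hv => ?_,
    fun φ δ hφ hδ => ?_⟩⟩
  · rw [hU, mem_filter] at he ⊢
    exact ⟨hsw e he.1, (goodp_symm P _ _).trans_le he.2.1, he.2.2.2.1, he.2.2.1,
      mt (hFs e) he.2.2.2.2⟩
  · have s1 : P.offDiag ⊆ P.offDiag.filter F ∪
        (((U ∪ P.offDiag.filter fun e => 65537 ≤ rich P e.1 e.2) ∪
        badE P 𝒢 65536) ∪ (badE P 𝒢 65536).image Prod.swap) := fun e he => by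
      simp only [mem_union]
      by_cases a0 : F e
      · exact Or.inl (mem_filter.2 ⟨he, a0⟩)
      refine Or.inr ?_
      by_cases a1 : rich P e.1 e.2 ≤ 65536
      swap
      · exact Or.inl (Or.inl (Or.inr (mem_filter.2 ⟨he, by omega⟩)))
      by_cases a2 : ∃ G ∈ 𝒢 e.1, eval (cv (e.2 - e.1)) G = 0
      · exact Or.inl (Or.inr (mem_filter.2 ⟨he, a1, a2⟩))
      by_cases a3 : ∃ G ∈ 𝒢 e.2, eval (cv (e.1 - e.2)) G = 0
      · exact Or.inr (mem_image.2 ⟨e.swap,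
          mem_filter.2 ⟨hsw e he, (goodp_symm P _ _).trans_le a1, a3⟩, Prod.swap_swap e⟩)
      refine Or.inl (Or.inl (Or.inl ?_))
      rw [hU, mem_filter]
      exact ⟨he, a1, fun G hG h => a2 ⟨G, hG, h⟩, fun G hG h => a3 ⟨G, hG, h⟩, a0⟩
    have s2 := (card_le_card s1).trans ((card_union_le _ _).trans (add_le_add_right
      ((card_union_le _ _).trans (add_le_add
      ((card_union_le _ _).trans (add_le_add_left (card_union_le _ _) _)) card_image_le)) _))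
    rw [offDiag_card] at s2
    have s3 : P.card * (65536 * ρ) ≤ P.card * P.card := Nat.mul_le_mul_left _ (hρ.trans h4)
    have s4 : P.card * (65536 * ρ) = 65536 * (P.card * ρ) := by ring
    have s5 : 65536 * P.card ≤ P.card * P.card := Nat.mul_le_mul_right _ (by omega)
    rw [mul_assoc] at hb
    rw [pow_two] at hr hb ⊢
    omega
  · intro h
    rw [hU] at h
    exact (mem_offDiag.1 (mem_filter.1 (mem_filter.1 h).2).1).2.2 rfl
  · rcases ((P.filter fun x => (p, x) ∈ U).filter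
      fun x => v ⨯₃ (x - p) = 0).eq_empty_or_nonempty with h | ⟨x₀, h⟩
    · rw [h]
      simp
    · obtain ⟨a1, a2⟩ := mem_filter.1 h
      have a3 := (mem_filter.1 a1).2
      rw [hU] at a3
      refine le_trans (card_le_card fun x hx => ?_) (mem_filter.1 a3).2.1
      obtain ⟨b1, b2⟩ := mem_filter.1 hx
      exact mem_filter.2 ⟨(mem_filter.1 b1).1, goodp_par hv a2 b2⟩
  · refine le_trans (card_le_card fun x hx => ?_) (g3 p φ δ hφ hδ)
    obtain ⟨b1, b2⟩ := mem_filter.1 hx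
    obtain ⟨b3, b4⟩ := mem_filter.1 b1
    rw [hU] at b4
    exact mem_filter.2 ⟨mem_filter.2 ⟨b3, (mem_filter.1 b4).2.2.2.2⟩, (mem_filter.1 b4).2.2.1, b2⟩

end Vale.Agent.P054
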