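import Vale.Agent.P054.MirK

/-! MirS: the sum over all rich motions, without a logarithm (about 120 lines; compare `mir_global`).
`μ_j = 2^j C`; the class `μ_j^20 ρ ≤ |K| < μ_(j+1)^20 ρ` contributes at most `2^20 C ρ^5 / 2^j`. By induction on `J`: `2^J ∑_{classes j < J} + 2^21 C ρ^5 ≤ 2^J 2^21 C ρ^5`. For `ρ = 0` the set `P` is empty.
-/

noncomputable section

open Classical MvPolynomial Matrix Finset

namespace Vale.Agent.P054

theorem mirS_dyad {α : Type} (F : Finset (Finset α)) (C ρ B : ℕ)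
    (h : ∀ μ, C ≤ μ → μ * (μ ^ 20 * ρ * ∑ K ∈ F.filter (fun K => μ ^ 20 * ρ ≤ K.card), K.card) ≤ B)
    (J : ℕ) : ∀ μ, C ≤ μ → μ * ∑ K ∈ F.filter (fun K => μ ^ 20 * ρ ≤ K.card ∧
      K.card < (2 ^ J * μ) ^ 20 * ρ), K.card ^ 2 ≤ 2 ^ 21 * B := by
  induction J with
  | zero =>
    intro μ _
    rw [filter_false_of_mem fun K _ hK => by simp at hK; omega]
    simp
  | succ J ih =>
    intro μ hμ
    have h1 := ih (2 * μ) (by omega)
    have h2 := h μ hμ
    have h3 : ∑ K ∈ F.filter (fun K => μ ^ 20 * ρ ≤ K.card ∧ K.card < (2 ^ (J + 1) * μ) ^ 20 * ρ),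
        K.card ^ 2 ≤ ∑ K ∈ F.filter (fun K => μ ^ 20 * ρ ≤ K.card), (2 * μ) ^ 20 * ρ * K.card +
        ∑ K ∈ F.filter (fun K => (2 * μ) ^ 20 * ρ ≤ K.card ∧
          K.card < (2 ^ J * (2 * μ)) ^ 20 * ρ), K.card ^ 2 := by
      simp only [sum_filter, ← sum_add_distrib]
      refine sum_le_sum fun K _ => ?_
      rw [show 2 ^ J * (2 * μ) = 2 ^ (J + 1) * μ by ring]
      split_ifs with a b c
      · exact Nat.le_add_left _ _
      · rw [add_zero, pow_two]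
        exact Nat.mul_le_mul_right _ (not_le.1 fun d => c ⟨d, a.2⟩).le
      · exact absurd a.1 b
      · exact absurd a.1 b
      all_goals exact Nat.zero_le _
    rw [← mul_sum] at h3
    generalize ∑ K ∈ F.filter (fun K => μ ^ 20 * ρ ≤ K.card), K.card = T at *
    generalize ∑ K ∈ F.filter (fun K => (2 * μ) ^ 20 * ρ ≤ K.card ∧
      K.card < (2 ^ J * (2 * μ)) ^ 20 * ρ), K.card ^ 2 = S at *
    refine (Nat.mul_le_mul_left μ h3).trans ?_
    have e : μ * ((2 * μ) ^ 20 * ρ * T + S) = 2 ^ 20 * (μ * (μ ^ 20 * ρ * T)) + μ * S := by ring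
    rw [e]
    rw [mul_assoc] at h1
    omega

theorem mir_sharp : ∃ C : ℕ, ∀ (P : Finset V) (ρ : ℕ), LineLe P ρ → P.card ^ 2 ≤ ρ ^ 3 →
    ∑ K ∈ (mirs (P ×ˢ P)).filter (fun K => C * ρ ≤ K.card), K.card ^ 2 ≤ C * ρ ^ 5 := by
  obtain ⟨C, h1, hC⟩ := mir_kq
  refine ⟨C ^ 20 + 2 ^ 21, fun P ρ hL hP => ?_⟩
  have hK : ∀ K ∈ mirs (P ×ˢ P), K.card ≤ P.card ^ 2 := fun K hK => by
    rw [pow_two, ← card_product]
    exact card_le_card (mem_powerset.1 (mem_filter.1 hK).1)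
  rcases Nat.eq_zero_or_pos ρ with rfl | hρ
  · refine (sum_eq_zero fun K h => ?_).le.trans (Nat.zero_le _)
    have := (hK K (mem_filter.1 h).1).trans hP
    simp at this
    simp [this]
  have h2 := mirS_dyad (mirs (P ×ˢ P)) C ρ _ (fun μ => hC P ρ μ hL hP) (P.card ^ 2) C le_rfl
  rw [mul_left_comm] at h2
  refine le_trans (sum_le_sum_of_subset fun K h => ?_) ((Nat.le_of_mul_le_mul_left h2 h1).trans
    (Nat.mul_le_mul_right _ (Nat.le_add_left _ _)))
  rw [mem_filter] at h ⊢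
  refine ⟨h.1, le_trans (Nat.mul_le_mul_right _ (Nat.le_add_right _ _)) h.2,
    ((hK K h.1).trans_lt Nat.lt_two_pow_self).trans_le ?_⟩
  exact ((Nat.le_mul_of_pos_right _ h1).trans (Nat.le_self_pow (by norm_num) _)).trans
    (Nat.le_mul_of_pos_right _ hρ)

end Vale.Agent.P054
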