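import Vale.Agent.P054.Main
import Vale.Agent.P054.GoodQ
import Vale.Agent.P054.MirS

/-! MainQ: the sharp energy bound (about 250 lines; copy and adapt `exc_bound` in ExcB and `main_off`, `main_deg`, `main0` in Main).
`PlaneLe.line_le` is replaced by `LineLe`; `good_pairs'`, `mir_sharp`, `lineLe_nD`.
-/

noncomputable section

open Classical MvPolynomial Matrix Finset

namespace Vale.Agent.P054

theorem exc_bound' {P : Finset V} {L : ℕ} (hP : LineLe P L) {W : Submodule ℂ (S8 → ℂ)}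
    (hW : Exc W) :
    ((P ×ˢ P).filter fun z => ∀ a ∈ W, bf a (hat (cz z)) = 0).card ≤ 2 * P.card + L ^ 2 := by
  set E := (P ×ˢ P).filter fun z => ∀ a ∈ W, bf a (hat (cz z)) = 0 with hE
  have hU : ∀ z ∈ E, hat (cz z) ∈ exbB.orthogonal W := fun z hz => (Finset.mem_filter.1 hz).2
  have hEP : ∀ z ∈ E, z.1 ∈ P ∧ z.2 ∈ P := fun z hz =>
    Finset.mem_product.1 (Finset.mem_filter.1 hz).1
  have hrk := exb_rank W
  by_cases h1 : ∀ p ∈ P, (E.filter fun z => z.1 = p).card ≤ 2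
  · exact (Finset.card_le_mul_card_image_of_maps_to (fun z hz => (hEP z hz).1) 2 h1).trans
      (Nat.le_add_right _ _)
  by_cases h2 : ∀ q ∈ P, (E.filter fun z => z.2 = q).card ≤ 2
  · exact (Finset.card_le_mul_card_image_of_maps_to (fun z hz => (hEP z hz).2) 2 h2).trans
      (Nat.le_add_right _ _)
  push Not at h1 h2
  obtain ⟨p, -, h1⟩ := h1
  obtain ⟨q, -, h2⟩ := h2
  obtain ⟨x, hx, y, hy, z, hz, xy, xz, yz⟩ := Finset.two_lt_card.1 h1
  obtain ⟨x', hx', y', hy', z', hz', xy', xz', yz'⟩ := Finset.two_lt_card.1 h2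
  rw [Finset.mem_filter] at hx hy hz hx' hy' hz'
  have t1 := exb_tri xy xz yz (Or.inl ⟨hx.2.trans hy.2.symm, hx.2.trans hz.2.symm⟩)
  have t2 := exb_tri xy' xz' yz' (Or.inr ⟨hx'.2.trans hy'.2.symm, hx'.2.trans hz'.2.symm⟩)
  rcases hW with hW | ⟨hW, hiso⟩
  · have hc : cv 0 = 0 := by funext i; simp [cv]
    obtain ⟨a, a0, ha⟩ := exb_line (E := E) Prod.fst p fun s hs t ht => by
      have := exb_five (by omega) (hU _ hx.1) (hU _ hy.1) (hU _ hz.1) (hU _ hs) (hU _ ht) t1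
        (exbP (-1) p) (by rw [exbP_fst, hx.2, sub_self, hc, smul_zero])
        (by rw [exbP_fst, hy.2, sub_self, hc, smul_zero])
        (by rw [exbP_fst, hz.2, sub_self, hc, smul_zero])
      rw [exbP_fst, exbP_fst] at this
      exact exb_cross this
    obtain ⟨b, b0, hb⟩ := exb_line (E := E) Prod.snd q fun s hs t ht => by
      have := exb_five (by omega) (hU _ hx'.1) (hU _ hy'.1) (hU _ hz'.1) (hU _ hs) (hU _ ht) t2
        (exbP 1 q) (by rw [exbP_snd, hx'.2, sub_self, hc, smul_zero])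
        (by rw [exbP_snd, hy'.2, sub_self, hc, smul_zero])
        (by rw [exbP_snd, hz'.2, sub_self, hc, smul_zero])
      rw [exbP_snd, exbP_snd] at this
      exact exb_cross this
    have hsub : E ⊆ (P.filter fun x => a ⨯₃ (x - p) = 0) ×ˢ (P.filter fun x => b ⨯₃ (x - q) = 0) :=
      fun w hw => Finset.mem_product.2 ⟨Finset.mem_filter.2 ⟨(hEP w hw).1, ha w hw⟩,
        Finset.mem_filter.2 ⟨(hEP w hw).2, hb w hw⟩⟩
    have := Finset.card_le_card hsub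
    rw [Finset.card_product] at this
    have h3 : (P.filter fun x => a ⨯₃ (x - p) = 0).card * (P.filter fun x => b ⨯₃ (x - q) = 0).card ≤
        L * L := Nat.mul_le_mul (hP p a a0) (hP q b b0)
    rw [← pow_two] at h3
    omega
  · exfalso
    have := exb_dim (hU _ hx.1) (hU _ hy.1) (hU _ hz.1) W.subtype
      (fun w a ha => hiso a ha w w.2) (by
        intro a b c w hw
        have hw' : a • hat (cz x) + (b • hat (cz y) + c • hat (cz z)) = ((-w : W) : S8 → ℂ) :=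
          eq_neg_of_add_eq_zero_left hw
        have hc := t1.core (a := a) (b := b) (c := c)
          (by rw [hw']; exact hU _ hx.1 _ (-w).2) (by rw [hw']; exact hU _ hy.1 _ (-w).2)
          (by rw [hw']; exact hU _ hz.1 _ (-w).2)
        refine ⟨hc, ?_⟩
        rw [hc.1, hc.2.1, hc.2.2] at hw
        simpa using hw)
    omega

theorem mainq_off : ∃ A : ℕ, ∀ (P : Finset V) (B ρ : ℕ) (adj : V × V → V × V → Prop),
    LineLe P B → P.card ^ 2 ≤ ρ ^ 3 → (∀ z w, adj z w → w.1 + w.2 ≠ z.1 + z.2) →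
    ∀ G ⊆ P ×ˢ P, G.Nonempty → ∃ z ∈ G, ∃ H : P3, H ≠ 0 ∧ H.totalDegree ≤ A * ρ ∧
      (G.filter fun w => adj z w ∧ ¬ OnL H ((cz w).1 - (cz z).1) ((cz w).2 - (cz z).2)).card ≤
        2 * (2 * P.card + B ^ 2) := by
  obtain ⟨A, hA⟩ := core
  refine ⟨A * 5, fun P B ρ adj hP hn hadj G hG hne => ?_⟩
  have h1 := hA (fun z' w' => ∃ z w, cz z = z' ∧ cz w = w' ∧ adj z w) (2 * P.card + B ^ 2) (5 * ρ)
    (G.image cz) (hne.image cz)
    (by
      rintro _ _ ⟨z, w, rfl, rfl, h⟩ h'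
      exact hadj z w h (main_cv h'))
    (fun W hW => by
      refine le_trans (le_trans (card_le_card ?_) (card_image_le (f := cz))) (exc_bound' hP hW)
      intro z' hz'
      simp only [mem_filter, mem_image] at hz' ⊢
      obtain ⟨⟨z, hz, rfl⟩, h⟩ := hz'
      exact ⟨z, ⟨hG hz, h⟩, rfl⟩)
    (by
      have h2 : (G.image cz).card ≤ P.card ^ 2 :=
        card_image_le.trans ((card_le_card hG).trans_eq (by rw [card_product, pow_two]))
      have h3 : (5 * ρ) ^ 3 = 125 * ρ ^ 3 := by ring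
      omega)
  simp only [NC, not_forall, not_lt] at h1
  obtain ⟨z', hz', H, hH, hd, h2⟩ := h1
  obtain ⟨z, hz, rfl⟩ := mem_image.1 hz'
  refine ⟨z, hz, H, hH, by rwa [mul_assoc], le_trans ?_ h2⟩
  refine card_le_card_of_injOn cz (fun w hw => ?_) cz_injective.injOn
  simp only [coe_filter, Set.mem_ofPred_eq] at hw ⊢
  exact ⟨mem_image_of_mem cz hw.1, ⟨z, w, rfl, rfl, hw.2.1⟩, hw.2.2⟩

theorem main_deg' (C₁ C₂ k : ℕ) (hC : 1 ≤ C₁) (hk : 1 ≤ k) : ∃ C : ℕ, ∀ (P : Finset V) (ρ : ℕ)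
    (U : Finset (V × V)), LineLe P ρ → P.card ^ 2 ≤ ρ ^ 3 → 1 ≤ ρ →
    (∀ p, Loc p (P.filter fun x => (p, x) ∈ U) k (C₁ * ρ)) →
    ∀ G ⊆ P ×ˢ P, G.Nonempty →
      ∃ z ∈ G, (G.filter (mainAdj U (P ×ˢ P) (C₂ * ρ) z)).card ≤ C * ρ ^ 2 := by
  obtain ⟨A, hA⟩ := mainq_off
  refine ⟨6 + A * (100 * k ^ 2 * (A + C₁ + C₂)), fun P ρ U hP hn hρ hL G hG hne => ?_⟩
  have hn2 : P.card ≤ ρ ^ 2 := by
    refine (Nat.pow_le_pow_iff_left two_ne_zero).1 (hn.trans ?_)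
    rw [← pow_mul]
    exact Nat.pow_le_pow_right hρ (by norm_num)
  have hρ' : ρ ≤ C₁ * ρ := Nat.le_mul_of_pos_left _ hC
  have hc : ∀ p : V, (P.filter fun x => (p, x) ∈ U).card ≤ (C₁ * ρ) ^ 2 := fun p =>
    (card_filter_le _ _).trans (hn2.trans (Nat.pow_le_pow_left hρ' 2))
  obtain ⟨z, hz, H, hH, hd, h1⟩ := hA P ρ ρ (mainAdj U (P ×ˢ P) (C₂ * ρ)) hP hn
    (fun z w h => h.2.2.2.1) G hG hne
  have h2 := mr_bound (z := z) (κ := C₂ * ρ) (Nb := G.filter fun w =>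
      mainAdj U (P ×ˢ P) (C₂ * ρ) z w ∧ OnL H ((cz w).1 - (cz z).1) ((cz w).2 - (cz z).2))
    hk (hρ.trans hρ') (hL z.1) (hL z.2) (hc _) (hc _)
    (fun w hw => by
      simp only [mem_filter] at hw
      have h3 := mem_product.1 (hG hw.1)
      simp only [mem_product, mem_filter]
      exact ⟨⟨h3.1, hw.2.1.1⟩, h3.2, hw.2.1.2.1⟩)
    (fun w hw => by
      simp only [mem_filter] at hw
      exact ⟨hw.2.1.2.2.1, hw.2.1.2.2.2.1⟩)
    (fun ν hν c => by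
      rcases ((G.filter fun w => mainAdj U (P ×ˢ P) (C₂ * ρ) z w ∧
        OnL H ((cz w).1 - (cz z).1) ((cz w).2 - (cz z).2)).filter
          (rel ν c z)).eq_empty_or_nonempty with h | ⟨w, hw⟩
      · rw [h, card_empty]
        exact Nat.zero_le _
      · simp only [mem_filter] at hw
        refine le_trans (card_le_card fun x hx => ?_) (hw.1.2.1.2.2.2.2 ν c hν hw.2).le
        simp only [mir, mem_filter] at hx ⊢
        exact ⟨hG hx.1.1, hx.2⟩)
    hH hd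
    (fun w hw => by
      simp only [mem_filter] at hw
      exact hw.2.2)
  refine ⟨z, hz, le_trans (card_le_card ?_)
    ((card_union_le _ _).trans ((add_le_add h1 h2).trans ?_))⟩
  · intro w hw
    simp only [mem_union, mem_filter] at hw ⊢
    tauto
  · have h3 : A * ρ * (100 * k ^ 2 * (A * ρ + C₁ * ρ + C₂ * ρ)) =
        A * (100 * k ^ 2 * (A + C₁ + C₂)) * ρ ^ 2 := by ring
    rw [h3, add_mul]
    omega

theorem main_sharp : ∃ C : ℕ, ∀ (P : Finset V) (B ρ : ℕ), PlaneLe P B → P.card ^ 2 ≤ ρ ^ 3 →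
    C * (B + 1) ≤ P.card → nD P + 1 ≤ ρ → C * ρ ≤ P.card →
      P.card ^ 4 ≤ C * nD P * ρ ^ 5 := by
  obtain ⟨C₁, k, hC₁, hk, hg⟩ := good_pairs'
  obtain ⟨C₂, hm⟩ := mir_sharp
  obtain ⟨C₃, hd⟩ := main_deg' C₁ C₂ k hC₁ hk
  refine ⟨16 * (2 * C₃ + 1 + C₂) + C₁, fun P B ρ hP hn hB hD hρ => ?_⟩
  have b1 : C₁ * (B + 1) ≤ P.card := (Nat.mul_le_mul_right _ (by omega)).trans hB
  have b2 : C₁ * ρ ≤ P.card := (Nat.mul_le_mul_right _ (by omega)).trans hρ
  have b3 : LineLe P ρ := fun p v hv => (lineLe_nD P p v hv).trans hD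
  obtain ⟨U, hU, hs, hc, hL⟩ := hg P B ρ hP hn b1 hD b2
  have h1 := prune (main_symm (X := P ×ˢ P) (κ := C₂ * ρ) hs) (P ×ˢ P)
    (hd P ρ U b3 hn (by omega) hL)
  have h2 := main_split P U (C₂ * ρ)
  have h3 := hm P ρ b3 hn
  have h4 := energy hU
  have hn2 : P.card ≤ ρ ^ 2 := by
    refine (Nat.pow_le_pow_iff_left two_ne_zero).1 (hn.trans ?_)
    rw [← pow_mul]
    exact Nat.pow_le_pow_right (by omega) (by norm_num)
  have h5 : P.card ^ 3 ≤ ρ ^ 5 := by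
    calc P.card ^ 3 = P.card ^ 2 * P.card := by ring
      _ ≤ ρ ^ 3 * ρ ^ 2 := Nat.mul_le_mul hn hn2
      _ = ρ ^ 5 := by ring
  have h6 : 2 * (P ×ˢ P).card * (C₃ * ρ ^ 2) ≤ 2 * C₃ * ρ ^ 5 := by
    rw [card_product, ← pow_two]
    calc 2 * P.card ^ 2 * (C₃ * ρ ^ 2) ≤ 2 * ρ ^ 3 * (C₃ * ρ ^ 2) := by gcongr
      _ = 2 * C₃ * ρ ^ 5 := by ring
  have h7 := h2.trans (add_le_add (add_le_add (h1.trans h6) h5) h3)
  calc P.card ^ 4 = (P.card ^ 2) ^ 2 := by ring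
    _ ≤ (4 * U.card) ^ 2 := Nat.pow_le_pow_left hc 2
    _ = 16 * U.card ^ 2 := by ring
    _ ≤ 16 * (nD P * (2 * C₃ * ρ ^ 5 + ρ ^ 5 + C₂ * ρ ^ 5)) :=
      Nat.mul_le_mul_left _ (h4.trans (Nat.mul_le_mul_left _ h7))
    _ = 16 * (2 * C₃ + 1 + C₂) * nD P * ρ ^ 5 := by ring
    _ ≤ _ := by gcongr; omega

end Vale.Agent.P054
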