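import Vale.Agent.P054.Final
import Vale.Agent.P054.MainQ

/-! FinalQ: the conjecture in dimension three (about 150 lines; compare `dicho`, `final` in Final).
`sharp_large`: `x = n^(2/3)`, `ρ = ⌈x⌉ ≤ 2 x`, `C ρ ≤ n` for large `n`. If `nD P + 1 > ρ` we are done. Let `B = n / C' - 1`; if some plane has more than `B` points use `plane_bound (1/6)`: `(n / (2 C'))^(5/6) ≥ n^(2/3)` for large `n` (`final_ev`). Otherwise `main_sharp` gives `x^6 ≤ C D (2x)^5`.
`final_sharp`: for `2 ≤ n < n₀` there is at least one distance, take `c ≤ (n₀ + 1)^(-2/3)`; transfer with `final_nD`.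
-/

noncomputable section

open Classical MvPolynomial Matrix Finset

namespace Vale.Agent.P054

theorem fq_plane (C : ℕ) : ∃ n₀ : ℕ, ∀ P : Finset V, n₀ ≤ P.card →
    PlaneLe P (P.card / (C + 1) - 1) ∨ (P.card : ℝ) ^ (2 / 3 : ℝ) ≤ nD P := by
  obtain ⟨n₁, h1⟩ := plane_bound (1 / 6) (by norm_num)
  obtain ⟨n₀, h0⟩ := Filter.eventually_atTop.1
    ((final_ev (a := 1 / 6) (by norm_num) ((2 * (C + 1)) ^ (1 - 1 / 6 : ℝ))).and
      (Filter.eventually_ge_atTop ((C + 1) * (n₁ + 1))))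
  refine ⟨n₀, fun P hP => ?_⟩
  obtain ⟨k1, k2⟩ := h0 _ hP
  refine or_iff_not_imp_left.2 fun H => ?_
  simp only [PlaneLe, not_forall, not_le] at H
  obtain ⟨ν, hν, b, H⟩ := H
  have a1 : n₁ + 1 ≤ P.card / (C + 1) :=
    (Nat.le_div_iff_mul_le (Nat.succ_pos C)).2 (by rwa [mul_comm])
  have a2 : P.card < (C + 1) * (P.card / (C + 1) + 1) := Nat.lt_mul_div_succ _ (Nat.succ_pos C)
  refine le_trans ?_ (h1 P ν b hν (by omega))
  generalize (P.filter fun x => ν ⬝ᵥ x = b).card = m at H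
  have a3 : P.card ≤ 2 * (C + 1) * m := by
    have : P.card / (C + 1) + 1 ≤ 2 * m := by omega
    nlinarith [Nat.mul_le_mul_left (C + 1) this]
  have a4 : (P.card : ℝ) ≤ 2 * (C + 1) * m := by exact_mod_cast a3
  have n0 : (0 : ℝ) < P.card := by
    have : 0 < (C + 1) * (n₁ + 1) := by positivity
    exact_mod_cast this.trans_le k2
  have a5 := Real.rpow_le_rpow n0.le a4 (show (0 : ℝ) ≤ 1 - 1 / 6 by norm_num)
  rw [Real.mul_rpow (by positivity) (by positivity)] at a5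
  have a6 : (P.card : ℝ) ^ (1 - 1 / 6 : ℝ) =
      (P.card : ℝ) ^ (1 / 6 : ℝ) * (P.card : ℝ) ^ (2 / 3 : ℝ) := by
    rw [← Real.rpow_add n0]
    norm_num
  rw [a6] at a5
  exact le_of_mul_le_mul_left (a5.trans (mul_le_mul_of_nonneg_right k1 (by positivity)))
    (by positivity)

theorem sharp_large : ∃ c : ℝ, 0 < c ∧ ∃ n₀ : ℕ, ∀ P : Finset V, n₀ ≤ P.card →
    c * (P.card : ℝ) ^ (2 / 3 : ℝ) ≤ nD P := by
  obtain ⟨C, hC⟩ := main_sharp
  obtain ⟨n₁, hp⟩ := fq_plane C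
  obtain ⟨n₀, h0⟩ := Filter.eventually_atTop.1
    ((final_ev (a := 2 / 3) (by norm_num) 2).and ((final_ev (a := 1 / 3) (by norm_num) (2 * C)).and
      ((Filter.eventually_ge_atTop (C + 1)).and (Filter.eventually_ge_atTop n₁))))
  obtain ⟨c, hc⟩ : ∃ c : ℝ, c = 1 / (100 * (C + 1)) := ⟨_, rfl⟩
  have C0 : (0 : ℝ) ≤ C := Nat.cast_nonneg _
  have c0 : 0 < c := by rw [hc]; positivity
  have c1 : c * (100 * (C + 1)) = 1 := by rw [hc]; field_simp
  refine ⟨c, c0, n₀, fun P hP => ?_⟩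
  obtain ⟨h1, h2, h3, h4⟩ := h0 _ hP
  have n0 : (0 : ℝ) < P.card := by exact_mod_cast (by omega : 0 < P.card)
  have x3 : ((P.card : ℝ) ^ (2 / 3 : ℝ)) ^ 3 = (P.card : ℝ) ^ 2 := by
    rw [← Real.rpow_natCast, ← Real.rpow_mul (by positivity)]
    norm_num
  have xn : 2 * C * (P.card : ℝ) ^ (2 / 3 : ℝ) ≤ P.card := by
    refine (mul_le_mul_of_nonneg_right h2 (by positivity)).trans (le_of_eq ?_)
    rw [← Real.rpow_add n0]
    norm_num
  have h5 := hp P h4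
  generalize (P.card : ℝ) ^ (2 / 3 : ℝ) = x at *
  have x0 : 0 < x := by linarith
  have r1 := Nat.le_ceil x
  have r2 := Nat.ceil_lt_add_one x0.le
  have cx : 0 < c * x := by positivity
  have cx1 : c * x * (100 * (C + 1)) = x := by rw [mul_right_comm, c1, one_mul]
  have cx2 : 100 * (c * x) ≤ x := by nlinarith [mul_nonneg cx.le C0]
  by_contra! H
  have d0 : (0 : ℝ) ≤ nD P := Nat.cast_nonneg _
  have k := hC P (P.card / (C + 1) - 1) ⌈x⌉₊ (h5.resolve_right (by linarith))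
    (by exact_mod_cast (x3 ▸ pow_le_pow_left₀ x0.le r1 3 : (P.card : ℝ) ^ 2 ≤ _))
    (by
      rw [Nat.sub_add_cancel (Nat.div_pos h3 (Nat.succ_pos C))]
      exact (Nat.mul_le_mul_right _ (Nat.le_succ C)).trans (Nat.mul_div_le _ _))
    (by
      have : (nD P : ℝ) + 1 ≤ ⌈x⌉₊ := by linarith
      exact_mod_cast this)
    (by
      have : (C : ℝ) * ⌈x⌉₊ ≤ P.card := by
        nlinarith [mul_le_mul_of_nonneg_left (show (⌈x⌉₊ : ℝ) ≤ 2 * x by linarith) C0]
      exact_mod_cast this)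
  have k1 : (P.card : ℝ) ^ 4 ≤ C * nD P * (⌈x⌉₊ : ℝ) ^ 5 := by exact_mod_cast k
  have k2 : (P.card : ℝ) ^ 4 = x ^ 6 := by
    rw [show 6 = 3 * 2 from rfl, pow_mul, x3, ← pow_mul]
  have k3 : x ^ 6 < x ^ 6 :=
    calc x ^ 6 ≤ C * (c * x) * (2 * x) ^ 5 := by
          refine (k2 ▸ k1).trans ?_
          gcongr
          linarith
      _ = 32 * C * c * x ^ 6 := by ring
      _ < x ^ 6 := mul_lt_of_lt_one_left (by positivity) (by nlinarith)
  exact lt_irrefl _ k3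

theorem final_sharp : ∃ c : ℝ, 0 < c ∧ ∀ P : Finset (EuclideanSpace ℝ (Fin 3)), 2 ≤ P.card →
    c * (P.card : ℝ) ^ (2 / 3 : ℝ) ≤ ((P.offDiag.image fun e => dist e.1 e.2).card : ℝ) := by
  obtain ⟨c, c0, n₀, h⟩ := sharp_large
  have hx : (0 : ℝ) < ((n₀ : ℝ) + 1) ^ (2 / 3 : ℝ) := by positivity
  refine ⟨min c (((n₀ : ℝ) + 1) ^ (2 / 3 : ℝ))⁻¹, by positivity, fun P hP => ?_⟩
  rcases le_or_gt n₀ P.card with h1 | h1
  · have hc : (P.image fun x => x.ofLp).card = P.card :=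
      card_image_of_injective _ (WithLp.ofLp_injective 2)
    have h2 := h _ (hc.symm ▸ h1)
    rw [hc] at h2
    exact (mul_le_mul_of_nonneg_right (min_le_left _ _) (by positivity)).trans
      (h2.trans (Nat.cast_le.2 (final_nD P)))
  · have h2 : (P.card : ℝ) ≤ n₀ + 1 := by exact_mod_cast (by omega : P.card ≤ n₀ + 1)
    refine (mul_le_mul (min_le_right _ _) (Real.rpow_le_rpow (Nat.cast_nonneg _) h2 (by norm_num))
      (by positivity) (by positivity)).trans ?_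
    rw [inv_mul_cancel₀ hx.ne']
    obtain ⟨x, hx1, y, hy1, hxy⟩ := one_lt_card.1 (show 1 < P.card by omega)
    exact Nat.one_le_cast.2 (card_pos.2 (image_nonempty.2 ⟨(x, y), mem_offDiag.2 ⟨hx1, hy1, hxy⟩⟩))

end Vale.Agent.P054
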