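import Vale.Agent.P054.Jet
import Vale.Agent.P054.Hyp
import Vale.Agent.P054.Dim

/-! Flat: basic facts about the flats (about 250 lines).
`flat_d1..d3`: let `D` be the derivation `∑ d i • pderiv i` of `P3` and apply `der_aeval`, `der_d1`, `der_d2` (file Jet) to `res z h = aeval (fp .. X) h = 0`; `D` maps the generic point of the flat to the constant vector `tv z.1 d`; evaluate at `s` with `map_d1..3`. `grad_flat`: `d1_tv` for the three basis vectors. Vector identities: `simp [cross_apply, dotProduct, Fin.sum_univ_three]` and `ring`, or `cross_cross`, `triple_product_permutation`.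
-/

noncomputable section

open Classical MvPolynomial Matrix Finset

namespace Vale.Agent.P054

/-- the generic point of the flat -/
def flatPt (z : Z ℂ) : S6 → P3 := fp (fun i => C (z.1 i), fun i => C (z.2 i)) X

theorem flat_aeval (z : Z ℂ) (s : Fin 3 → ℂ) (a : S6) :
    (aeval s : P3 →ₐ[ℂ] ℂ) (flatPt z a) = fp z s a := by
  rcases a with i | i
  · simp [flatPt, fp]
  · fin_cases i <;> simp [flatPt, fp, cross_apply, vecHead, vecTail]

theorem eval_res (z : Z ℂ) (s : Fin 3 → ℂ) (f : P6) : eval s (res z f) = eval (fp z s) f := by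
  have h1 : (aeval s : P3 →ₐ[ℂ] ℂ) (aeval (flatPt z) f) = aeval (fp z s) f := by
    rw [comp_aeval_apply, funext (flat_aeval z s)]
  exact h1

theorem flat_deg (z : Z ℂ) (a : S6) : (flatPt z a).totalDegree ≤ 1 := by
  have hm : ∀ (i : Fin 3) (c : ℂ), (X i * C c : P3).totalDegree ≤ 1 := fun i c =>
    (totalDegree_mul _ _).trans (by simp)
  have hs : ∀ (i j : Fin 3) (c c' c'' : ℂ),
      (C c'' - (X i * C c - X j * C c') : P3).totalDegree ≤ 1 := fun i j c c' c'' =>
    (totalDegree_sub _ _).trans (max_le (by simp)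
      ((totalDegree_sub _ _).trans (max_le (hm _ _) (hm _ _))))
  rcases a with i | i
  · simp [flatPt, fp]
  · fin_cases i
    · exact hs _ _ _ _ _
    · exact hs _ _ _ _ _
    · exact hs _ _ _ _ _

theorem degree_res_le (z : Z ℂ) (f : P6) : (res z f).totalDegree ≤ f.totalDegree := by
  have := degree_aeval_le (flatPt z) (flat_deg z) f
  rw [one_mul] at this
  exact this

theorem res_eq_zero {z : Z ℂ} {f : P6} : res z f = 0 ↔ ∀ s, eval (fp z s) f = 0 := by
  constructor
  · intro h s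
    rw [← eval_res, h, map_zero]
  · intro h
    apply MvPolynomial.funext
    intro s
    rw [eval_res, h, map_zero]

theorem fp_eq {z w : Z ℂ} {s : Fin 3 → ℂ} (h : s ⨯₃ (w.1 - z.1) = w.2 - z.2) :
    fp z s = fp w s := by
  have e : z.2 - s ⨯₃ z.1 = w.2 - s ⨯₃ w.1 := by
    rw [map_sub] at h
    linear_combination h
  rw [fp, fp, e]

theorem d1_tv {R : Type*} [CommRing R] [Algebra ℂ R] (h : P6) (ξ : S6 → R) (y d : Fin 3 → R) :
    d1 h ξ (tv y d) =
      d ⬝ᵥ ((fun i => gr h ξ (.inl i)) - y ⨯₃ fun i => gr h ξ (.inr i)) := by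
  simp [d1, gr, tv, cross_apply, dotProduct, Fin.sum_univ_three, Fintype.sum_sum_type]
  ring

/-- the constant vector field with components `d` -/
def flatD (d : Fin 3 → ℂ) : Derivation ℂ P3 P3 := mkDerivation ℂ fun i => C (d i)

theorem flatD_C (d : Fin 3 → ℂ) (c : ℂ) : flatD d (C c) = 0 := derivation_C _ _

theorem flatD_X (d : Fin 3 → ℂ) (i : Fin 3) : flatD d (X i) = C (d i) := mkDerivation_X _ _ _

theorem flatD_pt (z : Z ℂ) (d : Fin 3 → ℂ) :
    (fun a => flatD d (flatPt z a)) = fun a => (C (tv z.1 d a) : P3) := by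
  funext a
  rcases a with i | i
  · simp [flatPt, fp, tv, flatD_X]
  · fin_cases i <;>
      simp [flatPt, fp, tv, cross_apply, flatD_X, flatD_C, vecHead, vecTail] <;> ring

theorem flatD_const (d : Fin 3 → ℂ) (v : S6 → ℂ) :
    (fun a => flatD d (C (v a) : P3)) = 0 := funext fun _ => flatD_C _ _

variable {z : Z ℂ} {h : P6}

theorem flat_g1 (hz : res z h = 0) (d : Fin 3 → ℂ) :
    d1 h (flatPt z) (fun a => (C (tv z.1 d a) : P3)) = 0 := by
  have h0 : aeval (flatPt z) h = 0 := hz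
  rw [← flatD_pt, ← der_aeval, h0, map_zero]

theorem flat_g2 (hz : res z h = 0) (d d' : Fin 3 → ℂ) :
    d2 h (flatPt z) (fun a => (C (tv z.1 d a) : P3)) (fun a => C (tv z.1 d' a)) = 0 := by
  have h1 := der_d1 h (flatPt z) (fun a => (C (tv z.1 d' a) : P3)) (flatD d)
  rw [flat_g1 hz, map_zero, flatD_pt, flatD_const] at h1
  simpa [d1] using h1.symm

theorem flat_g3 (hz : res z h = 0) (d d' d'' : Fin 3 → ℂ) :
    d3 h (flatPt z) (fun a => (C (tv z.1 d a) : P3)) (fun a => C (tv z.1 d' a))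
      (fun a => C (tv z.1 d'' a)) = 0 := by
  have h1 := der_d2 h (flatPt z) (fun a => (C (tv z.1 d' a) : P3))
    (fun a => (C (tv z.1 d'' a) : P3)) (flatD d)
  rw [flat_g2 hz, map_zero, flatD_pt, flatD_const, flatD_const] at h1
  simpa [d2, d1] using h1.symm

theorem flat_d1 (hz : res z h = 0) (s d : Fin 3 → ℂ) : d1 h (fp z s) (tv z.1 d) = 0 := by
  have h1 := map_d1 h (flatPt z) (fun a => (C (tv z.1 d a) : P3)) (aeval s : P3 →ₐ[ℂ] ℂ)
  rw [flat_g1 hz, map_zero, funext (flat_aeval z s)] at h1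
  simpa using h1.symm

theorem flat_d2 (hz : res z h = 0) (s d d' : Fin 3 → ℂ) :
    d2 h (fp z s) (tv z.1 d) (tv z.1 d') = 0 := by
  have h1 := map_d2 h (flatPt z) (fun a => (C (tv z.1 d a) : P3))
    (fun a => (C (tv z.1 d' a) : P3)) (aeval s : P3 →ₐ[ℂ] ℂ)
  rw [flat_g2 hz, map_zero, funext (flat_aeval z s)] at h1
  simpa using h1.symm

theorem flat_d3 (hz : res z h = 0) (s d d' d'' : Fin 3 → ℂ) :
    d3 h (fp z s) (tv z.1 d) (tv z.1 d') (tv z.1 d'') = 0 := by
  have h1 := map_d3 h (flatPt z) (fun a => (C (tv z.1 d a) : P3))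
    (fun a => (C (tv z.1 d' a) : P3)) (fun a => (C (tv z.1 d'' a) : P3)) (aeval s : P3 →ₐ[ℂ] ℂ)
  rw [flat_g3 hz, map_zero, funext (flat_aeval z s)] at h1
  simpa using h1.symm

theorem grad_flat (hz : res z h = 0) (s : Fin 3 → ℂ) :
    (fun i => gr h (fp z s) (.inl i)) = z.1 ⨯₃ fun i => gr h (fp z s) (.inr i) := by
  rw [← sub_eq_zero]
  funext i
  have h1 := flat_d1 hz s (Pi.single i 1)
  rw [d1_tv, single_one_dotProduct] at h1
  exact h1

theorem zt_flat (hz : res z h = 0) {s : Fin 3 → ℂ} {e : Fin 3} (hn : gr h (fp z s) (.inr e) ≠ 0) :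
    zt h e (fp z s) (z.1 e) = z := by
  have hy : yt h e (fp z s) (z.1 e) = z.1 := by
    rw [yt, grad_flat hz, cross_cross_eq_smul_sub_smul', inv_smul_eq_iff₀ hn]
    simp
  rw [zt, hy]
  refine Prod.ext rfl ?_
  funext i
  simp [fp]

theorem interp_flats (G : Finset (Z ℂ)) {τ : ℕ} (hτ : 120 * G.card ≤ τ ^ 3) :
    ∃ f : P6, f ≠ 0 ∧ f.totalDegree ≤ τ ∧ ∀ z ∈ G, res z f = 0 :=
  interp G flatPt flat_deg hτ

variable {adj : Z ℂ → Z ℂ → Prop} {B : ℕ} {G : Finset (Z ℂ)}

theorem NC.mono {t t' : ℕ} (hG : NC adj B G t) (ht : t' ≤ t) : NC adj B G t' :=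
  fun z hz H h0 hH => hG z hz H h0 (hH.trans ht)

theorem NC.vanish {t : ℕ} (hG : NC adj B G t) (hz : z ∈ G) {g : P6} (hg : g.totalDegree ≤ t)
    (hv : ∀ w ∈ G, adj z w → ∀ s, s ⨯₃ (w.1 - z.1) = w.2 - z.2 → eval (fp z s) g = 0) :
    res z g = 0 := by
  by_contra h0
  have h1 := hG z hz _ h0 ((degree_res_le z g).trans hg)
  obtain ⟨w, hw⟩ := card_pos.1 (Nat.zero_lt_of_lt h1)
  rw [mem_filter] at hw
  exact hw.2.2 fun s hs => by rw [eval_res]; exact hv w hw.1 hw.2.1 s hs

/-- a polynomial with vanishing gradient is constant -/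
theorem eq_C_of_pderiv {σ : Type*} {f : MvPolynomial σ ℂ} (hf : ∀ a, pderiv a f = 0) :
    f = C (coeff 0 f) := by
  ext m
  rw [coeff_C]
  split_ifs with hm
  · rw [hm]
  · obtain ⟨a, ha⟩ := Finsupp.ne_iff.1 (Ne.symm hm)
    have h1 := congrArg (coeff (m - Finsupp.single a 1)) (hf a)
    have h2 : m - Finsupp.single a 1 + Finsupp.single a 1 = m :=
      tsub_add_cancel_of_le (Finsupp.single_le_iff.2 (Nat.one_le_iff_ne_zero.2 ha))
    rw [coeff_pderiv, h2, coeff_zero] at h1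
    exact (mul_eq_zero.1 h1).resolve_right (Nat.cast_add_one_ne_zero _)

end Vale.Agent.P054
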