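import Vale.Agent.P054.Flat

/-! Good: the minimal configuration (about 250 lines).
For nonempty `G'` let `α G'` be the least degree of a nonzero polynomial vanishing on all flats of `G'` (`interp_flats`), call `G' ⊆ G` good if it is nonempty and `NC adj B G' ((A+1) α G')`; `G` is good. Take a good `G₁` with least `α = r`, `h` of degree `r` (`r ≥ 1`).
Key lemma: if `NC adj B G₁ t` and `f` has degree `≤ a ≤ t`, then `{z ∈ G₁ | res z f ≠ 0}` has `NC` of degree `t - a` (test `H * res z f`; a point of the line where it is nonzero is also a point of the flat of `w`, `fp_eq`).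
If `h = f₁ f₂` with nonunits, the flats with `res z f₂ ≠ 0` form a good set with smaller `α`. Some `pderiv (inr e) h` does not vanish on all flats (otherwise these are zero by minimality, then by `grad_flat` also the `pderiv (inl i) h`, and `h` is constant). Let `G'` be the flats where it does not vanish; if `2 α G' < r` then `G'` is good with smaller `α`.
-/

noncomputable section

open Classical MvPolynomial Matrix Finset

namespace Vale.Agent.P054

theorem good_key {adj : Z ℂ → Z ℂ → Prop} {B t t' a : ℕ} {G : Finset (Z ℂ)} {f : P6}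
    (hG : NC adj B G t') (hf : f.totalDegree ≤ a) (ht : t + a ≤ t') :
    NC adj B (G.filter fun z => res z f ≠ 0) t := by
  intro z hz H H0 Ht
  obtain ⟨hz1, hz2⟩ := mem_filter.1 hz
  refine (hG z hz1 (H * res z f) (mul_ne_zero H0 hz2) ((totalDegree_mul _ _).trans
    ((add_le_add Ht ((degree_res_le z f).trans hf)).trans ht))).trans_le
    (card_le_card fun w hw => ?_)
  obtain ⟨w1, w2, w3⟩ := mem_filter.1 hw
  refine mem_filter.2 ⟨mem_filter.2 ⟨w1, fun w4 => w3 fun s hs => ?_⟩, w2,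
    fun w4 => w3 fun s hs => ?_⟩
  · rw [map_mul, eval_res, fp_eq hs, res_eq_zero.1 w4 s, mul_zero]
  · rw [map_mul, w4 s hs, zero_mul]

theorem good_pos {f : P6} (h0 : f ≠ 0) (hu : ¬ IsUnit f) : 0 < f.totalDegree := by
  refine Nat.pos_of_ne_zero fun h => hu ?_
  rw [totalDegree_eq_zero_iff_eq_C] at h
  rw [h] at h0 ⊢
  exact (IsUnit.mk0 _ fun z => h0 (by rw [z, map_zero])).map C

theorem good_min {adj : Z ℂ → Z ℂ → Prop} {B A τ : ℕ} {G : Finset (Z ℂ)} (hne : G.Nonempty)
    (hadj : ∀ z w, adj z w → w.1 ≠ z.1) (hA : 2 ≤ A) (hτ : 120 * G.card ≤ τ ^ 3)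
    (hnc : NC adj B G ((A + 1) * τ)) : ∃ G' ⊆ G, ∃ h e, Sit adj B G' h e A := by
  have hex : ∃ r : ℕ, ∃ G₁ ⊆ G, ∃ h : P6, G₁.Nonempty ∧ h ≠ 0 ∧ (∀ z ∈ G₁, res z h = 0) ∧
      NC adj B G₁ ((A + 1) * h.totalDegree) ∧ h.totalDegree = r := by
    obtain ⟨f, f0, f1, f2⟩ := interp_flats G hτ
    exact ⟨_, G, subset_rfl, f, hne, f0, f2, hnc.mono (Nat.mul_le_mul_left _ f1), rfl⟩
  obtain ⟨G₁, hG₁, h, n1, h0, hv, hN, hr⟩ := Nat.find_spec hex
  have hmin : ∀ G₂ ⊆ G₁, ∀ g : P6, ∀ t, G₂.Nonempty → g ≠ 0 → (∀ z ∈ G₂, res z g = 0) →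
      NC adj B G₂ t → (A + 1) * g.totalDegree ≤ t → h.totalDegree ≤ g.totalDegree :=
    fun G₂ s2 g t n2 g0 gv gN gt =>
      hr ▸ Nat.find_min' hex ⟨G₂, s2.trans hG₁, g, n2, g0, gv, gN.mono gt, rfl⟩
  have hlow : ∀ g : P6, g.totalDegree < h.totalDegree → (∀ z ∈ G₁, res z g = 0) → g = 0 := by
    intro g hg gv
    by_contra g0
    exact hg.not_ge (hmin G₁ subset_rfl g _ n1 g0 gv hN (Nat.mul_le_mul_left _ hg.le))
  have hu : ¬ IsUnit h := fun hu => by
    obtain ⟨z, hz⟩ := n1
    exact (hu.map (res z)).ne_zero (hv z hz)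
  have r1 : 0 < h.totalDegree := good_pos h0 hu
  have hirr : Irreducible h := by
    refine ⟨hu, fun f₁ f₂ e => ?_⟩
    by_contra hc
    obtain ⟨u1, u2⟩ := not_or.1 hc
    have z1 : f₁ ≠ 0 := fun z => h0 (by rw [e, z, zero_mul])
    have z2 : f₂ ≠ 0 := fun z => h0 (by rw [e, z, mul_zero])
    have d1 := good_pos z1 u1
    have d2 := good_pos z2 u2
    have d : h.totalDegree = f₁.totalDegree + f₂.totalDegree := by
      rw [e, totalDegree_mul_of_isDomain z1 z2]
    have n2 : (G₁.filter fun z => res z f₂ ≠ 0).Nonempty := by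
      by_contra hn
      refine z2 (hlow f₂ (by omega) fun z hz => ?_)
      by_contra hz'
      exact hn ⟨z, mem_filter.2 ⟨hz, hz'⟩⟩
    have k := hmin _ (filter_subset _ _) f₁ _ n2 z1 (fun z hz => by
      have h1 := hv z (mem_filter.1 hz).1
      rw [e, map_mul] at h1
      exact (mul_eq_zero.1 h1).resolve_right (mem_filter.1 hz).2)
      (good_key (t := (A + 1) * f₁.totalDegree) hN le_rfl (by rw [d]; nlinarith)) le_rfl
    omega
  have hder : ∃ e, ∃ z ∈ G₁, res z (pderiv (.inr e) h) ≠ 0 := by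
    by_contra hn
    have a1 : ∀ e, ∀ z ∈ G₁, res z (pderiv (.inr e) h) = 0 := fun e z hz => by
      by_contra hz'
      exact hn ⟨e, z, hz, hz'⟩
    have a2 : ∀ i, ∀ z ∈ G₁, res z (pderiv (.inl i) h) = 0 := fun i z hz => by
      refine res_eq_zero.2 fun s => ?_
      have b1 := grad_flat (hv z hz) s
      have b2 : (fun i => gr h (fp z s) (.inr i)) = 0 := funext fun e => by
        rw [gr, aeval_eq_eval, res_eq_zero.1 (a1 e z hz) s, Pi.zero_apply]
      rw [b2, map_zero] at b1
      have b3 := congrFun b1 i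
      rwa [gr, aeval_eq_eval, Pi.zero_apply] at b3
    have a3 : ∀ a, pderiv a h = 0 := fun a => by
      refine hlow _ ((degree_pderiv_le h a).trans_lt (by omega)) ?_
      rcases a with i | e
      · exact a2 i
      · exact a1 e
    rw [eq_C_of_pderiv a3, totalDegree_C] at r1
    exact lt_irrefl _ r1
  obtain ⟨e, z, hz, hze⟩ := hder
  have n3 : (G₁.filter fun z => res z (pderiv (.inr e) h) ≠ 0).Nonempty :=
    ⟨z, mem_filter.2 ⟨hz, hze⟩⟩
  have hN' : NC adj B (G₁.filter fun z => res z (pderiv (.inr e) h) ≠ 0) (A * h.totalDegree) :=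
    good_key hN ((degree_pderiv_le h _).trans (Nat.sub_le _ _)) (by rw [add_mul, one_mul])
  refine ⟨_, (filter_subset _ _).trans hG₁, h, e, n3, hadj, hirr,
    fun z hz => hv z (mem_filter.1 hz).1, fun z hz => (mem_filter.1 hz).2, hN', fun g g0 gv => ?_⟩
  by_contra hc
  have k := hmin _ (filter_subset _ _) g _ n3 g0 gv hN' (by nlinarith)
  omega

end Vale.Agent.P054
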