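import Vale.Agent.P054.Rare

/-! GoodP: good pairs, energy and pruning (about 300 lines).
`good_pairs`: `k = 2^16`; `S p` = points `x ≠ p` with `rich P p x ≤ k`; `𝒢 p` from `greedy p` with `K ρ` (`K` a large constant), so `T * K ρ ≤ n`, `T^3 K^3 ρ^3 ≤ n^3`, i.e. `T^3 K^3 ≤ n`, and `T (D + 1) K ≤ n`, `T^2 ≤ T^3`. `U` = pairs `(p, x)` with `x ∈ S p` on no cone of `𝒢 p` and `p` on no cone of `𝒢 x` (`rich` is symmetric). Count with `beck3` (at most `n^2/8` rich pairs) and `rare` twice: `|U| ≥ n^2 - n - n^2/8 - n^2/2`.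
`energy`: Cauchy-Schwarz (`Finset.sq_sum_le_card_mul_sum_sq`, `card_eq_sum_card_fiberwise`) over the values of `sq`.
`prune`: strong induction on `X`, remove a vertex of small degree.
-/

noncomputable section

open Classical MvPolynomial Matrix Finset

namespace Vale.Agent.P054

theorem goodp_symm (P : Finset V) (x y : V) : rich P x y = rich P y x := by
  unfold rich
  refine congrArg card (filter_congr fun z _ => ?_)
  have e : (x - y) ⨯₃ (z - y) = -((y - x) ⨯₃ (z - x)) := by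
    funext i
    fin_cases i <;> simp [cross_apply] <;> ring
  rw [e, neg_eq_zero]

theorem goodp_line {P : Finset V} {B : ℕ} (hP : PlaneLe P B) {x y : V} (h : x ≠ y) :
    rich P x y ≤ B := by
  have hd : y - x ≠ 0 := sub_ne_zero.2 h.symm
  have he : ∃ e : V, (y - x) ⨯₃ e ≠ 0 := by
    by_contra hc
    push Not at hc
    have h0 := hc (Pi.single 0 1)
    have h1 := hc (Pi.single 1 1)
    apply hd
    generalize y - x = d at h0 h1
    have a1 : d 2 = 0 := by simpa [cross_apply] using congrFun h0 1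
    have a2 : d 1 = 0 := by simpa [cross_apply] using congrFun h0 2
    have a3 : d 0 = 0 := by simpa [cross_apply] using congrFun h1 2
    funext i
    fin_cases i
    exacts [a3, a2, a1]
  obtain ⟨e, he⟩ := he
  refine le_trans (card_le_card fun z hz => ?_) (hP _ he (((y - x) ⨯₃ e) ⬝ᵥ x))
  obtain ⟨h1, h2⟩ := mem_filter.1 hz
  refine mem_filter.2 ⟨h1, ?_⟩
  rw [← sub_eq_zero, ← dotProduct_sub, dotProduct_comm, triple_product_permutation,
    triple_product_permutation, ← cross_anticomm, h2, neg_zero, dotProduct_zero]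

theorem goodp_par {v a b : V} (hv : v ≠ 0) (ha : v ⨯₃ a = 0) (hb : v ⨯₃ b = 0) : a ⨯₃ b = 0 := by
  have key : ∀ c : V, v ⨯₃ c = 0 → (v ⬝ᵥ v) • c = (c ⬝ᵥ v) • v := fun c hc => by
    have := cross_cross_eq_smul_sub_smul' v v c
    rw [hc, map_zero, eq_comm, sub_eq_zero] at this
    rw [← this, dotProduct_comm]
  have h0 : v ⬝ᵥ v ≠ 0 := fun h => hv (dotProduct_self_eq_zero.1 h)
  have h1 : ((v ⬝ᵥ v) • a) ⨯₃ ((v ⬝ᵥ v) • b) = 0 := by
    rw [key a ha, key b hb]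
    simp
  simpa [h0] using h1

theorem good_pairs : ∃ C k : ℕ, 1 ≤ C ∧ 1 ≤ k ∧ ∀ (P : Finset V) (B ρ : ℕ), PlaneLe P B →
    P.card ^ 2 ≤ ρ ^ 3 → C * (B + 1) ≤ ρ → nD P + 1 ≤ ρ → ρ ≤ P.card →
    ∃ U ⊆ P.offDiag, (∀ e ∈ U, e.swap ∈ U) ∧ P.card ^ 2 ≤ 4 * U.card ∧
      ∀ p, Loc p (P.filter fun x => (p, x) ∈ U) k (C * ρ) := by
  obtain ⟨C₀, hC₀⟩ := rare
  refine ⟨3 * 65537 * (C₀ + 1), 65536, by omega, by norm_num, fun P B ρ hP h1 h2 h3 h4 => ?_⟩
  obtain ⟨K, hK⟩ : ∃ K, K = 3 * 65537 * (C₀ + 1) := ⟨_, rfl⟩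
  rw [← hK] at h2 ⊢
  have hK1 : 65536 ≤ K := by omega
  have hKB : K * 1 ≤ K * (B + 1) := Nat.mul_le_mul_left _ (by omega)
  have hBK : 1 * (B + 1) ≤ K * (B + 1) := Nat.mul_le_mul_right _ (by omega)
  have hρ : 1 * ρ ≤ K * ρ := Nat.mul_le_mul_right _ (by omega)
  choose 𝒢 g1 g2 g3 using fun p => greedy p (ρ := K * ρ) (B := B) (by omega) P hP
  obtain ⟨T, hT⟩ : ∃ T, T = P.card / (K * ρ) := ⟨_, rfl⟩
  have hF : Fam 𝒢 T := fun p =>
    ⟨g1 p, hT ▸ (Nat.le_div_iff_mul_le (by omega)).2 (g2 p)⟩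
  have t1 : T * (K * ρ) ≤ P.card := hT ▸ Nat.div_mul_le_self _ _
  have t2 : T ^ 3 * K ≤ P.card := by
    have a1 : (T * (K * ρ)) ^ 3 ≤ P.card ^ 3 := Nat.pow_le_pow_left t1 3
    have a2 : T ^ 3 * K ^ 3 * P.card ^ 2 ≤ P.card * P.card ^ 2 :=
      calc _ ≤ T ^ 3 * K ^ 3 * ρ ^ 3 := Nat.mul_le_mul_left _ h1
        _ = (T * (K * ρ)) ^ 3 := by ring
        _ ≤ P.card ^ 3 := a1
        _ = _ := by ring
    have a3 := Nat.le_of_mul_le_mul_right a2 (Nat.pow_pos (by omega))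
    exact (Nat.mul_le_mul_left _ (Nat.le_self_pow (by norm_num) K)).trans a3
  have t3 : T * (nD P + 1) * K ≤ P.card :=
    calc _ ≤ T * ρ * K := Nat.mul_le_mul_right _ (Nat.mul_le_mul_left _ h3)
      _ = T * (K * ρ) := by ring
      _ ≤ _ := t1
  have t4 : T ^ 2 ≤ T ^ 3 := by
    rcases Nat.eq_zero_or_pos T with h | h
    · simp [h]
    · exact Nat.pow_le_pow_right h (by norm_num)
  have hr := hC₀ P 𝒢 T 65536 B hF hP (by
    have b1 : C₀ * T ^ 2 ≤ C₀ * T ^ 3 := Nat.mul_le_mul_left _ t4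
    have b2 : K * (B + 1) ≤ P.card := h2.trans h4
    rw [hK] at t2 t3 b2
    nlinarith [Nat.zero_le (T ^ 3), Nat.zero_le (T * (nD P + 1)), Nat.zero_le (C₀ * B),
      Nat.zero_le (C₀ * (T * (nD P + 1)))])
  have hb := beck3 (S := P) (L := B) (fun x _ y _ h => goodp_line hP h) 65537
  obtain ⟨U, hU⟩ : ∃ U, U = P.offDiag.filter fun e => rich P e.1 e.2 ≤ 65536 ∧
    (∀ G ∈ 𝒢 e.1, eval (cv (e.2 - e.1)) G ≠ 0) ∧ ∀ G ∈ 𝒢 e.2, eval (cv (e.1 - e.2)) G ≠ 0 :=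
    ⟨_, rfl⟩
  have hsw : ∀ e ∈ P.offDiag, e.swap ∈ P.offDiag := fun e he => by
    obtain ⟨a1, a2, a3⟩ := mem_offDiag.1 he
    exact mem_offDiag.2 ⟨a2, a1, a3.symm⟩
  refine ⟨U, hU ▸ filter_subset _ _, fun e he => ?_, ?_, fun p => ⟨?_, fun v hv => ?_,
    fun φ δ hφ hδ => ?_⟩⟩
  · rw [hU, mem_filter] at he ⊢
    exact ⟨hsw e he.1, (goodp_symm P _ _).trans_le he.2.1, he.2.2.2, he.2.2.1⟩
  · have s1 : P.offDiag ⊆ ((U ∪ P.offDiag.filter fun e => 65537 ≤ rich P e.1 e.2) ∪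
        badE P 𝒢 65536) ∪ (badE P 𝒢 65536).image Prod.swap := fun e he => by
      simp only [mem_union]
      by_cases a1 : rich P e.1 e.2 ≤ 65536
      swap
      · exact Or.inl (Or.inl (Or.inr (mem_filter.2 ⟨he, by omega⟩)))
      by_cases a2 : ∃ G ∈ 𝒢 e.1, eval (cv (e.2 - e.1)) G = 0
      · exact Or.inl (Or.inr (mem_filter.2 ⟨he, a1, a2⟩))
      by_cases a3 : ∃ G ∈ 𝒢 e.2, eval (cv (e.1 - e.2)) G = 0
      · exact Or.inr (mem_image.2 ⟨e.swap,
          mem_filter.2 ⟨hsw e he, (goodp_symm P _ _).trans_le a1, a3⟩, Prod.swap_swap e⟩)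
      refine Or.inl (Or.inl (Or.inl ?_))
      rw [hU, mem_filter]
      exact ⟨he, a1, fun G hG h => a2 ⟨G, hG, h⟩, fun G hG h => a3 ⟨G, hG, h⟩⟩
    have s2 := (card_le_card s1).trans ((card_union_le _ _).trans (add_le_add
      ((card_union_le _ _).trans (add_le_add_left (card_union_le _ _) _)) card_image_le))
    rw [offDiag_card] at s2
    have s3 : P.card * (65536 * (B + 1)) ≤ P.card * P.card :=
      Nat.mul_le_mul_left _ ((Nat.mul_le_mul_right _ hK1).trans (h2.trans h4))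
    have s4 : P.card * (65536 * (B + 1)) = 65536 * (P.card * B) + 65536 * P.card := by ring
    rw [mul_assoc] at hb
    rw [pow_two] at hr hb ⊢
    omega
  · intro h
    rw [hU] at h
    exact (mem_offDiag.1 (mem_filter.1 (mem_filter.1 h).2).1).2.2 rfl
  · rcases ((P.filter fun x => (p, x) ∈ U).filter
      fun x => v ⨯₃ (x - p) = 0).eq_empty_or_nonempty with h | ⟨x₀, h⟩
    · rw [h]
      simp
    · obtain ⟨a1, a2⟩ := mem_filter.1 h
      have a3 := (mem_filter.1 a1).2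
      rw [hU] at a3
      refine le_trans (card_le_card fun x hx => ?_) (mem_filter.1 a3).2.1
      obtain ⟨b1, b2⟩ := mem_filter.1 hx
      exact mem_filter.2 ⟨(mem_filter.1 b1).1, goodp_par hv a2 b2⟩
  · refine le_trans (card_le_card fun x hx => ?_) (g3 p φ δ hφ hδ)
    obtain ⟨b1, b2⟩ := mem_filter.1 hx
    obtain ⟨b3, b4⟩ := mem_filter.1 b1
    rw [hU] at b4
    exact mem_filter.2 ⟨b3, (mem_filter.1 b4).2.2.1, b2⟩

theorem goodp_energy {α β : Type*} [DecidableEq α] [DecidableEq β] (f : α → α → β)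
    {P : Finset α} {U : Finset (α × α)} {D : Finset β} (hU : U ⊆ P ×ˢ P)
    (hm : ∀ e ∈ U, f e.1 e.2 ∈ D) :
    U.card ^ 2 ≤ D.card * (((P ×ˢ P) ×ˢ (P ×ˢ P)).filter fun e => (e.1.1, e.2.1) ∈ U ∧
      (e.1.2, e.2.2) ∈ U ∧ f e.1.1 e.2.1 = f e.1.2 e.2.2).card := by
  rw [card_eq_sum_card_fiberwise (f := fun e : α × α => f e.1 e.2) (t := D)
    fun e he => mem_coe.2 (hm e (mem_coe.1 he))]
  refine sq_sum_le_card_mul_sum_sq.trans (Nat.mul_le_mul_left _ ?_)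
  rw [card_eq_sum_card_fiberwise (f := fun e : (α × α) × (α × α) => f e.1.1 e.2.1) (t := D)
    fun e he => mem_coe.2 (hm (e.1.1, e.2.1) (mem_filter.1 (mem_coe.1 he)).2.1)]
  refine sum_le_sum fun d _ => ?_
  rw [pow_two, ← card_product]
  refine card_le_card_of_injOn (fun e => ((e.1.1, e.2.1), (e.1.2, e.2.2))) (fun e he => ?_) ?_
  · obtain ⟨a1, a2⟩ := mem_product.1 (mem_coe.1 he)
    obtain ⟨b1, b2⟩ := mem_filter.1 a1
    obtain ⟨c1, c2⟩ := mem_filter.1 a2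
    obtain ⟨d1, d2⟩ := mem_product.1 (hU b1)
    obtain ⟨d3, d4⟩ := mem_product.1 (hU c1)
    exact mem_coe.2 (mem_filter.2 ⟨mem_filter.2 ⟨mem_product.2
      ⟨mem_product.2 ⟨d1, d3⟩, mem_product.2 ⟨d2, d4⟩⟩, b1, c1, b2.trans c2.symm⟩, b2⟩)
  · rintro ⟨⟨a, b⟩, c, d⟩ _ ⟨⟨a', b'⟩, c', d'⟩ _ h
    simp only [Prod.mk.injEq] at h ⊢
    tauto

theorem energy {P : Finset V} {U : Finset (V × V)} (hU : U ⊆ P.offDiag) :
    U.card ^ 2 ≤ nD P * (((P ×ˢ P) ×ˢ (P ×ˢ P)).filter fun e => (e.1.1, e.2.1) ∈ U ∧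
      (e.1.2, e.2.2) ∈ U ∧ sq e.1.1 e.2.1 = sq e.1.2 e.2.2).card := by
  have h := goodp_energy sq (P := P) (U := U) (D := P.offDiag.image fun e => sq e.1 e.2)
    (fun e he => mem_product.2 ⟨(mem_offDiag.1 (hU he)).1, (mem_offDiag.1 (hU he)).2.1⟩)
    fun e he => mem_image.2 ⟨e, hU he, rfl⟩
  exact h

theorem prune {α : Type*} {adj : α → α → Prop} (hs : ∀ a b, adj a b → adj b a) {M : ℕ}
    (X : Finset α) (h : ∀ G ⊆ X, G.Nonempty → ∃ z ∈ G, (G.filter (adj z)).card ≤ M) :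
    ((X ×ˢ X).filter fun e => adj e.1 e.2).card ≤ 2 * X.card * M := by
  induction X using Finset.strongInduction with
  | H X ih =>
    rcases X.eq_empty_or_nonempty with rfl | hX
    · simp
    obtain ⟨z, hz, hd⟩ := h X Subset.rfl hX
    have h1 := ih (X.erase z) (erase_ssubset hz) fun G hG => h G (hG.trans (erase_subset _ _))
    have s1 : ((X ×ˢ X).filter fun e => adj e.1 e.2) ⊆
        (((X.erase z ×ˢ X.erase z).filter fun e => adj e.1 e.2) ∪
          (X.filter (adj z)).image fun w => (z, w)) ∪ (X.filter (adj z)).image fun w => (w, z) := by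
      rintro ⟨a, b⟩ he
      obtain ⟨a1, a2⟩ := mem_filter.1 he
      obtain ⟨a3, a4⟩ := mem_product.1 a1
      simp only [mem_union]
      by_cases b1 : a = z
      · subst b1
        exact Or.inl (Or.inr (mem_image.2 ⟨b, mem_filter.2 ⟨a4, a2⟩, rfl⟩))
      by_cases b2 : b = z
      · subst b2
        exact Or.inr (mem_image.2 ⟨a, mem_filter.2 ⟨a3, hs _ _ a2⟩, rfl⟩)
      exact Or.inl (Or.inl (mem_filter.2
        ⟨mem_product.2 ⟨mem_erase.2 ⟨b1, a3⟩, mem_erase.2 ⟨b2, a4⟩⟩, a2⟩))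
    have s2 := (card_le_card s1).trans ((card_union_le _ _).trans (add_le_add
      ((card_union_le _ _).trans (add_le_add h1 (card_image_le.trans hd)))
      (card_image_le.trans hd)))
    rw [← card_erase_add_one hz]
    refine s2.trans (le_of_eq ?_)
    ring

end Vale.Agent.P054
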