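import Vale.Agent.P054.Dim

/-! Hilb: Hilbert function bounds (about 250 lines).
`hilb2`: let `V T` be the polynomials of degree `≤ T`, `a, b` the degrees. For `T ≥ a + b` the kernel of `φ` on `V T` contains `h V(T-a) + g V(T-b)`, and the intersection of the two summands is `h g V(T-a-b)` (`IsRelPrime.dvd_of_dvd_mul_left`, `totalDegree_mul_of_isDomain`). With `f T = C(T+n+2, n+2)` the second difference `f T - f(T-a) - f(T-b) + f(T-a-b)` is a sum of `a b` terms `C(j+n, n) ≤ C(T+n, n)`. For `T < a + b` use `φ(V T) ≤ φ(V (a+b))` only if convenient; the statement assumes `a + b ≤ T`.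
`hilb1`: the same with one form `G` in three variables. `growth`: arithmetic. `relPrime_map`: `IsRelPrime g₁ g₂` iff `g₂ ∣ g₁ A → g₂ ∣ A`; expand `A` and the cofactor in a basis of `L` over `F`; conversely a common factor `d` of the images gives `A = g₂/d` of smaller degree.
-/

noncomputable section

open Classical MvPolynomial Matrix Finset

namespace Vale.Agent.P054

variable {σ F : Type*} [Fintype σ] [Field F]

theorem hilb_rank {M N : Type*} [AddCommGroup M] [Module F M] [AddCommGroup N] [Module F N]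
    (φ : N →ₗ[F] M) {U W : Submodule F N} [Module.Finite F U] (h1 : W ≤ U)
    (h2 : W ≤ LinearMap.ker φ) :
    Module.finrank F (U.map φ) + Module.finrank F W ≤ Module.finrank F U := by
  rw [← (φ.domRestrict U).finrank_range_add_finrank_ker, LinearMap.range_domRestrict,
    ← (Submodule.comapSubtypeEquivOfLe h1).finrank_eq]
  exact Nat.add_le_add_left (Submodule.finrank_mono (s := W.comap U.subtype)
    (t := LinearMap.ker (φ.domRestrict U)) fun x hx => h2 hx) _

omit [Fintype σ] in
theorem hilb_mul {h : MvPolynomial σ F} (hh : h ≠ 0) (U : Submodule F (MvPolynomial σ F)) :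
    Module.finrank F (U.map (LinearMap.mulLeft F h)) = Module.finrank F U :=
  (Submodule.equivMapOfInjective (LinearMap.mulLeft F h) (mul_right_injective₀ hh) U).finrank_eq.symm

theorem hilb_c1 (N k a : ℕ) :
    (k + a + (N + 1)).choose (N + 1) ≤ (k + (N + 1)).choose (N + 1) + a * (k + a + N).choose N := by
  induction a with
  | zero => simp
  | succ a ih =>
    have h1 : (k + (a + 1) + (N + 1)).choose (N + 1) =
        (k + (a + 1) + N).choose N + (k + a + (N + 1)).choose (N + 1) := by
      rw [← add_assoc, Nat.choose_succ_succ', show k + (a + 1) + N = k + a + (N + 1) by ring]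
    have h2 : (k + a + N).choose N ≤ (k + (a + 1) + N).choose N :=
      Nat.choose_le_choose N (by omega)
    have h3 := Nat.mul_le_mul_left a h2
    rw [h1, add_mul, one_mul]
    omega

theorem hilb_c2 (n k a b : ℕ) :
    (k + a + b + (n + 2)).choose (n + 2) + (k + (n + 2)).choose (n + 2) ≤
      (k + a + (n + 2)).choose (n + 2) + (k + b + (n + 2)).choose (n + 2) +
        a * b * (k + a + b + n).choose n := by
  induction b with
  | zero => simp
  | succ b ih =>
    have h0 : ∀ j, (j + 1 + (n + 2)).choose (n + 2) =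
        (j + 1 + (n + 1)).choose (n + 1) + (j + (n + 2)).choose (n + 2) := fun j => by
      rw [show j + 1 + (n + 2) = j + 1 + (n + 1) + 1 by ring, Nat.choose_succ_succ',
        show j + 1 + (n + 1) = j + (n + 2) by ring]
    have h1 := hilb_c1 n (k + b + 1) a
    have h2 : (k + a + b + n).choose n ≤ (k + a + b + 1 + n).choose n :=
      Nat.choose_le_choose n (by omega)
    have h3 := Nat.mul_le_mul_left (a * b) h2
    rw [show k + b + 1 + a = k + a + b + 1 by ring] at h1
    rw [← add_assoc (k + a), ← add_assoc k b, h0, h0, mul_add, add_mul, mul_one]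
    omega

omit [Fintype σ] in
theorem hilb_le {h : MvPolynomial σ F} {k T : ℕ} (hT : h.totalDegree + k ≤ T) :
    (restrictTotalDegree σ F k).map (LinearMap.mulLeft F h) ≤ restrictTotalDegree σ F T := by
  rintro _ ⟨A, hA, rfl⟩
  exact (mem_restrictTotalDegree _ _ _).2 ((totalDegree_mul h A).trans
    ((Nat.add_le_add_left ((mem_restrictTotalDegree _ _ _).1 hA) _).trans hT))

theorem hilb2 {M : Type*} [AddCommGroup M] [Module F M] (n : ℕ) (hσ : Fintype.card σ = n + 2)
    {h g : MvPolynomial σ F} (hh : h ≠ 0) (hg : g ≠ 0) (hr : IsRelPrime h g)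
    (φ : MvPolynomial σ F →ₗ[F] M) (h1 : ∀ A, φ (h * A) = 0) (h2 : ∀ A, φ (g * A) = 0) {T : ℕ}
    (hT : h.totalDegree + g.totalDegree ≤ T) :
    Module.finrank F ((restrictTotalDegree σ F T).map φ) ≤
      h.totalDegree * g.totalDegree * (T + n).choose n := by
  obtain ⟨k, rfl⟩ : ∃ k, T = k + h.totalDegree + g.totalDegree :=
    ⟨T - (h.totalDegree + g.totalDegree), by omega⟩
  have a1 := hilb_rank φ (U := restrictTotalDegree σ F (k + h.totalDegree + g.totalDegree))
    (W := (restrictTotalDegree σ F (k + g.totalDegree)).map (LinearMap.mulLeft F h) ⊔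
      (restrictTotalDegree σ F (k + h.totalDegree)).map (LinearMap.mulLeft F g))
    (sup_le (hilb_le (by omega)) (hilb_le (by omega)))
    (sup_le (by rintro _ ⟨A, -, rfl⟩; exact h1 A) (by rintro _ ⟨A, -, rfl⟩; exact h2 A))
  have a2 := Submodule.finrank_sup_add_finrank_inf_eq
    ((restrictTotalDegree σ F (k + g.totalDegree)).map (LinearMap.mulLeft F h))
    ((restrictTotalDegree σ F (k + h.totalDegree)).map (LinearMap.mulLeft F g))
  have a3 : (restrictTotalDegree σ F (k + g.totalDegree)).map (LinearMap.mulLeft F h) ⊓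
      (restrictTotalDegree σ F (k + h.totalDegree)).map (LinearMap.mulLeft F g) ≤
      (restrictTotalDegree σ F k).map (LinearMap.mulLeft F (h * g)) := by
    rintro _ ⟨⟨A, hA, rfl⟩, B, -, hB⟩
    obtain ⟨E, rfl⟩ : g ∣ A := hr.symm.dvd_of_dvd_mul_left ⟨B, hB.symm⟩
    refine ⟨E, (mem_restrictTotalDegree _ _ _).2 ?_, mul_assoc _ _ _⟩
    by_cases hE : E = 0
    · simp [hE]
    · have := (mem_restrictTotalDegree _ _ _).1 hA
      rw [totalDegree_mul_of_isDomain hg hE] at this
      omega
  have a4 := Submodule.finrank_mono a3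
  have a5 := hilb_c2 n k h.totalDegree g.totalDegree
  rw [hilb_mul hh, hilb_mul hg, finrank_le_deg, finrank_le_deg, hσ] at a2
  rw [hilb_mul (mul_ne_zero hh hg), finrank_le_deg, hσ] at a4
  rw [finrank_le_deg, hσ] at a1
  omega

theorem hilb1 {M : Type*} [AddCommGroup M] [Module F M] {G : MvPolynomial (Fin 3) F} {δ : ℕ}
    (hG : G.IsHomogeneous δ) (h0 : G ≠ 0) (φ : MvPolynomial (Fin 3) F →ₗ[F] M)
    (h1 : ∀ A, φ (G * A) = 0) (T : ℕ) :
    Module.finrank F ((homogeneousSubmodule (Fin 3) F T).map φ) ≤ δ * (T + 1) := by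
  have := finite_hom (σ := Fin 3) (F := F) T
  rcases lt_or_ge T δ with hT | hT
  · have a1 := Submodule.finrank_map_le φ (homogeneousSubmodule (Fin 3) F T)
    have a2 := hilb_c1 1 0 T
    have a3 := Nat.mul_le_mul_right (T + 1) (Nat.succ_le_of_lt hT)
    rw [finrank_hom 2 T (by simp)] at a1
    rw [Nat.succ_mul] at a3
    simp only [zero_add, Nat.choose_self, Nat.choose_one_right, Nat.reduceAdd] at a2
    omega
  · obtain ⟨k, rfl⟩ : ∃ k, T = k + δ := ⟨T - δ, by omega⟩
    have a1 := hilb_rank φ (U := homogeneousSubmodule (Fin 3) F (k + δ))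
      (W := (homogeneousSubmodule (Fin 3) F k).map (LinearMap.mulLeft F G))
      (by
        rintro _ ⟨A, hA, rfl⟩
        rw [add_comm]
        exact hG.mul hA)
      (by rintro _ ⟨A, -, rfl⟩; exact h1 A)
    have a2 := hilb_c1 1 k δ
    rw [hilb_mul h0, finrank_hom 2 _ (by simp), finrank_hom 2 _ (by simp)] at a1
    simp only [Nat.choose_one_right, Nat.reduceAdd] at a2
    omega

theorem growth {a : ℕ → ℕ} {m τ e c j₀ : ℕ} (h1 : ∀ j, j₀ ≤ j → m + a j ≤ a (j + τ))
    (h2 : ∀ j, j₀ ≤ j → a j ≤ e * j + c) : m ≤ e * τ := by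
  have key : ∀ i, i * m ≤ a (j₀ + i * τ) := fun i => by
    induction i with
    | zero => simp
    | succ i ih =>
      have := h1 (j₀ + i * τ) (Nat.le_add_right _ _)
      rw [Nat.succ_mul, Nat.succ_mul, ← add_assoc]
      omega
  by_contra h
  have a1 := (key (e * j₀ + c + 1)).trans (h2 _ (Nat.le_add_right _ _))
  have a2 := Nat.mul_le_mul_left (e * j₀ + c + 1) (Nat.succ_le_of_lt (not_le.1 h))
  nlinarith

/-- a linear form applied to the coefficients -/
def hilbCo {L : Type*} [Field L] [Algebra F L] (l : L →ₗ[F] F) (A : MvPolynomial σ L) :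
    MvPolynomial σ F := ∑ m ∈ A.support, monomial m (l (coeff m A))

omit [Fintype σ] in
theorem hilbCo_coeff {L : Type*} [Field L] [Algebra F L] (l : L →ₗ[F] F) (A : MvPolynomial σ L)
    (m : σ →₀ ℕ) : coeff m (hilbCo l A) = l (coeff m A) := by
  simp only [hilbCo, coeff_sum, coeff_monomial, Finset.sum_ite_eq', mem_support_iff]
  split_ifs with h
  · rfl
  · rw [not_not.1 h, map_zero]

omit [Fintype σ] in
theorem hilbCo_mul {L : Type*} [Field L] [Algebra F L] (l : L →ₗ[F] F) (g : MvPolynomial σ F)
    (A : MvPolynomial σ L) :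
    hilbCo l (MvPolynomial.map (algebraMap F L) g * A) = g * hilbCo l A := by
  ext m
  simp only [hilbCo_coeff, coeff_mul, map_sum, coeff_map, ← Algebra.smul_def, map_smul,
    smul_eq_mul]

omit [Fintype σ] in
theorem hilb_dvd {L : Type*} [Field L] [Algebra F L] {g : MvPolynomial σ F} {A : MvPolynomial σ L}
    (h : ∀ l : L →ₗ[F] F, g ∣ hilbCo l A) : MvPolynomial.map (algebraMap F L) g ∣ A := by
  let b := Module.Basis.ofVectorSpace F L
  have e : A = ∑ i ∈ A.support.biUnion fun m => (b.repr (coeff m A)).support,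
      C (b i) * MvPolynomial.map (algebraMap F L) (hilbCo (b.coord i) A) := by
    ext m
    simp only [coeff_sum, coeff_C_mul, coeff_map, hilbCo_coeff, Module.Basis.coord_apply]
    have h1 := b.linearCombination_repr (coeff m A)
    rw [Finsupp.linearCombination_apply, Finsupp.sum_of_support_subset
      (s := A.support.biUnion fun m => (b.repr (coeff m A)).support) _ ?_ (fun i a => a • b i)
      fun i _ => zero_smul _ _] at h1
    · refine h1.symm.trans (Finset.sum_congr rfl fun i _ => ?_)
      rw [Algebra.smul_def, mul_comm]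
    · by_cases hm : m ∈ A.support
      · exact Finset.subset_biUnion_of_mem (fun m => (b.repr (coeff m A)).support) hm
      · rw [notMem_support_iff.1 hm, map_zero, Finsupp.support_zero]
        exact Finset.empty_subset _
  rw [e]
  exact Finset.dvd_sum fun i _ => (map_dvd _ (h _)).mul_left _

theorem relPrime_map {L : Type*} [Field L] [Algebra F L] {g₁ g₂ : MvPolynomial σ F} (h1 : g₁ ≠ 0)
    (h2 : g₂ ≠ 0) (hr : IsRelPrime g₁ g₂) :
    IsRelPrime (MvPolynomial.map (algebraMap F L) g₁) (MvPolynomial.map (algebraMap F L) g₂) := by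
  have _ := h1
  rintro d ⟨B, hB⟩ ⟨A, hA⟩
  have e : MvPolynomial.map (algebraMap F L) g₁ * A = MvPolynomial.map (algebraMap F L) g₂ * B := by
    rw [hA, hB]
    ring
  obtain ⟨E, hE⟩ : MvPolynomial.map (algebraMap F L) g₂ ∣ A := hilb_dvd fun l =>
    hr.symm.dvd_of_dvd_mul_left ⟨hilbCo l B, by rw [← hilbCo_mul, e, hilbCo_mul]⟩
  have h3 : MvPolynomial.map (algebraMap F L) g₂ ≠ 0 := fun h0 =>
    h2 (MvPolynomial.map_injective _ (algebraMap F L).injective (by rw [h0, map_zero]))
  refine IsUnit.of_mul_eq_one E (mul_left_cancel₀ h3 ?_)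
  rw [mul_one, mul_left_comm, ← hE, ← hA]

end Vale.Agent.P054
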