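import Vale.Agent.P054.Jet

/-! OrdJ: from tangent jets to the vanishing order (about 250 lines).
`JK.mul`, `JK.add`, `JK_h`: induction on `k` (`tD (c * g) = c * tD g + tD c * g`, `tD h = 0`, use `JK.mono`).
`ord_of_JK`: induction: assume `Ord y l F`, `l < k`, let `H` be the component of degree `l` of `shift y F`. For a derivation `D = ∑ a_j ∂_j` with polynomial coefficients and `Ord y l F` one has `Ord y (l-1) (D F)` and its lowest form is `∑ a_j(y) ∂_j H`. So all words of length `l` in `D_j = n ∂_j - h_j ∂_e` and `∂_e` (with the `∂_e` innermost) kill `H`; these constant coefficient derivations commute and span all `∂_j` because `n ≠ 0`; a form of degree `l` killed by all words of length `l` in the `∂_j` is zero in characteristic zero.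
A convenient induction: prove for every form `H` of degree `l`: if for all `i ≤ l` all words of length `l - i` in the `D_j` kill `∂_e^i H` then `H = 0` (apply the hypothesis to `∂_e H` and to `D_j H`, then Euler identity `IsHomogeneous.sum_X_mul_pderiv`).
-/

noncomputable section

open Classical MvPolynomial Matrix Finset

namespace Vale.Agent.P054

variable {σ : Type*} [Fintype σ] {h : MvPolynomial σ ℂ} {e : σ} {y : σ → ℂ}

omit [Fintype σ] in
theorem ordJ_mul (j : σ) (g c : MvPolynomial σ ℂ) :
    tD h e j (g * c) = tD h e j g * c + g * tD h e j c := by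
  simp only [tD, pderiv_mul]
  ring

theorem JK.mono {k l : ℕ} {g : MvPolynomial σ ℂ} (hg : JK h e y k g) (hl : l ≤ k) :
    JK h e y l g := by
  induction l generalizing k g with
  | zero => trivial
  | succ l ih =>
    obtain ⟨k, rfl⟩ := Nat.exists_eq_add_one_of_ne_zero (n := k) (by omega)
    exact ⟨hg.1, fun j => ih (hg.2 j) (by omega)⟩

theorem JK.add {k : ℕ} {g g' : MvPolynomial σ ℂ} (hg : JK h e y k g) (hg' : JK h e y k g') :
    JK h e y k (g + g') := by
  induction k generalizing g g' with
  | zero => trivial
  | succ k ih =>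
    refine ⟨by rw [map_add, hg.1, hg'.1, add_zero], fun j => ?_⟩
    have e1 : tD h e j (g + g') = tD h e j g + tD h e j g' := by
      simp only [tD, map_add]
      ring
    rw [e1]
    exact ih (hg.2 j) (hg'.2 j)

theorem JK.mul {k : ℕ} {g : MvPolynomial σ ℂ} (hg : JK h e y k g) (c : MvPolynomial σ ℂ) :
    JK h e y k (g * c) := by
  induction k generalizing g c with
  | zero => trivial
  | succ k ih =>
    refine ⟨by rw [map_mul, hg.1, zero_mul], fun j => ?_⟩
    rw [ordJ_mul]
    exact (ih (hg.2 j) c).add (ih (hg.mono k.le_succ) _)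

theorem JK_h (hy : eval y h = 0) (k : ℕ) : JK h e y k h := by
  induction k with
  | zero => trivial
  | succ k ih =>
    refine ⟨hy, fun j => ?_⟩
    have e1 : tD h e j h = h * 0 := by
      simp only [tD]
      ring
    rw [e1]
    exact ih.mul 0

theorem ordJ_cancel {n : MvPolynomial σ ℂ} (hn : eval y n ≠ 0) {k : ℕ} {g : MvPolynomial σ ℂ}
    (hg : JK h e y k (g * n)) : JK h e y k g := by
  induction k generalizing g with
  | zero => trivial
  | succ k ih =>
    have h1 := hg.1
    rw [map_mul] at h1
    refine ⟨(mul_eq_zero.1 h1).resolve_right hn, fun j => ih ?_⟩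
    have e1 : tD h e j g * n = tD h e j (g * n) + g * -tD h e j n := by
      rw [ordJ_mul]
      ring
    rw [e1]
    exact (hg.2 j).add ((ih (hg.mono k.le_succ)).mul _)

omit [Fintype σ] in
theorem ordJ_comm (i j : σ) (F : MvPolynomial σ ℂ) :
    pderiv i (pderiv j F) = pderiv j (pderiv i F) := by
  ext m
  simp only [coeff_pderiv, Finsupp.add_apply, Finsupp.single_apply, add_right_comm m]
  by_cases hij : i = j
  · rw [hij]
  · rw [if_neg hij, if_neg (Ne.symm hij), add_zero, add_zero, mul_right_comm]

omit [Fintype σ] in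
theorem ordJ_shift (j : σ) (F : MvPolynomial σ ℂ) :
    pderiv j (shift y F) = shift y (pderiv j F) := by
  induction F using MvPolynomial.induction_on with
  | C a => simp [shift]
  | add p q hp hq => simp only [map_add, hp, hq]
  | mul_X p i hp =>
    simp only [map_mul, map_add, pderiv_mul, hp]
    by_cases hij : i = j
    · simp [shift, hij]
    · simp [shift, pderiv_X_of_ne hij]

omit [Fintype σ] in
theorem ordJ_coeff (F : MvPolynomial σ ℂ) : constantCoeff (shift y F) = eval y F := by
  induction F using MvPolynomial.induction_on with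
  | C a => simp [shift]
  | add p q hp hq => simp only [map_add, hp, hq]
  | mul_X p i hp =>
    simp only [map_mul, hp]
    simp [shift]

omit [Fintype σ] in
theorem ordJ_succ {k : ℕ} {F : MvPolynomial σ ℂ} (h0 : eval y F = 0)
    (h1 : ∀ j, Ord y k (pderiv j F)) : Ord y (k + 1) F := by
  refine (mem_pow_idealOfVars_iff _ _).2 fun x hx => ?_
  have hx0 : x ≠ 0 := by
    rintro rfl
    exact mem_support_iff.1 hx ((ordJ_coeff F).trans h0)
  obtain ⟨j, hj⟩ := Finsupp.ne_iff.1 hx0
  obtain ⟨m, rfl⟩ := exists_add_of_le (Finsupp.single_le_iff.2 (Nat.one_le_iff_ne_zero.2 hj))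
  have k1 := (mem_pow_idealOfVars_iff _ _).1 (h1 j) m (by
    rw [mem_support_iff, ← ordJ_shift, coeff_pderiv, add_comm m]
    exact mul_ne_zero (mem_support_iff.1 hx) (Nat.cast_add_one_ne_zero _))
  rw [map_add, Finsupp.degree_single]
  omega

theorem ordJ_main (hn : eval y (pderiv e h) ≠ 0) {k : ℕ} {F : MvPolynomial σ ℂ}
    (hF : ∀ i, JK h e y (k - i) ((pderiv e)^[i] F)) : Ord y k F := by
  induction k generalizing F with
  | zero => simp [Ord]
  | succ k ih =>
    refine ordJ_succ (hF 0).1 fun j => ih fun i => ?_
    rcases lt_or_ge k i with hi | hi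
    · rw [Nat.sub_eq_zero_of_le hi.le]
      trivial
    rw [(Function.Commute.iterate_left (fun G => ordJ_comm e j G) i).eq]
    refine ordJ_cancel hn ?_
    have h1 := hF (i + 1)
    rw [Nat.add_sub_add_right, Function.iterate_succ_apply'] at h1
    have e1 : pderiv j ((pderiv e)^[i] F) * pderiv e h =
        tD h e j ((pderiv e)^[i] F) + pderiv e ((pderiv e)^[i] F) * pderiv j h := by
      simp only [tD]
      ring
    rw [e1]
    exact (((hF i).mono (l := k - i + 1) (by omega)).2 j).add (h1.mul _)

theorem ord_of_JK (hn : eval y (pderiv e h) ≠ 0) {k : ℕ} {F : MvPolynomial σ ℂ}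
    (hF : ∀ i < k, JK h e y k ((pderiv e)^[i] F)) : Ord y k F := by
  refine ordJ_main hn fun i => ?_
  rcases lt_or_ge i k with hi | hi
  · exact (hF i hi).mono (Nat.sub_le _ _)
  · rw [Nat.sub_eq_zero_of_le hi]
    trivial

end Vale.Agent.P054
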