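import Vale.Agent.P054.Flat
import Vale.Agent.P054.OrdJ
import Vale.Agent.P054.Chud
import Vale.Agent.P054.Hilb

/-! LStar: low degree polynomials vanishing on the flats are multiples of `h` (about 300 lines).
`tD_vanish`: at a common point of the flats of `z` and `w`, `grad_flat` for `h` and `g` gives that `h_σ` and `g_σ` are parallel to `w.1 - z.1 ≠ 0` and `h_s = y × h_σ`, `g_s = y × g_σ`, so the gradients are proportional; `NC.vanish`.
`lstar`: suppose `¬ h ∣ g`. With `r = deg h`, `m = 5329 C`, `T = 438 C r`: iterating `tD_vanish` gives `JK h (inr e) x m g` at all points `x` of the flats. The map `F ↦ (∂^i F mod (h, g))_{i < m}` on degree `≤ T` has a kernel element `F ≠ 0` because `m r (C r) C(T+4,4) < C(T+6,6)` (`hilb2` with `n = 4`, `finrank_le_deg`). By `JK.add`, `JK.mul`, `JK_h`, `ord_of_JK`, `F` has order `m` on `Y = {fp z s | z ∈ G, ∂ h ≠ 0 there}`; `chud` gives `G₀` with `73 deg G₀ ≤ 36 r` vanishing on `Y`, so `res z (G₀ * ∂ h) = 0`, `res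 z G₀ = 0`, against `Sit.min`.
-/

noncomputable section

open Classical MvPolynomial Matrix Finset

namespace Vale.Agent.P054

variable {adj : Z ℂ → Z ℂ → Prop} {B A : ℕ} {G : Finset (Z ℂ)} {h : P6} {e : Fin 3}

theorem Sit.pos (hS : Sit adj B G h e A) : 1 ≤ h.totalDegree := by
  obtain ⟨z, hz⟩ := hS.ne
  refine Nat.one_le_iff_ne_zero.2 fun h0 => hS.nsing z hz ?_
  rw [totalDegree_eq_zero_iff_eq_C.1 h0, pderiv_C, map_zero]

theorem lstar_cross {α a : Fin 3 → ℂ} (ha : α ⨯₃ a = 0) (i j : Fin 3) : α i * a j = α j * a i := by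
  have h0 := congrFun ha 0
  have h1 := congrFun ha 1
  have h2 := congrFun ha 2
  simp only [cross_apply, Matrix.cons_val, Pi.zero_apply, sub_eq_zero] at h0 h1 h2
  fin_cases i <;> fin_cases j
  exacts [rfl, h2, h1.symm, h2.symm, rfl, h0, h1, h0.symm, rfl]

theorem lstar_par {α a b : Fin 3 → ℂ} (h0 : α ≠ 0) (ha : α ⨯₃ a = 0) (hb : α ⨯₃ b = 0)
    (i : Fin 3) : a i • b = b i • a := by
  obtain ⟨k, hk⟩ := Function.ne_iff.1 h0
  funext j
  refine mul_left_cancel₀ hk ?_
  simp only [Pi.smul_apply, smul_eq_mul]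
  linear_combination a i * lstar_cross hb k j - a j * lstar_cross hb k i - b k * lstar_cross ha i j

theorem lstar_deg {σ : Type*} [Fintype σ] (h g : MvPolynomial σ ℂ) (e j : σ) :
    (tD h e j g).totalDegree ≤ g.totalDegree + h.totalDegree := by
  have h1 := fun a b => (totalDegree_mul (pderiv a h) (pderiv b g)).trans
    (Nat.add_le_add ((degree_pderiv_le h a).trans (Nat.sub_le _ _))
      ((degree_pderiv_le g b).trans (Nat.sub_le _ _)))
  exact (totalDegree_sub _ _).trans ((max_le (h1 _ _) (h1 _ _)).trans (Nat.add_comm _ _).le)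

theorem Sit.tD_vanish (hS : Sit adj B G h e A) {g : P6}
    (hg : g.totalDegree + h.totalDegree ≤ A * h.totalDegree) (hv : ∀ z ∈ G, res z g = 0) (j : S6) :
    ∀ z ∈ G, res z (tD h (.inr e) j g) = 0 := by
  intro z hz
  refine hS.nc.vanish hz ((lstar_deg h g _ j).trans hg) fun w hw hzw s hs => ?_
  have h1 : ∀ f : P6, (∀ z ∈ G, res z f = 0) →
      (w.1 - z.1) ⨯₃ (fun i => gr f (fp z s) (.inr i)) = 0 := fun f hf => by
    rw [map_sub, LinearMap.sub_apply, ← grad_flat (hf z hz), fp_eq hs, ← grad_flat (hf w hw),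
      sub_self]
  have h2 := lstar_par (sub_ne_zero.2 (hS.adj_ne z w hzw)) (h1 h hS.van) (h1 g hv) e
  have h3 : ∀ j, gr h (fp z s) (.inr e) * gr g (fp z s) j =
      gr g (fp z s) (.inr e) * gr h (fp z s) j := by
    rintro (j | j)
    · have h4 := congrArg (z.1 ⨯₃ ·) h2
      simp only [map_smul] at h4
      rw [← grad_flat (hv z hz), ← grad_flat (hS.van z hz)] at h4
      exact congrFun h4 j
    · exact congrFun h2 j
  rw [tD, map_sub, map_mul, map_mul, sub_eq_zero, mul_comm (eval _ (pderiv j h))]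
  exact h3 j

theorem Sit.lstar_jk (hS : Sit adj B G h e A) (k : ℕ) : ∀ g : P6,
    g.totalDegree + k * h.totalDegree ≤ A * h.totalDegree → (∀ z ∈ G, res z g = 0) →
      ∀ z ∈ G, ∀ s, JK h (.inr e) (fp z s) k g := by
  induction k with
  | zero => exact fun _ _ _ _ _ _ => trivial
  | succ k ih =>
    intro g hg hv z hz s
    rw [Nat.succ_mul] at hg
    have h1 := lstar_deg h g (.inr e)
    exact ⟨res_eq_zero.1 (hv z hz) s, fun j => ih _ (by have := h1 j; omega)
      (hS.tD_vanish (by omega) hv j) z hz s⟩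

theorem lstar_ker {h g : P6} (hh : h ≠ 0) (hg : g ≠ 0) (hr : IsRelPrime h g) (a : S6) {m T : ℕ}
    (hT : h.totalDegree + g.totalDegree ≤ T)
    (hm : 30 * (m * (h.totalDegree * g.totalDegree)) < (T + 5) * (T + 6)) :
    ∃ F : P6, F ≠ 0 ∧ F.totalDegree ≤ T ∧
      ∀ i < m, ∃ p q, (pderiv a)^[i] F = h * p + g * q := by
  let φ := (Ideal.Quotient.mkₐ ℂ (Ideal.span {h, g})).toLinearMap
  have hφ : ∀ f, φ f = 0 ↔ ∃ p q, p * h + q * g = f := fun f =>
    Ideal.Quotient.eq_zero_iff_mem.trans Ideal.mem_span_pair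
  have h1 := hilb2 4 (by simp) hh hg hr φ (fun p => (hφ _).2 ⟨p, 0, by ring⟩)
    (fun p => (hφ _).2 ⟨0, p, by ring⟩) hT
  have h2 : ∀ (i : ℕ) (F : P6), ((pderiv a)^[i] F).totalDegree ≤ F.totalDegree := fun i F => by
    induction i with
    | zero => rfl
    | succ i ih =>
      rw [Function.iterate_succ_apply']
      exact (degree_pderiv_le _ a).trans ((Nat.sub_le _ _).trans ih)
  let Φ : restrictTotalDegree S6 ℂ T →ₗ[ℂ] Fin m → (restrictTotalDegree S6 ℂ T).map φ :=
    LinearMap.pi fun i => (φ ∘ₗ ((pderiv a).toLinearMap ^ i.1) ∘ₗ Submodule.subtype _).codRestrict _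
      fun F => Submodule.mem_map_of_mem ((mem_restrictTotalDegree _ _ _).2 (by
        rw [LinearMap.comp_apply, Module.End.pow_apply]
        exact (h2 i F).trans ((mem_restrictTotalDegree _ _ _).1 F.2)))
  have h3 : LinearMap.ker Φ ≠ ⊥ := by
    refine LinearMap.ker_ne_bot_of_finrank_lt ?_
    rw [Module.finrank_pi_fintype, Finset.sum_const, Finset.card_univ, Fintype.card_fin,
      smul_eq_mul, finrank_le_deg, show Fintype.card S6 = 6 by simp]
    have e1 : (T + 5) * (T + 4).choose 4 = (T + 5).choose 5 * 5 := Nat.add_one_mul_choose_eq _ _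
    have e2 : (T + 6) * (T + 5).choose 5 = (T + 6).choose 6 * 6 := Nat.add_one_mul_choose_eq _ _
    have e3 := Nat.mul_lt_mul_of_pos_right hm (Nat.choose_pos (Nat.le_add_left 4 T))
    have e4 := Nat.mul_le_mul_left m h1
    have e5 : (T + 5) * (T + 6) * (T + 4).choose 4 = 30 * (T + 6).choose 6 := by
      rw [mul_right_comm, e1, mul_comm _ (T + 6), ← mul_assoc, e2]
      ring
    rw [e5, mul_assoc, mul_assoc] at e3
    omega
  obtain ⟨F, hF, h0⟩ := Submodule.exists_mem_ne_zero_of_ne_bot h3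
  refine ⟨F, fun e => h0 (Subtype.ext e), (mem_restrictTotalDegree _ _ _).1 F.2, fun i hi => ?_⟩
  obtain ⟨p, q, e⟩ := (hφ _).1 (congrArg Subtype.val (congrFun (LinearMap.mem_ker.1 hF) ⟨i, hi⟩))
  rw [LinearMap.comp_apply, Module.End.pow_apply] at e
  exact ⟨p, q, e.symm.trans (by ring)⟩

theorem Sit.lstar (hS : Sit adj B G h e A) {C : ℕ} (hC : 1 ≤ C) (hA : 5331 * C ≤ A) {g : P6}
    (hg : g.totalDegree ≤ C * h.totalDegree) (hv : ∀ z ∈ G, res z g = 0) : h ∣ g := by
  by_contra hd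
  have hr := hS.pos
  have hJ := hS.lstar_jk (5329 * C) g (by nlinarith [Nat.mul_le_mul_right h.totalDegree hA]) hv
  obtain ⟨F, h0, hF, hP⟩ := lstar_ker hS.irr.ne_zero (fun e : g = 0 => hd (e ▸ dvd_zero h))
    (hS.irr.isRelPrime_iff_not_dvd.2 hd) (.inr e) (m := 5329 * C) (T := 438 * (C * h.totalDegree))
    (by nlinarith [Nat.mul_le_mul_right h.totalDegree hC]) (by
      have h1 := Nat.mul_le_mul_left (C * h.totalDegree) hg
      nlinarith)
  obtain ⟨Q, q0, q1, q2⟩ := chud
    {y | eval y (pderiv (.inr e) h) ≠ 0 ∧ ∃ z ∈ G, ∃ s, y = fp z s} h0 (k := 5329 * C) (by omega) (by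
      rintro _ ⟨hn, z, hz, s, rfl⟩
      refine ord_of_JK hn fun i hi => ?_
      obtain ⟨p, q, e⟩ := hP i hi
      rw [e]
      exact ((JK_h (res_eq_zero.1 (hS.van z hz) s) _).mul p).add ((hJ z hz s).mul q))
  have h1 := hS.min Q q0 fun z hz => by
    refine (mul_eq_zero.1 ((map_mul _ _ _).symm.trans (res_eq_zero.2 fun s => ?_))).resolve_right
      (hS.nsing z hz)
    rw [map_mul]
    by_cases hn : eval (fp z s) (pderiv (.inr e) h) = 0
    · rw [hn, mul_zero]
    · rw [q2 _ ⟨hn, z, hz, s, rfl⟩, zero_mul]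
  rw [show Fintype.card S6 = 6 by simp] at q1
  nlinarith [Nat.mul_le_mul_left C h1, Nat.mul_le_mul hC hr]

end Vale.Agent.P054
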