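import Vale.Agent.P054.Pack

/-! LinA: pairs of parallel lines at a given distance (about 150 lines).
Apply `kst`. For `a ≠ b` and a common neighbour `x` put `y = d a × (o x - o a)`, `e = d a × (o b - o a)`. With `d b = t • d a`: `d b × (o x - o b) = t • (y - e)`, so `y ⬝ᵥ d a = 0`, `y ⬝ᵥ y = (y - e) ⬝ᵥ (y - e) = r * (d a ⬝ᵥ d a)`, `e ≠ 0`, `e ⬝ᵥ d a = 0`. The map `x ↦ y` is injective, and `y = (1/2) • e + s • (d a × e)` with `s^2` fixed; three neighbours give two equal `s`.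
-/

noncomputable section

open Classical MvPolynomial Matrix Finset

namespace Vale.Agent.P054

theorem linA_gram {y D e : V} (h1 : D ⬝ᵥ y = 0) (h2 : D ⬝ᵥ e = 0) :
    (y ⬝ᵥ (D ⨯₃ e)) ^ 2 = (D ⬝ᵥ D) * ((y ⬝ᵥ y) * (e ⬝ᵥ e) - (y ⬝ᵥ e) ^ 2) := by
  have : (y ⬝ᵥ (D ⨯₃ e)) ^ 2 = (D ⬝ᵥ D) * ((y ⬝ᵥ y) * (e ⬝ᵥ e) - (y ⬝ᵥ e) ^ 2) -
      (y ⬝ᵥ y) * (D ⬝ᵥ e) ^ 2 - (D ⬝ᵥ y) ^ 2 * (e ⬝ᵥ e) + 2 * (D ⬝ᵥ y) * (D ⬝ᵥ e) * (y ⬝ᵥ e) := by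
    simp [cross_apply, dotProduct, Fin.sum_univ_three]
    ring
  rw [this, h1, h2]
  ring

theorem linA_nb {D oa ob ox : V} {r t : ℝ} (ht : t ≠ 0)
    (h1 : (D ⨯₃ (ox - oa)) ⬝ᵥ (D ⨯₃ (ox - oa)) = r * (D ⬝ᵥ D))
    (h2 : ((t • D) ⨯₃ (ox - ob)) ⬝ᵥ ((t • D) ⨯₃ (ox - ob)) = r * ((t • D) ⬝ᵥ (t • D))) :
    (D ⨯₃ (ox - oa)) ⬝ᵥ (D ⨯₃ (ob - oa)) = (D ⨯₃ (ob - oa)) ⬝ᵥ (D ⨯₃ (ob - oa)) / 2 := by
  have e : D ⨯₃ (ox - ob) = D ⨯₃ (ox - oa) - D ⨯₃ (ob - oa) := by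
    rw [← map_sub, sub_sub_sub_cancel_right]
  rw [map_smul, LinearMap.smul_apply, e] at h2
  simp only [smul_dotProduct, dotProduct_smul, smul_eq_mul, sub_dotProduct, dotProduct_sub] at h2
  rw [dotProduct_comm (D ⨯₃ (ob - oa)) (D ⨯₃ (ox - oa))] at h2
  apply mul_left_cancel₀ (mul_ne_zero ht ht)
  linear_combination (-1 / 2) * h2 + t * t / 2 * h1

theorem par_energy {ι : Type} (Λ : Finset ι) (o d : ι → V) (hd : ∀ l ∈ Λ, d l ≠ 0)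
    (hi : ∀ l ∈ Λ, ∀ l' ∈ Λ, d l ⨯₃ d l' = 0 → d l ⨯₃ (o l' - o l) = 0 → l = l') (r : ℝ) :
    ((Λ ×ˢ Λ).filter fun e => d e.1 ⨯₃ d e.2 = 0 ∧
      (d e.1 ⨯₃ (o e.2 - o e.1)) ⬝ᵥ (d e.1 ⨯₃ (o e.2 - o e.1)) = r * (d e.1 ⬝ᵥ d e.1)).card ^ 2 ≤
      3 * Λ.card ^ 3 := by
  refine kst Λ (fun a x => d a ⨯₃ d x = 0 ∧
    (d a ⨯₃ (o x - o a)) ⬝ᵥ (d a ⨯₃ (o x - o a)) = r * (d a ⬝ᵥ d a)) (fun a ha b hb hab => ?_)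
    |>.trans_eq' (by congr)
  rcases (Λ.filter fun x => (d a ⨯₃ d x = 0 ∧
    (d a ⨯₃ (o x - o a)) ⬝ᵥ (d a ⨯₃ (o x - o a)) = r * (d a ⬝ᵥ d a)) ∧ d b ⨯₃ d x = 0 ∧
    (d b ⨯₃ (o x - o b)) ⬝ᵥ (d b ⨯₃ (o x - o b)) = r * (d b ⬝ᵥ d b)).eq_empty_or_nonempty with
    h | ⟨x0, h0⟩
  · exact (card_eq_zero.2 (by simpa using h)).trans_le zero_le_two
  obtain ⟨a0, ⟨a1, -⟩, a2, -⟩ := mem_filter.1 h0
  have hp : d a ⨯₃ d b = 0 := by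
    obtain ⟨u, hu⟩ := par_of_cross (hd b hb) a2
    rw [hu, map_smul, smul_eq_zero] at a1
    exact a1.resolve_left fun e => hd _ a0 (by rw [hu, e, zero_smul])
  obtain ⟨t, ht⟩ := par_of_cross (hd a ha) hp
  have t0 : t ≠ 0 := fun e => hd b hb (by rw [ht, e, zero_smul])
  have e0 : d a ⨯₃ (o b - o a) ≠ 0 := fun e => hab (hi a ha b hb hp e)
  set e := d a ⨯₃ (o b - o a) with he
  refine (card_le_card_of_injOn (fun x => (d a ⨯₃ (o x - o a)) ⬝ᵥ (d a ⨯₃ e))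
    (t := {√((d a ⬝ᵥ d a) * (r * (d a ⬝ᵥ d a) * (e ⬝ᵥ e) - ((e ⬝ᵥ e) / 2) ^ 2)),
      -√((d a ⬝ᵥ d a) * (r * (d a ⬝ᵥ d a) * (e ⬝ᵥ e) - ((e ⬝ᵥ e) / 2) ^ 2))})
    (fun x hx => ?_) fun x hx x' hx' h => ?_).trans card_le_two
  · obtain ⟨-, ⟨-, b1⟩, -, b2⟩ := (@mem_filter _ _ (_) _ _).1 hx
    rw [ht] at b2
    have := linA_gram (dot_self_cross (d a) (o x - o a)) (dot_self_cross (d a) (o b - o a))
    rw [linA_nb t0 b1 b2, b1] at this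
    rw [← this, Real.sqrt_sq_eq_abs, coe_insert, coe_singleton]
    exact (eq_or_eq_neg_of_abs_eq rfl)
  · obtain ⟨b0, ⟨c1, b1⟩, -, b2⟩ := (@mem_filter _ _ (_) _ _).1 hx
    obtain ⟨b0', ⟨c1', b1'⟩, -, b2'⟩ := (@mem_filter _ _ (_) _ _).1 hx'
    rw [ht] at b2 b2'
    have f : d a ⨯₃ (o x' - o x) = d a ⨯₃ (o x' - o a) - d a ⨯₃ (o x - o a) := by
      rw [← map_sub, sub_sub_sub_cancel_right]
    have g := linA_gram (dot_self_cross (d a) (o x' - o x)) (dot_self_cross (d a) (o b - o a))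
    have g1 : (d a ⨯₃ (o x' - o x)) ⬝ᵥ (d a ⨯₃ e) = 0 := by
      rw [f, sub_dotProduct]
      exact sub_eq_zero.2 h.symm
    have g2 : (d a ⨯₃ (o x' - o x)) ⬝ᵥ e = 0 := by
      rw [f, sub_dotProduct, he, linA_nb t0 b1 b2, linA_nb t0 b1' b2', sub_self]
    rw [← he, g1, g2] at g
    have g3 : d a ⨯₃ (o x' - o x) = 0 := by simpa [hd a ha, e0, -map_sub] using g
    obtain ⟨u, hu⟩ := par_of_cross (hd a ha) c1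
    refine hi x b0 x' b0' ?_ ?_
    · rw [hu, map_smul, LinearMap.smul_apply, c1', smul_zero]
    · rw [hu, map_smul, LinearMap.smul_apply, g3, smul_zero]

end Vale.Agent.P054
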