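import Vale.Agent.P054.QDefs

/-! Pack: almost disjoint sets, lines, and a Kovari-Sos-Turan bound (about 250 lines).
`pack`: Bonferroni by induction on the family: `2 ∑ |F| ≤ 2 |⋃ F| + t (t - 1)` for `t` sets. A subfamily of `l + 1` sets is impossible (for `l = 0` the set `U` is empty), so `t ≤ l` and `t (t - 1) ≤ t l ≤ ∑ |F|`.
`kst`: `e = ∑_c deg c`, `∑ deg^2 ≤ e + 2 λ^2 ≤ 3 λ^2`, Cauchy-Schwarz (`Finset.sq_sum_le_card_mul_sum_sq`).
`lineLe_nD`: take the point `x₀` of the line with least `v ⬝ᵥ x`; the others are `x₀ + t v`, `t > 0`, with different `sq x₀ x`.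
-/

noncomputable section

open Classical MvPolynomial Matrix Finset

namespace Vale.Agent.P054

theorem pack_bonf {α : Type*} (𝓖 : Finset (Finset α))
    (h2 : ∀ F ∈ 𝓖, ∀ F' ∈ 𝓖, F ≠ F' → (F ∩ F').card ≤ 1) :
    2 * ∑ F ∈ 𝓖, F.card + 𝓖.card ≤ 2 * (𝓖.biUnion id).card + 𝓖.card ^ 2 := by
  induction 𝓖 using Finset.induction_on with
  | empty => simp
  | insert F 𝓖 hF ih =>
    have h3 := ih fun A hA B hB => h2 A (mem_insert_of_mem hA) B (mem_insert_of_mem hB)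
    have h4 := card_union_add_card_inter F (𝓖.biUnion id)
    have h5 : (F ∩ 𝓖.biUnion id).card ≤ 𝓖.card := by
      rw [inter_biUnion]
      refine card_biUnion_le.trans ?_
      refine (sum_le_card_nsmul _ _ 1 fun A hA => ?_).trans (by simp)
      exact h2 F (mem_insert_self _ _) A (mem_insert_of_mem hA) fun e => hF (e ▸ hA)
    rw [sum_insert hF, card_insert_of_notMem hF, biUnion_insert, id]
    nlinarith

theorem pack {α : Type*} (U : Finset α) (𝓕 : Finset (Finset α)) {l : ℕ}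
    (h1 : ∀ F ∈ 𝓕, F ⊆ U ∧ l ≤ F.card) (h2 : ∀ F ∈ 𝓕, ∀ F' ∈ 𝓕, F ≠ F' → (F ∩ F').card ≤ 1)
    (h3 : 2 * U.card ≤ l ^ 2) : ∑ F ∈ 𝓕, F.card ≤ 2 * U.card := by
  have key : ∀ 𝓖 ⊆ 𝓕, 𝓖.card * l ≤ ∑ F ∈ 𝓖, F.card ∧
      2 * ∑ F ∈ 𝓖, F.card + 𝓖.card ≤ 2 * U.card + 𝓖.card ^ 2 := fun 𝓖 h => by
    refine ⟨card_nsmul_le_sum _ _ _ fun F hF => (h1 F (h hF)).2,
      (pack_bonf 𝓖 fun A hA B hB => h2 A (h hA) B (h hB)).trans ?_⟩
    have : (𝓖.biUnion id).card ≤ U.card :=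
      card_le_card (biUnion_subset.2 fun F hF => (h1 F (h hF)).1)
    omega
  rcases Nat.eq_zero_or_pos l with rfl | hl
  · have hU : U = ∅ := card_eq_zero.1 (by omega)
    rw [sum_eq_zero fun F hF => card_eq_zero.2 (subset_empty.1 (hU ▸ (h1 F hF).1))]
    exact Nat.zero_le _
  · have ht : 𝓕.card ≤ l := by
      by_contra hc
      obtain ⟨𝓖, h4, h5⟩ := exists_subset_card_eq (s := 𝓕) (n := l + 1) (by omega)
      obtain ⟨h6, h7⟩ := key 𝓖 h4
      rw [h5] at h6 h7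
      nlinarith
    obtain ⟨h6, h7⟩ := key 𝓕 Subset.rfl
    nlinarith [Nat.mul_le_mul_left 𝓕.card ht]

theorem kst {α : Type*} (Λ : Finset α) (R : α → α → Prop)
    (h : ∀ a ∈ Λ, ∀ b ∈ Λ, a ≠ b → (Λ.filter fun x => R a x ∧ R b x).card ≤ 2) :
    ((Λ ×ˢ Λ).filter fun e => R e.1 e.2).card ^ 2 ≤ 3 * Λ.card ^ 3 := by
  have e1 : ((Λ ×ˢ Λ).filter fun e => R e.1 e.2).card =
      ∑ x ∈ Λ, ∑ a ∈ Λ, if R a x then 1 else 0 := by
    rw [card_filter, sum_product_right]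
  have e2 : ∑ x ∈ Λ, (∑ a ∈ Λ, if R a x then 1 else 0) ^ 2 =
      ∑ a ∈ Λ, ∑ b ∈ Λ, (Λ.filter fun x => R a x ∧ R b x).card := by
    simp only [pow_two, sum_mul_sum, card_filter]
    rw [sum_comm]
    refine sum_congr rfl fun a _ => ?_
    rw [sum_comm]
    refine sum_congr rfl fun b _ => sum_congr rfl fun x _ => ?_
    by_cases h1 : R a x <;> by_cases h2 : R b x <;> simp [h1, h2]
  have e3 : ∀ a ∈ Λ, ∑ b ∈ Λ, (Λ.filter fun x => R a x ∧ R b x).card ≤ 3 * Λ.card := by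
    intro a ha
    rw [← add_sum_erase _ _ ha]
    have h1 := card_filter_le Λ fun x => R a x ∧ R a x
    have h2 := sum_le_card_nsmul (Λ.erase a) (fun b => (Λ.filter fun x => R a x ∧ R b x).card) 2
      fun b hb => h a ha b (mem_of_mem_erase hb) (ne_of_mem_erase hb).symm
    have h3 := card_erase_le (s := Λ) (a := a)
    simp only [smul_eq_mul] at h2
    omega
  have e4 := sum_le_card_nsmul _ _ _ e3
  rw [e1]
  refine sq_sum_le_card_mul_sum_sq.trans ?_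
  rw [e2]
  refine (Nat.mul_le_mul_left _ e4).trans (le_of_eq ?_)
  simp only [smul_eq_mul, Nat.cast_id]
  ring

theorem par_of_cross {v a : V} (hv : v ≠ 0) (h : v ⨯₃ a = 0) : ∃ t : ℝ, a = t • v := by
  have h1 := cross_cross_eq_smul_sub_smul' v v a
  have h2 : v ⬝ᵥ v ≠ 0 := fun e => hv (dotProduct_self_eq_zero.1 e)
  rw [h, map_zero, eq_comm, sub_eq_zero] at h1
  refine ⟨(v ⬝ᵥ v)⁻¹ * (v ⬝ᵥ a), ?_⟩
  rw [mul_smul, h1, inv_smul_smul₀ h2]

theorem ln_eq {S : Finset V} {p v p' v' : V} (hv : v ≠ 0) (hv' : v' ≠ 0) (h1 : v ⨯₃ v' = 0)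
    (h2 : v ⨯₃ (p' - p) = 0) : ln S p v = ln S p' v' := by
  obtain ⟨t, rfl⟩ := par_of_cross hv h1
  have ht : t ≠ 0 := left_ne_zero_of_smul hv'
  refine filter_congr fun x _ => ?_
  have e : x - p' = x - p - (p' - p) := by abel
  rw [e, map_smul, LinearMap.smul_apply, map_sub _ (x - p), h2, sub_zero, smul_eq_zero, or_iff_right ht]

theorem ln_two {S S' : Finset V} {p v p' v' x y : V} (hv : v ≠ 0) (hxy : x ≠ y)
    (hx : x ∈ ln S p v) (hy : y ∈ ln S p v) (hx' : x ∈ ln S' p' v') (hy' : y ∈ ln S' p' v') :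
    v ⨯₃ v' = 0 ∧ (v' ≠ 0 → v ⨯₃ (p' - p) = 0) := by
  have h1 := (mem_filter.1 hx).2
  have h2 := (mem_filter.1 hy).2
  have h3 := (mem_filter.1 hx').2
  have h4 := (mem_filter.1 hy').2
  have h5 : v ⨯₃ (y - x) = 0 := by
    rw [← sub_sub_sub_cancel_right y x p, map_sub, h1, h2, sub_zero]
  have h6 : v' ⨯₃ (y - x) = 0 := by
    rw [← sub_sub_sub_cancel_right y x p', map_sub, h3, h4, sub_zero]
  obtain ⟨t, ht⟩ := par_of_cross hv h5
  have ht0 : t ≠ 0 := fun e => hxy (by rw [e, zero_smul, sub_eq_zero] at ht; exact ht.symm)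
  rw [ht, map_smul, smul_eq_zero, or_iff_right ht0] at h6
  have h7 : v ⨯₃ v' = 0 := by rw [← cross_anticomm, h6, neg_zero]
  refine ⟨h7, fun hv' => ?_⟩
  obtain ⟨s, hs⟩ := par_of_cross hv' h3
  rw [← sub_sub_sub_cancel_left p p' x, map_sub, h1, hs, map_smul, h7, smul_zero, sub_zero]

theorem ln_inter {S : Finset V} {p v p' v' : V} (hv : v ≠ 0) (hv' : v' ≠ 0)
    (h : ln S p v ≠ ln S p' v') : (ln S p v ∩ ln S p' v').card ≤ 1 := by
  refine card_le_one.2 fun x hx y hy => by_contra fun hxy => h ?_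
  obtain ⟨h1, h2⟩ := ln_two hv hxy (mem_inter.1 hx).1 (mem_inter.1 hy).1 (mem_inter.1 hx).2
    (mem_inter.1 hy).2
  exact ln_eq hv hv' h1 (h2 hv')

theorem pl_inter {S A A' : Finset V} (h : IsPl S A) (h' : IsPl S A') (hne : A ≠ A')
    (h0 : (A ∩ A').Nonempty) : ∃ p v : V, v ≠ 0 ∧ A ∩ A' = ln S p v := by
  obtain ⟨ν, c, hν, rfl⟩ := h
  obtain ⟨ν', c', hν', rfl⟩ := h'
  obtain ⟨p, hp⟩ := h0
  obtain rfl := (mem_filter.1 (mem_inter.1 hp).1).2
  obtain rfl := (mem_filter.1 (mem_inter.1 hp).2).2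
  have hv : ν ⨯₃ ν' ≠ 0 := fun e => by
    obtain ⟨t, rfl⟩ := par_of_cross hν e
    have ht : t ≠ 0 := left_ne_zero_of_smul hν'
    refine hne (filter_congr fun x _ => ?_)
    rw [smul_dotProduct, smul_dotProduct, smul_eq_mul, smul_eq_mul, mul_right_inj' ht]
  refine ⟨p, _, hv, ?_⟩
  ext x
  simp only [pl, ln, mem_inter, mem_filter, cross_cross_eq_smul_sub_smul, dotProduct_sub]
  refine ⟨fun ⟨h1, h2⟩ => ⟨h1.1, by rw [h1.2, h2.2]; simp⟩, fun ⟨h1, h2⟩ => ?_⟩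
  have h3 := congrArg (ν ⨯₃ ·) h2
  simp only [map_sub, map_smul, cross_self, smul_zero, sub_zero, map_zero, smul_eq_zero,
    or_iff_left hv] at h3
  rw [h3, zero_smul, zero_sub, neg_eq_zero, smul_eq_zero, or_iff_left hν] at h2
  exact ⟨⟨h1, sub_eq_zero.1 h3⟩, h1, sub_eq_zero.1 h2⟩

theorem LineLe.mono {S S' : Finset V} {L : ℕ} (h : LineLe S L) (hs : S' ⊆ S) : LineLe S' L :=
  fun p v hv => (card_le_card (filter_subset_filter _ hs)).trans (h p v hv)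

theorem LineLe.rich_le {S : Finset V} {L : ℕ} (h : LineLe S L) {x y : V} (hxy : x ≠ y) :
    rich S x y ≤ L := h x (y - x) (sub_ne_zero.2 hxy.symm)

theorem lineLe_nD (P : Finset V) : LineLe P (nD P + 1) := by
  intro p v hv
  rcases (ln P p v).eq_empty_or_nonempty with e | hne
  · simp [e]
  obtain ⟨x₀, h0, hm⟩ := exists_min_image (ln P p v) (fun x => v ⬝ᵥ x) hne
  have hvv : 0 < v ⬝ᵥ v :=
    lt_of_le_of_ne (dotProduct_self_star_nonneg v) fun e => hv (dotProduct_self_eq_zero.1 e.symm)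
  have key : ∀ x ∈ ln P p v, ∃ t : ℝ, 0 ≤ t ∧ x = x₀ + t • v := fun x hx => by
    have h5 : v ⨯₃ (x - x₀) = 0 := by
      rw [← sub_sub_sub_cancel_right x x₀ p, map_sub, (mem_filter.1 hx).2, (mem_filter.1 h0).2,
        sub_zero]
    obtain ⟨t, ht⟩ := par_of_cross hv h5
    have e : x = x₀ + t • v := by rw [← ht]; abel
    have h6 := hm x hx
    rw [e, dotProduct_add, dotProduct_smul, smul_eq_mul] at h6
    exact ⟨t, nonneg_of_mul_nonneg_left (by linarith) hvv, e⟩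
  have hs : ∀ t : ℝ, sq x₀ (x₀ + t • v) = t ^ 2 * (v ⬝ᵥ v) := fun t => by
    simp only [sq, sub_add_cancel_left, neg_dotProduct_neg, smul_dotProduct, dotProduct_smul,
      smul_eq_mul]
    ring
  rw [← card_erase_add_one h0]
  refine Nat.succ_le_succ (card_le_card_of_injOn (fun x => sq x₀ x) (fun x hx => ?_)
    fun x hx y hy e => ?_)
  · have hx' := mem_erase.1 (mem_coe.1 hx)
    exact mem_coe.2 (mem_image.2 ⟨(x₀, x),
      mem_offDiag.2 ⟨(mem_filter.1 h0).1, (mem_filter.1 hx'.2).1, hx'.1.symm⟩, rfl⟩)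
  · obtain ⟨t, ht, rfl⟩ := key x (mem_of_mem_erase (mem_coe.1 hx))
    obtain ⟨s, hs', rfl⟩ := key y (mem_of_mem_erase (mem_coe.1 hy))
    simp only [hs] at e
    rw [(pow_left_inj₀ ht hs' two_ne_zero).1 (mul_right_cancel₀ hvv.ne' e)]

theorem pack_off {A : Finset V} {b : ℕ} (h : Off A b) (hb : 1 ≤ b) (p : V) {v : V} (hv : v ≠ 0) :
    ∃ z ∈ A, v ⨯₃ (z - p) ≠ 0 := by
  have h1 := h p v hv
  obtain ⟨z, hz, hz'⟩ := exists_mem_notMem_of_card_lt_card (s := ln A p v) (t := A) (by omega)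
  exact ⟨z, hz, fun e => hz' (mem_filter.2 ⟨hz, e⟩)⟩

theorem Off.tri {A : Finset V} {b : ℕ} (h : Off A b) (hb : 1 ≤ b) :
    ∃ x ∈ A, ∃ y ∈ A, ∃ z ∈ A, (y - x) ⨯₃ (z - x) ≠ 0 := by
  obtain ⟨x, hx, -⟩ := pack_off h hb 0 (one_ne_zero (α := V))
  obtain ⟨y, hy, h1⟩ := pack_off h hb x (one_ne_zero (α := V))
  obtain ⟨z, hz, h2⟩ := pack_off h hb x (v := y - x) fun e => h1 (by rw [e, map_zero])
  exact ⟨x, hx, y, hy, z, hz, h2⟩

theorem hl_card {P : Finset V} {h : ℕ} (hh : 2 * P.card ≤ h ^ 2) :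
    (hl P h).card * h ≤ 2 * P.card := by
  have hm : ∀ F ∈ hl P h, F ⊆ P ∧ h ≤ F.card ∧ ∃ p v : V, v ≠ 0 ∧ F = ln P p v := fun F hF => by
    rw [hl, mem_filter, mem_powerset] at hF
    exact hF
  have h1 := card_nsmul_le_sum (hl P h) (fun F => F.card) h fun F hF => (hm F hF).2.1
  have h2 : ∀ F ∈ hl P h, ∀ F' ∈ hl P h, F ≠ F' → (F ∩ F').card ≤ 1 := fun F hF F' hF' hne => by
    obtain ⟨p, v, hv, rfl⟩ := (hm F hF).2.2
    obtain ⟨p', v', hv', rfl⟩ := (hm F' hF').2.2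
    exact ln_inter hv hv' hne
  refine h1.trans (pack P _ (fun F hF => ⟨(hm F hF).1, (hm F hF).2.1⟩)
    (fun F hF F' hF' hne => le_of_eq_of_le (congrArg card ?_) (h2 F hF F' hF' hne)) hh)
  ext x
  simp only [mem_inter]

end Vale.Agent.P054
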