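import Vale.Agent.P054.Rot
import Vale.Agent.P054.Pack

/-! LinB: motions are determined by two non-parallel lines (about 200 lines).
Write the sum as the card of `𝒯.sigma`. The map `(T, z, w) ↦ (l₁ T z, l₁ T w, l₂ T z, l₂ T w, z.1, w.1, s₁, s₂)` is injective, where `s₁, s₂` are the truth values of `0 < rot d(l₁ T z) ⬝ᵥ d(l₂ T z)` and the same for `w` (`lin_sign`: two multiples of `d'` with the same norm and sign are equal). Then the `rot` agree (`rot_ext`), `e = z.2 - z'.2 = w.2 - w'.2` is parallel to both rotated directions, so `e = 0`, `z = z'`, `T = T'` (`Mot`), `w = w'`. The target is a sigma type of card `≤ |Λ|^4 L^2 4`.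
-/

noncomputable section

open Classical MvPolynomial Matrix Finset

namespace Vale.Agent.P054

theorem lin_sign {x y d : V} (hd : d ≠ 0) (hx : x ⨯₃ d = 0) (hy : y ⨯₃ d = 0) (h : x ⬝ᵥ x = y ⬝ᵥ y)
    (hs : 0 < x ⬝ᵥ d ↔ 0 < y ⬝ᵥ d) : x = y := by
  obtain ⟨s, rfl⟩ := par_of_cross hd (a := x) (by rw [← cross_anticomm, hx, neg_zero])
  obtain ⟨t, rfl⟩ := par_of_cross hd (a := y) (by rw [← cross_anticomm, hy, neg_zero])
  have hp : 0 < d ⬝ᵥ d := by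
    have h0 : 0 ≤ d ⬝ᵥ d := Finset.sum_nonneg fun i _ => mul_self_nonneg _
    exact lt_of_le_of_ne h0 fun e => hd (dotProduct_self_eq_zero.1 e.symm)
  simp only [smul_dotProduct, dotProduct_smul, smul_eq_mul] at h hs
  have h1 : s * s = t * t := mul_right_cancel₀ hp.ne' (by linarith)
  rw [mul_pos_iff_of_pos_right hp, mul_pos_iff_of_pos_right hp] at hs
  rcases mul_self_eq_mul_self_iff.1 h1 with e | e
  · rw [e]
  · have : t = 0 := by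
      rcases lt_trichotomy t 0 with h2 | h2 | h2
      · exact absurd (hs.1 (by linarith)) (by linarith)
      · exact h2
      · exact absurd (hs.2 h2) (by linarith)
    rw [e, this, neg_zero]

theorem linB_ln {P : Finset V} {p v x y : V} (hx : x ∈ ln P p v) (hy : y ∈ ln P p v) :
    (x - y) ⨯₃ v = 0 := by
  have h1 := (mem_filter.1 hx).2
  have h2 := (mem_filter.1 hy).2
  have e : x - y = (x - p) - (y - p) := by abel
  rw [← cross_anticomm, e, map_sub, h1, h2, sub_zero, neg_zero]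

theorem linB_zero {e a b a' b' : V} (ha' : a' ≠ 0) (hb' : b' ≠ 0) (h1 : a ⨯₃ a' = 0)
    (h2 : b ⨯₃ b' = 0) (hab : a ⨯₃ b ≠ 0) (h3 : e ⨯₃ a' = 0) (h4 : e ⨯₃ b' = 0) : e = 0 := by
  by_contra he
  obtain ⟨s, rfl⟩ := par_of_cross ha' (a := a) (by rw [← cross_anticomm, h1, neg_zero])
  obtain ⟨t, rfl⟩ := par_of_cross hb' (a := b) (by rw [← cross_anticomm, h2, neg_zero])
  obtain ⟨s', rfl⟩ := par_of_cross he h3
  obtain ⟨t', rfl⟩ := par_of_cross he h4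
  exact hab (by simp)

theorem linB_inj {ι : Type} {P : Finset V} {L : ℕ} {Λ : Finset (Finset V)} {o d : Finset V → V}
    {𝒯 : Finset ι} {ν : ι → V} {c : ι → ℝ} {H : ι → Finset (V × V)}
    {l₁ l₂ : ι → V × V → Finset V} (h : LinD P L Λ o d 𝒯 ν c H l₁ l₂) {T T' : ι}
    {z w z' w' : V × V} (hT : T ∈ 𝒯) (hT' : T' ∈ 𝒯) (hz : z ∈ H T) (hw : w ∈ H T)
    (hz' : z' ∈ H T') (hw' : w' ∈ H T') (hs : d (l₁ T z) ⨯₃ d (l₁ T w) ≠ 0)
    (e1 : l₁ T z = l₁ T' z') (e2 : l₁ T w = l₁ T' w') (e3 : l₂ T z = l₂ T' z')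
    (e4 : l₂ T w = l₂ T' w') (e5 : z.1 = z'.1) (e6 : w.1 = w'.1)
    (s1 : 0 < rot (ν T) (c T) (d (l₁ T z)) ⬝ᵥ d (l₂ T z) ↔
      0 < rot (ν T') (c T') (d (l₁ T' z')) ⬝ᵥ d (l₂ T' z'))
    (s2 : 0 < rot (ν T) (c T) (d (l₁ T w)) ⬝ᵥ d (l₂ T w) ↔
      0 < rot (ν T') (c T') (d (l₁ T' w')) ⬝ᵥ d (l₂ T' w')) : T = T' ∧ z = z' ∧ w = w' := by
  obtain ⟨n1, -, r1⟩ := h.mot.1 T hT
  obtain ⟨n2, -, r2⟩ := h.mot.1 T' hT'
  obtain ⟨-, a2, -, a4, a5⟩ := h.mem T hT z hz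
  obtain ⟨-, b2, -, b4, b5⟩ := h.mem T hT w hw
  obtain ⟨-, -, -, c4, c5⟩ := h.mem T' hT' z' hz'
  obtain ⟨-, -, -, d4, d5⟩ := h.mem T' hT' w' hw'
  rw [← e1, ← e3] at c5 s1
  rw [← e2, ← e4] at d5 s2
  rw [← e3] at c4
  rw [← e4] at d4
  obtain ⟨la1, la2, -⟩ := h.lam _ a2
  obtain ⟨lb1, lb2, -⟩ := h.lam _ b2
  have q1 := lin_sign la1 a5 c5 (by rw [rot_dot n1, rot_dot n2]) s1
  have q2 := lin_sign lb1 b5 d5 (by rw [rot_dot n1, rot_dot n2]) s2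
  have q := rot_ext n1 n2 hs q1 q2
  have f1 := (rel_iff n1).1 (r1 z hz w hw)
  have f2 := (rel_iff n2).1 (r2 z' hz' w' hw')
  rw [← q, ← e5, ← e6, ← f1] at f2
  have f3 : w.2 - w'.2 = z.2 - z'.2 := by linear_combination -f2
  have g1 : (z.2 - z'.2) ⨯₃ d (l₂ T z) = 0 := linB_ln (la2 ▸ a4) (la2 ▸ c4)
  have g2 : (w.2 - w'.2) ⨯₃ d (l₂ T w) = 0 := linB_ln (lb2 ▸ b4) (lb2 ▸ d4)
  rw [f3] at g2
  have g3 := linB_zero la1 lb1 a5 b5
    (by rw [rot_cross n1, ne_eq, neg_eq_zero, rot_eq_zero n1]; exact hs) g1 g2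
  rw [g3] at f3
  have ez : z = z' := Prod.ext e5 (sub_eq_zero.1 g3)
  exact ⟨h.mot.2 T hT T' hT' z hz z' hz' (ez ▸ r1 z hz z hz) q, ez,
    Prod.ext e6 (sub_eq_zero.1 f3)⟩

theorem count_skew {ι : Type} {P : Finset V} {L : ℕ} {Λ : Finset (Finset V)} {o d : Finset V → V}
    {𝒯 : Finset ι} {ν : ι → V} {c : ι → ℝ} {H : ι → Finset (V × V)}
    {l₁ l₂ : ι → V × V → Finset V} (h : LinD P L Λ o d 𝒯 ν c H l₁ l₂) :
    ∑ T ∈ 𝒯, ((H T ×ˢ H T).filter fun e => d (l₁ T e.1) ⨯₃ d (l₁ T e.2) ≠ 0).card ≤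
      4 * L ^ 2 * Λ.card ^ 4 := by
  rw [← card_sigma]
  refine (card_le_mul_card_image_of_maps_to
    (f := fun e : (_ : ι) × ((V × V) × (V × V)) =>
      (((l₁ e.1 e.2.1, l₁ e.1 e.2.2), (l₂ e.1 e.2.1, l₂ e.1 e.2.2)),
        (decide (0 < rot (ν e.1) (c e.1) (d (l₁ e.1 e.2.1)) ⬝ᵥ d (l₂ e.1 e.2.1)),
          decide (0 < rot (ν e.1) (c e.1) (d (l₁ e.1 e.2.2)) ⬝ᵥ d (l₂ e.1 e.2.2)))))
    (t := ((Λ ×ˢ Λ) ×ˢ (Λ ×ˢ Λ)) ×ˢ (univ : Finset (Bool × Bool))) ?_ (L * L) ?_).trans_eq ?_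
  · intro e he
    obtain ⟨h1, h2⟩ := mem_sigma.1 he
    obtain ⟨h3, h4⟩ := mem_product.1 (mem_filter.1 h2).1
    obtain ⟨a1, a2, -⟩ := h.mem _ h1 _ h3
    obtain ⟨b1, b2, -⟩ := h.mem _ h1 _ h4
    simp only [mem_product, mem_univ, and_true]
    exact ⟨⟨a1, b1⟩, a2, b2⟩
  · intro b hb
    simp only [mem_product, mem_univ, and_true] at hb
    have k1 := (h.lam _ hb.1.1).2.2
    have k2 := (h.lam _ hb.1.2).2.2
    refine le_trans ?_ (Nat.mul_le_mul k1 k2)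
    rw [← card_product]
    refine card_le_card_of_injOn (fun e => (e.2.1.1, e.2.2.1)) (fun e he => ?_)
      fun e he e' he' ee => ?_
    · obtain ⟨he1, rfl⟩ := mem_filter.1 (mem_coe.1 he)
      obtain ⟨h1, h2⟩ := mem_sigma.1 he1
      obtain ⟨h3, h4⟩ := mem_product.1 (mem_filter.1 h2).1
      exact mem_coe.2 (mem_product.2 ⟨(h.mem _ h1 _ h3).2.2.1, (h.mem _ h1 _ h4).2.2.1⟩)
    · obtain ⟨he1, he2⟩ := mem_filter.1 (mem_coe.1 he)
      obtain ⟨he1', he2'⟩ := mem_filter.1 (mem_coe.1 he')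
      obtain ⟨h1, h2⟩ := mem_sigma.1 he1
      obtain ⟨h3, h4⟩ := mem_product.1 (mem_filter.1 h2).1
      obtain ⟨h1', h2'⟩ := mem_sigma.1 he1'
      obtain ⟨h3', h4'⟩ := mem_product.1 (mem_filter.1 h2').1
      have q := he2.trans he2'.symm
      simp only [Prod.mk.injEq, decide_eq_decide] at q ee
      obtain ⟨⟨⟨q1, q2⟩, q3, q4⟩, q5, q6⟩ := q
      obtain ⟨r1, r2, r3⟩ := linB_inj h h1 h1' h3 h4 h3' h4' (mem_filter.1 h2).2 q1 q2 q3 q4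
        ee.1 ee.2 q5 q6
      obtain ⟨T, z, w⟩ := e
      obtain ⟨T', z', w'⟩ := e'
      simp only at r1 r2 r3
      rw [r1, r2, r3]
  · simp only [card_product, card_univ, Fintype.card_prod, Fintype.card_bool]
    ring

end Vale.Agent.P054
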