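import Vale.Agent.P054.LinP

/-! LinC: motions with many points on rich lines (about 200 lines).
`Λ = hl P h`, `o, d` by `choose`, `|Λ| ≤ x^2` (`hl_card`). For `z ∈ hvy (K T) h` with direction `v` put `l₁ T z = ln P z.1 v`, `l₂ T z = ln P z.2 (rot v)`; both contain the injective images of the `h ≥ 2` pairs (`rel_iff`, `rot_cross`), and `ln_two` shows that `d (l₁ T z)` is parallel to `v`, `d (l₂ T z)` to `rot v`. The pairs `(z, w)` with `l₁ T z = l₁ T w` are at most `|H| L ≤ |H|^2 / 2`. Use `count_skew` and `count_par` with `e = 2 x^3`.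
-/

noncomputable section

open Classical MvPolynomial Matrix Finset

namespace Vale.Agent.P054

theorem linC_fst {ν : V} {c : ℝ} (hν : ν ≠ 0) {z w : V × V} (h : rel ν c z w) (h1 : z.1 = w.1) :
    z = w := by
  rw [rel_iff hν, h1, sub_self, (rot_eq_zero hν c).2 rfl, sub_eq_zero] at h
  exact Prod.ext h1 h.symm

theorem linC_mem {P : Finset V} {ν : V} {c : ℝ} {K : Finset (V × V)} {h : ℕ} (hν : ν ≠ 0)
    (hK : K ⊆ P ×ˢ P) (hr : ∀ z ∈ K, ∀ w ∈ K, rel ν c z w) {z : V × V} (hz : z ∈ K) {v : V}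
    (hv : v ≠ 0) (hh : h ≤ (K.filter fun w => v ⨯₃ (w.1 - z.1) = 0).card) :
    ln P z.1 v ∈ hl P h ∧ ln P z.2 (rot ν c v) ∈ hl P h := by
  constructor
  · refine mem_filter.2 ⟨mem_powerset.2 (filter_subset _ _), hh.trans ?_, _, _, hv, rfl⟩
    refine card_le_card_of_injOn Prod.fst (fun w hw => ?_) fun w hw w' hw' e => ?_
    · obtain ⟨h1, h2⟩ := mem_filter.1 (mem_coe.1 hw)
      exact mem_coe.2 (mem_filter.2 ⟨(mem_product.1 (hK h1)).1, h2⟩)
    · exact linC_fst hν (hr _ (mem_filter.1 (mem_coe.1 hw)).1 _ (mem_filter.1 (mem_coe.1 hw')).1) e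
  · refine mem_filter.2 ⟨mem_powerset.2 (filter_subset _ _), hh.trans ?_, _, _,
      fun e => hv ((rot_eq_zero hν c).1 e), rfl⟩
    refine card_le_card_of_injOn Prod.snd (fun w hw => ?_) fun w hw w' hw' e => ?_
    · obtain ⟨h1, h2⟩ := mem_filter.1 (mem_coe.1 hw)
      refine mem_coe.2 (mem_filter.2 ⟨(mem_product.1 (hK h1)).2, ?_⟩)
      rw [(rel_iff hν).1 (hr z hz w h1), rot_cross hν, h2, (rot_eq_zero hν c).2 rfl, neg_zero]
    · exact (hr _ (mem_filter.1 (mem_coe.1 hw)).1 _ (mem_filter.1 (mem_coe.1 hw')).1).eq_of_snd hν e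

theorem linC_split {ι : Type} {P : Finset V} {L : ℕ} {Λ : Finset (Finset V)} {o d : Finset V → V}
    {𝒯 : Finset ι} {ν : ι → V} {c : ι → ℝ} {H : ι → Finset (V × V)}
    {l₁ l₂ : ι → V × V → Finset V} (h : LinD P L Λ o d 𝒯 ν c H l₁ l₂) {T : ι} (hT : T ∈ 𝒯)
    (h5 : 2 * L ≤ (H T).card) : (H T).card ^ 2 ≤
      2 * (((H T ×ˢ H T).filter fun e => d (l₁ T e.1) ⨯₃ d (l₁ T e.2) ≠ 0).card +
        ((H T ×ˢ H T).filter fun y => d (l₁ T y.1) ⨯₃ d (l₁ T y.2) = 0 ∧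
          l₁ T y.1 ≠ l₁ T y.2).card) := by
  obtain ⟨hν, -, hr⟩ := h.mot.1 T hT
  have h1 : ((H T ×ˢ H T).filter fun y => l₁ T y.1 = l₁ T y.2).card ≤ L * (H T).card := by
    refine card_le_mul_card_image_of_maps_to (f := Prod.fst)
      (fun y hy => (mem_product.1 (mem_filter.1 hy).1).1) L fun z hz => ?_
    refine le_trans (card_le_card_of_injOn (fun y => y.2.1) (fun y hy => ?_) fun y hy y' hy' e => ?_)
      (h.lam _ (h.mem T hT z hz).1).2.2
    · obtain ⟨a1, a2⟩ := mem_filter.1 (mem_coe.1 hy)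
      obtain ⟨a3, a4⟩ := mem_filter.1 a1
      rw [← a2, a4]
      exact mem_coe.2 (h.mem T hT _ (mem_product.1 a3).2).2.2.1
    · obtain ⟨a1, a2⟩ := mem_filter.1 (mem_coe.1 hy)
      obtain ⟨b1, b2⟩ := mem_filter.1 (mem_coe.1 hy')
      exact Prod.ext (a2.trans b2.symm) (linC_fst hν (hr _ (mem_product.1 (mem_filter.1 a1).1).2 _
        (mem_product.1 (mem_filter.1 b1).1).2) e)
  have h2 : H T ×ˢ H T ⊆ (((H T ×ˢ H T).filter fun e => d (l₁ T e.1) ⨯₃ d (l₁ T e.2) ≠ 0) ∪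
      (H T ×ˢ H T).filter fun y => d (l₁ T y.1) ⨯₃ d (l₁ T y.2) = 0 ∧ l₁ T y.1 ≠ l₁ T y.2) ∪
      (H T ×ˢ H T).filter fun y => l₁ T y.1 = l₁ T y.2 := by
    intro y hy
    simp only [mem_union, mem_filter, hy, true_and]
    tauto
  have h3 := (card_le_card h2).trans ((card_union_le _ _).trans
    (add_le_add (card_union_le _ _) h1))
  rw [card_product] at h3
  have h4 := Nat.mul_le_mul_right (H T).card h5
  rw [pow_two]
  nlinarith

theorem mir_lines {ι : Type} {P : Finset V} {𝒯 : Finset ι} {ν : ι → V} {c : ι → ℝ}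
    {K : ι → Finset (V × V)} {L h x : ℕ} (hm : Mot 𝒯 ν c K (P ×ˢ P)) (hL : LineLe P L) (h2 : 2 ≤ h)
    (h3 : 2 * P.card ≤ h ^ 2) (h4 : 2 * P.card ≤ x ^ 2 * h)
    (h5 : ∀ T ∈ 𝒯, 2 * L ≤ (hvy (K T) h).card) :
    ∑ T ∈ 𝒯, (hvy (K T) h).card ^ 2 ≤ 8 * L ^ 2 * x ^ 8 + 8 * L ^ 3 * x ^ 7 := by
  have e1 : ∀ l : Finset V, ∃ p v : V, l ∈ hl P h → v ≠ 0 ∧ l = ln P p v := fun l => by
    by_cases hl' : l ∈ hl P h
    · obtain ⟨p, v, hv⟩ := (mem_filter.1 hl').2.2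
      exact ⟨p, v, fun _ => hv⟩
    · exact ⟨0, 0, fun a => (hl' a).elim⟩
  choose o d hod using e1
  have e2 : ∀ (T : ι) (z : V × V), ∃ v : V, z ∈ hvy (K T) h →
      v ≠ 0 ∧ h ≤ ((K T).filter fun w => v ⨯₃ (w.1 - z.1) = 0).card := fun T z => by
    by_cases hz : z ∈ hvy (K T) h
    · obtain ⟨v, hv⟩ := (mem_filter.1 hz).2
      exact ⟨v, fun _ => hv⟩
    · exact ⟨0, fun a => (hz a).elim⟩
  choose v hv using e2
  have par : ∀ p u : V, u ≠ 0 → ln P p u ∈ hl P h → u ⨯₃ d (ln P p u) = 0 := by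
    intro p u hu hm'
    obtain ⟨a, ha, b, hb, hab⟩ := one_lt_card.1 (lt_of_lt_of_le h2 (mem_filter.1 hm').2.1)
    exact (ln_two hu hab ha hb ((hod _ hm').2 ▸ ha) ((hod _ hm').2 ▸ hb)).1
  have hD : LinD P L (hl P h) o d 𝒯 ν c (fun T => hvy (K T) h) (fun T z => ln P z.1 (v T z))
      (fun T z => ln P z.2 (rot (ν T) (c T) (v T z))) := by
    refine ⟨hm.mono Subset.rfl (fun T _ => filter_subset _ _)
      fun T hT => (filter_subset _ _).trans (hm.1 T hT).2.1, fun l hl' => ?_, fun T hT z hz => ?_⟩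
    · refine ⟨(hod l hl').1, (hod l hl').2, ?_⟩
      rw [(hod l hl').2]
      exact hL _ _ (hod l hl').1
    · obtain ⟨hν, hK, hr⟩ := hm.1 T hT
      obtain ⟨v0, v1⟩ := hv T z hz
      have zK : z ∈ K T := (mem_filter.1 hz).1
      obtain ⟨m1, m2⟩ := linC_mem hν hK hr zK v0 v1
      refine ⟨m1, m2, mem_filter.2 ⟨(mem_product.1 (hK zK)).1, by rw [sub_self, map_zero]⟩,
        mem_filter.2 ⟨(mem_product.1 (hK zK)).2, by rw [sub_self, map_zero]⟩, ?_⟩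
      obtain ⟨t, ht⟩ := par_of_cross v0 (par _ _ v0 m1)
      rw [ht, rot_smul, map_smul, LinearMap.smul_apply,
        par _ _ (fun e => v0 ((rot_eq_zero hν _).1 e)) m2, smul_zero]
  have hΛ : (hl P h).card ≤ x ^ 2 :=
    Nat.le_of_mul_le_mul_right ((hl_card h3).trans h4) (by omega)
  have c1 := count_skew hD
  have c2 := count_par hD (e := 2 * x ^ 3) (by
    have := Nat.pow_le_pow_left hΛ 3
    nlinarith)
  have c3 := sum_le_sum fun T hT => linC_split hD hT (h5 T hT)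
  rw [← mul_sum, sum_add_distrib] at c3
  have p1 := Nat.mul_le_mul_left (4 * L ^ 2) (Nat.pow_le_pow_left hΛ 4)
  have p2 := Nat.mul_le_mul_right (2 * x ^ 3) (Nat.mul_le_mul_left (2 * L ^ 3)
    (Nat.pow_le_pow_left hΛ 2))
  calc _ ≤ _ := c3
    _ ≤ 2 * (4 * L ^ 2 * (x ^ 2) ^ 4 + 2 * L ^ 3 * (x ^ 2) ^ 2 * (2 * x ^ 3)) :=
        Nat.mul_le_mul_left 2 (add_le_add (c1.trans p1) (c2.trans p2))
    _ = _ := by ring

end Vale.Agent.P054
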