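import Vale.Agent.P054.LinA
import Vale.Agent.P054.LinB

/-! LinP: motions and pairs of parallel lines (about 250 lines).
The map `(T, z, w) ↦ (l₁ T z, l₁ T w, (l₂ T z, l₂ T w), z.1, z.2, w.1, s)` is injective: with `d₁ = d (l₁ T z)`, `a = w.1 - z.1` one has `d₁ × a ≠ 0` (`ln_eq`), `rot d₁ = rot' d₁` (`lin_sign`), `rot a - rot' a = w.2 - w'.2` is parallel to `rot d₁` and orthogonal to it (`rot_dot`); `rot_ext`, `Mot`.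
The pair `(l₂ T z, l₂ T w)` satisfies the relation of `par_energy` with `r = |d₁ × (o₂ - o₁)|^2 / |d₁|^2` for `(l₁ T z, l₁ T w)`: `d' = t • rot d₁`, `d' × (o₂' - o₁') = d' × (w.2 - z.2) = -t • rot (d₁ × a)`. So there are at most `e` choices for it.
-/

noncomputable section

open Classical MvPolynomial Matrix Finset

namespace Vale.Agent.P054

section
variable {ι : Type} {P : Finset V} {L : ℕ} {Λ : Finset (Finset V)} {o d : Finset V → V}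
  {𝒯 : Finset ι} {ν : ι → V} {c : ι → ℝ} {H : ι → Finset (V × V)}
  {l₁ l₂ : ι → V × V → Finset V}

theorem linp_mem (h : LinD P L Λ o d 𝒯 ν c H l₁ l₂) {l : Finset V} (hl : l ∈ Λ) {p : V}
    (hp : p ∈ l) : d l ⨯₃ (p - o l) = 0 := by
  rw [(h.lam l hl).2.1] at hp
  exact (mem_filter.1 hp).2

theorem linp_off (h : LinD P L Λ o d 𝒯 ν c H l₁ l₂) {l l' : Finset V} (hl : l ∈ Λ) (hl' : l' ∈ Λ)
    {p p' : V} (hp : p ∈ l) (hp' : p' ∈ l') (hd : d l ⨯₃ d l' = 0) :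
    d l ⨯₃ (o l' - o l) = d l ⨯₃ (p' - p) := by
  obtain ⟨t, ht⟩ := par_of_cross (h.lam l' hl').1 (a := d l)
    (by rw [← cross_anticomm, hd, neg_zero])
  have h1 : d l ⨯₃ (p' - o l') = 0 := by
    rw [ht, LinearMap.map_smul₂, linp_mem h hl' hp', smul_zero]
  rw [show o l' - o l = p' - p + (p - o l) - (p' - o l') by abel, map_sub, map_add, h1,
    linp_mem h hl hp, add_zero, sub_zero]

theorem linp_inj (h : LinD P L Λ o d 𝒯 ν c H l₁ l₂) (l : Finset V) (hl : l ∈ Λ) (l' : Finset V)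
    (hl' : l' ∈ Λ) (h1 : d l ⨯₃ d l' = 0) (h2 : d l ⨯₃ (o l' - o l) = 0) : l = l' :=
  (h.lam l hl).2.1.trans ((ln_eq (h.lam l hl).1 (h.lam l' hl').1 h1 h2).trans
    (h.lam l' hl').2.1.symm)

theorem linp_geo (h : LinD P L Λ o d 𝒯 ν c H l₁ l₂) {T : ι} (hT : T ∈ 𝒯) {z w : V × V}
    (hz : z ∈ H T) (hw : w ∈ H T) (hd : d (l₁ T z) ⨯₃ d (l₁ T w) = 0) :
    ∃ t k : ℝ, d (l₂ T z) = t • rot (ν T) (c T) (d (l₁ T z)) ∧
      d (l₂ T w) = k • rot (ν T) (c T) (d (l₁ T z)) := by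
  have hν := (h.mot.1 T hT).1
  obtain ⟨a1, -, -, -, a5⟩ := h.mem T hT z hz
  obtain ⟨b1, -, -, -, b5⟩ := h.mem T hT w hw
  obtain ⟨t, ht⟩ := par_of_cross (mt (rot_eq_zero hν _).1 (h.lam _ a1).1) a5
  obtain ⟨k, hk⟩ := par_of_cross (mt (rot_eq_zero hν _).1 (h.lam _ b1).1) b5
  obtain ⟨u, hu⟩ := par_of_cross (h.lam _ a1).1 hd
  exact ⟨t, k * u, ht, by rw [hk, hu, rot_smul, smul_smul]⟩

/-- the squared distance of two parallel lines -/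
def linp_r (o d : Finset V → V) (A : Finset V × Finset V) : ℝ :=
  (d A.1 ⨯₃ (o A.2 - o A.1)) ⬝ᵥ (d A.1 ⨯₃ (o A.2 - o A.1)) / (d A.1 ⬝ᵥ d A.1)

theorem linp_rel (h : LinD P L Λ o d 𝒯 ν c H l₁ l₂) {T : ι} (hT : T ∈ 𝒯) {z w : V × V}
    (hz : z ∈ H T) (hw : w ∈ H T) (hd : d (l₁ T z) ⨯₃ d (l₁ T w) = 0) :
    d (l₂ T z) ⨯₃ d (l₂ T w) = 0 ∧
      (d (l₂ T z) ⨯₃ (o (l₂ T w) - o (l₂ T z))) ⬝ᵥ (d (l₂ T z) ⨯₃ (o (l₂ T w) - o (l₂ T z))) =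
        linp_r o d (l₁ T z, l₁ T w) * (d (l₂ T z) ⬝ᵥ d (l₂ T z)) := by
  obtain ⟨hν, -, hr⟩ := h.mot.1 T hT
  obtain ⟨a1, a2, a3, a4, -⟩ := h.mem T hT z hz
  obtain ⟨b1, b2, b3, b4, -⟩ := h.mem T hT w hw
  obtain ⟨t, k, ht, hk⟩ := linp_geo h hT hz hw hd
  have h1 : d (l₂ T z) ⨯₃ d (l₂ T w) = 0 := by
    rw [ht, hk, LinearMap.map_smul₂, map_smul, cross_self, smul_zero, smul_zero]
  have h2 : d (l₁ T z) ⬝ᵥ d (l₁ T z) ≠ 0 := mt dotProduct_self_eq_zero.1 (h.lam _ a1).1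
  refine ⟨h1, ?_⟩
  rw [linp_off h a2 b2 a4 b4 h1, linp_r, linp_off h a1 b1 a3 b3 hd, (rel_iff hν).1 (hr z hz w hw),
    ht, LinearMap.map_smul₂, rot_cross hν, smul_dotProduct, dotProduct_smul, neg_dotProduct_neg,
    smul_dotProduct, dotProduct_smul, rot_dot hν, rot_dot hν]
  simp only [smul_eq_mul]
  field_simp

theorem linp_eq (h : LinD P L Λ o d 𝒯 ν c H l₁ l₂) {T T' : ι} (hT : T ∈ 𝒯) (hT' : T' ∈ 𝒯)
    {z w w' : V × V} (hz : z ∈ H T) (hw : w ∈ H T) (hz' : z ∈ H T') (hw' : w' ∈ H T')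
    (hd : d (l₁ T z) ⨯₃ d (l₁ T w) = 0) (hne : l₁ T z ≠ l₁ T w) (e1 : l₁ T z = l₁ T' z)
    (e2 : l₂ T z = l₂ T' z) (e3 : l₂ T w = l₂ T' w') (e4 : w.1 = w'.1)
    (hs : 0 < rot (ν T) (c T) (d (l₁ T z)) ⬝ᵥ d (l₂ T z) ↔
      0 < rot (ν T') (c T') (d (l₁ T' z)) ⬝ᵥ d (l₂ T' z)) : T = T' ∧ w = w' := by
  obtain ⟨hν, -, hr⟩ := h.mot.1 T hT
  obtain ⟨hν', -, hr'⟩ := h.mot.1 T' hT'
  obtain ⟨a1, a2, a3, a4, a5⟩ := h.mem T hT z hz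
  obtain ⟨b1, b2, b3, b4, -⟩ := h.mem T hT w hw
  have a6 := (h.mem T' hT' z hz').2.2.2.2
  have b6 := (h.mem T' hT' w' hw').2.2.2.1
  rw [← e1, ← e2] at hs a6
  rw [← e3] at b6
  have h1 := lin_sign (h.lam _ a2).1 a5 a6 (by rw [rot_dot hν, rot_dot hν']) hs
  have h2 : d (l₁ T z) ⨯₃ (w.1 - z.1) ≠ 0 := fun e =>
    hne (linp_inj h _ a1 _ b1 hd ((linp_off h a1 b1 a3 b3 hd).trans e))
  have h3 := (rel_iff hν).1 (hr z hz w hw)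
  have h4 := (rel_iff hν').1 (hr' z hz' w' hw')
  rw [← e4] at h4
  obtain ⟨-, k, -, hk⟩ := linp_geo h hT hz hw hd
  obtain ⟨u, hu⟩ := par_of_cross (h.lam _ b2).1 (a := w.2 - w'.2) (by
    rw [← linp_off h b2 b2 b6 b4 (cross_self _), sub_self, map_zero])
  have h5 : (w.2 - w'.2) ⬝ᵥ rot (ν T) (c T) (d (l₁ T z)) = 0 := by
    rw [← sub_sub_sub_cancel_right _ _ z.2, sub_dotProduct, h3, h4, rot_dot hν, h1, rot_dot hν',
      sub_self]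
  have h6 : w.2 = w'.2 := sub_eq_zero.1 (dotProduct_self_eq_zero.1 (by
    nth_rewrite 2 [hu]
    rw [hk, dotProduct_smul, dotProduct_smul, h5, smul_zero, smul_zero]))
  exact ⟨h.mot.2 T hT T' hT' z hz z hz' (hr z hz z hz)
    (rot_ext hν hν' h2 h1 (by rw [← h3, ← h4, h6])), Prod.ext e4 h6⟩

end

theorem count_par {ι : Type} {P : Finset V} {L : ℕ} {Λ : Finset (Finset V)} {o d : Finset V → V}
    {𝒯 : Finset ι} {ν : ι → V} {c : ι → ℝ} {H : ι → Finset (V × V)}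
    {l₁ l₂ : ι → V × V → Finset V} (h : LinD P L Λ o d 𝒯 ν c H l₁ l₂) {e : ℕ}
    (he : 3 * Λ.card ^ 3 ≤ e ^ 2) :
    ∑ T ∈ 𝒯, ((H T ×ˢ H T).filter fun y => d (l₁ T y.1) ⨯₃ d (l₁ T y.2) = 0 ∧
      l₁ T y.1 ≠ l₁ T y.2).card ≤ 2 * L ^ 3 * Λ.card ^ 2 * e := by
  let E : Finset V × Finset V → Finset (Finset V × Finset V) := fun A =>
    (Λ ×ˢ Λ).filter fun e => d e.1 ⨯₃ d e.2 = 0 ∧
      (d e.1 ⨯₃ (o e.2 - o e.1)) ⬝ᵥ (d e.1 ⨯₃ (o e.2 - o e.1)) = linp_r o d A * (d e.1 ⬝ᵥ d e.1)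
  have hE : ∀ A, (E A).card ≤ e := fun A => (pow_le_pow_iff_left₀ (Nat.zero_le _) (Nat.zero_le _)
    two_ne_zero).1 ((par_energy Λ o d (fun l hl => (h.lam l hl).1) (linp_inj h) _).trans he)
  rw [← card_sigma]
  refine (card_le_card_of_injOn (t := (Λ ×ˢ Λ).sigma fun A => (E A).sigma fun B =>
    (A.1 ×ˢ B.1 ×ˢ A.2) ×ˢ (univ : Finset Bool)) (fun x => ⟨(l₁ x.1 x.2.1, l₁ x.1 x.2.2),
      (l₂ x.1 x.2.1, l₂ x.1 x.2.2), (x.2.1.1, x.2.1.2, x.2.2.1),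
      decide (0 < rot (ν x.1) (c x.1) (d (l₁ x.1 x.2.1)) ⬝ᵥ d (l₂ x.1 x.2.1))⟩) ?_ ?_).trans ?_
  · rintro ⟨T, z, w⟩ hx
    obtain ⟨hT, hx⟩ := mem_sigma.1 (mem_coe.1 hx)
    obtain ⟨hx, hd, -⟩ := mem_filter.1 hx
    obtain ⟨hz, hw⟩ := mem_product.1 hx
    obtain ⟨a1, a2, a3, a4, -⟩ := h.mem T hT z hz
    obtain ⟨b1, b2, b3, -⟩ := h.mem T hT w hw
    exact mem_coe.2 (mem_sigma.2 ⟨mem_product.2 ⟨a1, b1⟩, mem_sigma.2
      ⟨mem_filter.2 ⟨mem_product.2 ⟨a2, b2⟩, linp_rel h hT hz hw hd⟩,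
        mem_product.2 ⟨mem_product.2 ⟨a3, mem_product.2 ⟨a4, b3⟩⟩, mem_univ _⟩⟩⟩)
  · rintro ⟨T, z, w⟩ hx ⟨T', z', w'⟩ hx' e
    obtain ⟨hT, hx⟩ := mem_sigma.1 (mem_coe.1 hx)
    obtain ⟨hx, hd, hne⟩ := mem_filter.1 hx
    obtain ⟨hz, hw⟩ := mem_product.1 hx
    obtain ⟨hT', hx'⟩ := mem_sigma.1 (mem_coe.1 hx')
    obtain ⟨hz', hw'⟩ := mem_product.1 (mem_filter.1 hx').1
    simp only [Sigma.mk.injEq, heq_eq_eq, Prod.mk.injEq, decide_eq_decide] at e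
    obtain ⟨⟨e1, -⟩, ⟨e2, e3⟩, ⟨e4, e5, e6⟩, e7⟩ := e
    obtain rfl : z = z' := Prod.ext e4 e5
    obtain ⟨rfl, rfl⟩ := linp_eq h hT hT' hz hw hz' hw' hd hne e1 e2 e3 e6 e7
    rfl
  · rw [card_sigma]
    refine (sum_le_card_nsmul _ _ (e * (L ^ 3 * 2)) fun A hA => ?_).trans_eq ?_
    · rw [card_sigma]
      refine (sum_le_card_nsmul _ _ (L ^ 3 * 2) fun B hB => ?_).trans
        (Nat.mul_le_mul_right _ (hE A))
      rw [card_product, card_product, card_product, card_univ, Fintype.card_bool, pow_three]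
      exact Nat.mul_le_mul_right _ (Nat.mul_le_mul (h.lam _ (mem_product.1 hA).1).2.2
        (Nat.mul_le_mul (h.lam _ (mem_product.1 (mem_filter.1 hB).1).1).2.2
          (h.lam _ (mem_product.1 hA).2).2.2))
    · rw [card_product, smul_eq_mul]
      ring

end Vale.Agent.P054
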