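import Vale.Agent.P054.PCurve
import Vale.Agent.P054.Jet

/-! LineZ: specializations of a line in the surface are lines in the projective surface (about 250 lines).
Let `H(a, x) = ∑ k ≤ r, a^(r-k) h_k(x)`. For `a ≠ 0`, `H(a, a ξ + b v) = a^r h(ξ + (b/a) v) = 0`; as a polynomial in `a` it vanishes identically, also for `a = 0`. For complex `μ, c` the form `ψ(α, β) = H(μ ⬝ᵥ α, μ × β + c α)` is homogeneous of degree `r` and vanishes at `(v, ξ × v)` (`μ × (ξ × v) = (μ ⬝ᵥ v) ξ - (μ ⬝ᵥ ξ) v`), so it is in `hker` (`mem_hker`) and vanishes at `π`. As a polynomial in `(μ, c)` over `R` it vanishes on all complex points, hence it is zero (`MvPolynomial.funext_set` with the infinite range of `algebraMap`).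
`zero_line`: choose `μ ⬝ᵥ α = 1`, `c = μ ⬝ᵥ s`. `zero_inf`: `x = μ × β` for some `μ`.
`line_jets`: derivatives of `t ↦ h(s + t α)` at 0 (derivation `d/dT` of `R[T]`, file Jet).
-/

noncomputable section

open Classical MvPolynomial Matrix Finset

namespace Vale.Agent.P054

variable {Ω R : Type*} [Field Ω] [Algebra ℂ Ω] [Field R] [Algebra ℂ R] {h : P3} {ξ v : Fin 3 → Ω}

section
variable {S S' : Type*} [CommRing S] [Algebra ℂ S] [CommRing S'] [Algebra ℂ S']

/-- the homogenization of `h` evaluated at `(a, x)` -/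
def lzH (h : P3) (a : S) (x : Fin 3 → S) : S :=
  ∑ k ∈ range (h.totalDegree + 1), a ^ (h.totalDegree - k) * aeval x (homogeneousComponent k h)

theorem lzH_map (φ : S →ₐ[ℂ] S') (a : S) (x : Fin 3 → S) :
    φ (lzH h a x) = lzH h (φ a) fun i => φ (x i) := by
  simp only [lzH, map_sum, map_mul, map_pow, comp_aeval_apply]

theorem lzH_one (x : Fin 3 → S) : lzH h 1 x = aeval x h := by
  simp only [lzH, one_pow, one_mul]
  rw [← map_sum, sum_homogeneousComponent]

theorem lzH_zero (x : Fin 3 → S) :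
    lzH h 0 x = aeval x (homogeneousComponent h.totalDegree h) := by
  rw [lzH, sum_range_succ, Nat.sub_self, pow_zero, one_mul, sum_eq_zero, zero_add]
  intro k hk
  rw [zero_pow (Nat.sub_ne_zero_of_lt (mem_range.1 hk)), zero_mul]

theorem lzH_smul (t a : S) (x : Fin 3 → S) :
    lzH h (t * a) (t • x) = t ^ h.totalDegree * lzH h a x := by
  rw [lzH, lzH, mul_sum]
  refine sum_congr rfl fun k hk => ?_
  have h1 := pc_scale t x (homogeneousComponent_isHomogeneous k h)
  have h2 : t ^ h.totalDegree = t ^ (h.totalDegree - k) * t ^ k := by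
    rw [← pow_add, Nat.sub_add_cancel (Nat.le_of_lt_succ (mem_range.1 hk))]
  have h3 : t • x = fun a => t * x a := rfl
  rw [h3, h1, h2, mul_pow]
  ring

/-- the homogenization at a point of the line with Pluecker coordinates `(α, β)` -/
def lzG (h : P3) (μ : Fin 3 → S) (c : S) (α β : Fin 3 → S) : S :=
  lzH h (μ ⬝ᵥ α) (μ ⨯₃ β + c • α)

theorem lzG_map (φ : S →ₐ[ℂ] S') (μ : Fin 3 → S) (c : S) (α β : Fin 3 → S) :
    φ (lzG h μ c α β) =
      lzG h (fun i => φ (μ i)) (φ c) (fun i => φ (α i)) fun i => φ (β i) := by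
  rw [lzG, lzG, lzH_map]
  congr 1
  · simp [dotProduct]
  · funext i
    fin_cases i <;> simp [cross_apply]

end

theorem lz_infinite (R : Type*) [Field R] [Algebra ℂ R] : Infinite R :=
  Infinite.of_injective _ (algebraMap ℂ R).injective

theorem lzH_line (hl : ∀ T : Ω, aeval (ξ + T • v) h = 0) (a b : Ω) :
    lzH h a (a • ξ + b • v) = 0 := by
  have := lz_infinite Ω
  have h1 : ∀ a : Ω, a ≠ 0 → lzH h a (a • ξ + b • v) = 0 := by
    intro a ha
    have h2 := lzH_smul (h := h) a 1 (ξ + (b / a) • v)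
    rw [lzH_one, hl, mul_zero, mul_one, smul_add, smul_smul, mul_div_cancel₀ _ ha] at h2
    exact h2
  have h3 : ∀ a : Ω, Polynomial.eval a (lzH h (Polynomial.X : Polynomial Ω)
      fun i => Polynomial.X * Polynomial.C (ξ i) + Polynomial.C (b * v i)) =
        lzH h a (a • ξ + b • v) := by
    intro a
    refine (lzH_map ((Polynomial.aeval a : Polynomial Ω →ₐ[Ω] Ω).restrictScalars ℂ) _ _).trans ?_
    congr 1
    · simp
    · funext i
      simp [mul_comm a]
  rw [← h3, Polynomial.eq_zero_of_infinite_isRoot _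
    (((Set.finite_singleton (0 : Ω)).infinite_compl).mono fun a ha => (h3 a).trans (h1 a ha)),
    Polynomial.eval_zero]

theorem lzG_hom (μ : Fin 3 → ℂ) (c : ℂ) :
    (lzG h (fun i => (C (μ i) : P6)) (C c) (fun i => X (.inl i)) fun i => X (.inr i)).IsHomogeneous
      h.totalDegree := by
  have hm : ∀ (a : ℂ) (i : S6), (C a * X i : P6).IsHomogeneous 1 := fun a i =>
    isHomogeneous_C_mul_X _ _
  refine IsHomogeneous.sum _ _ _ fun k hk => ?_
  have h1 : ((fun i => (C (μ i) : P6)) ⬝ᵥ fun i => X (.inl i)).IsHomogeneous 1 :=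
    IsHomogeneous.sum _ _ _ fun i _ => hm _ _
  have h2 : ∀ i, (((fun i => (C (μ i) : P6)) ⨯₃ (fun i => X (.inr i)) +
      (C c : P6) • fun i => (X (Sum.inl i) : P6)) i).IsHomogeneous 1 := by
    intro i
    fin_cases i
    · exact ((hm _ _).sub (hm _ _)).add (hm _ _)
    · exact ((hm _ _).sub (hm _ _)).add (hm _ _)
    · exact ((hm _ _).sub (hm _ _)).add (hm _ _)
  have h3 := (h1.pow (h.totalDegree - k)).mul
    ((homogeneousComponent_isHomogeneous k h).aeval _ h2)
  rwa [one_mul, one_mul, Nat.sub_add_cancel (Nat.le_of_lt_succ (mem_range.1 hk))] at h3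

theorem lzG_zero (hl : ∀ T : Ω, aeval (ξ + T • v) h = 0) {α β : Fin 3 → R}
    (hπ : ∀ f ∈ hker ℂ (Sum.elim v (ξ ⨯₃ v) : S6 → Ω), aeval (Sum.elim α β) f = 0)
    (μ : Fin 3 → R) (c : R) : lzG h μ c α β = 0 := by
  have h1 : ∀ (μ : Fin 3 → ℂ) (c : ℂ),
      lzG h (fun i => algebraMap ℂ R (μ i)) (algebraMap ℂ R c) α β = 0 := by
    intro μ c
    have h2 := hπ _ ((mem_hker _ (lzG_hom (h := h) μ c)).2 (by
      rw [lzG_map]
      simp only [aeval_C, aeval_X, Sum.elim_inl, Sum.elim_inr]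
      rw [lzG, cross_cross_eq_smul_sub_smul', sub_add, ← sub_smul, sub_eq_add_neg, ← neg_smul]
      exact lzH_line hl _ _))
    rw [lzG_map] at h2
    simpa only [aeval_C, aeval_X, Sum.elim_inl, Sum.elim_inr] using h2
  have h3 : ∀ m : Option (Fin 3) → R, eval m (lzG h (fun i => X (some i)) (X none)
      (fun i => C (α i)) fun i => (C (β i) : MvPolynomial (Option (Fin 3)) R)) =
        lzG h (fun i => m (some i)) (m none) α β := by
    intro m
    refine (lzG_map ((aeval m : MvPolynomial (Option (Fin 3)) R →ₐ[R] R).restrictScalars ℂ)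
      _ _ _ _).trans ?_
    simp
  have h4 : (lzG h (fun i => X (some i)) (X none)
      (fun i => C (α i)) fun i => (C (β i) : MvPolynomial (Option (Fin 3)) R)) = 0 := by
    refine MvPolynomial.funext_set (fun _ => Set.range (algebraMap ℂ R))
      (fun _ => Set.infinite_range_of_injective (algebraMap ℂ R).injective) fun m hm => ?_
    choose m' hm' using fun o => hm o (Set.mem_univ o)
    rw [h3, map_zero, ← funext hm']
    exact h1 _ _
  have h5 := h3 fun o => o.elim c μ
  rw [h4, map_zero] at h5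
  exact h5.symm

theorem zero_pl {α β : Fin 3 → R}
    (hπ : ∀ f ∈ hker ℂ (Sum.elim v (ξ ⨯₃ v) : S6 → Ω), aeval (Sum.elim α β) f = 0) :
    α ⬝ᵥ β = 0 := by
  have h1 : (∑ i, X (.inl i) * X (.inr i) : P6).IsHomogeneous (1 + 1) :=
    IsHomogeneous.sum _ _ _ fun i _ => (isHomogeneous_X _ _).mul (isHomogeneous_X _ _)
  have h2 := hπ _ ((mem_hker _ h1).2 (by
    simp only [map_sum, map_mul, aeval_X, Sum.elim_inl, Sum.elim_inr]
    exact dot_cross_self ξ v))
  simp only [map_sum, map_mul, aeval_X, Sum.elim_inl, Sum.elim_inr] at h2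
  exact h2

theorem lz_dual {R : Type*} [Field R] {α : Fin 3 → R} (hα : α ≠ 0) : ∃ μ, μ ⬝ᵥ α = 1 := by
  obtain ⟨i, hi⟩ := Function.ne_iff.1 hα
  exact ⟨Pi.single i (α i)⁻¹, by rw [single_dotProduct, inv_mul_cancel₀ hi]⟩

theorem zero_line (hl : ∀ T : Ω, aeval (ξ + T • v) h = 0) {α β : Fin 3 → R}
    (hπ : ∀ f ∈ hker ℂ (Sum.elim v (ξ ⨯₃ v) : S6 → Ω), aeval (Sum.elim α β) f = 0) (hα : α ≠ 0)
    {s : Fin 3 → R} (hs : s ⨯₃ α = β) : aeval s h = 0 := by
  obtain ⟨μ, hμ⟩ := lz_dual hα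
  have h1 := lzG_zero hl hπ μ (s ⬝ᵥ μ)
  rwa [lzG, ← hs, cross_cross_eq_smul_sub_smul', hμ, one_smul, sub_add_cancel, lzH_one] at h1

theorem lz_on {R : Type*} [Field R] {α β : Fin 3 → R} (hα : α ≠ 0) (hp : α ⬝ᵥ β = 0) :
    ∃ s, s ⨯₃ α = β := by
  obtain ⟨μ, hμ⟩ := lz_dual hα
  refine ⟨μ ⨯₃ β, ?_⟩
  rw [cross_cross_eq_smul_sub_smul, hμ, one_smul, dotProduct_comm, hp, zero_smul, sub_zero]

theorem zero_inf (hl : ∀ T : Ω, aeval (ξ + T • v) h = 0) {β : Fin 3 → R}
    (hπ : ∀ f ∈ hker ℂ (Sum.elim v (ξ ⨯₃ v) : S6 → Ω), aeval (Sum.elim 0 β) f = 0) (hβ : β ≠ 0)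
    {x : Fin 3 → R} (hx : β ⬝ᵥ x = 0) :
    aeval x (homogeneousComponent h.totalDegree h) = 0 := by
  obtain ⟨μ, rfl⟩ := lz_on hβ hx
  have h1 := lzG_zero hl hπ μ 0
  rwa [lzG, dotProduct_zero, smul_zero, add_zero, lzH_zero] at h1

theorem line_jets {s α : Fin 3 → R} (hl : ∀ T : R, aeval (s + T • α) h = 0) :
    d1 h s α = 0 ∧ d2 h s α α = 0 ∧ d3 h s α α α = 0 := by
  have := lz_infinite R
  let p : Fin 3 → Polynomial R := fun i => Polynomial.C (s i) + Polynomial.X * Polynomial.C (α i)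
  let w : Fin 3 → Polynomial R := fun i => Polynomial.C (α i)
  let φ : R → Polynomial R →ₐ[ℂ] R := fun T =>
    (Polynomial.aeval T : Polynomial R →ₐ[R] R).restrictScalars ℂ
  let δ : Derivation ℂ (Polynomial R) (Polynomial R) :=
    (Polynomial.derivative' (R := R)).restrictScalars ℂ
  have hp : ∀ T, (fun i => φ T (p i)) = s + T • α := fun T => funext fun i => by
    simp [φ, p, mul_comm T]
  have hw : (fun i => φ 0 (w i)) = α := funext fun i => by simp [φ, w]
  have dp : (fun i => δ (p i)) = w := funext fun i => by simp [δ, p, w]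
  have dw : (fun i => δ (w i)) = 0 := funext fun i => by simp [δ, w]
  have h0 : aeval p h = 0 := Polynomial.funext fun T => by
    have h1 := comp_aeval_apply p (φ T) h
    rw [hp, hl] at h1
    rw [Polynomial.eval_zero]
    exact h1
  have h1 : d1 h p w = 0 := by rw [← dp, ← der_aeval, h0, map_zero]
  have h2 : d2 h p w w = 0 := by
    have := der_d1 h p w δ
    rw [h1, map_zero, dp, dw] at this
    simpa [d1] using this.symm
  have h3 : d3 h p w w w = 0 := by
    have := der_d2 h p w w δ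
    rw [h2, map_zero, dp, dw] at this
    simpa [d2, d1] using this.symm
  have e1 := map_d1 h p w (φ 0)
  have e2 := map_d2 h p w w (φ 0)
  have e3 := map_d3 h p w w w (φ 0)
  rw [hp, hw, zero_smul, add_zero] at e1 e2 e3
  rw [h1, map_zero] at e1
  rw [h2, map_zero] at e2
  rw [h3, map_zero] at e3
  exact ⟨e1.symm, e2.symm, e3.symm⟩

/-- a line with Pluecker coordinates has a point -/
theorem exists_on_line {α β : Fin 3 → R} (hα : α ≠ 0) (hp : α ⬝ᵥ β = 0) : ∃ s, s ⨯₃ α = β :=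
  lz_on hα hp

end Vale.Agent.P054
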