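import Vale.Agent.P054.RuledA
import Vale.Agent.P054.CurveL

/-! Ruled: the lines in an irreducible surface (about 350 lines).
`ν` from `exists_nu`, `η` from `exists_eta`, `q = qS`, `c = cS`, `Q = q₂ = sff h ν ν`. Let `R₁ t + R₀ = Q^2 c - q (Q c₃ t + Q c₂ - q₁ c₃)`, i.e. `R₁ = Q^2 c₁ - q₀ Q c₃ - q₁ (Q c₂ - q₁ c₃)`, `R₀ = Q^2 c₀ - q₀ (Q c₂ - q₁ c₃)` (degree `≤ 10 r`), `Res = Q R₀^2 - q₁ R₀ R₁ + q₀ R₁^2` (degree `≤ 23 r`). For a line not in `g = 0` take a point `s` on it with `g(s) ≠ 0` and `t, κ` from `dir_param`; then `R₁ t + R₀ = 0` and `Res = 0` at `s`.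
(iii) `¬ h ∣ Res`: `g = n Q Res`, the ideals are `hker ℂ (0 : S6 → ℂ)` (its only zero is 0, so `CurveB` is vacuous). Otherwise let `ξ` be generic (`exists_gen`).
(ii) `¬ h ∣ R₁`: `g = n Q R₁`, `t* = -R₀/R₁` is a common root, `I = hker (v, ξ × v)` with `v = dirS ξ t*`; for `f ∈ I` and each homogeneous component `ψ`, the polynomial `ψ(w, X × w)` with `w = gr × (-R₀ ν + R₁ η)` vanishes at `ξ`, so at `s` (homogeneity moves scalars: `IsHomogeneous.eval₂_smul`-type lemma or `aeval (c • x) ψ = c^k * aeval x ψ`).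
(i) `h ∣ R₁`, then `h ∣ R₀`: `g = n Q`, roots `t₁, t₂` of `q(ξ)` (possibly equal), `I_j` the two ideals. If the line is in neither zero set there are forms `ψ_j ∈ I_j` nonzero at `(α, β)`; `p = ψ₁(vS, X × vS) ψ₂(vS, X × vS) ∈ P3[t]` is divisible by `(t - t₁)(t - t₂)` at `ξ`; `pseudo` gives a remainder of degree `≤ 1` that vanishes at `ξ`, so `h` divides its coefficients; evaluate at `(s, t)`.
-/

noncomputable section

open Classical MvPolynomial Matrix Finset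

namespace Vale.Agent.P054

section
variable {R Ω : Type} [Field R] [Algebra ℂ R] [Field Ω] [Algebra ℂ Ω] {h : P3} {ν η : Fin 3 → ℂ}

theorem ruled_ev (s : Fin 3 → R) (t : R) (p : Polynomial P3) :
    ev3 s t p = (p.map (aeval s : P3 →ₐ[ℂ] R).toRingHom).eval t := by
  rw [Polynomial.eval_map]
  rfl

theorem ruled_C (s : Fin 3 → R) (t : R) (a : P3) : ev3 s t (Polynomial.C a) = aeval s a := by
  rw [ruled_ev, Polynomial.map_C, Polynomial.eval_C]
  rfl

theorem ruled_X (s : Fin 3 → R) (t : R) : ev3 s t Polynomial.X = t := by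
  rw [ruled_ev, Polynomial.map_X, Polynomial.eval_X]

theorem ruled_gen {ξ : Fin 3 → Ω} (hξ : IsGen (Ideal.span {h}) ξ) (f : P3) :
    aeval ξ f = 0 ↔ h ∣ f := (hξ f).trans Ideal.mem_span_singleton

theorem ruled_transfer {ξ : Fin 3 → Ω} (hξ : IsGen (Ideal.span {h}) ξ) {a b d : P3} {t₁ t₂ : Ω}
    (hb : aeval ξ b = -(aeval ξ a * (t₁ + t₂))) (hd : aeval ξ d = aeval ξ a * (t₁ * t₂))
    {p₁ p₂ : Polynomial P3} (h1 : ev3 ξ t₁ p₁ = 0) (h2 : ev3 ξ t₂ p₂ = 0) {s : Fin 3 → R} {t : R}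
    (hs : aeval s h = 0) (ha : aeval s a ≠ 0)
    (ht : aeval s a * t ^ 2 + aeval s b * t + aeval s d = 0) :
    ev3 s t p₁ = 0 ∨ ev3 s t p₂ = 0 := by
  obtain ⟨N, B, T, hT, e⟩ := pseudo (Polynomial.natDegree_quadratic_le (a := a) (b := b) (c := d))
    (p₁ * p₂)
  have e2 : (Polynomial.C a * Polynomial.X ^ 2 + Polynomial.C b * Polynomial.X +
      Polynomial.C d).coeff 2 = a := by simp
  rw [e2] at e
  rw [ruled_ev] at h1 h2
  set φ := (aeval ξ : P3 →ₐ[ℂ] Ω).toRingHom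
  have d1 : (Polynomial.X - Polynomial.C t₁) * (Polynomial.X - Polynomial.C t₂) ∣ T.map φ := by
    have e3 := congrArg (Polynomial.map φ) e
    simp only [Polynomial.map_mul, Polynomial.map_add, Polynomial.map_pow, Polynomial.map_C,
      Polynomial.map_X] at e3
    rw [← sub_eq_iff_eq_add'.2 e3]
    refine dvd_sub ((mul_dvd_mul (Polynomial.dvd_iff_isRoot.2 h1)
      (Polynomial.dvd_iff_isRoot.2 h2)).mul_left _) (Dvd.dvd.mul_right ⟨Polynomial.C (φ a), ?_⟩ _)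
    rw [show φ b = -(φ a * (t₁ + t₂)) from hb, show φ d = φ a * (t₁ * t₂) from hd]
    simp only [map_neg, map_mul, map_add]
    ring
  have d2 : T.map φ = 0 := by
    refine Polynomial.eq_zero_of_dvd_of_natDegree_lt d1 ?_
    rw [(Polynomial.monic_X_sub_C _).natDegree_mul (Polynomial.monic_X_sub_C _),
      Polynomial.natDegree_X_sub_C, Polynomial.natDegree_X_sub_C]
    exact Nat.lt_succ_of_le (Polynomial.natDegree_map_le.trans hT)
  have d3 : ∀ i, aeval s (T.coeff i) = 0 := fun i => by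
    have e4 := congrArg (Polynomial.coeff · i) d2
    simp only [Polynomial.coeff_map, Polynomial.coeff_zero] at e4
    obtain ⟨u, hu⟩ := (ruled_gen hξ _).1 e4
    rw [hu, map_mul, hs, zero_mul]
  have e5 := congrArg (ev3 s t) e
  simp only [map_mul, map_add, map_pow, ruled_C, ruled_X, ht, ev3_of_le hT, d3, zero_mul,
    Finset.sum_const_zero, add_zero] at e5
  exact mul_eq_zero.1 ((mul_eq_zero.1 e5).resolve_left (pow_ne_zero N ha))

/-- The Pluecker coordinates of the line with parameter `t`, substituted in `ψ`. -/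
def ruledP (h : P3) (ν η : Fin 3 → ℂ) (ψ : P6) : Polynomial P3 :=
  aeval (Sum.elim (vS h ν η) ((fun i => Polynomial.C (X i : P3)) ⨯₃ vS h ν η)) ψ

theorem ruled_P (s : Fin 3 → R) (t : R) (ψ : P6) : ev3 s t (ruledP h ν η ψ) =
    aeval (Sum.elim (dirS h ν η s t) (s ⨯₃ dirS h ν η s t)) ψ := by
  rw [ruledP, MvPolynomial.comp_aeval_apply]
  refine congrArg (fun x => aeval x ψ) (funext fun a => ?_)
  rcases a with i | i
  · rfl
  · fin_cases i <;> simp [cross_apply, ruled_C, dirS]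

theorem ruled_comp {π : S6 → Ω} {x : S6 → ℂ} (hx : ¬ ∀ f ∈ hker ℂ π, eval x f = 0) :
    ∃ (ψ : P6) (k : ℕ), ψ.IsHomogeneous k ∧ aeval π ψ = 0 ∧ eval x ψ ≠ 0 := by
  by_contra hc
  refine hx fun f hf => ?_
  rw [← sum_homogeneousComponent f, map_sum]
  refine Finset.sum_eq_zero fun k _ => ?_
  by_contra h1
  exact hc ⟨_, k, homogeneousComponent_isHomogeneous k f, (mem_hker_iff π f).1 hf k, h1⟩

theorem ruled_two {ξ : Fin 3 → Ω} (hξ : IsGen (Ideal.span {h}) ξ) {a b d : P3} {t₁ t₂ : Ω}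
    (hb : aeval ξ b = -(aeval ξ a * (t₁ + t₂))) (hd : aeval ξ d = aeval ξ a * (t₁ * t₂))
    {s α β : Fin 3 → ℂ} {t κ : ℂ} (hs : aeval s h = 0) (ha : aeval s a ≠ 0)
    (ht : aeval s a * t ^ 2 + aeval s b * t + aeval s d = 0) (hα : α = κ • dirS h ν η s t)
    (hβ : s ⨯₃ α = β) :
    (∀ f ∈ hker ℂ (Sum.elim (dirS h ν η ξ t₁) (ξ ⨯₃ dirS h ν η ξ t₁) : S6 → Ω),
      eval (Sum.elim α β) f = 0) ∨
    ∀ f ∈ hker ℂ (Sum.elim (dirS h ν η ξ t₂) (ξ ⨯₃ dirS h ν η ξ t₂) : S6 → Ω),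
      eval (Sum.elim α β) f = 0 := by
  by_contra hc
  obtain ⟨ψ₁, k₁, a1, a2, a3⟩ := ruled_comp (not_or.1 hc).1
  obtain ⟨ψ₂, k₂, b1, b2, b3⟩ := ruled_comp (not_or.1 hc).2
  have e : Sum.elim α β = fun a => κ * Sum.elim (dirS h ν η s t) (s ⨯₃ dirS h ν η s t) a := by
    rw [← hβ, hα, map_smul]
    funext a
    rcases a with i | i <;> rfl
  rw [e, pc_eval_smul a1] at a3
  rw [e, pc_eval_smul b1] at b3
  rcases ruled_transfer hξ hb hd ((ruled_P ξ t₁ ψ₁).trans a2) ((ruled_P ξ t₂ ψ₂).trans b2) hs ha ht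
    with h1 | h1
  · exact right_ne_zero_of_mul a3 ((ruled_P s t ψ₁).symm.trans h1)
  · exact right_ne_zero_of_mul b3 ((ruled_P s t ψ₂).symm.trans h1)

theorem ruled_q (s : Fin 3 → R) (t : R) : ev3 s t (qS h ν η) = aeval s (sff h ν ν) * t ^ 2 +
    aeval s ((qS h ν η).coeff 1) * t + aeval s ((qS h ν η).coeff 0) := by
  rw [ev3_of_le qS_deg.1, ← (qS_deg (η := η)).2.1]
  simp only [Finset.sum_range_succ, Finset.sum_range_zero]
  ring

/-- the coefficients of the pseudo-remainder of `cS` modulo `qS` -/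
def ruledE (h : P3) (ν η : Fin 3 → ℂ) : P3 :=
  sff h ν ν * (cS h ν η).coeff 2 - (qS h ν η).coeff 1 * (cS h ν η).coeff 3

def ruledR1 (h : P3) (ν η : Fin 3 → ℂ) : P3 :=
  sff h ν ν * sff h ν ν * (cS h ν η).coeff 1 -
    (qS h ν η).coeff 0 * sff h ν ν * (cS h ν η).coeff 3 - (qS h ν η).coeff 1 * ruledE h ν η

def ruledR0 (h : P3) (ν η : Fin 3 → ℂ) : P3 :=
  sff h ν ν * sff h ν ν * (cS h ν η).coeff 0 - (qS h ν η).coeff 0 * ruledE h ν η

def ruledRes (h : P3) (ν η : Fin 3 → ℂ) : P3 :=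
  sff h ν ν * (ruledR0 h ν η * ruledR0 h ν η) -
    (qS h ν η).coeff 1 * (ruledR0 h ν η * ruledR1 h ν η) +
    (qS h ν η).coeff 0 * (ruledR1 h ν η * ruledR1 h ν η)

theorem ruled_c (s : Fin 3 → R) (t : R) : aeval s (sff h ν ν) ^ 2 * ev3 s t (cS h ν η) =
    ev3 s t (qS h ν η) * (aeval s (sff h ν ν) * aeval s ((cS h ν η).coeff 3) * t +
      aeval s (ruledE h ν η)) + (aeval s (ruledR1 h ν η) * t + aeval s (ruledR0 h ν η)) := by
  rw [ruled_q, ev3_of_le cS_deg.1]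
  simp only [Finset.sum_range_succ, Finset.sum_range_zero, ruledR1, ruledR0, ruledE, map_sub,
    map_mul]
  ring

theorem ruled_res {s : Fin 3 → R} {t : R}
    (ht : aeval s (ruledR1 h ν η) * t + aeval s (ruledR0 h ν η) = 0) :
    aeval s (ruledRes h ν η) = aeval s (ruledR1 h ν η) ^ 2 * ev3 s t (qS h ν η) := by
  rw [ruled_q, ruledRes]
  simp only [map_sub, map_mul, map_add, eq_neg_of_add_eq_zero_right ht]
  ring

theorem ruled_mul {f g : P3} {a b : ℕ} (hf : f.totalDegree ≤ a) (hg : g.totalDegree ≤ b) :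
    (f * g).totalDegree ≤ a + b := (totalDegree_mul f g).trans (add_le_add hf hg)

theorem ruled_sub {f g : P3} {a : ℕ} (hf : f.totalDegree ≤ a) (hg : g.totalDegree ≤ a) :
    (f - g).totalDegree ≤ a := (totalDegree_sub f g).trans (max_le hf hg)

theorem ruled_deg (h : P3) (ν η : Fin 3 → ℂ) : (ruledR1 h ν η).totalDegree ≤ 26 * h.totalDegree ∧
    (ruledRes h ν η).totalDegree ≤ 26 * h.totalDegree := by
  have q2 := degree_sff_le (h := h) ν ν
  have q := (qS_deg (h := h) (ν := ν) (η := η)).2.2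
  have c := (cS_deg (h := h) (ν := ν) (η := η)).2
  have e : (ruledE h ν η).totalDegree ≤ _ := ruled_sub (ruled_mul q2 (c 2)) (ruled_mul (q 1) (c 3))
  have r1 : (ruledR1 h ν η).totalDegree ≤ _ := ruled_sub (ruled_sub
    (ruled_mul (ruled_mul q2 q2) (c 1)) (ruled_mul (ruled_mul (q 0) q2) (c 3)))
    ((ruled_mul (q 1) e).trans (add_assoc _ _ _).ge)
  have r0 : (ruledR0 h ν η).totalDegree ≤ _ := ruled_sub (ruled_mul (ruled_mul q2 q2) (c 0))
    ((ruled_mul (q 0) e).trans (add_assoc _ _ _).ge)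
  have r := (totalDegree_add _ _).trans (max_le (ruled_sub (ruled_mul q2 (ruled_mul r0 r0))
    (ruled_mul (q 1) (ruled_mul r0 r1))) (ruled_mul (q 0) (ruled_mul r1 r1)))
  exact ⟨r1.trans (by omega), r.trans (by omega)⟩

theorem ruled_pt {g : P3} {α β : Fin 3 → ℂ} (hα : α ≠ 0) (hl : OnL h α β)
    (hg : ¬ OnL (nS h ν η * sff h ν ν * g) α β) : ∃ (s : Fin 3 → ℂ) (t κ : ℂ), s ⨯₃ α = β ∧
      aeval s h = 0 ∧ aeval s (sff h ν ν) ≠ 0 ∧ aeval s g ≠ 0 ∧ α = κ • dirS h ν η s t ∧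
      ev3 s t (qS h ν η) = 0 ∧ aeval s (ruledR1 h ν η) * t + aeval s (ruledR0 h ν η) = 0 := by
  obtain ⟨s, hs⟩ := not_forall.1 hg
  obtain ⟨h1, h2⟩ := Classical.not_imp.1 hs
  rw [map_mul, map_mul] at h2
  have h3 := left_ne_zero_of_mul h2
  obtain ⟨t, κ, h4, h5, h6⟩ := dir_param (h := h) (ν := ν) (η := η) (s := s) hα
    (fun T => hl _ (by rw [map_add, map_smul, LinearMap.add_apply, LinearMap.smul_apply, h1,
      cross_self, smul_zero, add_zero])) (left_ne_zero_of_mul h3) (right_ne_zero_of_mul h3)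
  refine ⟨s, t, κ, h1, hl s h1, right_ne_zero_of_mul h3, right_ne_zero_of_mul h2, h4, h5, ?_⟩
  have h7 := ruled_c (h := h) (ν := ν) (η := η) s t
  rw [h5, h6, mul_zero, zero_mul, zero_add] at h7
  exact h7.symm

theorem ruled_zero (e : ℕ) : CurveB (hker ℂ (0 : S6 → ℂ)) e := by
  refine ⟨hker_prime _, hker_hom _, fun τ ψ _ _ Y hY _ => ?_⟩
  rw [Finset.eq_empty_of_forall_notMem fun π hπ => (hY π hπ).1 (funext fun a => ?_), card_empty]
  · exact Nat.zero_le _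
  · exact (eval_X a).symm.trans
      ((hY π hπ).2.1 _ ((mem_hker _ (isHomogeneous_X ℂ a)).2 (aeval_X _ a)))

theorem ruled_om (hi : Irreducible h) : ∃ (Ω : Type) (_ : Field Ω) (_ : Algebra ℂ Ω)
    (_ : IsAlgClosed Ω) (ξ : Fin 3 → Ω), IsGen (Ideal.span {h}) ξ := by
  have : (Ideal.span {h}).IsPrime := (Ideal.span_singleton_prime hi.ne_zero).2 hi.prime
  obtain ⟨ξ, hξ⟩ := exists_gen (Ideal.span {h})
  exact ⟨_, _, _, inferInstance, ξ, hξ⟩

end

theorem ruled {h : P3} (hi : Irreducible h) (hr : 2 ≤ h.totalDegree) :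
    ∃ (g : P3) (I₁ I₂ : Ideal P6), ¬ h ∣ g ∧ g.totalDegree ≤ 30 * h.totalDegree ∧
      CurveB I₁ (2 * h.totalDegree) ∧ CurveB I₂ (2 * h.totalDegree) ∧
      ∀ α β : Fin 3 → ℂ, α ≠ 0 → α ⬝ᵥ β = 0 → OnL h α β →
        OnL g α β ∨ (∀ f ∈ I₁, eval (Sum.elim α β) f = 0) ∨ ∀ f ∈ I₂, eval (Sum.elim α β) f = 0 :=
  by
  obtain ⟨ν, hν, ht⟩ := exists_nu hi hr
  obtain ⟨η, hη⟩ := exists_eta hi hν
  have nd : ∀ g, ¬ h ∣ g → ¬ h ∣ nS h ν η * sff h ν ν * g := fun g hg hd =>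
    (hi.prime.dvd_or_dvd hd).elim (fun h1 => (hi.prime.dvd_or_dvd h1).elim hη hν) hg
  have dg : ∀ g : P3, g.totalDegree ≤ 26 * h.totalDegree →
      (nS h ν η * sff h ν ν * g).totalDegree ≤ 30 * h.totalDegree := fun g hg =>
    (ruled_mul (ruled_mul degree_nS_le (degree_sff_le ν ν)) hg).trans (by omega)
  by_cases h3 : h ∣ ruledRes h ν η
  swap
  · refine ⟨_, _, _, nd _ h3, dg _ (ruled_deg h ν η).2, ruled_zero _, ruled_zero _,
      fun α β hα _ hl => Or.inl ?_⟩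
    by_contra hg
    obtain ⟨s, t, κ, -, -, -, a4, -, a6, a7⟩ := ruled_pt hα hl hg
    exact a4 (by rw [ruled_res a7, a6, mul_zero])
  obtain ⟨Ω, _, _, _, ξ, hξ⟩ := ruled_om hi
  have q0 : aeval ξ (sff h ν ν) ≠ 0 := fun h0 => hν ((ruled_gen hξ _).1 h0)
  have cb : ∀ t, ev3 ξ t (qS h ν η) = 0 →
      aeval ξ (ruledR1 h ν η) * t + aeval ξ (ruledR0 h ν η) = 0 →
      CurveB (hker ℂ (Sum.elim (dirS h ν η ξ t) (ξ ⨯₃ dirS h ν η ξ t) : S6 → Ω))
        (2 * h.totalDegree) := fun t e1 e2 => by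
    refine curveB_line hi hν ht (line_at_root hξ hν e1 ?_)
    have e3 := ruled_c (h := h) (ν := ν) (η := η) ξ t
    rw [e1, e2, zero_mul, add_zero] at e3
    exact (mul_eq_zero.1 e3).resolve_left (pow_ne_zero 2 q0)
  have r0 := (ruled_gen hξ _).2 h3
  by_cases h2 : h ∣ ruledR1 h ν η
  · have r1 := (ruled_gen hξ _).2 h2
    have r2 : aeval ξ (ruledR0 h ν η) = 0 := by
      simp only [ruledRes, map_add, map_sub, map_mul, r1, mul_zero, sub_zero, add_zero] at r0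
      exact mul_self_eq_zero.1 ((mul_eq_zero.1 r0).resolve_left q0)
    obtain ⟨t₁, h1⟩ := IsAlgClosed.exists_root (Polynomial.C (aeval ξ (sff h ν ν)) *
      Polynomial.X ^ 2 + Polynomial.C (aeval ξ ((qS h ν η).coeff 1)) * Polynomial.X +
      Polynomial.C (aeval ξ ((qS h ν η).coeff 0))) (by rw [Polynomial.degree_quadratic q0]; decide)
    simp only [Polynomial.IsRoot.def, Polynomial.eval_add, Polynomial.eval_mul, Polynomial.eval_C,
      Polynomial.eval_pow, Polynomial.eval_X] at h1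
    obtain ⟨t₂, hb⟩ : ∃ t₂, aeval ξ ((qS h ν η).coeff 1) = -(aeval ξ (sff h ν ν) * (t₁ + t₂)) :=
      ⟨-aeval ξ ((qS h ν η).coeff 1) / aeval ξ (sff h ν ν) - t₁, by field_simp; ring⟩
    have hd : aeval ξ ((qS h ν η).coeff 0) = aeval ξ (sff h ν ν) * (t₁ * t₂) := by
      linear_combination h1 - t₁ * hb
    refine ⟨_, _, _, nd 1 hi.not_dvd_one, dg 1 (by simp),
      cb t₁ ((ruled_q ξ t₁).trans h1) (by rw [r1, r2, zero_mul, add_zero]),
      cb t₂ (by rw [ruled_q, hb, hd]; ring) (by rw [r1, r2, zero_mul, add_zero]),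
      fun α β hα _ hl => or_iff_not_imp_left.2 fun hg => ?_⟩
    obtain ⟨s, t, κ, a1, a2, a3, -, a5, a6, -⟩ := ruled_pt hα hl hg
    exact ruled_two hξ hb hd a2 a3 ((ruled_q s t).symm.trans a6) a5 a1
  · have r1 : aeval ξ (ruledR1 h ν η) ≠ 0 := fun h0 => h2 ((ruled_gen hξ _).1 h0)
    obtain ⟨t₁, h1⟩ : ∃ t₁, aeval ξ (ruledR1 h ν η) * t₁ + aeval ξ (ruledR0 h ν η) = 0 :=
      ⟨-aeval ξ (ruledR0 h ν η) / aeval ξ (ruledR1 h ν η), by field_simp; ring⟩
    have c1 := cb t₁ ((mul_eq_zero.1 ((ruled_res h1).symm.trans r0)).resolve_left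
      (pow_ne_zero 2 r1)) h1
    refine ⟨_, _, _, nd _ h2, dg _ (ruled_deg h ν η).1, c1, c1,
      fun α β hα _ hl => or_iff_not_imp_left.2 fun hg => ?_⟩
    obtain ⟨s, t, κ, a1, a2, -, a4, a5, -, a7⟩ := ruled_pt hα hl hg
    refine ruled_two hξ (a := ruledR1 h ν η * ruledR1 h ν η)
      (b := ruledR1 h ν η * ruledR0 h ν η + ruledR1 h ν η * ruledR0 h ν η)
      (d := ruledR0 h ν η * ruledR0 h ν η) (t := t) ?_ ?_ a2 ?_ ?_ a5 a1
    · simp only [map_add, map_mul, eq_neg_of_add_eq_zero_right h1]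
      ring
    · simp only [map_mul, eq_neg_of_add_eq_zero_right h1]
      ring
    · rw [map_mul]
      exact mul_ne_zero a4 a4
    · simp only [map_add, map_mul, eq_neg_of_add_eq_zero_right a7]
      ring

end Vale.Agent.P054
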