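import Vale.Agent.P054.CountF
import Vale.Agent.P054.Ruled
import Vale.Agent.P054.Bez

/-! MR: neighbours whose lines lie in a surface of degree `R` (about 300 lines).
For `w ∈ Nb`: `α ≠ 0`, `α ⬝ᵥ β = |b|^2 - |a|^2 = 0`, the line is `{s + T α}` (`exists_on_line`). Prove `|Nb| ≤ deg H * Q`, `Q = 100 k^2 (R + ρ + κ)`, for all `H ≠ 0` of degree `≤ R` and all `Nb` by induction on the factorization (`WfDvdMonoid.induction_on_irreducible`, `line_mul`, `totalDegree_mul_of_isDomain`; a unit vanishes nowhere).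
Irreducible of degree 1: `h = lin ν c`; a real point `s` of the line and `α` satisfy the real and the imaginary part of the equation, one of them has a nonzero normal `ν'`, which gives `rel ν' c' z w` (`ν' × (s × α) = (ν' ⬝ᵥ α) s - (ν' ⬝ᵥ s) α`). Degree `r ≥ 2`: `ruled`; lines in `g = 0`: `lines_bezout` and `count_proj` give `k * 30 r^2`; the two curves: `count_fam`.
-/

noncomputable section

open Classical MvPolynomial Matrix Finset

namespace Vale.Agent.P054

/-- the direction of the line -/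
def mrA (z w : V × V) : V := w.1 + w.2 - (z.1 + z.2)

/-- the moment of the line -/
def mrB (z w : V × V) : V := w.2 - w.1 - (z.2 - z.1)

/-- a point of the line -/
def mrS (z w : V × V) : V := (mrA z w ⬝ᵥ mrA z w)⁻¹ • (mrA z w ⨯₃ mrB z w)

theorem mr_a (z w : V × V) : (cz w).1 - (cz z).1 = cv (mrA z w) := by
  ext i
  simp [cz, cv, mrA]

theorem mr_b (z w : V × V) : (cz w).2 - (cz z).2 = cv (mrB z w) := by
  ext i
  simp [cz, cv, mrB]

theorem mr_cross (a b : V) : cv (a ⨯₃ b) = cv a ⨯₃ cv b := by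
  ext i
  fin_cases i <;> simp [cv, cross_apply]

theorem mr_data {z w : V × V} (h : sq z.1 w.1 = sq z.2 w.2 ∧ w.1 + w.2 ≠ z.1 + z.2) :
    mrS z w ⨯₃ mrA z w = mrB z w ∧ cv (mrA z w) ≠ 0 ∧
      cv (mrS z w) ⨯₃ cv (mrA z w) = cv (mrB z w) := by
  have h0 : mrA z w ⬝ᵥ mrA z w ≠ 0 := fun e => sub_ne_zero.2 h.2 (dotProduct_self_eq_zero.1 e)
  have h1 : mrB z w ⬝ᵥ mrA z w = 0 := by
    have := h.1
    simp only [sq, mrA, mrB, dotProduct, Fin.sum_univ_three, Pi.sub_apply, Pi.add_apply] at this ⊢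
    linear_combination -this
  have h2 : mrS z w ⨯₃ mrA z w = mrB z w := by
    rw [mrS, map_smul, LinearMap.smul_apply, cross_cross_eq_smul_sub_smul, h1, zero_smul, sub_zero,
      inv_smul_smul₀ h0]
  exact ⟨h2, cf_ne h.2, by rw [← mr_cross, h2]⟩

theorem mr_par {α u : Fin 3 → ℂ} (hα : α ≠ 0) (h : α ⨯₃ u = 0) : ∃ t : ℂ, t • α = u := by
  by_contra hn
  exact crossProduct_ne_zero_iff_linearIndependent.2
    ((LinearIndependent.pair_iff' hα).2 fun t e => hn ⟨t, e⟩) h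

theorem mr_line {H : P3} {s α β : Fin 3 → ℂ} (hα : α ≠ 0) (hs : s ⨯₃ α = β) :
    OnL H α β ↔ ∀ t : ℂ, eval (s + t • α) H = 0 := by
  refine ⟨fun h t => h _ ?_, fun h s' hs' => ?_⟩
  · rw [map_add, map_smul, LinearMap.add_apply, LinearMap.smul_apply, hs, cross_self, smul_zero,
      add_zero]
  · obtain ⟨t, ht⟩ := mr_par (u := s' - s) hα (by
      rw [← cross_anticomm, map_sub, LinearMap.sub_apply, hs, hs', sub_self, neg_zero])
    have := h t
    rwa [ht, add_sub_cancel] at this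

theorem mr_deg {h : P3} (hi : Irreducible h) : h.totalDegree ≠ 0 := fun e => by
  rw [totalDegree_eq_zero_iff_eq_C] at e
  refine hi.not_isUnit (e ▸ IsUnit.map C (Ne.isUnit fun e' => hi.ne_zero ?_))
  rw [e, e', map_zero]

theorem mr_real {ν : Fin 3 → ℂ} (hν : ν ≠ 0) : ∃ f : ℂ →ₗ[ℝ] ℝ, (fun i => f (ν i)) ≠ 0 := by
  obtain ⟨i, hi⟩ := Function.ne_iff.1 hν
  by_contra hn
  push Not at hn
  exact hi (Complex.ext (congrFun (hn Complex.reLm) i) (congrFun (hn Complex.imLm) i))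

theorem mr_dot (f : ℂ →ₗ[ℝ] ℝ) (ν : Fin 3 → ℂ) (x : V) :
    (fun i => f (ν i)) ⬝ᵥ x = f (ν ⬝ᵥ cv x) := by
  rw [dotProduct, dotProduct, map_sum]
  refine Finset.sum_congr rfl fun i _ => ?_
  rw [cv, mul_comm (ν i), ← Complex.real_smul, map_smul, smul_eq_mul, mul_comm]

theorem mr_irr {z : V × V} {S₁ S₂ : Finset V} {k ρ κ R : ℕ} {N : Finset (V × V)} (hk : 1 ≤ k)
    (hρ : 1 ≤ ρ) (h1 : Loc z.1 S₁ k ρ) (h2 : Loc z.2 S₂ k ρ) (c1 : S₁.card ≤ ρ ^ 2)
    (c2 : S₂.card ≤ ρ ^ 2) (hN : N ⊆ S₁ ×ˢ S₂)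
    (hs : ∀ w ∈ N, sq z.1 w.1 = sq z.2 w.2 ∧ w.1 + w.2 ≠ z.1 + z.2)
    (hκ : ∀ ν : V, ν ≠ 0 → ∀ c, (N.filter (rel ν c z)).card ≤ κ) {h : P3} (hi : Irreducible h)
    (hR : h.totalDegree ≤ R) (hl : ∀ w ∈ N, OnL h (cv (mrA z w)) (cv (mrB z w))) :
    N.card ≤ h.totalDegree * (100 * k ^ 2 * (R + ρ + κ)) := by
  have h0 := mr_deg hi
  have hk2 : k ≤ k ^ 2 := Nat.le_self_pow two_ne_zero k
  rcases le_or_gt h.totalDegree 1 with hr | hr
  · obtain ⟨ν, c, rfl⟩ := eq_lin_of_degree hr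
    obtain ⟨f, hf⟩ := mr_real (ν := ν) fun e => h0 (by simp [e, lin])
    have := hκ _ hf (f c)
    rw [filter_true_of_mem fun w hw => ?_] at this
    · refine this.trans (le_trans ?_ (Nat.le_mul_of_pos_left _ (Nat.pos_of_ne_zero h0)))
      exact le_trans (by omega) (Nat.le_mul_of_pos_left (R + ρ + κ) (by positivity))
    · obtain ⟨d1, d2, d3⟩ := mr_data (hs w hw)
      have e := (mr_line d2 d3).1 (hl w hw)
      have e0 := e 0
      have e1 := e 1
      rw [zero_smul, add_zero, eval_lin, sub_eq_zero] at e0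
      rw [one_smul, eval_lin, dotProduct_add, e0, add_sub_cancel_left] at e1
      have a1 : (fun i => f (ν i)) ⬝ᵥ mrA z w = 0 := by rw [mr_dot, e1, map_zero]
      refine ⟨a1, ?_⟩
      change _ ⨯₃ mrB z w + f c • mrA z w = 0
      rw [← d1, cross_cross_eq_smul_sub_smul', a1, dotProduct_comm, mr_dot, e0, zero_smul, zero_sub,
        neg_add_cancel]
  · obtain ⟨g, I₁, I₂, g1, g2, b1, b2, hc⟩ := ruled hi hr
    have hp : ∀ w, plk z w = Sum.elim (cv (mrA z w)) (cv (mrB z w)) := fun w => by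
      rw [plk, mr_a, mr_b]
    have n0 := count_proj (Nb := N.filter fun w => OnL g (cv (mrA z w)) (cv (mrB z w))) h1
      ((filter_subset _ _).trans hN) (m := h.totalDegree * (30 * h.totalDegree)) fun Y hY hY' => by
      have d := fun w hw => mr_data (hs w (mem_filter.1 (hY hw)).1)
      refine (lines_bezout hi.ne_zero (fun e : g = 0 => g1 (e ▸ dvd_zero h))
        (hi.isRelPrime_iff_not_dvd.2 g1) Y (fun w => cv (mrS z w)) (fun w => cv (mrA z w))
        (fun w hw => (d w hw).2.1) (fun w hw w' hw' a1 a2 => ?_) fun w hw t => ⟨?_, ?_⟩).trans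
        (Nat.mul_le_mul_left _ g2)
      · obtain ⟨t, ht⟩ := mr_par (d w hw).2.1 a1
        rw [map_sub, LinearMap.sub_apply, sub_eq_zero, (d w hw).2.2] at a2
        refine (hY' w hw w' hw' t ?_).symm
        rw [hp, hp, ← (d w' hw').2.2, ← ht, map_smul, a2]
        ext (i | i) <;> rfl
      · exact (mr_line (d w hw).2.1 (d w hw).2.2).1 (hl w (mem_filter.1 (hY hw)).1) t
      · exact (mr_line (d w hw).2.1 (d w hw).2.2).1 (mem_filter.1 (hY hw)).2 t
    have n1 := count_fam (Nb := N.filter fun w => ∀ f ∈ I₁, eval (plk z w) f = 0) h1 h2 c1 c2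
      ((filter_subset _ _).trans hN) b1 fun w hw => (mem_filter.1 hw).2
    have n2 := count_fam (Nb := N.filter fun w => ∀ f ∈ I₂, eval (plk z w) f = 0) h1 h2 c1 c2
      ((filter_subset _ _).trans hN) b2 fun w hw => (mem_filter.1 hw).2
    refine (card_le_card fun w hw => ?_).trans ((card_union_le _ _).trans
      ((add_le_add n0 ((card_union_le _ _).trans (add_le_add n1 n2))).trans ?_))
    · obtain ⟨-, d2, d3⟩ := mr_data (hs w hw)
      simp only [mem_union, mem_filter, hw, true_and, hp]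
      exact hc _ _ d2 (by rw [← d3, dot_cross_self]) (hl w hw)
    · generalize h.totalDegree = r at *
      have a1 : k * (r * r) ≤ k ^ 2 * (r * R) := Nat.mul_le_mul hk2 (Nat.mul_le_mul_left _ hR)
      have a2 : k * (r * ρ) ≤ k ^ 2 * (r * ρ) := Nat.mul_le_mul_right _ hk2
      have a3 : k ^ 2 ≤ k ^ 2 * (r * ρ) := Nat.le_mul_of_pos_right _ (by positivity)
      nlinarith [Nat.zero_le (k ^ 2 * (r * κ)), Nat.zero_le (k ^ 2 * (r * R))]

theorem mr_bound {z : V × V} {S₁ S₂ : Finset V} {k ρ κ R : ℕ} {Nb : Finset (V × V)} (hk : 1 ≤ k)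
    (hρ : 1 ≤ ρ) (h1 : Loc z.1 S₁ k ρ) (h2 : Loc z.2 S₂ k ρ) (c1 : S₁.card ≤ ρ ^ 2)
    (c2 : S₂.card ≤ ρ ^ 2) (hN : Nb ⊆ S₁ ×ˢ S₂)
    (hs : ∀ w ∈ Nb, sq z.1 w.1 = sq z.2 w.2 ∧ w.1 + w.2 ≠ z.1 + z.2)
    (hκ : ∀ ν : V, ν ≠ 0 → ∀ c, (Nb.filter (rel ν c z)).card ≤ κ) {H : P3} (hH : H ≠ 0)
    (hR : H.totalDegree ≤ R)
    (hl : ∀ w ∈ Nb, OnL H ((cz w).1 - (cz z).1) ((cz w).2 - (cz z).2)) :
    Nb.card ≤ R * (100 * k ^ 2 * (R + ρ + κ)) := by
  simp only [mr_a, mr_b] at hl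
  have key : ∀ H : P3, H ≠ 0 → H.totalDegree ≤ R → ∀ N ⊆ Nb,
      (∀ w ∈ N, OnL H (cv (mrA z w)) (cv (mrB z w))) →
        N.card ≤ H.totalDegree * (100 * k ^ 2 * (R + ρ + κ)) := fun H => by
    induction H using WfDvdMonoid.induction_on_irreducible with
    | zero => exact fun h => absurd rfl h
    | unit u hu =>
      intro _ _ N hN' hl'
      rw [eq_empty_of_forall_notMem fun w hw =>
        (hu.map (eval _)).ne_zero (hl' w hw _ (mr_data (hs w (hN' hw))).2.2), card_empty]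
      exact Nat.zero_le _
    | mul a i ha hi ih =>
      intro _ hd N hN' hl'
      rw [totalDegree_mul_of_isDomain hi.ne_zero ha] at hd ⊢
      have s1 : N.filter (fun w => OnL i (cv (mrA z w)) (cv (mrB z w))) ⊆ Nb :=
        (filter_subset _ _).trans hN'
      have n1 := mr_irr hk hρ h1 h2 c1 c2 (s1.trans hN) (fun w hw => hs w (s1 hw))
        (fun ν hν c => (card_le_card (filter_subset_filter _ s1)).trans (hκ ν hν c)) hi
        ((Nat.le_add_right _ _).trans hd) fun w hw => (mem_filter.1 hw).2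
      have n2 := ih ha ((Nat.le_add_left _ _).trans hd)
        (N.filter fun w => OnL a (cv (mrA z w)) (cv (mrB z w))) ((filter_subset _ _).trans hN')
        fun w hw => (mem_filter.1 hw).2
      rw [add_mul]
      refine (card_le_card fun w hw => ?_).trans ((card_union_le _ _).trans (add_le_add n1 n2))
      obtain ⟨-, d2, d3⟩ := mr_data (hs w (hN' hw))
      simp only [mem_union, mem_filter, hw, true_and, mr_line d2 d3]
      exact line_mul _ _ ((mr_line d2 d3).1 (hl' w hw))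
  exact (key H hH hR Nb Subset.rfl hl).trans (Nat.mul_le_mul_right _ hR)

end Vale.Agent.P054
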