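import Vale.Agent.P054.MirL
import Vale.Agent.P054.Cells

/-! MirG: pairs on rich motions (about 350 lines).
`mir_k`: `s = k / ρ ≥ C`. If no `K` has `k ≤ |K|` there is nothing to do; otherwise `k ≤ n` (`rel.eq_of_fst`), so `s ≤ n`. Take `m = n / s + 1`, `cells` (at most `3 s` labels, cells of size `≤ 9 m ≤ 18 n / s`), `g = ρ / (6 C₀)`; the groups `K ∩ (τ × τ')` of size `< g` contain at most `3 C₀ s g ≤ k / 2` points of `K`. For each pair of labels apply `mir_local` to `X = τ × τ'`, `ι = Finset (V × V)`, the `K ∈ mirs` with a group of size `≥ g`, data `(ν, c)` chosen for each `K` (`rel_of_prop`, `rel.trans` show that proportional data and a common point give the same `K`), `r = ` a number with `120 (18 n / s)^2 ≤ r^3` and `r ≤ ρ / C'` (from `n^2 ≤ ρ^3`, `s ≥ C`). With `S = ∑ |K|`: `S ≤ 2 * 9 s^2 * J`, `J^2 g ≤ C (18 n / s)^6`, `k ≤ 2 s ρ`; compare squares.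
`mir_global`: dyadic decomposition `2^i κ ≤ |K| < 2^(i+1) κ`, `i ≤ log₂ n`.
-/

noncomputable section

open Classical MvPolynomial Matrix Finset

namespace Vale.Agent.P054

theorem mirg_data (X : Finset (V × V)) : ∃ (ν : Finset (V × V) → V) (c : Finset (V × V) → ℝ),
    ∀ K ∈ mirs X, ν K ≠ 0 ∧ K ⊆ X ∧ ∀ z ∈ K, ∀ w ∈ X, (w ∈ K ↔ rel (ν K) (c K) z w) := by
  have h : ∀ K : Finset (V × V), ∃ (ν : V) (c : ℝ), K ∈ mirs X →
      ν ≠ 0 ∧ K ⊆ X ∧ ∀ z ∈ K, ∀ w ∈ X, (w ∈ K ↔ rel ν c z w) := fun K => by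
    by_cases hK : K ∈ mirs X
    · obtain ⟨ν, c, z₀, h1, -, rfl⟩ := (mem_filter.1 hK).2
      refine ⟨ν, c, fun _ => ⟨h1, filter_subset _ _, fun z hz w hw => ?_⟩⟩
      have h2 := (mem_filter.1 hz).2
      exact ⟨fun h => h2.symm.trans (mem_filter.1 h).2, fun h => mem_filter.2 ⟨hw, h2.trans h⟩⟩
    · exact ⟨0, 0, fun h => absurd h hK⟩
  choose ν c h using h
  exact ⟨ν, c, h⟩

theorem mirg_card {P : Finset V} {K : Finset (V × V)} (hK : K ∈ mirs (P ×ˢ P)) :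
    K.card ≤ P.card := by
  obtain ⟨ν, c, h⟩ := mirg_data (P ×ˢ P)
  obtain ⟨a1, a2, a3⟩ := h K hK
  exact card_le_card_of_injOn Prod.fst (fun z hz => (mem_product.1 (a2 hz)).1)
    fun z hz w hw e => rel.eq_of_fst a1 ((a3 z hz w (a2 hw)).1 hw) e

theorem mirg_split {α β : Type*} [DecidableEq β] (K : Finset α) (lab : α → β) (U : Finset β)
    (hU : ∀ z ∈ K, lab z ∈ U) (g : ℕ) : K.card ≤ (K.image lab).card * g +
      ∑ u ∈ U, if g ≤ (K.filter fun z => lab z = u).card then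
        (K.filter fun z => lab z = u).card else 0 := by
  rw [card_eq_sum_card_image lab K, ← smul_eq_mul, ← sum_const]
  refine le_trans ?_ (Nat.add_le_add_left (sum_le_sum_of_subset (image_subset_iff.2 hU)) _)
  rw [← sum_add_distrib]
  refine sum_le_sum fun u _ => ?_
  split_ifs <;> omega

theorem mirg_div {a b : ℕ} (hb : 0 < b) (h : 0 < a / b) : a ≤ 2 * (a / b) * b := by
  have h1 := Nat.lt_div_mul_add (a := a) hb
  have h2 := Nat.le_mul_of_pos_left b h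
  rw [mul_assoc]
  omega

theorem mirg_J {J g ρ s m n D C₀ C₁ x : ℕ} (hD : D = 12 * C₀ * C₁) (D1 : 1 ≤ D) (ρ0 : 0 < ρ)
    (hn : n ^ 2 ≤ ρ ^ 3) (hm : m * s ≤ 2 * n) (hg : ρ ≤ 2 * g * (6 * C₀)) (hx : x ≤ (9 * m) ^ 2)
    (h : J ^ 2 * g ≤ C₁ * x ^ 3) : J * s ^ 3 ≤ 5832 * D * ρ ^ 4 := by
  refine (Nat.pow_le_pow_iff_left two_ne_zero).1 (Nat.le_of_mul_le_mul_right ?_ ρ0)
  calc (J * s ^ 3) ^ 2 * ρ ≤ (J * s ^ 3) ^ 2 * (2 * g * (6 * C₀)) := by gcongr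
    _ = 12 * C₀ * s ^ 6 * (J ^ 2 * g) := by ring
    _ ≤ 12 * C₀ * s ^ 6 * (C₁ * ((9 * m) ^ 2) ^ 3) :=
      Nat.mul_le_mul_left _ (h.trans (by gcongr))
    _ = D * 9 ^ 6 * (m * s) ^ 6 := by rw [hD]; ring
    _ ≤ D * 9 ^ 6 * (2 * n) ^ 6 := by gcongr
    _ = D * 1 * 18 ^ 6 * (n ^ 2) ^ 3 := by ring
    _ ≤ D * D * 18 ^ 6 * (ρ ^ 3) ^ 3 := by gcongr
    _ = (5832 * D * ρ ^ 4) ^ 2 * ρ := by ring

theorem mirg_r {ρ s m n D r x : ℕ} (hn : n ^ 2 ≤ ρ ^ 3) (hm : m * s ≤ 2 * n)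
    (hs : 311040 * D ^ 3 ≤ s) (hr : ρ ≤ 2 * r * D) (hx : x ≤ (9 * m) ^ 2) (s0 : 0 < s) :
    120 * x ≤ r ^ 3 := by
  refine Nat.le_of_mul_le_mul_right ?_ (pow_pos s0 2)
  calc 120 * x * s ^ 2 ≤ 120 * (9 * m) ^ 2 * s ^ 2 := by gcongr
    _ = 9720 * (m * s) ^ 2 := by ring
    _ ≤ 9720 * (2 * n) ^ 2 := by gcongr
    _ = 38880 * n ^ 2 := by ring
    _ ≤ 38880 * (2 * r * D) ^ 3 := Nat.mul_le_mul_left _ (hn.trans (by gcongr))
    _ = r ^ 3 * (311040 * D ^ 3) := by ring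
    _ ≤ r ^ 3 * s ^ 2 := Nat.mul_le_mul_left _ (hs.trans (Nat.le_self_pow two_ne_zero s))

theorem mirg_fin {ρ s D k S T : ℕ} (D3 : D ≤ D ^ 3) (s0 : 0 < s) (hk : k ≤ 2 * s * ρ)
    (hS : S ≤ 2 * T) (hT : T * s ^ 3 ≤ 3 * s * (3 * s) * (5832 * D * ρ ^ 4)) :
    k * S ≤ 311040 * D ^ 3 * ρ ^ 5 := by
  refine Nat.le_of_mul_le_mul_right ?_ (pow_pos s0 2)
  calc k * S * s ^ 2 ≤ 2 * s * ρ * (2 * T) * s ^ 2 := by gcongr
    _ = 4 * ρ * (T * s ^ 3) := by ring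
    _ ≤ 4 * ρ * (3 * s * (3 * s) * (5832 * D * ρ ^ 4)) := by gcongr
    _ = 209952 * D * ρ ^ 5 * s ^ 2 := by ring
    _ ≤ 311040 * D ^ 3 * ρ ^ 5 * s ^ 2 := by gcongr; norm_num

theorem mir_k : ∃ C : ℕ, ∀ (P : Finset V) (B ρ k : ℕ), PlaneLe P B → P.card ^ 2 ≤ ρ ^ 3 →
    C * (B + 1) ≤ ρ → C * ρ ≤ k →
      k * ∑ K ∈ (mirs (P ×ˢ P)).filter (fun K => k ≤ K.card), K.card ≤ C * ρ ^ 5 := by
  obtain ⟨C₀, hC₀, hcell⟩ := cells
  obtain ⟨C₁, hC₁, hloc⟩ := mir_local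
  obtain ⟨D, hD⟩ : ∃ D, D = 12 * C₀ * C₁ := ⟨_, rfl⟩
  have D1 : 1 ≤ D := by
    rw [hD]
    exact Nat.mul_pos (by omega) hC₁
  have D3 : D ≤ D ^ 3 := Nat.le_self_pow (by norm_num) D
  refine ⟨311040 * D ^ 3, fun P B ρ k hP hn hB hk => ?_⟩
  obtain ⟨F, hF⟩ : ∃ F, F = (mirs (P ×ˢ P)).filter fun K => k ≤ K.card := ⟨_, rfl⟩
  rw [← hF]
  have hF' : ∀ K ∈ F, K ∈ mirs (P ×ˢ P) ∧ k ≤ K.card := fun K h => mem_filter.1 (hF ▸ h)
  rcases F.eq_empty_or_nonempty with e | ⟨K₀, hK₀⟩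
  · simp [e]
  have kn : k ≤ P.card := (hF' K₀ hK₀).2.trans (mirg_card (hF' K₀ hK₀).1)
  have hB' : D * (B + 1) ≤ ρ := (Nat.mul_le_mul_right _ (by omega)).trans hB
  have ρD : D ≤ ρ := (Nat.le_mul_of_pos_right _ B.succ_pos).trans hB'
  have ρ0 : 0 < ρ := by omega
  obtain ⟨s, hs⟩ : ∃ s, s = k / ρ := ⟨_, rfl⟩
  have s1 : 311040 * D ^ 3 ≤ s := hs ▸ (Nat.le_div_iff_mul_le ρ0).2 hk
  have s0 : 0 < s := by omega
  have s2 : s * ρ ≤ k := hs ▸ Nat.div_mul_le_self k ρ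
  have s3 : k ≤ 2 * s * ρ := hs ▸ mirg_div ρ0 (hs ▸ s0)
  have s4 : s ≤ P.card := (Nat.le_mul_of_pos_right _ ρ0).trans (s2.trans kn)
  obtain ⟨m, hm⟩ : ∃ m, m = P.card / s + 1 := ⟨_, rfl⟩
  have m1 : m * s ≤ 2 * P.card := by
    have := Nat.div_mul_le_self P.card s
    rw [hm, add_mul]
    omega
  have m2 : P.card ≤ m * s := by
    have := Nat.lt_div_mul_add (a := P.card) s0
    rw [hm, add_mul]
    omega
  have m0 : 1 ≤ m := hm ▸ Nat.le_add_left 1 _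
  obtain ⟨cell, c1, c2, c3⟩ := hcell P m m0
  have l1 : (P.image cell).card ≤ 3 * s := by
    refine Nat.le_of_mul_le_mul_right (c1.trans ?_) m0
    have := Nat.le_mul_of_pos_right m s0
    nlinarith
  obtain ⟨g, hg⟩ : ∃ g, g = ρ / (6 * C₀) := ⟨_, rfl⟩
  obtain ⟨r, hr⟩ : ∃ r, r = ρ / D := ⟨_, rfl⟩
  have r0 : 0 < r := hr ▸ Nat.div_pos ρD D1
  have r1 : r * D ≤ ρ := hr ▸ Nat.div_mul_le_self ρ D
  have r2 : ρ ≤ 2 * r * D := hr ▸ mirg_div D1 (hr ▸ r0)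
  have g1 : g * (6 * C₀) ≤ ρ := hg ▸ Nat.div_mul_le_self ρ _
  have g2 : C₁ * (r + B + 1) ≤ g := by
    rw [hg, Nat.le_div_iff_mul_le (by omega)]
    rw [hD] at r1 hB'
    nlinarith
  have g0 : 0 < g := lt_of_lt_of_le (Nat.mul_pos hC₁ (by omega)) g2
  have g3 : ρ ≤ 2 * g * (6 * C₀) := hg ▸ mirg_div (by omega) (hg ▸ g0)
  obtain ⟨ν, c, hν⟩ := mirg_data (P ×ˢ P)
  have key : ∀ u : ℕ × ℕ, (∑ K ∈ F, if g ≤ (K.filter fun z => (cell z.1, cell z.2) = u).card then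
      (K.filter fun z => (cell z.1, cell z.2) = u).card else 0) * s ^ 3 ≤ 5832 * D * ρ ^ 4 := by
    intro u
    have x1 : ((P.filter fun x => cell x = u.1) ×ˢ P.filter fun x => cell x = u.2).card ≤
        (9 * m) ^ 2 := by
      rw [card_product, pow_two]
      exact Nat.mul_le_mul (c2 _) (c2 _)
    rw [← sum_filter]
    refine mirg_J hD D1 ρ0 hn m1 g3 x1 (hloc _ _ ν c
      (fun K => K.filter fun z => (cell z.1, cell z.2) = u) r g B (fun K hK => ?_)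
      (fun K hK K' hK' z hz hz' e1 e2 => ?_) (mirg_r hn m1 s1 r2 x1 s0) g2)
    · obtain ⟨a1, a2, a3⟩ := hν K (hF' K (mem_filter.1 hK).1).1
      refine ⟨a1, fun z hz => ?_, fun z hz w hw => ?_, fun n hn c => (card_le_card
        (filter_subset_filter _ fun x hx => ?_)).trans (hP n hn c), (mem_filter.1 hK).2⟩
      · obtain ⟨b1, b2⟩ := mem_filter.1 hz
        obtain ⟨b3, b4⟩ := mem_product.1 (a2 b1)
        exact mem_product.2 ⟨mem_filter.2 ⟨b3, congrArg Prod.fst b2⟩,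
          mem_filter.2 ⟨b4, congrArg Prod.snd b2⟩⟩
      · exact (a3 z (mem_filter.1 hz).1 w (a2 (mem_filter.1 hw).1)).1 (mem_filter.1 hw).1
      · obtain ⟨z, hz, rfl⟩ := mem_image.1 hx
        exact (mem_product.1 (a2 (mem_filter.1 hz).1)).1
    · obtain ⟨a1, a2, a3⟩ := hν K (hF' K (mem_filter.1 hK).1).1
      obtain ⟨b1, b2, b3⟩ := hν K' (hF' K' (mem_filter.1 hK').1).1
      have z1 := (mem_filter.1 hz).1
      have z2 := (mem_filter.1 hz').1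
      refine Subset.antisymm (fun w hw => (b3 z z2 w (a2 hw)).2
        (rel_of_prop a1 e1 e2 ((a3 z z1 w (a2 hw)).1 hw))) fun w hw => (a3 z z1 w (b2 hw)).2
        (rel_of_prop b1 ?_ e2.symm ((b3 z z2 w (b2 hw)).1 hw))
      rw [← cross_anticomm, e1, neg_zero]
  have half : ∀ K ∈ F, K.card ≤ 2 * ∑ u ∈ P.image cell ×ˢ P.image cell,
      if g ≤ (K.filter fun z => (cell z.1, cell z.2) = u).card then
        (K.filter fun z => (cell z.1, cell z.2) = u).card else 0 := fun K hK => by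
    obtain ⟨a1, a2, a3⟩ := hν K (hF' K hK).1
    have b1 := mirg_split K (fun z => (cell z.1, cell z.2)) (P.image cell ×ˢ P.image cell)
      (fun z hz => mem_product.2 ⟨mem_image_of_mem _ (mem_product.1 (a2 hz)).1,
        mem_image_of_mem _ (mem_product.1 (a2 hz)).2⟩) g
    have b2 := (c3 K a2 fun z hz w hw => rel.sq_eq a1 ((a3 z hz w (a2 hw)).1 hw)).trans
      (Nat.mul_le_mul_left C₀ l1)
    have b3 := (hF' K hK).2
    have b4 := Nat.mul_le_mul_right g b2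
    have b5 := Nat.mul_le_mul_left s g1
    have b6 : 2 * (C₀ * (3 * s) * g) = s * (g * (6 * C₀)) := by ring
    omega
  have t1 := sum_le_sum half
  rw [← mul_sum, sum_comm] at t1
  have t2 := sum_le_card_nsmul (P.image cell ×ˢ P.image cell) _ _ fun u _ => key u
  rw [← sum_mul, card_product, smul_eq_mul] at t2
  exact mirg_fin D3 s0 s3 t1 (t2.trans (Nat.mul_le_mul_right _ (Nat.mul_le_mul l1 l1)))

theorem mir_global : ∃ C : ℕ, ∀ (P : Finset V) (B ρ : ℕ), PlaneLe P B → P.card ^ 2 ≤ ρ ^ 3 →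
    C * (B + 1) ≤ ρ → ∑ K ∈ (mirs (P ×ˢ P)).filter (fun K => C * ρ ≤ K.card), K.card ^ 2 ≤
      C * ρ ^ 5 * (Nat.log 2 P.card + 1) := by
  obtain ⟨C, hC⟩ := mir_k
  refine ⟨2 * C + 1, fun P B ρ hP hn hB => ?_⟩
  have ρ0 : 0 < ρ := lt_of_lt_of_le (Nat.mul_pos (by omega) B.succ_pos) hB
  obtain ⟨κ, hκ⟩ : ∃ κ, κ = (2 * C + 1) * ρ := ⟨_, rfl⟩
  have κ0 : 0 < κ := hκ ▸ Nat.mul_pos (by omega) ρ0
  have κ1 : C * ρ ≤ κ := hκ ▸ Nat.mul_le_mul_right _ (by omega)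
  rw [← hκ, ← sum_fiberwise_of_maps_to (t := range (Nat.log 2 P.card + 1))
    (g := fun K => Nat.log 2 (K.card / κ)) fun K hK => mem_range.2 (Nat.lt_succ_of_le
      (Nat.log_mono_right ((Nat.div_le_self _ _).trans (mirg_card (mem_filter.1 hK).1))))]
  refine (sum_le_card_nsmul _ _ ((2 * C + 1) * ρ ^ 5) fun i _ => ?_).trans_eq
    (by rw [card_range, smul_eq_mul, mul_comm])
  have h1 := hC P B ρ (2 ^ i * κ) hP hn ((Nat.mul_le_mul_right _ (by omega)).trans hB)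
    (κ1.trans (Nat.le_mul_of_pos_left _ (by positivity)))
  have h2 : ∀ K ∈ ((mirs (P ×ˢ P)).filter fun K => κ ≤ K.card).filter
      fun K => Nat.log 2 (K.card / κ) = i,
      K ∈ (mirs (P ×ˢ P)).filter (fun K => 2 ^ i * κ ≤ K.card) ∧
        K.card ^ 2 ≤ 2 * (2 ^ i * κ * K.card) := fun K hK => by
    obtain ⟨a1, rfl⟩ := mem_filter.1 hK
    obtain ⟨a2, a3⟩ := mem_filter.1 a1
    have b1 := Nat.pow_log_le_self 2 (Nat.div_pos a3 κ0).ne'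
    have b2 := (Nat.div_lt_iff_lt_mul κ0).1 (Nat.lt_pow_succ_log_self one_lt_two (K.card / κ))
    refine ⟨mem_filter.2 ⟨a2, (Nat.le_div_iff_mul_le κ0).1 b1⟩, ?_⟩
    rw [pow_two]
    refine (Nat.mul_le_mul_right _ b2.le).trans_eq ?_
    rw [pow_succ]
    ring
  refine (sum_le_sum fun K hK => (h2 K hK).2).trans
    ((sum_le_sum_of_subset fun K hK => (h2 K hK).1).trans ?_)
  rw [← mul_sum, ← mul_sum, add_mul, mul_assoc 2 C]
  omega

end Vale.Agent.P054
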