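import Vale.Agent.P054.GoodP
import Vale.Agent.P054.MirG
import Vale.Agent.P054.ExcB
import Vale.Agent.P054.MR
import Vale.Agent.P054.Core

/-! Main: the bound for sets with few coplanar points (about 300 lines).
`U, k` from `good_pairs`, `κ = C ρ` from `mir_global`. `adj z w`: `(z.1, w.1) ∈ U`, `(z.2, w.2) ∈ U`, `sq z.1 w.1 = sq z.2 w.2`, `w.1 + w.2 ≠ z.1 + z.2`, and `|mir X ν c z| < κ` whenever `ν ≠ 0` and `rel ν c z w` (symmetric). The energy pairs that are not adjacent: at most `n` for each `z` with `w.1 + w.2 = z.1 + z.2`, and at most `∑ |K|^2` over the rich `K ∈ mirs X`.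
For nonempty `G ⊆ X = P ×ˢ P` apply `core` to `G.image cz` with `adj' z' w' = ∃ z w, cz z = z' ∧ cz w = w' ∧ adj z w`, `τ = 5 ρ`, `B₀ = 2 n + B^2` (`exc_bound`): some `z`, `H` have at most `2 B₀` neighbours off `H`, and `mr_bound` (with `C ρ` for `ρ`, `n ≤ ρ^2`) bounds those on `H`. So every such `G` has a vertex of degree `≤ M = C' ρ^2`; `prune`, `energy`, `n^3 ≤ ρ^5`.
-/

noncomputable section

open Classical MvPolynomial Matrix Finset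

namespace Vale.Agent.P054

/-- adjacency of pairs -/
def mainAdj (U X : Finset (V × V)) (κ : ℕ) (z w : V × V) : Prop :=
  (z.1, w.1) ∈ U ∧ (z.2, w.2) ∈ U ∧ sq z.1 w.1 = sq z.2 w.2 ∧ w.1 + w.2 ≠ z.1 + z.2 ∧
    ∀ (ν : V) (c : ℝ), ν ≠ 0 → rel ν c z w → (mir X ν c z).card < κ

theorem main_sq (p q : V) : sq p q = sq q p := by
  unfold sq
  rw [← neg_sub q p, neg_dotProduct, dotProduct_neg, neg_neg]

theorem main_symm {U X : Finset (V × V)} {κ : ℕ} (hU : ∀ e ∈ U, e.swap ∈ U) (z w : V × V)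
    (h : mainAdj U X κ z w) : mainAdj U X κ w z := by
  obtain ⟨h1, h2, h3, h4, h5⟩ := h
  refine ⟨hU _ h1, hU _ h2, by rw [main_sq w.1, main_sq w.2, h3], h4.symm, fun ν c hν hr => ?_⟩
  have h6 : mir X ν c w ⊆ mir X ν c z := fun x hx => by
    simp only [mir, mem_filter] at hx ⊢
    exact ⟨hx.1, hr.symm.trans hx.2⟩
  exact (card_le_card h6).trans_lt (h5 ν c hν hr.symm)

theorem main_cv {a b : V} (h : cv a = cv b) : a = b := by
  funext i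
  have h1 := congrFun h i
  simpa [cv] using h1

theorem main_mid (P : Finset V) : (((P ×ˢ P) ×ˢ (P ×ˢ P)).filter
    fun e : (V × V) × (V × V) => e.2.1 + e.2.2 = e.1.1 + e.1.2).card ≤ P.card ^ 3 := by
  have h1 : ((P ×ˢ P) ×ˢ P).card = P.card ^ 3 := by rw [card_product, card_product]; ring
  rw [← h1]
  refine card_le_card_of_injOn (fun e => (e.1, e.2.1)) (fun e he => ?_) fun e he e' he' h => ?_
  · simp only [coe_filter, Set.mem_ofPred_eq, mem_product] at he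
    simp only [coe_product, Set.mem_prod, mem_coe]
    exact ⟨he.1.1, he.1.2.1⟩
  · simp only [coe_filter, Set.mem_ofPred_eq] at he he'
    simp only [Prod.mk.injEq] at h
    have h2 : e.2.1 + e.2.2 = e.2.1 + e'.2.2 := by rw [he.2, h.1, ← he'.2, h.2]
    exact Prod.ext h.1 (Prod.ext h.2 (add_left_cancel h2))

theorem main_split (P : Finset V) (U : Finset (V × V)) (κ : ℕ) :
    (((P ×ˢ P) ×ˢ (P ×ˢ P)).filter fun e => (e.1.1, e.2.1) ∈ U ∧
      (e.1.2, e.2.2) ∈ U ∧ sq e.1.1 e.2.1 = sq e.1.2 e.2.2).card ≤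
    (((P ×ˢ P) ×ˢ (P ×ˢ P)).filter fun e => mainAdj U (P ×ˢ P) κ e.1 e.2).card + P.card ^ 3 +
      ∑ K ∈ (mirs (P ×ˢ P)).filter (fun K => κ ≤ K.card), K.card ^ 2 := by
  have h1 : (((mirs (P ×ˢ P)).filter fun K => κ ≤ K.card).biUnion fun K => K ×ˢ K).card ≤
      ∑ K ∈ (mirs (P ×ˢ P)).filter (fun K => κ ≤ K.card), K.card ^ 2 :=
    card_biUnion_le.trans (sum_le_sum fun K _ => by rw [card_product, pow_two])
  refine le_trans (card_le_card ?_) ((card_union_le _ _).trans (add_le_add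
    ((card_union_le _ _).trans (add_le_add le_rfl (main_mid P))) h1))
  intro e he
  simp only [mem_filter] at he
  obtain ⟨hX, h2, h3, h4⟩ := he
  simp only [mem_union, mem_filter, mem_biUnion]
  by_cases h5 : e.2.1 + e.2.2 = e.1.1 + e.1.2
  · exact Or.inl (Or.inr ⟨hX, h5⟩)
  by_cases h6 : ∀ (ν : V) (c : ℝ), ν ≠ 0 → rel ν c e.1 e.2 → (mir (P ×ˢ P) ν c e.1).card < κ
  · exact Or.inl (Or.inl ⟨hX, h2, h3, h4, h5, h6⟩)
  simp only [not_forall, not_lt] at h6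
  obtain ⟨ν, c, hν, hr, hc⟩ := h6
  have hX' := mem_product.1 hX
  refine Or.inr ⟨mir (P ×ˢ P) ν c e.1, ⟨?_, hc⟩, mem_product.2 ⟨?_, ?_⟩⟩
  · simp only [mirs, mem_filter, mem_powerset]
    exact ⟨filter_subset _ _, ν, c, e.1, hν, hX'.1, rfl⟩
  · simp only [mir, mem_filter]
    exact ⟨hX'.1, rel_refl _ _ _⟩
  · simp only [mir, mem_filter]
    exact ⟨hX'.2, hr⟩

theorem main_off : ∃ A : ℕ, ∀ (P : Finset V) (B ρ : ℕ) (adj : V × V → V × V → Prop),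
    PlaneLe P B → P.card ^ 2 ≤ ρ ^ 3 → (∀ z w, adj z w → w.1 + w.2 ≠ z.1 + z.2) →
    ∀ G ⊆ P ×ˢ P, G.Nonempty → ∃ z ∈ G, ∃ H : P3, H ≠ 0 ∧ H.totalDegree ≤ A * ρ ∧
      (G.filter fun w => adj z w ∧ ¬ OnL H ((cz w).1 - (cz z).1) ((cz w).2 - (cz z).2)).card ≤
        2 * (2 * P.card + B ^ 2) := by
  obtain ⟨A, hA⟩ := core
  refine ⟨A * 5, fun P B ρ adj hP hn hadj G hG hne => ?_⟩
  have h1 := hA (fun z' w' => ∃ z w, cz z = z' ∧ cz w = w' ∧ adj z w) (2 * P.card + B ^ 2) (5 * ρ)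
    (G.image cz) (hne.image cz)
    (by
      rintro _ _ ⟨z, w, rfl, rfl, h⟩ h'
      exact hadj z w h (main_cv h'))
    (fun W hW => by
      refine le_trans (le_trans (card_le_card ?_) (card_image_le (f := cz))) (exc_bound hP hW)
      intro z' hz'
      simp only [mem_filter, mem_image] at hz' ⊢
      obtain ⟨⟨z, hz, rfl⟩, h⟩ := hz'
      exact ⟨z, ⟨hG hz, h⟩, rfl⟩)
    (by
      have h2 : (G.image cz).card ≤ P.card ^ 2 :=
        card_image_le.trans ((card_le_card hG).trans_eq (by rw [card_product, pow_two]))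
      have h3 : (5 * ρ) ^ 3 = 125 * ρ ^ 3 := by ring
      omega)
  simp only [NC, not_forall, not_lt] at h1
  obtain ⟨z', hz', H, hH, hd, h2⟩ := h1
  obtain ⟨z, hz, rfl⟩ := mem_image.1 hz'
  refine ⟨z, hz, H, hH, by rwa [mul_assoc], le_trans ?_ h2⟩
  refine card_le_card_of_injOn cz (fun w hw => ?_) cz_injective.injOn
  simp only [coe_filter, Set.mem_ofPred_eq] at hw ⊢
  exact ⟨mem_image_of_mem cz hw.1, ⟨z, w, rfl, rfl, hw.2.1⟩, hw.2.2⟩

theorem main_deg (C₁ C₂ k : ℕ) (hC : 1 ≤ C₁) (hk : 1 ≤ k) : ∃ C : ℕ, ∀ (P : Finset V) (B ρ : ℕ)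
    (U : Finset (V × V)), PlaneLe P B → P.card ^ 2 ≤ ρ ^ 3 → B + 1 ≤ ρ →
    (∀ p, Loc p (P.filter fun x => (p, x) ∈ U) k (C₁ * ρ)) →
    ∀ G ⊆ P ×ˢ P, G.Nonempty →
      ∃ z ∈ G, (G.filter (mainAdj U (P ×ˢ P) (C₂ * ρ) z)).card ≤ C * ρ ^ 2 := by
  obtain ⟨A, hA⟩ := main_off
  refine ⟨6 + A * (100 * k ^ 2 * (A + C₁ + C₂)), fun P B ρ U hP hn hB hL G hG hne => ?_⟩
  have hρ : 1 ≤ ρ := by omega
  have hn2 : P.card ≤ ρ ^ 2 := by
    refine (Nat.pow_le_pow_iff_left two_ne_zero).1 (hn.trans ?_)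
    rw [← pow_mul]
    exact Nat.pow_le_pow_right hρ (by norm_num)
  have hB2 : B ^ 2 ≤ ρ ^ 2 := Nat.pow_le_pow_left (by omega) 2
  have hρ' : ρ ≤ C₁ * ρ := Nat.le_mul_of_pos_left _ hC
  have hc : ∀ p : V, (P.filter fun x => (p, x) ∈ U).card ≤ (C₁ * ρ) ^ 2 := fun p =>
    (card_filter_le _ _).trans (hn2.trans (Nat.pow_le_pow_left hρ' 2))
  obtain ⟨z, hz, H, hH, hd, h1⟩ := hA P B ρ (mainAdj U (P ×ˢ P) (C₂ * ρ)) hP hn
    (fun z w h => h.2.2.2.1) G hG hne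
  have h2 := mr_bound (z := z) (κ := C₂ * ρ) (Nb := G.filter fun w =>
      mainAdj U (P ×ˢ P) (C₂ * ρ) z w ∧ OnL H ((cz w).1 - (cz z).1) ((cz w).2 - (cz z).2))
    hk (hρ.trans hρ') (hL z.1) (hL z.2) (hc _) (hc _)
    (fun w hw => by
      simp only [mem_filter] at hw
      have h3 := mem_product.1 (hG hw.1)
      simp only [mem_product, mem_filter]
      exact ⟨⟨h3.1, hw.2.1.1⟩, h3.2, hw.2.1.2.1⟩)
    (fun w hw => by
      simp only [mem_filter] at hw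
      exact ⟨hw.2.1.2.2.1, hw.2.1.2.2.2.1⟩)
    (fun ν hν c => by
      rcases ((G.filter fun w => mainAdj U (P ×ˢ P) (C₂ * ρ) z w ∧
        OnL H ((cz w).1 - (cz z).1) ((cz w).2 - (cz z).2)).filter
          (rel ν c z)).eq_empty_or_nonempty with h | ⟨w, hw⟩
      · rw [h, card_empty]
        exact Nat.zero_le _
      · simp only [mem_filter] at hw
        refine le_trans (card_le_card fun x hx => ?_) (hw.1.2.1.2.2.2.2 ν c hν hw.2).le
        simp only [mir, mem_filter] at hx ⊢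
        exact ⟨hG hx.1.1, hx.2⟩)
    hH hd
    (fun w hw => by
      simp only [mem_filter] at hw
      exact hw.2.2)
  refine ⟨z, hz, le_trans (card_le_card ?_)
    ((card_union_le _ _).trans ((add_le_add h1 h2).trans ?_))⟩
  · intro w hw
    simp only [mem_union, mem_filter] at hw ⊢
    tauto
  · have h3 : A * ρ * (100 * k ^ 2 * (A * ρ + C₁ * ρ + C₂ * ρ)) =
        A * (100 * k ^ 2 * (A + C₁ + C₂)) * ρ ^ 2 := by ring
    rw [h3, add_mul]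
    omega

theorem main0 : ∃ C : ℕ, ∀ (P : Finset V) (B ρ : ℕ), PlaneLe P B → P.card ^ 2 ≤ ρ ^ 3 →
    C * (B + 1) ≤ ρ → nD P + 1 ≤ ρ → ρ ≤ P.card →
      P.card ^ 4 ≤ C * nD P * ρ ^ 5 * (Nat.log 2 P.card + 1) := by
  obtain ⟨C₁, k, hC₁, hk, hg⟩ := good_pairs
  obtain ⟨C₂, hm⟩ := mir_global
  obtain ⟨C₃, hd⟩ := main_deg C₁ C₂ k hC₁ hk
  refine ⟨16 * (2 * C₃ + 1 + C₂) + C₁, fun P B ρ hP hn hB hD hρ => ?_⟩
  have b1 : C₁ * (B + 1) ≤ ρ := (Nat.mul_le_mul_right _ (by omega)).trans hB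
  have b2 : C₂ * (B + 1) ≤ ρ := (Nat.mul_le_mul_right _ (by omega)).trans hB
  have b3 : B + 1 ≤ ρ := (Nat.le_mul_of_pos_left _ hC₁).trans b1
  obtain ⟨U, hU, hs, hc, hL⟩ := hg P B ρ hP hn b1 hD hρ
  have h1 := prune (main_symm (X := P ×ˢ P) (κ := C₂ * ρ) hs) (P ×ˢ P) (hd P B ρ U hP hn b3 hL)
  have h2 := main_split P U (C₂ * ρ)
  have h3 := hm P B ρ hP hn b2
  have h4 := energy hU
  have hn2 : P.card ≤ ρ ^ 2 := by
    refine (Nat.pow_le_pow_iff_left two_ne_zero).1 (hn.trans ?_)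
    rw [← pow_mul]
    exact Nat.pow_le_pow_right (by omega) (by norm_num)
  have h5 : P.card ^ 3 ≤ ρ ^ 5 := by
    calc P.card ^ 3 = P.card ^ 2 * P.card := by ring
      _ ≤ ρ ^ 3 * ρ ^ 2 := Nat.mul_le_mul hn hn2
      _ = ρ ^ 5 := by ring
  have h6 : 2 * (P ×ˢ P).card * (C₃ * ρ ^ 2) ≤ 2 * C₃ * ρ ^ 5 := by
    rw [card_product, ← pow_two]
    calc 2 * P.card ^ 2 * (C₃ * ρ ^ 2) ≤ 2 * ρ ^ 3 * (C₃ * ρ ^ 2) := by gcongr
      _ = 2 * C₃ * ρ ^ 5 := by ring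
  have h7 := h2.trans (add_le_add (add_le_add (h1.trans h6) h5) h3)
  have h8 : 2 * C₃ * ρ ^ 5 + ρ ^ 5 + C₂ * ρ ^ 5 * (Nat.log 2 P.card + 1) ≤
      (2 * C₃ + 1 + C₂) * ρ ^ 5 * (Nat.log 2 P.card + 1) := by
    have h9 : (2 * C₃ + 1 + C₂) * ρ ^ 5 * (Nat.log 2 P.card + 1) =
        2 * C₃ * ρ ^ 5 + ρ ^ 5 + C₂ * ρ ^ 5 * (Nat.log 2 P.card + 1) +
          (2 * C₃ + 1) * ρ ^ 5 * Nat.log 2 P.card := by ring
    omega
  calc P.card ^ 4 = (P.card ^ 2) ^ 2 := by ring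
    _ ≤ (4 * U.card) ^ 2 := Nat.pow_le_pow_left hc 2
    _ = 16 * U.card ^ 2 := by ring
    _ ≤ 16 * (nD P * ((2 * C₃ + 1 + C₂) * ρ ^ 5 * (Nat.log 2 P.card + 1))) :=
      Nat.mul_le_mul_left _ (h4.trans (Nat.mul_le_mul_left _ (h7.trans h8)))
    _ = 16 * (2 * C₃ + 1 + C₂) * nD P * ρ ^ 5 * (Nat.log 2 P.card + 1) := by ring
    _ ≤ _ := by gcongr; omega

end Vale.Agent.P054
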