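import Vale.Agent.P054.Flat

/-! MirA: the flat of an orientation reversing motion (about 350 lines).
`VanPi ν c z f`: `f` vanishes on `Π = {fp (cz z) s + (0, τ ν) | ν ⬝ᵥ s = c}`; it is the affine subspace `o + U` needed for `hyp_vanish`. For `rel ν c z w` and `ν ⬝ᵥ s = c` the vector `s × α - β` is parallel to `ν` (`ν × (s × α) = (ν ⬝ᵥ α) s - (ν ⬝ᵥ s) α`), so `Π` does not depend on the base point and `fp (cz w) s ∈ Π`.
`interp_pi`: `interp` with `s = s₀ + X 0 f₁ + X 1 f₂`, `τ = X 2` (`f₁, f₂` span `ν^⊥`, `s₀ = c ν / |ν|^2`).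
`flat_of_pi`: `hyp_vanish` in `ℂ³` with the planes `ν i ⬝ᵥ s = c i`.
`pi_of_planes`: inside `Π` the plane of `w` is the hyperplane `ν ⬝ᵥ σ + s ⬝ᵥ (y_w × ν) = ν ⬝ᵥ u_w` (non-constant in the direction `(0, ν)`); distinct `w` give distinct hyperplanes: if `y ≠ y'` then `(y - y') × ν ≠ 0` is orthogonal to `ν`, if `y = y'` then `u - u'` is a nonzero multiple of `ν` (real vectors: `ν ⬝ᵥ ν ≠ 0`).
-/

noncomputable section

open Classical MvPolynomial Matrix Finset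

namespace Vale.Agent.P054

def VanPi (ν : V) (c : ℝ) (z : V × V) (f : P6) : Prop :=
  ∀ (s : Fin 3 → ℂ) (τ : ℂ), cv ν ⬝ᵥ s = c →
    eval (fp (cz z) s + Sum.elim (0 : Fin 3 → ℂ) (τ • cv ν)) f = 0

variable {ν : V} {c : ℝ} {z w w' : V × V}

section Vec_MirA
variable {K : Type*} [Field K]

theorem cc_MirA (a b x : Fin 3 → K) : a ⨯₃ (b ⨯₃ x) = (a ⬝ᵥ x) • b - (a ⬝ᵥ b) • x := by
  ext i
  fin_cases i <;> simp [cross_apply, dotProduct, Fin.sum_univ_three] <;> ring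

theorem lag_MirA (n a b : Fin 3 → K) :
    (n ⨯₃ a) ⬝ᵥ (n ⨯₃ b) = (n ⬝ᵥ n) * (a ⬝ᵥ b) - (n ⬝ᵥ a) * (n ⬝ᵥ b) := by
  simp [cross_apply, dotProduct, Fin.sum_univ_three]
  ring

theorem par_MirA {n x : Fin 3 → K} (hn : n ⬝ᵥ n ≠ 0) (h : n ⨯₃ x = 0) :
    x = (n ⬝ᵥ x / n ⬝ᵥ n) • n := by
  have h1 := cc_MirA n n x
  rw [h, map_zero] at h1
  have h2 : (n ⬝ᵥ x) • n = (n ⬝ᵥ n) • x := sub_eq_zero.1 h1.symm
  rw [div_eq_inv_mul, mul_smul, h2, smul_smul, inv_mul_cancel₀ hn, one_smul]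

theorem zero_MirA {n x : Fin 3 → K} (hn : n ⬝ᵥ n ≠ 0) (h : n ⨯₃ x = 0) (h' : n ⬝ᵥ x = 0) :
    x = 0 := by
  have h1 := par_MirA hn h
  rw [h', zero_div, zero_smul] at h1
  exact h1

end Vec_MirA

theorem nn_MirA {n : V} (hn : n ≠ 0) : n ⬝ᵥ n ≠ 0 := fun h => hn (dotProduct_self_eq_zero.1 h)

theorem cv_add_MirA (a b : V) : cv (a + b) = cv a + cv b := by
  ext i
  simp [cv]

theorem cv_sub_MirA (a b : V) : cv (a - b) = cv a - cv b := by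
  ext i
  simp [cv]

theorem cv_smul_MirA (t : ℝ) (a : V) : cv (t • a) = (t : ℂ) • cv a := by
  ext i
  simp [cv]

theorem cv_zero_MirA : cv 0 = 0 := by
  ext i
  simp [cv]

theorem cv_dot_MirA (a b : V) : cv a ⬝ᵥ cv b = ((a ⬝ᵥ b : ℝ) : ℂ) := by
  simp [cv, dotProduct]

theorem cv_cross_MirA (a b : V) : cv (a ⨯₃ b) = cv a ⨯₃ cv b := by
  ext i
  fin_cases i <;> simp [cv, cross_apply]

theorem cnn_MirA {n : V} (hn : n ≠ 0) : cv n ⬝ᵥ cv n ≠ 0 := by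
  rw [cv_dot_MirA]
  exact Complex.ofReal_ne_zero.2 (nn_MirA hn)

theorem comp_MirA {σ τ : Type*} (φ : σ → MvPolynomial τ ℂ) (x : τ → ℂ) (f : MvPolynomial σ ℂ) :
    eval x (aeval φ f) = eval (fun a => eval x (φ a)) f := by
  have h1 : (aeval x : MvPolynomial τ ℂ →ₐ[ℂ] ℂ) (aeval φ f) =
      aeval (fun a => (aeval x : MvPolynomial τ ℂ →ₐ[ℂ] ℂ) (φ a)) f := comp_aeval_apply _ _ _
  exact h1

/-- two different real planes are separated by a point -/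
theorem sep_MirA {n n' : V} {c c' : ℝ} (hn : n ≠ 0)
    (h : ∀ u : V, n ⬝ᵥ u = c → n' ⬝ᵥ u = c') : n ⨯₃ n' = 0 ∧ c' • n = c • n' := by
  have hnn := nn_MirA hn
  have h0 : n ⬝ᵥ ((c / n ⬝ᵥ n) • n) = c := by
    rw [dotProduct_smul, smul_eq_mul, div_mul_cancel₀ _ hnn]
  have h1 := h _ h0
  have h2 := h ((c / n ⬝ᵥ n) • n + n ⨯₃ (n ⨯₃ n')) (by
    rw [dotProduct_add, h0, dot_self_cross, add_zero])
  rw [dotProduct_add, h1] at h2
  have h3 : n' ⬝ᵥ (n ⨯₃ (n ⨯₃ n')) = 0 := by linarith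
  have h4 : (n ⨯₃ n') ⬝ᵥ (n ⨯₃ n') = 0 := by
    rw [cc_MirA, dotProduct_sub, dotProduct_smul, dotProduct_smul, dotProduct_comm n' n,
      smul_eq_mul, smul_eq_mul] at h3
    rw [lag_MirA]
    linarith
  have h5 : n ⨯₃ n' = 0 := dotProduct_self_eq_zero.1 h4
  refine ⟨h5, ?_⟩
  obtain ⟨l, hl⟩ : ∃ l : ℝ, n' = l • n := ⟨_, par_MirA hnn h5⟩
  rw [hl, smul_dotProduct, h0, smul_eq_mul] at h1
  rw [hl, smul_smul, ← h1, mul_comm]

/-- a polynomial vanishing on many real planes vanishes -/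
theorem planes_MirA {ι : Type*} (I : Finset ι) (ν : ι → V) (c : ι → ℝ) (hν : ∀ i ∈ I, ν i ≠ 0)
    (hd : ∀ i ∈ I, ∀ j ∈ I, ν i ⨯₃ ν j = 0 → c j • ν i = c i • ν j → i = j) {F : P3} {r : ℕ}
    (hF : F.totalDegree ≤ r) (hI : r < I.card)
    (hv : ∀ i ∈ I, ∀ s, cv (ν i) ⬝ᵥ s = c i → eval s F = 0) (x : Fin 3 → ℂ) : eval x F = 0 := by
  have h := hyp_vanish hF 0 ⊤ I hI (fun i => cv (ν i)) (fun i => (c i : ℂ))
    (fun i hi => ⟨cv (ν i), Submodule.mem_top, cnn_MirA (hν i hi)⟩)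
    (fun i hi j hj hij => by
      by_contra hc
      have h1 : ∀ u : V, ν i ⬝ᵥ u = c i → ν j ⬝ᵥ u = c j := fun u hu => by
        by_contra h2
        refine hc ⟨cv u, Submodule.mem_top, ?_, ?_⟩
        · rw [zero_add, cv_dot_MirA, hu]
        · rw [zero_add, cv_dot_MirA]
          exact fun e => h2 (Complex.ofReal_injective e)
      obtain ⟨e1, e2⟩ := sep_MirA (hν i hi) h1
      exact hij (hd i hi j hj e1 e2))
    (fun i hi u _ hu => hv i hi _ hu) x Submodule.mem_top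
  rwa [zero_add] at h

/-- the parameter in the direction of the normal -/
def tau_MirA (N : Fin 3 → ℂ) (c : ℂ) : P3 := C (N ⬝ᵥ N)⁻¹ * lin N c

/-- the projection to the plane -/
def pr_MirA (N : Fin 3 → ℂ) (c : ℂ) : Fin 3 → P3 := fun i => X i - C (N i) * tau_MirA N c

/-- the parametrisation of `Π` -/
def phi_MirA (N : Fin 3 → ℂ) (c : ℂ) (y : Z ℂ) : S6 → P3 := fun a =>
  aeval (pr_MirA N c) (flatPt y a) + C (Sum.elim (0 : Fin 3 → ℂ) N a) * tau_MirA N c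

theorem degC_MirA (a : ℂ) {p : P3} (hp : p.totalDegree ≤ 1) : (C a * p).totalDegree ≤ 1 :=
  (totalDegree_mul _ _).trans (by rw [totalDegree_C, zero_add]; exact hp)

theorem deg_tau_MirA (N : Fin 3 → ℂ) (c : ℂ) : (tau_MirA N c).totalDegree ≤ 1 :=
  degC_MirA _ (degree_lin_le N c)

theorem deg_pr_MirA (N : Fin 3 → ℂ) (c : ℂ) (i : Fin 3) : (pr_MirA N c i).totalDegree ≤ 1 :=
  (totalDegree_sub _ _).trans (max_le (by simp) (degC_MirA _ (deg_tau_MirA N c)))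

theorem deg_phi_MirA (N : Fin 3 → ℂ) (c : ℂ) (y : Z ℂ) (a : S6) :
    (phi_MirA N c y a).totalDegree ≤ 1 := by
  refine (totalDegree_add _ _).trans (max_le ?_ (degC_MirA _ (deg_tau_MirA N c)))
  have h := degree_aeval_le (pr_MirA N c) (deg_pr_MirA N c) (flatPt y a)
  rw [one_mul] at h
  exact h.trans (flat_deg y a)

theorem ev_tau_MirA (N : Fin 3 → ℂ) (c : ℂ) (x : Fin 3 → ℂ) :
    eval x (tau_MirA N c) = (N ⬝ᵥ N)⁻¹ * (N ⬝ᵥ x - c) := by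
  rw [tau_MirA, map_mul, eval_C, eval_lin]

theorem ev_phi_MirA (N : Fin 3 → ℂ) (c : ℂ) (y : Z ℂ) (x : Fin 3 → ℂ) :
    (fun a => eval x (phi_MirA N c y a)) =
      fp y (x - ((N ⬝ᵥ N)⁻¹ * (N ⬝ᵥ x - c)) • N) +
        Sum.elim (0 : Fin 3 → ℂ) (((N ⬝ᵥ N)⁻¹ * (N ⬝ᵥ x - c)) • N) := by
  have h1 : (fun i => eval x (pr_MirA N c i)) = x - ((N ⬝ᵥ N)⁻¹ * (N ⬝ᵥ x - c)) • N := by
    funext i
    rw [pr_MirA, map_sub, map_mul, eval_X, eval_C, ev_tau_MirA, Pi.sub_apply, Pi.smul_apply,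
      smul_eq_mul, mul_comm]
  funext a
  rw [phi_MirA, map_add, map_mul, eval_C, ev_tau_MirA, comp_MirA, h1, Pi.add_apply,
    ← flat_aeval y _ a]
  congr 1
  rcases a with i | i
  · simp
  · simp [mul_comm]

theorem ev_phi2_MirA {N : Fin 3 → ℂ} {c : ℂ} (hN : N ⬝ᵥ N ≠ 0) (y : Z ℂ) {s : Fin 3 → ℂ}
    (hs : N ⬝ᵥ s = c) (τ : ℂ) : (fun a => eval (s + τ • N) (phi_MirA N c y a)) =
      fp y s + Sum.elim (0 : Fin 3 → ℂ) (τ • N) := by
  have h1 : (N ⬝ᵥ N)⁻¹ * (N ⬝ᵥ (s + τ • N) - c) = τ := by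
    rw [dotProduct_add, hs, dotProduct_smul, smul_eq_mul, add_sub_cancel_left, mul_comm τ,
      inv_mul_cancel_left₀ hN]
  rw [ev_phi_MirA, h1, add_sub_cancel_right]

theorem rel_refl (ν : V) (c : ℝ) (z : V × V) : rel ν c z z := by
  constructor <;> simp

theorem rel.symm (h : rel ν c z w) : rel ν c w z := by
  obtain ⟨h1, h2⟩ := h
  constructor
  · rw [← neg_sub, dotProduct_neg, h1, neg_zero]
  · rw [← neg_sub (w.2 - w.1), ← neg_sub (w.1 + w.2), map_neg, smul_neg, ← neg_add, h2, neg_zero]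

theorem rel.trans (h : rel ν c z w) (h' : rel ν c w w') : rel ν c z w' := by
  obtain ⟨h1, h2⟩ := h
  obtain ⟨h3, h4⟩ := h'
  constructor
  · rw [← sub_add_sub_cancel _ (w.1 + w.2), dotProduct_add, h1, h3, add_zero]
  · rw [← sub_add_sub_cancel (w'.1 + w'.2) (w.1 + w.2), ← sub_add_sub_cancel (w'.2 - w'.1)
      (w.2 - w.1), map_add, smul_add, add_add_add_comm, h2, h4, add_zero]

theorem rel.sq_eq (hν : ν ≠ 0) (h : rel ν c z w) : sq z.1 w.1 = sq z.2 w.2 := by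
  obtain ⟨h1, h2⟩ := h
  have h3 := lag_MirA ν (w.2 - w.1 - (z.2 - z.1)) (w.1 + w.2 - (z.1 + z.2))
  rw [h1, eq_neg_of_add_eq_zero_left h2, neg_dotProduct, smul_dotProduct, dot_cross_self,
    smul_zero, neg_zero, mul_zero, sub_zero] at h3
  have h4 := (mul_eq_zero.1 h3.symm).resolve_left (nn_MirA hν)
  simp only [sq, dotProduct, Fin.sum_univ_three, Pi.sub_apply, Pi.add_apply] at h4 ⊢
  linear_combination (-1 : ℝ) * h4

theorem rel.eq_of_fst (hν : ν ≠ 0) (h : rel ν c z w) (h1 : z.1 = w.1) : z = w := by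
  have h2 := h.sq_eq hν
  rw [h1, sq, sub_self, dotProduct_zero, sq] at h2
  exact Prod.ext h1 (sub_eq_zero.1 (dotProduct_self_eq_zero.1 h2.symm))

theorem rel_of_prop {ν' : V} {c' : ℝ} (hν : ν ≠ 0) (h1 : ν ⨯₃ ν' = 0) (h2 : c' • ν = c • ν')
    (h : rel ν c z w) : rel ν' c' z w := by
  obtain ⟨l, hl⟩ : ∃ l : ℝ, ν' = l • ν := ⟨_, par_MirA (nn_MirA hν) h1⟩
  have hc : c' = l * c := by
    rw [hl, smul_smul] at h2
    rw [mul_comm]
    exact smul_left_injective ℝ hν h2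
  obtain ⟨h3, h4⟩ := h
  constructor
  · rw [hl, smul_dotProduct, h3, smul_zero]
  · rw [hl, hc, map_smul, LinearMap.smul_apply, mul_smul, ← smul_add, h4, smul_zero]

theorem pt_MirA (h : rel ν c z w) {s : Fin 3 → ℂ} (hs : cv ν ⬝ᵥ s = c) :
    cv ν ⨯₃ (cv (w.2 - w.1 - (z.2 - z.1)) - s ⨯₃ cv (w.1 + w.2 - (z.1 + z.2))) = 0 := by
  obtain ⟨h1, h2⟩ := h
  have h3 := congrArg cv h2
  rw [cv_add_MirA, cv_smul_MirA, cv_cross_MirA, cv_zero_MirA] at h3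
  rw [map_sub, cc_MirA, cv_dot_MirA, h1, hs, Complex.ofReal_zero, zero_smul, zero_sub,
    sub_neg_eq_add, h3]

theorem fp_MirA (z w : V × V) (s t : Fin 3 → ℂ)
    (h : cv (w.2 - w.1 - (z.2 - z.1)) - s ⨯₃ cv (w.1 + w.2 - (z.1 + z.2)) = t) :
    fp (cz w) s = fp (cz z) s + Sum.elim (0 : Fin 3 → ℂ) t := by
  rw [cv_sub_MirA, cv_sub_MirA (w.1 + w.2), map_sub] at h
  funext a
  rcases a with i | i
  · simp [fp]
  · have h1 := congrFun h i
    simp only [Pi.sub_apply] at h1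
    simp only [fp, cz, Sum.elim_inr, Pi.add_apply, Pi.sub_apply]
    linear_combination h1

theorem VanPi.plane {f : P6} (hν : ν ≠ 0) (hf : VanPi ν c z f) (h : rel ν c z w) {s : Fin 3 → ℂ}
    (hs : cv ν ⬝ᵥ s = c) : eval (fp (cz w) s) f = 0 := by
  rw [fp_MirA z w s _ (par_MirA (cnn_MirA hν) (pt_MirA h hs))]
  exact hf s _ hs

theorem interp_pi {ι : Type*} (I : Finset ι) (ν : ι → V) (c : ι → ℝ) (z : ι → V × V)
    (hν : ∀ i ∈ I, ν i ≠ 0) {τ : ℕ} (hτ : 120 * I.card ≤ τ ^ 3) :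
    ∃ f : P6, f ≠ 0 ∧ f.totalDegree ≤ τ ∧ ∀ i ∈ I, VanPi (ν i) (c i) (z i) f := by
  obtain ⟨f, h0, hf, hv⟩ := interp I (fun i => phi_MirA (cv (ν i)) (c i) (cz (z i)))
    (fun i a => deg_phi_MirA _ _ _ a) hτ
  refine ⟨f, h0, hf, fun i hi s t hs => ?_⟩
  rw [← ev_phi2_MirA (cnn_MirA (hν i hi)) _ hs, ← comp_MirA, hv i hi, map_zero]

theorem flat_of_planes {ι : Type*} (I : Finset ι) (ν : ι → V) (c : ι → ℝ) (hν : ∀ i ∈ I, ν i ≠ 0)
    (hd : ∀ i ∈ I, ∀ j ∈ I, ν i ⨯₃ ν j = 0 → c j • ν i = c i • ν j → i = j) {f : P6}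
    (hI : f.totalDegree < I.card)
    (hv : ∀ i ∈ I, ∀ s, cv (ν i) ⬝ᵥ s = c i → eval (fp (cz z) s) f = 0) : res (cz z) f = 0 := by
  refine res_eq_zero.2 fun s => ?_
  rw [← eval_res]
  refine planes_MirA I ν c hν hd (degree_res_le _ f) hI (fun i hi x hx => ?_) s
  rw [eval_res]
  exact hv i hi x hx

theorem pi_of_planes (hν : ν ≠ 0) (W : Finset (V × V)) (hW : ∀ w ∈ W, rel ν c z w) {f : P6}
    (hI : f.totalDegree < W.card)
    (hv : ∀ w ∈ W, ∀ s, cv ν ⬝ᵥ s = c → eval (fp (cz w) s) f = 0) : VanPi ν c z f := by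
  intro s t hs
  have hN := cnn_MirA hν
  have hnn := nn_MirA hν
  have hdot : ∀ a : V, ν ⬝ᵥ (ν + a ⨯₃ ν) = ν ⬝ᵥ ν := fun a => by
    rw [dotProduct_add, dot_cross_self, add_zero]
  have hF := degree_aeval_le (phi_MirA (cv ν) c (cz z)) (deg_phi_MirA _ _ _) f
  rw [one_mul] at hF
  rw [← ev_phi2_MirA hN _ hs, ← comp_MirA]
  refine planes_MirA W (fun w => ν + (w.1 + w.2 - (z.1 + z.2)) ⨯₃ ν)
    (fun w => c + ν ⬝ᵥ (w.2 - w.1 - (z.2 - z.1))) (fun w _ e => hnn ?_)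
    (fun w hw w' hw' e1 e2 => ?_) hF hI (fun w hw x hx => ?_) _
  · rw [← hdot (w.1 + w.2 - (z.1 + z.2)), e, dotProduct_zero]
  · obtain ⟨a1, a2⟩ := hW w hw
    obtain ⟨b1, b2⟩ := hW w' hw'
    have hne : ν + (w.1 + w.2 - (z.1 + z.2)) ⨯₃ ν ≠ 0 := fun e => hnn (by
      rw [← hdot (w.1 + w.2 - (z.1 + z.2)), e, dotProduct_zero])
    obtain ⟨l, hl⟩ : ∃ l : ℝ, ν + (w'.1 + w'.2 - (z.1 + z.2)) ⨯₃ ν =
        l • (ν + (w.1 + w.2 - (z.1 + z.2)) ⨯₃ ν) := ⟨_, par_MirA (nn_MirA hne) e1⟩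
    have hl1 : l = 1 := by
      have e := congrArg (fun v => ν ⬝ᵥ v) hl
      simp only [dotProduct_smul, hdot, smul_eq_mul] at e
      exact mul_right_cancel₀ hnn (e.symm.trans (one_mul _).symm)
    rw [hl1, one_smul] at hl
    rw [hl] at e2
    have e3 := add_left_cancel (smul_left_injective ℝ hne e2)
    have e4 := add_left_cancel hl
    have e5 : w'.1 + w'.2 - (z.1 + z.2) - (w.1 + w.2 - (z.1 + z.2)) = 0 := by
      refine zero_MirA hnn ?_ ?_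
      · rw [map_sub, ← cross_anticomm _ ν, ← cross_anticomm _ ν, e4, sub_self]
      · rw [dotProduct_sub, a1, b1, sub_self]
    have e6 := sub_eq_zero.1 e5
    have e7 : w'.2 - w'.1 - (z.2 - z.1) - (w.2 - w.1 - (z.2 - z.1)) = 0 := by
      refine zero_MirA hnn ?_ ?_
      · rw [map_sub, eq_neg_of_add_eq_zero_left a2, eq_neg_of_add_eq_zero_left b2, e6, sub_self]
      · rw [dotProduct_sub, e3, sub_self]
    refine Prod.ext (funext fun i => ?_) (funext fun i => ?_)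
    · have f1 := congrFun e5 i
      have f2 := congrFun e7 i
      simp only [Pi.sub_apply, Pi.add_apply, Pi.zero_apply] at f1 f2
      linarith
    · have f1 := congrFun e5 i
      have f2 := congrFun e7 i
      simp only [Pi.sub_apply, Pi.add_apply, Pi.zero_apply] at f1 f2
      linarith
  · have hs' : cv ν ⬝ᵥ (x - ((cv ν ⬝ᵥ cv ν)⁻¹ * (cv ν ⬝ᵥ x - c)) • cv ν) = c := by
      rw [dotProduct_sub, dotProduct_smul, smul_eq_mul, mul_comm (cv ν ⬝ᵥ cv ν)⁻¹, mul_assoc,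
        inv_mul_cancel₀ hN, mul_one, sub_sub_cancel]
    rw [comp_MirA, ev_phi_MirA, ← fp_MirA z w]
    · exact hv w hw _ hs'
    · rw [par_MirA hN (pt_MirA (hW w hw) hs')]
      congr 1
      rw [div_eq_inv_mul]
      congr 1
      simp only [cv_add_MirA, cv_cross_MirA, Complex.ofReal_add, ← cv_dot_MirA] at hx
      generalize (cv ν ⬝ᵥ cv ν)⁻¹ * (cv ν ⬝ᵥ x - c) = u
      generalize cv (w.1 + w.2 - (z.1 + z.2)) = A at hx ⊢
      generalize cv (w.2 - w.1 - (z.2 - z.1)) = B at hx ⊢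
      generalize cv ν = N at hx ⊢
      simp [cross_apply, dotProduct, Fin.sum_univ_three] at hx ⊢
      linear_combination (-1 : ℂ) * hx

end Vale.Agent.P054
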