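import Vale.Agent.P054.MirA

/-! MirB: a polynomial vanishing on the flats of a Beck configuration is singular on its planes (about 350 lines).
For `w' ∈ K` let `α = y' - y`, `β = u' - u`, `a = p' - p`. Because of `rel`, `(α, β)` is a linear function of `a` on the space of solutions (`rel.eq_of_fst`, `rel` is linear in the difference), `α ⊥ ν`, and the line `ℓ(w') = {s | s × α = β}` lies in the plane `ν ⬝ᵥ s = c` when `α ≠ 0`. `α = 0` happens for one direction of `a` only (then `β ∥ ν`).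
At a common point `s` of `ℓ(w')`, `ℓ(w'')` with `α' × α'' ≠ 0`, `grad_flat` for `w, w', w''` gives `α' × f_σ = α'' × f_σ = 0`, so the gradient vanishes. Fix `a ∈ A` with `α ≠ 0` (all but one). For `b ∈ A'`: `α_b × α ≠ 0` for all but one `b` (if `α_b ∥ α` then a combination of `a, b` has `α = 0`, i.e. the plane spanned by `a, b` contains the special direction; two such planes coincide), the lines meet in one point, and different `b` give different points (a common point `s` makes the three vectors `(α, s × α)` with `α ⊥ ν` dependent, hence `a, b, b'` dependent). `line_vanish`, then `hyp_vanish` inside the plane (the lines for different `a ∈ A` are different).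
-/

noncomputable section

open Classical MvPolynomial Matrix Finset

namespace Vale.Agent.P054

section Vec
variable {R : Type*} [CommRing R]

/-- normal vector of the line of `a` inside the plane -/
def mbN (N a : Fin 3 → R) (C : R) : Fin 3 → R := C • a + a ⨯₃ N

/-- the dual point of `s` -/
def mbM (N s : Fin 3 → R) (C : R) : Fin 3 → R := C • s + N ⨯₃ s + N

theorem mb_NM (N a s : Fin 3 → R) (C : R) : mbN N a C ⬝ᵥ s + N ⬝ᵥ a = a ⬝ᵥ mbM N s C := by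
  simp [mbN, mbM, cross_apply, dotProduct, Fin.sum_univ_three, vecHead, vecTail]
  ring

theorem mb_M {N s : Fin 3 → R} {C : R} (hs : N ⬝ᵥ s = C) : N ⬝ᵥ mbM N s C = C ^ 2 + N ⬝ᵥ N := by
  rw [mbM, dotProduct_add, dotProduct_add, dotProduct_smul, hs, dot_self_cross, smul_eq_mul]
  ring

theorem mb_det (N a b : Fin 3 → R) (C : R) :
    mbN N b C ⬝ᵥ (N ⨯₃ mbN N a C) = (C ^ 2 + N ⬝ᵥ N) * (N ⬝ᵥ (a ⨯₃ b)) := by
  simp [mbN, cross_apply, dotProduct, Fin.sum_univ_three, vecHead, vecTail]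
  ring

theorem mb_det' (N a b : Fin 3 → R) (C : R) :
    N ⬝ᵥ ((N ⨯₃ a + C • a) ⨯₃ (N ⨯₃ b + C • b)) = (C ^ 2 + N ⬝ᵥ N) * (N ⬝ᵥ (a ⨯₃ b)) := by
  simp [cross_apply, dotProduct, Fin.sum_univ_three, vecHead, vecTail]
  ring

theorem mb_self (N a : Fin 3 → R) (C : R) :
    mbN N a C ⬝ᵥ (a ⨯₃ N) = (N ⨯₃ a) ⬝ᵥ (N ⨯₃ a) := by
  simp [mbN, cross_apply, dotProduct, Fin.sum_univ_three]
  ring

theorem mb_dual (x a b c : Fin 3 → R) : (a ⬝ᵥ (b ⨯₃ c)) • x =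
    (a ⬝ᵥ x) • (b ⨯₃ c) + (b ⬝ᵥ x) • (c ⨯₃ a) + (c ⬝ᵥ x) • (a ⨯₃ b) := by
  funext i
  fin_cases i <;> simp [cross_apply, dotProduct, Fin.sum_univ_three, vecHead, vecTail] <;> ring

theorem mb_prim (x a b c : Fin 3 → R) : (a ⬝ᵥ (b ⨯₃ c)) • x =
    (-(c ⬝ᵥ (b ⨯₃ x))) • a + (-(a ⬝ᵥ (c ⨯₃ x))) • b + (a ⬝ᵥ (b ⨯₃ x)) • c := by
  funext i
  fin_cases i <;> simp [cross_apply, dotProduct, Fin.sum_univ_three] <;> ring

theorem mb_two (N m a b : Fin 3 → R) : (N ⬝ᵥ m) • (a ⨯₃ b) =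
    (N ⬝ᵥ (a ⨯₃ b)) • m - (b ⬝ᵥ m) • (N ⨯₃ a) + (a ⬝ᵥ m) • (N ⨯₃ b) := by
  funext i
  fin_cases i <;> simp [cross_apply, dotProduct, Fin.sum_univ_three, vecHead, vecTail] <;> ring

theorem mb_par (N a b : Fin 3 → R) : (N ⬝ᵥ N) • (a ⨯₃ b) =
    (N ⨯₃ a) ⨯₃ (N ⨯₃ b) - (b ⬝ᵥ N) • (N ⨯₃ a) + (a ⬝ᵥ N) • (N ⨯₃ b) := by
  funext i
  fin_cases i <;> simp [cross_apply, dotProduct, Fin.sum_univ_three, vecHead, vecTail] <;> ring

end Vec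

theorem mb_line {N s α β a : Fin 3 → ℂ} {C : ℂ} (hN : N ⬝ᵥ N ≠ 0) (hD : C ^ 2 + N ⬝ᵥ N ≠ 0)
    (h1 : N ⬝ᵥ α = 0) (h2 : N ⨯₃ β + C • α = 0) (h3 : α - β = (2 : ℂ) • a) (hs : N ⬝ᵥ s = C)
    (hm : a ⬝ᵥ mbM N s C = 0) : s ⨯₃ α = β := by
  have e1 : N ⨯₃ (s ⨯₃ α - β) = 0 := by
    rw [map_sub, cross_cross_eq_smul_sub_smul', h1, dotProduct_comm, hs, zero_smul, zero_sub,
      ← neg_add', add_comm, h2, neg_zero]
  have e2 : (N ⬝ᵥ N) • (s ⨯₃ α - β) = (N ⬝ᵥ (s ⨯₃ α - β)) • N := by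
    have := cross_cross_eq_smul_sub_smul' N N (s ⨯₃ α - β)
    rw [e1, map_zero] at this
    exact (sub_eq_zero.1 this.symm).symm
  have e3 : (α - β) ⬝ᵥ mbM N s C = 0 := by rw [h3, smul_dotProduct, hm, smul_zero]
  have e4 := congrArg (fun v => v ⬝ᵥ s) e2
  have e5 := congrArg (fun v => v ⬝ᵥ s) h2
  simp only [smul_dotProduct, hs, smul_eq_mul, zero_dotProduct] at e4 e5
  have e6 : (α - β) ⬝ᵥ mbM N s C = N ⬝ᵥ (s ⨯₃ α - β) + C * ((s ⨯₃ α - β) ⬝ᵥ s) + N ⬝ᵥ α +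
      (N ⨯₃ β + C • α) ⬝ᵥ s := by
    simp [mbM, cross_apply, dotProduct, Fin.sum_univ_three, vecHead, vecTail]
    ring
  have e7 : N ⬝ᵥ (s ⨯₃ α - β) = 0 := by
    refine (mul_eq_zero.1 ?_).resolve_left hD
    rw [e3, h1, e5] at e6
    linear_combination -(N ⬝ᵥ N) * e6 - C * e4
  rw [e7, zero_smul] at e2
  exact sub_eq_zero.1 ((smul_eq_zero.1 e2).resolve_left hN)

theorem mb_tri {N α β a α' β' b : Fin 3 → ℂ} {C : ℂ} (hN : N ⬝ᵥ N ≠ 0)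
    (h2 : N ⨯₃ β + C • α = 0) (h3 : α - β = (2 : ℂ) • a)
    (h2' : N ⨯₃ β' + C • α' = 0) (h3' : α' - β' = (2 : ℂ) • b) (h : N ⬝ᵥ (a ⨯₃ b) ≠ 0) :
    N ⬝ᵥ (α ⨯₃ α') ≠ 0 := fun h0 => by
  have e : ∀ {α β a : Fin 3 → ℂ}, N ⨯₃ β + C • α = 0 → α - β = (2 : ℂ) • a →
      N ⨯₃ α + C • α = N ⨯₃ ((2 : ℂ) • a) + (0 : ℂ) • ((2 : ℂ) • a) := fun h2 h3 => by
    rw [zero_smul, add_zero, ← h3, map_sub, eq_neg_of_add_eq_zero_left h2, sub_neg_eq_add]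
  have h4 := mb_det' N α α' C
  rw [e h2 h3, e h2' h3', mb_det', h0, mul_zero] at h4
  simp only [map_smul, LinearMap.smul_apply, dotProduct_smul, smul_eq_mul] at h4
  exact h ((mul_eq_zero.1 (show 4 * (N ⬝ᵥ N) * (N ⬝ᵥ (a ⨯₃ b)) = 0 by
    linear_combination h4)).resolve_left (mul_ne_zero (by norm_num) hN))

theorem mb_grad {z z' z'' : Z ℂ} {f : P6} (h : res z f = 0) (h' : res z' f = 0)
    (h'' : res z'' f = 0) {N s : Fin 3 → ℂ} (e' : s ⨯₃ (z'.1 - z.1) = z'.2 - z.2)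
    (e'' : s ⨯₃ (z''.1 - z.1) = z''.2 - z.2)
    (ht : N ⬝ᵥ ((z'.1 - z.1) ⨯₃ (z''.1 - z.1)) ≠ 0) (j : S6) :
    eval (fp z s) (pderiv j f) = 0 := by
  have g := grad_flat h s
  have g' := grad_flat h' s
  have g'' := grad_flat h'' s
  rw [← fp_eq e', g] at g'
  rw [← fp_eq e'', g] at g''
  have k := mb_prim (fun i => gr f (fp z s) (.inr i)) N (z'.1 - z.1) (z''.1 - z.1)
  have k' : (z'.1 - z.1) ⨯₃ (fun i => gr f (fp z s) (.inr i)) = 0 := by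
    rw [map_sub, LinearMap.sub_apply, g', sub_self]
  have k'' : (z''.1 - z.1) ⨯₃ (fun i => gr f (fp z s) (.inr i)) = 0 := by
    rw [map_sub, LinearMap.sub_apply, g'', sub_self]
  simp only [k', k'', dotProduct_zero, neg_zero, zero_smul, add_zero] at k
  have k0 := (smul_eq_zero.1 k).resolve_left ht
  rw [k0, map_zero] at g
  rcases j with i | i
  · exact congrFun g i
  · exact congrFun k0 i

/-- the subspace orthogonal to two vectors -/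
def mbU (N M : Fin 3 → ℂ) : Submodule ℂ (Fin 3 → ℂ) where
  carrier := {u | N ⬝ᵥ u = 0 ∧ M ⬝ᵥ u = 0}
  add_mem' := fun h h' => ⟨by rw [dotProduct_add, h.1, h'.1, add_zero],
    by rw [dotProduct_add, h.2, h'.2, add_zero]⟩
  zero_mem' := ⟨dotProduct_zero _, dotProduct_zero _⟩
  smul_mem' := fun _ _ h => ⟨by rw [dotProduct_smul, h.1, smul_zero],
    by rw [dotProduct_smul, h.2, smul_zero]⟩

theorem mb_iff {N a s : Fin 3 → ℂ} {C : ℂ} :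
    mbN N a C ⬝ᵥ s = -(N ⬝ᵥ a) ↔ a ⬝ᵥ mbM N s C = 0 := by
  rw [← mb_NM, add_eq_zero_iff_eq_neg]

theorem mb_hit {n u : Fin 3 → ℂ} (h : n ⬝ᵥ u ≠ 0) (s : Fin 3 → ℂ) (c : ℂ) :
    ∃ t : ℂ, n ⬝ᵥ (s + t • u) = c :=
  ⟨(c - n ⬝ᵥ s) / (n ⬝ᵥ u), by
    rw [dotProduct_add, dotProduct_smul, smul_eq_mul, div_mul_cancel₀ _ h, add_sub_cancel]⟩

theorem mb_inner {F : P3} {r : ℕ} (hF : F.totalDegree ≤ r) {N a : Fin 3 → ℂ} {C : ℂ}
    (hD : C ^ 2 + N ⬝ᵥ N ≠ 0) {ι : Type*} (I : Finset ι) (hI : r < I.card) (v : ι → Fin 3 → ℂ)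
    (h1 : ∀ b ∈ I, N ⬝ᵥ (a ⨯₃ v b) ≠ 0)
    (h2 : ∀ b ∈ I, ∀ b' ∈ I, b ≠ b' → a ⬝ᵥ (v b ⨯₃ v b') ≠ 0)
    (h3 : ∀ b ∈ I, ∀ s, N ⬝ᵥ s = C → a ⬝ᵥ mbM N s C = 0 → v b ⬝ᵥ mbM N s C = 0 → eval s F = 0)
    {s : Fin 3 → ℂ} (hs : N ⬝ᵥ s = C) (ha : a ⬝ᵥ mbM N s C = 0) : eval s F = 0 := by
  have hu : N ⨯₃ mbN N a C ∈ mbU N (mbN N a C) := ⟨dot_self_cross _ _, dot_cross_self _ _⟩
  have hn : ∀ b ∈ I, mbN N (v b) C ⬝ᵥ (N ⨯₃ mbN N a C) ≠ 0 := fun b hb => by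
    rw [mb_det]
    exact mul_ne_zero hD (h1 b hb)
  have hU : ∀ u ∈ mbU N (mbN N a C), N ⬝ᵥ (s + u) = C ∧ a ⬝ᵥ mbM N (s + u) C = 0 := fun u hu =>
    ⟨by rw [dotProduct_add, hs, hu.1, add_zero],
      mb_iff.1 (by rw [dotProduct_add, mb_iff.2 ha, hu.2, add_zero])⟩
  have := hyp_vanish hF s (mbU N (mbN N a C)) I hI (fun b => mbN N (v b) C) (fun b => -(N ⬝ᵥ v b))
    (fun b hb => ⟨_, hu, hn b hb⟩) (fun b hb b' hb' hne => ?_)
    (fun b hb u hu e => h3 b hb _ (hU u hu).1 (hU u hu).2 (mb_iff.1 e)) 0 (Submodule.zero_mem _)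
  · rwa [add_zero] at this
  · obtain ⟨t, ht⟩ := mb_hit (hn b hb) s (-(N ⬝ᵥ v b))
    have hm := Submodule.smul_mem _ t hu
    refine ⟨_, hm, ht, fun e => ?_⟩
    have k := mb_dual (mbM N (s + t • N ⨯₃ mbN N a C) C) a (v b) (v b')
    rw [(hU _ hm).2, mb_iff.1 ht, mb_iff.1 e, zero_smul, zero_smul, zero_smul, add_zero,
      add_zero] at k
    have k1 := mb_M (hU _ hm).1
    rw [(smul_eq_zero.1 k).resolve_left (h2 b hb b' hb' hne), dotProduct_zero] at k1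
    exact hD k1.symm

theorem mb_outer {F : P3} {r : ℕ} (hF : F.totalDegree ≤ r) {N : Fin 3 → ℂ} {C : ℂ}
    (hD : C ^ 2 + N ⬝ᵥ N ≠ 0) {ι : Type*} (I : Finset ι) (hI : r < I.card) (v : ι → Fin 3 → ℂ)
    (h1 : ∀ a ∈ I, (N ⨯₃ v a) ⬝ᵥ (N ⨯₃ v a) ≠ 0)
    (h2 : ∀ a ∈ I, ∀ a' ∈ I, a ≠ a' → v a ⨯₃ v a' ≠ 0)
    (h3 : ∀ a ∈ I, ∀ s, N ⬝ᵥ s = C → v a ⬝ᵥ mbM N s C = 0 → eval s F = 0)
    {s : Fin 3 → ℂ} (hs : N ⬝ᵥ s = C) : eval s F = 0 := by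
  have hu : ∀ a : ι, v a ⨯₃ N ∈ mbU N 0 := fun a => ⟨dot_cross_self _ _, zero_dotProduct _⟩
  have hn : ∀ a ∈ I, mbN N (v a) C ⬝ᵥ (v a ⨯₃ N) ≠ 0 := fun a ha => by
    rw [mb_self]
    exact h1 a ha
  have hU : ∀ u ∈ mbU N 0, N ⬝ᵥ (s + u) = C := fun u hu => by
    rw [dotProduct_add, hs, hu.1, add_zero]
  have := hyp_vanish hF s (mbU N 0) I hI (fun a => mbN N (v a) C) (fun a => -(N ⬝ᵥ v a))
    (fun a ha => ⟨_, hu a, hn a ha⟩) (fun a ha a' ha' hne => ?_)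
    (fun a ha u hu e => h3 a ha _ (hU u hu) (mb_iff.1 e)) 0 (Submodule.zero_mem _)
  · rwa [add_zero] at this
  · obtain ⟨t, ht⟩ := mb_hit (hn a ha) s (-(N ⬝ᵥ v a))
    have hm := Submodule.smul_mem _ t (hu a)
    by_contra hc
    push Not at hc
    have c1 := hc _ hm ht
    have hm' : t • v a ⨯₃ N + N ⨯₃ mbN N (v a) C ∈ mbU N 0 :=
      Submodule.add_mem _ hm ⟨dot_self_cross _ _, zero_dotProduct _⟩
    have c2 := hc _ hm' (by rw [← add_assoc, dotProduct_add, ht, dot_cross_self, add_zero])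
    rw [← add_assoc, dotProduct_add, c1, add_eq_left, mb_det] at c2
    have k := mb_two N (mbM N (s + t • v a ⨯₃ N) C) (v a) (v a')
    rw [(mul_eq_zero.1 c2).resolve_left hD, mb_iff.1 ht, mb_iff.1 c1, mb_M (hU _ hm), zero_smul,
      zero_smul, zero_smul, sub_zero, add_zero] at k
    exact h2 a ha a' ha' hne ((smul_eq_zero.1 k).resolve_left hD)

theorem mb_cv_dot (x y : V) : cv x ⬝ᵥ cv y = ((x ⬝ᵥ y : ℝ) : ℂ) := by
  simp [cv, dotProduct]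

theorem mb_cv_cross (x y : V) : cv x ⨯₃ cv y = cv (x ⨯₃ y) := by
  funext i
  fin_cases i <;> simp [cv, cross_apply]

theorem mb_cv_sub (x y : V) : cv x - cv y = cv (x - y) := by
  funext i
  simp [cv]

theorem mb_cv_ne {x : V} (h : x ≠ 0) : cv x ≠ 0 := fun e => h (funext fun i => by
  simpa [cv] using congrFun e i)

theorem mb_rel {ν : V} {c : ℝ} {z w : V × V} (h : rel ν c z w) :
    cv ν ⬝ᵥ ((cz w).1 - (cz z).1) = 0 ∧
      cv ν ⨯₃ ((cz w).2 - (cz z).2) + (c : ℂ) • ((cz w).1 - (cz z).1) = 0 ∧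
      ((cz w).1 - (cz z).1) - ((cz w).2 - (cz z).2) = (2 : ℂ) • cv (w.1 - z.1) := by
  simp only [cz, mb_cv_sub, mb_cv_dot, mb_cv_cross]
  refine ⟨by rw [h.1, Complex.ofReal_zero], ?_, ?_⟩
  · funext i
    have := congrArg (fun t : ℝ => (t : ℂ)) (congrFun h.2 i)
    simpa [cv] using this
  · funext i
    simp [cv]
    ring

theorem mb_filter {ι : Type*} {A : Finset ι} {r : ℕ} (hc : r + 1 < A.card) (p : ι → Prop)
    [DecidablePred p]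
    (h : ∀ a ∈ A, ∀ b ∈ A, ¬ p a → ¬ p b → a = b) : r < (A.filter p).card := by
  have h1 := card_filter_add_card_filter_not (s := A) p
  have h2 : (A.filter fun a => ¬ p a).card ≤ 1 := card_le_one.2 fun a ha b hb =>
    h a (mem_filter.1 ha).1 b (mem_filter.1 hb).1 (mem_filter.1 ha).2 (mem_filter.1 hb).2
  omega

theorem grad_plane {ν : V} {c : ℝ} (hν : ν ≠ 0) {K : Finset (V × V)}
    (hK : ∀ z ∈ K, ∀ w ∈ K, rel ν c z w) {f : P6} {r : ℕ} (hr : f.totalDegree ≤ r)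
    (hf : ∀ w ∈ K, res (cz w) f = 0) {w : V × V} (hw : w ∈ K) {A : Finset V}
    (hA : A ⊆ K.image Prod.fst) (hc : r + 1 < A.card) (hwA : w.1 ∉ A)
    (hd : ∀ a ∈ A, ∀ a' ∈ A, a ≠ a' → (a - w.1) ⨯₃ (a' - w.1) ≠ 0)
    (hA' : ∀ a ∈ A, ∃ A' ⊆ K.image Prod.fst, r + 1 < A'.card ∧
      (∀ b ∈ A', (a - w.1) ⨯₃ (b - w.1) ≠ 0) ∧
      ∀ b ∈ A', ∀ b' ∈ A', b ≠ b' → (a - w.1) ⬝ᵥ ((b - w.1) ⨯₃ (b' - w.1)) ≠ 0)
    (j : S6) (s : Fin 3 → ℂ) (hs : cv ν ⬝ᵥ s = c) : eval (fp (cz w) s) (pderiv j f) = 0 := by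
  have hνν : 0 < ν ⬝ᵥ ν := dotProduct_self_star_pos_iff.2 hν
  have hN : cv ν ⬝ᵥ cv ν ≠ 0 := by
    rw [mb_cv_dot]
    exact_mod_cast hνν.ne'
  have hD : (c : ℂ) ^ 2 + cv ν ⬝ᵥ cv ν ≠ 0 := by
    rw [mb_cv_dot]
    exact_mod_cast (by positivity : 0 < c ^ 2 + ν ⬝ᵥ ν).ne'
  have hF : (res (cz w) (pderiv j f)).totalDegree ≤ r :=
    (degree_res_le _ _).trans ((degree_pderiv_le _ _).trans ((Nat.sub_le _ _).trans hr))
  rw [← eval_res]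
  refine mb_outer hF hD (A.filter fun a => ν ⨯₃ (a - w.1) ≠ 0) (mb_filter hc _ ?_)
    (fun a => cv (a - w.1)) (fun a ha => ?_) (fun a ha a' ha' hne => ?_) (fun a ha s hs hm => ?_) hs
  · intro a ha a' ha' e e'
    by_contra hne
    have k := mb_par ν (a - w.1) (a' - w.1)
    rw [not_not.1 e, not_not.1 e', map_zero, smul_zero, smul_zero, sub_zero, add_zero] at k
    exact hd a ha a' ha' hne ((smul_eq_zero.1 k).resolve_left hνν.ne')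
  · rw [mb_cv_cross, mb_cv_dot]
    exact_mod_cast (dotProduct_self_star_pos_iff.2 (mem_filter.1 ha).2).ne'
  · rw [mb_cv_cross]
    exact mb_cv_ne (hd a (mem_filter.1 ha).1 a' (mem_filter.1 ha').1 hne)
  obtain ⟨ha0, hνa⟩ := mem_filter.1 ha
  obtain ⟨A', hA1, hA2, -, hA4⟩ := hA' a ha0
  refine mb_inner hF hD (A'.filter fun b => ν ⬝ᵥ ((a - w.1) ⨯₃ (b - w.1)) ≠ 0) (mb_filter hA2 _ ?_)
    (fun b => cv (b - w.1)) (fun b hb => ?_) (fun b hb b' hb' hne => ?_)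
    (fun b hb s hs hma hmb => ?_) hs hm
  · intro b hb b' hb' e e'
    by_contra hne
    have k := mb_dual (ν ⨯₃ (a - w.1)) (a - w.1) (b - w.1) (b' - w.1)
    rw [dot_cross_self, triple_product_permutation (b - w.1) ν, not_not.1 e,
      triple_product_permutation (b' - w.1) ν, not_not.1 e', zero_smul, zero_smul, zero_smul,
      add_zero, add_zero] at k
    exact hνa ((smul_eq_zero.1 k).resolve_left (hA4 b hb b' hb' hne))
  · rw [mb_cv_cross, mb_cv_dot]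
    exact_mod_cast (mem_filter.1 hb).2
  · rw [mb_cv_cross, mb_cv_dot]
    exact_mod_cast hA4 b (mem_filter.1 hb).1 b' (mem_filter.1 hb').1 hne
  obtain ⟨hb0, hνb⟩ := mem_filter.1 hb
  obtain ⟨z', hz', rfl⟩ := mem_image.1 (hA ha0)
  obtain ⟨z'', hz'', rfl⟩ := mem_image.1 (hA1 hb0)
  obtain ⟨r1, r2, r3⟩ := mb_rel (hK w hw z' hz')
  obtain ⟨r1', r2', r3'⟩ := mb_rel (hK w hw z'' hz'')
  rw [eval_res]
  refine mb_grad (hf w hw) (hf z' hz') (hf z'' hz'') (mb_line hN hD r1 r2 r3 hs hma)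
    (mb_line hN hD r1' r2' r3' hs hmb) (mb_tri hN r2 r3 r2' r3' ?_) j
  rw [mb_cv_cross, mb_cv_dot]
  exact_mod_cast hνb

end Vale.Agent.P054
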