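import Vale.Agent.P054.MirB
import Vale.Agent.P054.BeckPl

/-! MirL: incidences between pairs and rich motions (about 350 lines).
`mir_alg`: let `f ≠ 0` be of least degree among the polynomials vanishing on all flats of `X`; `deg f ≤ r` (`interp_flats`) and `deg f ≤ t` (`interp_pi`, `VanPi.plane`, `flat_of_planes`). By `grad_plane` and `pi_of_planes` all `pderiv j f` vanish on every `Π_T`, by `flat_of_planes` on all flats, so they are zero, `f` is constant (`eq_C_of_pderiv`), contradiction.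
`mir_local`: let `t` be least with `120 |𝒯| ≤ t^3`. Two-sided pruning: among the pairs `(X', 𝒯')` of subsets take one maximizing `I(X', 𝒯') - t |X'| - ∑_{T ∈ 𝒯'} |K T| / 2` (work with twice this integer) and of least size among those, where `I` counts the incidences; then every `z ∈ X'` is in more than `t` of the `K T`, every `T ∈ 𝒯'` keeps more than half of its points, so `beck_planes` and `mir_alg` force `X' = ∅`, and `∑ |K T| ≤ 2 t |X|`. Finally `t^3 ≤ 960 |𝒯|` and `g |𝒯| ≤ ∑ |K T|`.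
-/

noncomputable section

open Classical MvPolynomial Matrix Finset

namespace Vale.Agent.P054

theorem mir_alg {ι : Type*} {X : Finset (V × V)} {𝒯 : Finset ι} {ν : ι → V} {c : ι → ℝ}
    {K : ι → Finset (V × V)} {r t : ℕ} (hne : X.Nonempty)
    (hK : ∀ T ∈ 𝒯, ν T ≠ 0 ∧ K T ⊆ X ∧ (∀ z ∈ K T, ∀ w ∈ K T, rel (ν T) (c T) z w) ∧
      BeckStr r ((K T).image Prod.fst))
    (hd : ∀ T ∈ 𝒯, ∀ T' ∈ 𝒯, ∀ z ∈ K T, z ∈ K T' → ν T ⨯₃ ν T' = 0 → c T' • ν T = c T • ν T' →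
      T = T')
    (hX : ∀ z ∈ X, t < (𝒯.filter fun T => z ∈ K T).card) (hr : 120 * X.card ≤ r ^ 3)
    (ht : 120 * 𝒯.card ≤ t ^ 3) : False := by
  have hne' : ∀ T ∈ 𝒯, ∃ z, z ∈ K T := fun T hT => by
    obtain ⟨W, hW, hr, -⟩ := (hK T hT).2.2.2
    obtain ⟨w, hw⟩ := card_pos.1 (Nat.zero_lt_of_lt hr)
    obtain ⟨z, hz, -⟩ := mem_image.1 (hW hw)
    exact ⟨z, hz⟩
  choose! zT hzT using hne'
  have toflat : ∀ g : P6, g.totalDegree ≤ t → (∀ T ∈ 𝒯, VanPi (ν T) (c T) (zT T) g) →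
      ∀ z ∈ X, res (cz z) g = 0 := fun g hg hv z hz =>
    flat_of_planes (𝒯.filter fun T => z ∈ K T) ν c
      (fun T hT => (hK T (mem_filter.1 hT).1).1)
      (fun T hT T' hT' => hd T (mem_filter.1 hT).1 T' (mem_filter.1 hT').1 z (mem_filter.1 hT).2
        (mem_filter.1 hT').2) (hg.trans_lt (hX z hz)) fun T hT s hs => by
      obtain ⟨h1, h2⟩ := mem_filter.1 hT
      exact (hv T h1).plane (hK T h1).1 ((hK T h1).2.2.1 _ (hzT T h1) _ h2) hs
  obtain ⟨g₀, hg0, hg1, hg2⟩ := interp_pi 𝒯 ν c zT (fun T hT => (hK T hT).1) ht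
  obtain ⟨g₁, hg3, hg4, hg5⟩ := interp_flats (X.image cz)
    ((Nat.mul_le_mul_left _ card_image_le).trans hr)
  have hex : ∃ n, ∃ f : P6, f ≠ 0 ∧ f.totalDegree = n ∧ ∀ z ∈ X, res (cz z) f = 0 :=
    ⟨_, g₀, hg0, rfl, toflat g₀ hg1 hg2⟩
  obtain ⟨f, hf0, hfd, hfv⟩ := Nat.find_spec hex
  have hmin : ∀ g : P6, g ≠ 0 → (∀ z ∈ X, res (cz z) g = 0) → f.totalDegree ≤ g.totalDegree :=
    fun g h0 hv => hfd ▸ Nat.find_min' hex ⟨g, h0, rfl, hv⟩
  have hft := (hmin g₀ hg0 (toflat g₀ hg1 hg2)).trans hg1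
  have hfr := (hmin g₁ hg3 fun z hz => hg5 _ (mem_image_of_mem _ hz)).trans hg4
  have hconst : ∀ a : ℂ, f ≠ C a := fun a ha => by
    obtain ⟨z, hz⟩ := hne
    have h1 := res_eq_zero.1 (hfv z hz) 0
    rw [ha, eval_C] at h1
    exact hf0 (by rw [ha, h1, map_zero])
  refine hconst _ (eq_C_of_pderiv fun j => ?_)
  by_contra h0
  have hdj := degree_pderiv_le f j
  have hv : ∀ z ∈ X, res (cz z) (pderiv j f) = 0 := by
    refine toflat _ (by omega) fun T hT => ?_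
    obtain ⟨hν, hsub, hrel, W, hW, hrW, hB⟩ := hK T hT
    refine pi_of_planes hν ((K T).filter fun w => w.1 ∈ W)
      (fun w hw => hrel _ (hzT T hT) _ (mem_filter.1 hw).1) ?_ fun w hw s hs => ?_
    · have : W ⊆ ((K T).filter fun w => w.1 ∈ W).image Prod.fst := fun x hx => by
        obtain ⟨z, hz, rfl⟩ := mem_image.1 (hW hx)
        exact mem_image_of_mem _ (mem_filter.2 ⟨hz, hx⟩)
      have := (card_le_card this).trans card_image_le
      omega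
    · obtain ⟨hw1, hw2⟩ := mem_filter.1 hw
      obtain ⟨A, hA, hA1, hA2, hA3, hA4⟩ := hB _ hw2
      exact grad_plane hν hrel hfr (fun w hw => hfv w (hsub hw)) hw1 hA hA1 hA2 hA3 hA4 j s hs
  have h1 := hmin _ h0 hv
  exact hconst _ (totalDegree_eq_zero_iff_eq_C.1 (by omega))

theorem PlaneLe.subset {S S' : Finset V} {B : ℕ} (h : PlaneLe S B) (hs : S' ⊆ S) :
    PlaneLe S' B := fun ν hν c =>
  (card_le_card (filter_subset_filter _ hs)).trans (h ν hν c)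

/-- the version with a separate plane bound for every motion -/
theorem mir_local' : ∃ C : ℕ, 1 ≤ C ∧ ∀ {ι : Type} (X : Finset (V × V)) (𝒯 : Finset ι) (ν : ι → V)
    (c : ι → ℝ) (K : ι → Finset (V × V)) (r g : ℕ),
    (∀ T ∈ 𝒯, ν T ≠ 0 ∧ K T ⊆ X ∧ (∀ z ∈ K T, ∀ w ∈ K T, rel (ν T) (c T) z w) ∧
      (∃ B, PlaneLe ((K T).image Prod.fst) B ∧ C * (r + B + 1) ≤ (K T).card) ∧
      g ≤ (K T).card) →
    (∀ T ∈ 𝒯, ∀ T' ∈ 𝒯, ∀ z ∈ K T, z ∈ K T' → ν T ⨯₃ ν T' = 0 → c T' • ν T = c T • ν T' →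
      T = T') →
    120 * X.card ≤ r ^ 3 → (∑ T ∈ 𝒯, (K T).card) ^ 2 * g ≤ C * X.card ^ 3 := by
  obtain ⟨C, hC⟩ := beck_planes
  refine ⟨2 * C + 7680, by omega, fun {ι} X 𝒯 ν c K r g hK hd hr => ?_⟩
  have hex : ∃ t : ℕ, 120 * 𝒯.card ≤ t ^ 3 :=
    ⟨120 * 𝒯.card, Nat.le_self_pow (by norm_num) _⟩
  obtain ⟨t, ht, ht'⟩ : ∃ t : ℕ, 120 * 𝒯.card ≤ t ^ 3 ∧ t ^ 3 ≤ 960 * 𝒯.card := by
    refine ⟨Nat.find hex, Nat.find_spec hex, ?_⟩
    have h1 := Nat.find_spec hex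
    rcases h : Nat.find hex with _ | _ | u
    · simp
    · rw [h] at h1
      have := Nat.find_min hex (m := 0) (by omega)
      omega
    · have h2 := Nat.find_min hex (m := u + 1) (by omega)
      have h3 : (u + 1 + 1) ^ 3 ≤ (2 * (u + 1)) ^ 3 := Nat.pow_le_pow_left (by omega) 3
      rw [mul_pow] at h3
      omega
  have key : ∀ (n : ℕ) (X' : Finset (V × V)) (𝒯' : Finset ι), X'.card + 𝒯'.card = n → X' ⊆ X →
      𝒯' ⊆ 𝒯 → 2 * ∑ T ∈ 𝒯', (K T ∩ X').card ≤ 2 * (t * X'.card) + ∑ T ∈ 𝒯', (K T).card := by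
    intro n
    induction n using Nat.strong_induction_on with
    | _ n ih =>
    intro X' 𝒯' hn hX' h𝒯'
    rcases X'.eq_empty_or_nonempty with rfl | hne
    · simp
    by_cases h1 : ∃ z ∈ X', (𝒯'.filter fun T => z ∈ K T).card ≤ t
    · obtain ⟨z, hz, hzt⟩ := h1
      have e1 := card_erase_add_one hz
      have h2 := ih _ (by omega) (X'.erase z) 𝒯' rfl ((erase_subset _ _).trans hX') h𝒯'
      have h3 : ∑ T ∈ 𝒯', (K T ∩ X').card ≤
          ∑ T ∈ 𝒯', ((K T ∩ X'.erase z).card + if z ∈ K T then 1 else 0) := by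
        refine sum_le_sum fun T _ => ?_
        rw [inter_erase]
        split_ifs with h
        · rw [card_erase_add_one (mem_inter.2 ⟨h, hz⟩)]
        · rw [erase_eq_of_notMem fun h' => h (mem_inter.1 h').1, add_zero]
      rw [sum_add_distrib, ← card_filter] at h3
      rw [← e1, mul_add]
      omega
    by_cases h2 : ∃ T ∈ 𝒯', 2 * (K T ∩ X').card ≤ (K T).card
    · obtain ⟨T, hT, hTc⟩ := h2
      have e1 := card_erase_add_one hT
      have h3 := ih _ (by omega) X' (𝒯'.erase T) rfl hX' ((erase_subset _ _).trans h𝒯')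
      rw [← add_sum_erase _ _ hT, ← add_sum_erase _ (fun T => (K T).card) hT]
      omega
    exfalso
    push Not at h1 h2
    refine mir_alg (X := X') (𝒯 := 𝒯') (ν := ν) (c := c) (K := fun T => K T ∩ X') (r := r) (t := t)
      hne (fun T hT => ?_) (fun T hT T' hT' z hz hz' =>
        hd T (h𝒯' hT) T' (h𝒯' hT') z (mem_inter.1 hz).1 (mem_inter.1 hz').1) (fun z hz => ?_)
      ((Nat.mul_le_mul_left _ (card_le_card hX')).trans hr)
      ((Nat.mul_le_mul_left _ (card_le_card h𝒯')).trans ht)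
    · obtain ⟨hν, -, hrel, ⟨B, hB, hCB⟩, -⟩ := hK T (h𝒯' hT)
      refine ⟨hν, inter_subset_right, fun z hz w hw =>
        hrel z (mem_inter.1 hz).1 w (mem_inter.1 hw).1, hC _ B r
        (hB.subset (image_subset_image inter_subset_left)) ?_⟩
      rw [card_image_of_injOn fun z hz w hw h => (hrel z (mem_inter.1 (mem_coe.1 hz)).1 w
        (mem_inter.1 (mem_coe.1 hw)).1).eq_of_fst hν h]
      have h3 := h2 T hT
      rw [add_mul, mul_assoc] at hCB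
      omega
    · refine (h1 z hz).trans_le (card_le_card fun T hT => ?_)
      rw [mem_filter] at hT ⊢
      exact ⟨hT.1, mem_inter.2 ⟨hT.2, hz⟩⟩
  have h1 := key _ X 𝒯 rfl Subset.rfl Subset.rfl
  rw [sum_congr rfl fun T hT => by rw [inter_eq_left.2 (hK T hT).2.1]] at h1
  have h2 : 𝒯.card * g ≤ ∑ T ∈ 𝒯, (K T).card := card_nsmul_le_sum _ _ _ fun T hT => (hK T hT).2.2.2.2
  generalize ∑ T ∈ 𝒯, (K T).card = S at h1 h2 ⊢
  rcases Nat.eq_zero_or_pos S with rfl | hS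
  · simp
  have h3 : S ^ 3 ≤ (2 * (t * X.card)) ^ 3 := Nat.pow_le_pow_left (by omega) 3
  refine Nat.le_of_mul_le_mul_left ?_ hS
  calc S * (S ^ 2 * g) = S ^ 3 * g := by ring
    _ ≤ (2 * (t * X.card)) ^ 3 * g := Nat.mul_le_mul_right _ h3
    _ = 8 * X.card ^ 3 * t ^ 3 * g := by ring
    _ ≤ 8 * X.card ^ 3 * (960 * 𝒯.card) * g := by gcongr
    _ = 7680 * X.card ^ 3 * (𝒯.card * g) := by ring
    _ ≤ 7680 * X.card ^ 3 * S := Nat.mul_le_mul_left _ h2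
    _ ≤ (2 * C + 7680) * X.card ^ 3 * S := by gcongr; omega
    _ = _ := by ring

theorem mir_local : ∃ C : ℕ, 1 ≤ C ∧ ∀ {ι : Type} (X : Finset (V × V)) (𝒯 : Finset ι) (ν : ι → V)
    (c : ι → ℝ) (K : ι → Finset (V × V)) (r g B : ℕ),
    (∀ T ∈ 𝒯, ν T ≠ 0 ∧ K T ⊆ X ∧ (∀ z ∈ K T, ∀ w ∈ K T, rel (ν T) (c T) z w) ∧
      PlaneLe ((K T).image Prod.fst) B ∧ g ≤ (K T).card) →
    (∀ T ∈ 𝒯, ∀ T' ∈ 𝒯, ∀ z ∈ K T, z ∈ K T' → ν T ⨯₃ ν T' = 0 → c T' • ν T = c T • ν T' →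
      T = T') →
    120 * X.card ≤ r ^ 3 → C * (r + B + 1) ≤ g →
      (∑ T ∈ 𝒯, (K T).card) ^ 2 * g ≤ C * X.card ^ 3 := by
  obtain ⟨C, hC1, hC⟩ := mir_local'
  exact ⟨C, hC1, fun X 𝒯 ν c K r g B hK hd hr hg => hC X 𝒯 ν c K r g (fun T hT =>
    ⟨(hK T hT).1, (hK T hT).2.1, (hK T hT).2.2.1,
      ⟨B, (hK T hT).2.2.2.1, hg.trans (hK T hT).2.2.2.2⟩, (hK T hT).2.2.2.2⟩) hd hr⟩

end Vale.Agent.P054
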