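import Vale.Agent.P054.MirP
import Vale.Agent.P054.MirL

/-! MirC: one pair of cells (about 200 lines).
Let `C₁` be the constant of `mir_local'`, `C ≥ 4 C₁`. Split `𝒯` by `PlaneLe ((K T).image fst) (|K T| / (2 C₁))`. First part: `mir_local'` with `g = h` (`rot_of_prop`, `rel_refl` give its second hypothesis). Second part: `K' T` = the pairs of `K T` with first point on a plane with more than `|K T| / (2 C₁)` points, so `|K T| < 2 C₁ |K' T|`, and `4 C₁ (h + line) < 2 |K T|` gives `Off _ h`; `mir_planar`, `J₂ = 2 C₁ ∑ |K' T|` (`fst` is injective on `K T`).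
-/

noncomputable section

open Classical MvPolynomial Matrix Finset

namespace Vale.Agent.P054

theorem mir_cell : ∃ C : ℕ, 1 ≤ C ∧ ∀ {ι : Type} (τ τ' : Finset V) (𝒯 : Finset ι) (ν : ι → V)
    (c : ι → ℝ) (K : ι → Finset (V × V)) (m L r h : ℕ), Mot 𝒯 ν c K (τ ×ˢ τ') → τ.card ≤ m →
    τ'.card ≤ m → LineLe τ L → LineLe τ' L →
    (∀ T ∈ 𝒯, C * h ≤ (K T).card ∧ ∀ p v : V, v ≠ 0 →
      C * ((K T).filter fun z => v ⨯₃ (z.1 - p) = 0).card < (K T).card) →
    120 * m ^ 2 ≤ r ^ 3 → r + 1 ≤ h → 2 ≤ h → h ≤ L → 64 * m ^ 2 * L ≤ h ^ 4 →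
      ∃ J₁ J₂ : ℕ, ∑ T ∈ 𝒯, (K T).card ≤ J₁ + J₂ ∧ J₁ ^ 2 * h ≤ C * m ^ 6 ∧
        J₂ * h ^ 10 ≤ C * m ^ 4 * L ^ 8 := by
  obtain ⟨C₁, h1, H1⟩ := mir_local'
  obtain ⟨C₂, H2⟩ := mir_planar
  refine ⟨4 * C₁ + 2 * C₁ * C₂, by omega, ?_⟩
  intro ι τ τ' 𝒯 ν c K m L r h hM hτ hτ' hL hL' hK hr hrh h2 hhL hb
  have hC : ∀ x, 4 * (C₁ * x) ≤ (4 * C₁ + 2 * C₁ * C₂) * x := fun x => by
    rw [← mul_assoc]
    exact Nat.mul_le_mul_right x (Nat.le_add_right _ _)
  have hX : (τ ×ˢ τ').card ≤ m ^ 2 := by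
    rw [card_product, pow_two]
    exact Nat.mul_le_mul hτ hτ'
  let p : ι → Prop := fun T => PlaneLe ((K T).image Prod.fst) ((K T).card / (2 * C₁))
  have hn : ∀ T, ∃ (n : V) (d : ℝ), ¬ p T → n ≠ 0 ∧
      (K T).card < 2 * (C₁ * ((K T).filter fun z => n ⬝ᵥ z.1 = d).card) := by
    intro T
    by_cases hp : p T
    · exact ⟨0, 0, fun h' => absurd hp h'⟩
    · simp only [p, PlaneLe, not_forall, not_le] at hp
      obtain ⟨n, hn, d, hd⟩ := hp
      refine ⟨n, d, fun _ => ⟨hn, ?_⟩⟩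
      rw [filter_image] at hd
      have h3 := (Nat.div_lt_iff_lt_mul (by omega)).1 (hd.trans_le card_image_le)
      rw [← mul_assoc, mul_comm]
      exact h3
  choose n d hn using hn
  have A1 := H1 (τ ×ˢ τ') (𝒯.filter p) ν c K r h (fun T hT => by
      obtain ⟨hT, hp⟩ := mem_filter.1 hT
      obtain ⟨a1, a2, a3⟩ := hM.1 T hT
      have a4 := (hC h).trans (hK T hT).1
      have a5 : 2 * C₁ * ((K T).card / (2 * C₁)) ≤ (K T).card := Nat.mul_div_le _ _
      have a6 : C₁ * (r + 1) ≤ C₁ * h := Nat.mul_le_mul_left _ hrh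
      have a7 : h ≤ C₁ * h := Nat.le_mul_of_pos_left _ h1
      refine ⟨a1, a2, a3, ⟨_, hp, ?_⟩, by omega⟩
      rw [mul_assoc] at a5
      rw [add_right_comm, mul_add]
      omega)
    (fun T hT T' hT' z hz hz' e1 e2 => hM.2 T (mem_filter.1 hT).1 T' (mem_filter.1 hT').1 z hz z hz'
      (rel_refl _ _ _) (rot_of_prop (hM.1 T (mem_filter.1 hT).1).1 (hM.1 T' (mem_filter.1 hT').1).1
        e1 e2)) ((Nat.mul_le_mul_left _ hX).trans hr)
  have A2 := H2 τ τ' (𝒯.filter fun T => ¬ p T) ν c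
    (fun T => (K T).filter fun z => n T ⬝ᵥ z.1 = d T) m L h
    (hM.mono (filter_subset _ _) (fun T _ => filter_subset _ _) fun T hT =>
      (filter_subset _ _).trans (hM.1 T (mem_filter.1 hT).1).2.1) hτ hτ' hL hL' (fun T hT => by
      obtain ⟨hT, hp⟩ := mem_filter.1 hT
      obtain ⟨a1, -, a3⟩ := hM.1 T hT
      refine ⟨⟨n T, d T, (hn T hp).1, fun z hz => (mem_filter.1 hz).2⟩, fun q v hv => ?_⟩
      have a4 := (hC h).trans (hK T hT).1
      have a5 := (hC _).trans_lt ((hK T hT).2 q v hv)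
      have a6 := (hn T hp).2
      have a7 : (ln (((K T).filter fun z => n T ⬝ᵥ z.1 = d T).image Prod.fst) q v).card ≤
          ((K T).filter fun z => v ⨯₃ (z.1 - q) = 0).card := by
        rw [ln, filter_image]
        exact card_image_le.trans (card_le_card (filter_subset_filter _ (filter_subset _ _)))
      rw [card_image_of_injOn fun z hz w hw e => rel.eq_of_fst a1
        (a3 z (mem_filter.1 hz).1 w (mem_filter.1 hw).1) e]
      refine (Nat.add_le_add_left a7 h).trans (Nat.le_of_mul_le_mul_left (c := C₁) ?_ h1)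
      rw [mul_add]
      omega) h2 hhL hb
  refine ⟨∑ T ∈ 𝒯.filter p, (K T).card, 2 * C₁ * ∑ T ∈ 𝒯.filter fun T => ¬ p T,
    ((K T).filter fun z => n T ⬝ᵥ z.1 = d T).card, ?_, A1.trans ?_, ?_⟩
  · rw [← sum_filter_add_sum_filter_not 𝒯 p, mul_sum]
    refine Nat.add_le_add_left (sum_le_sum fun T hT => ?_) _
    rw [mul_assoc]
    exact (hn T (mem_filter.1 hT).2).2.le
  · refine Nat.mul_le_mul (by omega) ((Nat.pow_le_pow_left hX 3).trans_eq ?_)
    rw [← pow_mul]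
  · rw [mul_assoc]
    refine (Nat.mul_le_mul_left _ A2).trans ?_
    rw [← mul_assoc, ← mul_assoc]
    exact Nat.mul_le_mul_right _ (Nat.mul_le_mul_right _ (Nat.le_add_left _ _))

end Vale.Agent.P054
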