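import Vale.Agent.P054.MirKa
import Vale.Agent.P054.MirG

/-! MirK: rich motions with decay (about 250 lines, arithmetic; compare `mir_k` in MirG).
If the family is empty there is nothing to do; otherwise `μ^20 ρ ≤ n` (`mirg_card`), so `μ^40 ≤ ρ`. Take `s = μ^22 ≤ n`, `m₀ = n / s + 1` (`m₀ s ≤ 2 n`), `cells` with `C₀`: `t = 3 s`, `m = 9 m₀`, `w = 3 C₀ s` (`rel.sq_eq`). With `D = 6 C₀ C₁` put `h = ρ / (D μ^2)` (so `h D μ^2 ≤ ρ ≤ 2 h D μ^2`), `r = h - 1`, `L = ρ`; `σ` least with `ρ ≤ σ^4` (so `σ^4 ≤ 16 ρ`, `μ^10 ≤ σ`, `n ≤ ρ σ^2`), `x = 2 D μ σ`.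
Then `(μ k t^2 J₁)^2 ≤ C ρ^10`, `μ k t^2 J₂ μ^3 ≤ C ρ^5`, `μ^9 σ^8 ≤ 256 ρ^3`, `μ^8 σ^7 ≤ σ^8 ≤ 256 ρ^2`. State each inequality as a separate lemma on naturals.
-/

noncomputable section

open Classical MvPolynomial Matrix Finset

namespace Vale.Agent.P054

theorem mirk_root {ρ : ℕ} (h : 0 < ρ) : ∃ σ, ρ ≤ σ ^ 4 ∧ σ ^ 4 ≤ 16 * ρ := by
  have h1 := Nat.lt_pow_nthRoot_add_one (n := 4) (by norm_num) ρ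
  have h2 := Nat.pow_nthRoot_le (n := 4) (a := ρ) (Or.inl (by norm_num))
  generalize Nat.nthRoot 4 ρ = a at h1 h2
  have h3 : a ≠ 0 := by
    rintro rfl
    omega
  refine ⟨a + 1, h1.le, (Nat.pow_le_pow_left (show a + 1 ≤ 2 * a by omega) 4).trans ?_⟩
  rw [mul_pow]
  omega

theorem mirk_m {ρ μ m n : ℕ} (hn : n ^ 2 ≤ ρ ^ 3) (hm : m * μ ^ 22 ≤ 2 * n) :
    (9 * m) ^ 2 * μ ^ 44 ≤ 324 * ρ ^ 3 :=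
  calc (9 * m) ^ 2 * μ ^ 44 = 81 * (m * μ ^ 22) ^ 2 := by ring
    _ ≤ 81 * (2 * n) ^ 2 := by gcongr
    _ = 324 * n ^ 2 := by ring
    _ ≤ 324 * ρ ^ 3 := by gcongr

theorem mirk_pow {μ a : ℕ} (h : a ≤ μ) (j : ℕ) : a ≤ μ ^ (j + 1) :=
  h.trans (Nat.le_self_pow j.succ_ne_zero μ)

theorem mirk_1 {ρ μ M h D : ℕ} (D1 : 1 ≤ D) (μ0 : 0 < μ) (hM : M * μ ^ 44 ≤ 324 * ρ ^ 3)
    (hμ : 2488320 * D ^ 4 ≤ μ) (hh : ρ ≤ 2 * h * (D * μ ^ 2)) (h2 : 2 ≤ h) :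
    120 * M ≤ (h - 1) ^ 3 := by
  obtain ⟨r, rfl⟩ : ∃ r, h = r + 1 := ⟨h - 1, by omega⟩
  have h3 : r + 1 ≤ 2 * r := by omega
  have h4 : D ^ 3 ≤ D ^ 4 := Nat.pow_le_pow_right D1 (by norm_num)
  refine Nat.le_of_mul_le_mul_right ?_ (pow_pos μ0 44)
  calc 120 * M * μ ^ 44 = 120 * (M * μ ^ 44) := by ring
    _ ≤ 120 * (324 * (2 * (2 * r) * (D * μ ^ 2)) ^ 3) :=
      Nat.mul_le_mul_left _ (hM.trans (by gcongr; exact hh.trans (by gcongr)))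
    _ = r ^ 3 * μ ^ 6 * (2488320 * D ^ 3) := by ring
    _ ≤ r ^ 3 * μ ^ 6 * μ ^ (37 + 1) :=
      Nat.mul_le_mul_left _ (mirk_pow ((Nat.mul_le_mul_left _ h4).trans hμ) 37)
    _ = (r + 1 - 1) ^ 3 * μ ^ 44 := by rw [Nat.add_sub_cancel]; ring

theorem mirk_2 {ρ μ M h D : ℕ} (μ0 : 0 < μ) (hM : M * μ ^ 44 ≤ 324 * ρ ^ 3)
    (hμ : 2488320 * D ^ 4 ≤ μ) (hh : ρ ≤ 2 * h * (D * μ ^ 2)) : 64 * M * ρ ≤ h ^ 4 := by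
  refine Nat.le_of_mul_le_mul_right ?_ (pow_pos μ0 44)
  calc 64 * M * ρ * μ ^ 44 = 64 * ρ * (M * μ ^ 44) := by ring
    _ ≤ 64 * ρ * (324 * ρ ^ 3) := by gcongr
    _ = 20736 * ρ ^ 4 := by ring
    _ ≤ 20736 * (2 * h * (D * μ ^ 2)) ^ 4 := by gcongr
    _ = h ^ 4 * μ ^ 8 * (331776 * D ^ 4) := by ring
    _ ≤ h ^ 4 * μ ^ 8 * μ ^ (35 + 1) := Nat.mul_le_mul_left _ (mirk_pow (by omega) 35)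
    _ = h ^ 4 * μ ^ 44 := by ring

theorem mirk_3 {ρ μ n h D : ℕ} (D1 : 1 ≤ D) (μ0 : 0 < μ) (hn : n ^ 2 ≤ ρ ^ 3) (hρ : μ ^ 40 ≤ ρ)
    (hμ : 2488320 * D ^ 4 ≤ μ) (hh : ρ ≤ 2 * h * (D * μ ^ 2)) : 2 * n ≤ h ^ 2 := by
  refine (Nat.pow_le_pow_iff_left two_ne_zero).1 (Nat.le_of_mul_le_mul_right ?_
    (show 0 < 16 * D ^ 4 * μ ^ 8 by positivity))
  calc (2 * n) ^ 2 * (16 * D ^ 4 * μ ^ 8) = n ^ 2 * (μ ^ 8 * (64 * D ^ 4)) := by ring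
    _ ≤ ρ ^ 3 * (μ ^ 8 * μ ^ (31 + 1)) :=
      Nat.mul_le_mul hn (Nat.mul_le_mul_left _ (mirk_pow (by omega) 31))
    _ = ρ ^ 3 * μ ^ 40 := by ring
    _ ≤ ρ ^ 3 * ρ := by gcongr
    _ = ρ ^ 4 := by ring
    _ ≤ (2 * h * (D * μ ^ 2)) ^ 4 := by gcongr
    _ = _ := by ring

theorem mirk_4 {ρ μ n h D σ : ℕ} (D1 : 1 ≤ D) (hn : n ^ 2 ≤ ρ ^ 3) (hσ : ρ ≤ σ ^ 4)
    (hh : ρ ≤ 2 * h * (D * μ ^ 2)) : 2 * n ≤ (2 * D * μ * σ) ^ 2 * h := by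
  have h1 : n ≤ ρ * σ ^ 2 := (Nat.pow_le_pow_iff_left two_ne_zero).1
    (calc n ^ 2 ≤ ρ ^ 2 * ρ := hn
      _ ≤ ρ ^ 2 * σ ^ 4 := by gcongr
      _ = _ := by ring)
  calc 2 * n = 2 * 1 * n := by ring
    _ ≤ 2 * D * (2 * h * (D * μ ^ 2) * σ ^ 2) := by gcongr; exact h1.trans (by gcongr)
    _ = _ := by ring

theorem mirk_a {ρ μ M h D C J : ℕ} (hC : C ≤ D) (hM : M * μ ^ 44 ≤ 324 * ρ ^ 3)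
    (hh : ρ ≤ 2 * h * (D * μ ^ 2)) (hJ : J ^ 2 * h ≤ C * M ^ 3) :
    μ ^ 65 * ρ * J ≤ 11664 * D * ρ ^ 5 := by
  refine (Nat.pow_le_pow_iff_left two_ne_zero).1 ?_
  calc (μ ^ 65 * ρ * J) ^ 2 = μ ^ 130 * ρ * J ^ 2 * ρ := by ring
    _ ≤ μ ^ 130 * ρ * J ^ 2 * (2 * h * (D * μ ^ 2)) := by gcongr
    _ = 2 * D * ρ * μ ^ 132 * (J ^ 2 * h) := by ring
    _ ≤ 2 * D * ρ * μ ^ 132 * (D * M ^ 3) := Nat.mul_le_mul_left _ (hJ.trans (by gcongr))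
    _ = 2 * (D ^ 2 * ρ * (M * μ ^ 44) ^ 3) := by ring
    _ ≤ 4 * (D ^ 2 * ρ * (324 * ρ ^ 3) ^ 3) := by gcongr; norm_num
    _ = _ := by ring

theorem mirk_b {ρ μ M h D C J : ℕ} (ρ0 : 0 < ρ) (μ0 : 0 < μ) (hM : M * μ ^ 44 ≤ 324 * ρ ^ 3)
    (hh : ρ ≤ 2 * h * (D * μ ^ 2)) (hJ : J * h ^ 10 ≤ C * M ^ 2 * ρ ^ 8) :
    μ ^ 65 * ρ * J ≤ 2 ^ 10 * 324 ^ 2 * C * D ^ 10 * ρ ^ 5 := by
  refine Nat.le_of_mul_le_mul_right ?_ (pow_pos ρ0 9)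
  calc μ ^ 65 * ρ * J * ρ ^ 9 = μ ^ 65 * J * ρ ^ 10 := by ring
    _ ≤ μ ^ 68 * J * (2 * h * (D * μ ^ 2)) ^ 10 :=
      Nat.mul_le_mul (Nat.mul_le_mul_right _ (Nat.pow_le_pow_right μ0 (by norm_num))) (by gcongr)
    _ = 2 ^ 10 * D ^ 10 * μ ^ 88 * (J * h ^ 10) := by ring
    _ ≤ 2 ^ 10 * D ^ 10 * μ ^ 88 * (C * M ^ 2 * ρ ^ 8) := by gcongr
    _ = 2 ^ 10 * D ^ 10 * C * ρ ^ 8 * (M * μ ^ 44) ^ 2 := by ring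
    _ ≤ 2 ^ 10 * D ^ 10 * C * ρ ^ 8 * (324 * ρ ^ 3) ^ 2 := by gcongr
    _ = _ := by ring

theorem mirk_c {ρ μ D σ : ℕ} (μ0 : 0 < μ) (hρ : μ ^ 40 ≤ ρ) (h1 : ρ ≤ σ ^ 4)
    (h2 : σ ^ 4 ≤ 16 * ρ) : μ * (ρ ^ 2 * (2 * D * μ * σ) ^ 8 + ρ ^ 3 * (2 * D * μ * σ) ^ 7) ≤
      (2 ^ 16 * D ^ 8 + 2 ^ 15 * D ^ 7) * ρ ^ 5 := by
  have h3 : μ ^ 9 ≤ ρ := (Nat.pow_le_pow_right μ0 (by norm_num)).trans hρ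
  have h4 : μ ^ 8 ≤ σ := (Nat.pow_le_pow_iff_left four_ne_zero).1 (by
    rw [← pow_mul]
    exact (Nat.pow_le_pow_right μ0 (by norm_num)).trans (hρ.trans h1))
  calc _ = 2 ^ 8 * D ^ 8 * ρ ^ 2 * μ ^ 9 * (σ ^ 4) ^ 2 + 2 ^ 7 * D ^ 7 * ρ ^ 3 * σ ^ 7 * μ ^ 8 := by
        ring
    _ ≤ 2 ^ 8 * D ^ 8 * ρ ^ 2 * ρ * (σ ^ 4) ^ 2 + 2 ^ 7 * D ^ 7 * ρ ^ 3 * σ ^ 7 * σ := by gcongr
    _ = (2 ^ 8 * D ^ 8 + 2 ^ 7 * D ^ 7) * ρ ^ 3 * (σ ^ 4) ^ 2 := by ring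
    _ ≤ (2 ^ 8 * D ^ 8 + 2 ^ 7 * D ^ 7) * ρ ^ 3 * (16 * ρ) ^ 2 := by gcongr
    _ = _ := by ring

theorem mir_kq : ∃ C : ℕ, 1 ≤ C ∧ ∀ (P : Finset V) (ρ μ : ℕ), LineLe P ρ → P.card ^ 2 ≤ ρ ^ 3 →
    C ≤ μ → μ * (μ ^ 20 * ρ * ∑ K ∈ (mirs (P ×ˢ P)).filter (fun K => μ ^ 20 * ρ ≤ K.card), K.card) ≤
      C * ρ ^ 5 := by
  obtain ⟨C₀, hC₀, hcell⟩ := cells
  obtain ⟨C₁, hC₁, hsp⟩ := mir_split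
  obtain ⟨D, hD⟩ : ∃ D, D = 6 * C₀ * C₁ := ⟨_, rfl⟩
  have D0 : C₁ ≤ D := hD ▸ Nat.le_mul_of_pos_left _ (by omega)
  have D1 : 1 ≤ D := hC₁.trans D0
  have D4 : D ≤ D ^ 4 := Nat.le_self_pow (by norm_num) D
  refine ⟨2488320 * D ^ 4 + (36 * (11664 * D) + 36 * (2 ^ 10 * 324 ^ 2 * C₁ * D ^ 10) +
    128 * C₁ ^ 2 * (2 ^ 16 * D ^ 8 + 2 ^ 15 * D ^ 7)), by omega, fun P ρ μ hP hn hμ => ?_⟩
  replace hμ : 2488320 * D ^ 4 ≤ μ := (Nat.le_add_right _ _).trans hμ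
  have μ0 : 0 < μ := by omega
  rcases Nat.eq_zero_or_pos ρ with rfl | ρ0
  · simp
  rcases ((mirs (P ×ˢ P)).filter fun K => μ ^ 20 * ρ ≤ K.card).eq_empty_or_nonempty with
    e | ⟨K₀, hK₀⟩
  · simp [e]
  have kn : μ ^ 20 * ρ ≤ P.card := (mem_filter.1 hK₀).2.trans (mirg_card (mem_filter.1 hK₀).1)
  have hρ : μ ^ 40 ≤ ρ := Nat.le_of_mul_le_mul_right
    (calc μ ^ 40 * ρ ^ 2 = (μ ^ 20 * ρ) ^ 2 := by ring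
      _ ≤ ρ ^ 3 := (Nat.pow_le_pow_left kn 2).trans hn
      _ = ρ * ρ ^ 2 := by ring) (pow_pos ρ0 2)
  have s0 : 0 < μ ^ 22 := pow_pos μ0 22
  have s4 : μ ^ 22 ≤ P.card := (Nat.pow_le_pow_right μ0 (by norm_num)).trans
    (hρ.trans ((Nat.le_mul_of_pos_left _ (pow_pos μ0 20)).trans kn))
  obtain ⟨m, hm⟩ : ∃ m, m = P.card / μ ^ 22 + 1 := ⟨_, rfl⟩
  have m1 : m * μ ^ 22 ≤ 2 * P.card := by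
    have := Nat.div_mul_le_self P.card (μ ^ 22)
    rw [hm, add_mul]
    omega
  have m2 : P.card ≤ m * μ ^ 22 := by
    have := Nat.lt_div_mul_add (a := P.card) s0
    rw [hm, add_mul]
    omega
  have m0 : 1 ≤ m := hm ▸ Nat.le_add_left 1 _
  obtain ⟨cell, c1, c2, c3⟩ := hcell P m m0
  have l1 : (P.image cell).card ≤ 3 * μ ^ 22 := by
    refine Nat.le_of_mul_le_mul_right (c1.trans ?_) m0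
    have := Nat.le_mul_of_pos_right m s0
    rw [mul_assoc, mul_comm _ m]
    omega
  have q0 : 0 < D * μ ^ 2 := by positivity
  obtain ⟨h, hh⟩ : ∃ h, h = ρ / (D * μ ^ 2) := ⟨_, rfl⟩
  have h1 : h * (D * μ ^ 2) ≤ ρ := hh ▸ Nat.div_mul_le_self _ _
  have h2 : 2 ≤ h := by
    rw [hh, Nat.le_div_iff_mul_le q0]
    calc 2 * (D * μ ^ 2) = 2 * D * μ ^ 2 := by ring
      _ ≤ μ ^ (37 + 1) * μ ^ 2 := Nat.mul_le_mul_right _ (mirk_pow (by omega) 37)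
      _ = μ ^ 40 := by ring
      _ ≤ ρ := hρ
  have h3 : ρ ≤ 2 * h * (D * μ ^ 2) := hh ▸ mirg_div q0 (by omega)
  obtain ⟨σ, σ1, σ2⟩ := mirk_root ρ0
  obtain ⟨ν, c, hν⟩ := mirg_data (P ×ˢ P)
  have hM := mirk_m hn m1
  obtain ⟨J₁, J₂, j0, j1, j2⟩ := hsp P cell _ _ (C₀ * (3 * μ ^ 22)) ρ (h - 1) h (2 * D * μ * σ)
    (μ ^ 20 * ρ) hP l1 c2 (fun K hK => (c3 K (hν K hK).2.1 fun z hz w hw => rel.sq_eq (hν K hK).1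
      (((hν K hK).2.2 z hz w ((hν K hK).2.1 hw)).1 hw)).trans (Nat.mul_le_mul_left C₀ l1))
    (mirk_1 D1 μ0 hM hμ h3 h2) (by omega) h2 (hh ▸ Nat.div_le_self _ _) (mirk_2 μ0 hM hμ h3)
    (mirk_3 D1 μ0 hn hρ hμ h3) (mirk_4 D1 hn σ1 h3)
    (le_trans (le_of_eq (by rw [hD]; ring)) (Nat.mul_le_mul_left (μ ^ 20) h1))
    (Nat.mul_le_mul_right _ (mirk_pow (by omega) 19))
  have a1 := mirk_a D0 hM h3 (j1.trans_eq (by rw [← pow_mul]))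
  have a2 := mirk_b ρ0 μ0 hM h3 (j2.trans_eq (by rw [← pow_mul]))
  have a3 := mirk_c (D := D) μ0 hρ σ1 σ2
  calc _ ≤ μ * _ := Nat.mul_le_mul_left μ j0
    _ = 36 * (μ ^ 65 * ρ * J₁) + 36 * (μ ^ 65 * ρ * J₂) + 128 * C₁ ^ 2 *
        (μ * (ρ ^ 2 * (2 * D * μ * σ) ^ 8 + ρ ^ 3 * (2 * D * μ * σ) ^ 7)) := by
      generalize (2 * D * μ * σ) ^ 8 = y
      generalize (2 * D * μ * σ) ^ 7 = y'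
      ring
    _ ≤ 36 * (11664 * D * ρ ^ 5) + 36 * (2 ^ 10 * 324 ^ 2 * C₁ * D ^ 10 * ρ ^ 5) +
        128 * C₁ ^ 2 * ((2 ^ 16 * D ^ 8 + 2 ^ 15 * D ^ 7) * ρ ^ 5) := by gcongr
    _ = _ * ρ ^ 5 := by ring
    _ ≤ _ := Nat.mul_le_mul_right _ (Nat.le_add_left _ _)

end Vale.Agent.P054
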