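import Vale.Agent.P054.MirC
import Vale.Agent.P054.LinC

/-! MirKa: rich motions, reduction to cells and lines (about 250 lines).
`C` from `mir_cell`, `ν, c` from `mot_mirs`, groups `G K u = K.filter (lab z = u)`, `mirg_split` with `g = C h`: the big groups carry at least half of `K`. A big group is bad if some line has `|G| ≤ C * (points of G on it)`; these points lie in `hvy K h` (at least `h` of them, same direction) and are disjoint for different `u`, so the bad groups have total size `≤ C |hvy K h|`.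
If `|K| ≤ 4 C |hvy K h|` use `mir_lines` and `k |K| ≤ |K|^2`; otherwise `|K| ≤ 4 ∑_u |G K u|` over the big groups that are not bad; `mir_cell` for each `u`, and take for `J₁`, `J₂` the largest values (`Finset.exists_max_image`, or `0` if there are no labels).
-/

noncomputable section

open Classical MvPolynomial Matrix Finset

namespace Vale.Agent.P054

theorem mka_split {α β : Type*} [DecidableEq β] (K : Finset α) (lab : α → β) (U : Finset β)
    (hU : ∀ z ∈ K, lab z ∈ U) (g : ℕ) : K.card ≤ (K.image lab).card * g +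
      ∑ u ∈ U, if g ≤ (K.filter fun z => lab z = u).card then
        (K.filter fun z => lab z = u).card else 0 := by
  rw [card_eq_sum_card_image lab K, ← smul_eq_mul, ← sum_const]
  refine le_trans ?_ (Nat.add_le_add_left (sum_le_sum_of_subset (image_subset_iff.2 hU)) _)
  rw [← sum_add_distrib]
  refine sum_le_sum fun u _ => ?_
  split_ifs <;> omega

theorem mka_sup {β : Type*} (U : Finset β) (J : β → ℕ) {Q : ℕ → Prop} (h0 : Q 0)
    (h : ∀ u ∈ U, Q (J u)) : Q (U.sup J) := by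
  rcases U.eq_empty_or_nonempty with rfl | hU
  · exact h0
  · obtain ⟨u, hu, e⟩ := exists_mem_eq_sup U hU J
    exact e ▸ h u hu

theorem mka_line {P τ : Finset V} {L : ℕ} (h : LineLe P L) (hs : τ ⊆ P) : LineLe τ L :=
  fun p v hv => (card_le_card (filter_subset_filter _ hs)).trans (h p v hv)

/-- big and not concentrated on a line -/
def MkaG (C h : ℕ) (G : Finset (V × V)) : Prop :=
  C * h ≤ G.card ∧ ∀ p v : V, v ≠ 0 → C * (G.filter fun z => v ⨯₃ (z.1 - p) = 0).card < G.card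

theorem mka_bad {C h : ℕ} (hC : 1 ≤ C) {K : Finset (V × V)} {q : V × V → Prop} [DecidablePred q]
    (h1 : C * h ≤ (K.filter q).card) (h2 : ¬ MkaG C h (K.filter q)) :
    (K.filter q).card ≤ C * ((hvy K h).filter q).card := by
  obtain ⟨p, v, hv, h3⟩ : ∃ p v : V, v ≠ 0 ∧ (K.filter q).card ≤
      C * ((K.filter q).filter fun z => v ⨯₃ (z.1 - p) = 0).card := by
    by_contra h3
    exact h2 ⟨h1, fun p v hv => not_le.1 fun h4 => h3 ⟨p, v, hv, h4⟩⟩
  have h4 := Nat.le_of_mul_le_mul_left (h1.trans h3) hC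
  refine h3.trans (Nat.mul_le_mul_left _ (card_le_card fun z hz => ?_))
  obtain ⟨a1, a2⟩ := mem_filter.1 hz
  obtain ⟨a3, a4⟩ := mem_filter.1 a1
  refine mem_filter.2 ⟨mem_filter.2 ⟨a3, v, hv, h4.trans (card_le_card fun w hw => ?_)⟩, a4⟩
  obtain ⟨b1, b2⟩ := mem_filter.1 hw
  refine mem_filter.2 ⟨(mem_filter.1 b1).1, ?_⟩
  rw [← sub_sub_sub_cancel_right w.1 z.1 p, map_sub, b2, a2, sub_zero]

theorem mka_one {β : Type} [DecidableEq β] {C h w : ℕ} (hC : 1 ≤ C) {K : Finset (V × V)}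
    {lab : V × V → β} {U : Finset β} (hU : ∀ z ∈ K, lab z ∈ U) (hw : (K.image lab).card ≤ w)
    (hk : 2 * w * C * h ≤ K.card) : K.card ≤ 2 * (C * (hvy K h).card) +
      2 * ∑ u ∈ U, if MkaG C h (K.filter fun z => lab z = u) then
        (K.filter fun z => lab z = u).card else 0 := by
  have h1 := mka_split K lab U hU (C * h)
  have h2 := Nat.mul_le_mul_right (C * h) hw
  have h3 : (hvy K h).card = ∑ u ∈ U, ((hvy K h).filter fun z => lab z = u).card :=
    card_eq_sum_card_fiberwise fun z hz => hU z (filter_subset _ _ hz)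
  have h4 : (∑ u ∈ U, if C * h ≤ (K.filter fun z => lab z = u).card then
      (K.filter fun z => lab z = u).card else 0) ≤
      ∑ u ∈ U, (C * ((hvy K h).filter fun z => lab z = u).card +
        if MkaG C h (K.filter fun z => lab z = u) then (K.filter fun z => lab z = u).card
        else 0) := sum_le_sum fun u _ => by
    split_ifs with a b
    · exact Nat.le_add_left _ _
    · exact mka_bad hC a b
    · exact Nat.zero_le _
    · exact Nat.zero_le _
  rw [sum_add_distrib, ← mul_sum, ← h3] at h4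
  rw [mul_assoc, mul_assoc] at hk
  omega

theorem mka_two {C k n H S : ℕ} (h1 : k ≤ n) (h2 : n ≤ 2 * (C * H) + 2 * S) :
    k * n ≤ 4 * k * S + if n ≤ 4 * C * H then 16 * C ^ 2 * H ^ 2 else 0 := by
  split_ifs with h
  · calc k * n ≤ 4 * C * H * (4 * C * H) := Nat.mul_le_mul (h1.trans h) h
      _ = 16 * C ^ 2 * H ^ 2 := by ring
      _ ≤ _ := Nat.le_add_left _ _
  · rw [mul_assoc] at h
    calc k * n ≤ k * (4 * S) := Nat.mul_le_mul_left _ (by omega)
      _ = _ := by ring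

theorem mir_split : ∃ C : ℕ, 1 ≤ C ∧ ∀ (P : Finset V) (cell : V → ℕ) (t m w L r h x k : ℕ),
    LineLe P L → (P.image cell).card ≤ t → (∀ i, (P.filter fun y => cell y = i).card ≤ m) →
    (∀ K ∈ mirs (P ×ˢ P), (K.image fun z => (cell z.1, cell z.2)).card ≤ w) →
    120 * m ^ 2 ≤ r ^ 3 → r + 1 ≤ h → 2 ≤ h → h ≤ L → 64 * m ^ 2 * L ≤ h ^ 4 →
    2 * P.card ≤ h ^ 2 → 2 * P.card ≤ x ^ 2 * h → 2 * w * C * h ≤ k → 8 * C * L ≤ k →
      ∃ J₁ J₂ : ℕ, k * ∑ K ∈ (mirs (P ×ˢ P)).filter (fun K => k ≤ K.card), K.card ≤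
          4 * k * t ^ 2 * (J₁ + J₂) + 128 * C ^ 2 * (L ^ 2 * x ^ 8 + L ^ 3 * x ^ 7) ∧
        J₁ ^ 2 * h ≤ C * m ^ 6 ∧ J₂ * h ^ 10 ≤ C * m ^ 4 * L ^ 8 := by
  obtain ⟨C, hC, hc⟩ := mir_cell
  refine ⟨C, hC, fun P cell t m w L r h x k hL ht hm hw a1 a2 a3 a4 a5 a6 a7 a8 a9 => ?_⟩
  obtain ⟨ν, c, hM⟩ := mot_mirs (P ×ˢ P)
  obtain ⟨𝒦, h𝒦⟩ : ∃ 𝒦, 𝒦 = (mirs (P ×ˢ P)).filter fun K => k ≤ K.card := ⟨_, rfl⟩
  have k1 : 𝒦 ⊆ mirs (P ×ˢ P) := h𝒦 ▸ filter_subset _ _
  have k2 : ∀ K ∈ 𝒦, k ≤ K.card := fun K hK => by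
    rw [h𝒦] at hK
    exact (mem_filter.1 hK).2
  have k3 : ∀ K ∈ 𝒦, K ⊆ P ×ˢ P := fun K hK => (hM.1 K (k1 hK)).2.1
  have b1 := fun u : ℕ × ℕ => hc (P.filter fun y => cell y = u.1) (P.filter fun y => cell y = u.2)
    (𝒦.filter fun K => MkaG C h (K.filter fun z => (cell z.1, cell z.2) = u)) ν c
    (fun K => K.filter fun z => (cell z.1, cell z.2) = u) m L r h
    (hM.mono ((filter_subset _ _).trans k1) (fun _ _ => filter_subset _ _) fun K hK z hz => by
      obtain ⟨d1, d2⟩ := mem_filter.1 hz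
      obtain ⟨d3, d4⟩ := mem_product.1 (k3 K (filter_subset _ _ hK) d1)
      exact mem_product.2 ⟨mem_filter.2 ⟨d3, congrArg Prod.fst d2⟩,
        mem_filter.2 ⟨d4, congrArg Prod.snd d2⟩⟩)
    (hm _) (hm _) (mka_line hL (filter_subset _ _)) (mka_line hL (filter_subset _ _))
    (fun K hK => by
      obtain ⟨-, d2⟩ := mem_filter.1 hK
      exact d2) a1 a2 a3 a4 a5
  choose J₁ J₂ j0 j1 j2 using b1
  obtain ⟨U, hU⟩ : ∃ U, U = P.image cell ×ˢ P.image cell := ⟨_, rfl⟩
  refine ⟨U.sup J₁, U.sup J₂, ?_,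
    mka_sup U J₁ (Q := fun J => J ^ 2 * h ≤ C * m ^ 6) (by simp) fun u _ => j1 u,
    mka_sup U J₂ (Q := fun J => J * h ^ 10 ≤ C * m ^ 4 * L ^ 8) (by simp) fun u _ => j2 u⟩
  have b2 := mir_lines (𝒯 := 𝒦.filter fun K => K.card ≤ 4 * C * (hvy K h).card) (K := id)
    (hM.mono ((filter_subset _ _).trans k1) (fun _ _ => Subset.rfl) fun K hK =>
      k3 K (filter_subset _ _ hK)) hL a3 a6 a7 fun K hK => by
    obtain ⟨d1, d2⟩ := mem_filter.1 hK
    refine Nat.le_of_mul_le_mul_left (c := 4 * C) ?_ (by omega)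
    calc 4 * C * (2 * L) = 8 * C * L := by ring
      _ ≤ _ := a9.trans ((k2 K d1).trans d2)
  have b3 := sum_le_sum fun K (hK : K ∈ 𝒦) => mka_two (k2 K hK)
    (mka_one (lab := fun z => (cell z.1, cell z.2)) (U := U) hC (fun z hz => by
      obtain ⟨d3, d4⟩ := mem_product.1 (k3 K hK hz)
      exact hU ▸ mem_product.2 ⟨mem_image_of_mem _ d3, mem_image_of_mem _ d4⟩)
      (hw K (k1 hK)) (a8.trans (k2 K hK)))
  rw [sum_add_distrib, ← mul_sum, ← mul_sum, sum_comm, ← sum_filter, ← mul_sum] at b3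
  have b4 : (∑ u ∈ U, ∑ K ∈ 𝒦, if MkaG C h (K.filter fun z => (cell z.1, cell z.2) = u) then
      (K.filter fun z => (cell z.1, cell z.2) = u).card else 0) ≤
      t ^ 2 * (U.sup J₁ + U.sup J₂) := by
    refine (sum_le_card_nsmul _ _ (U.sup J₁ + U.sup J₂) fun u hu => ?_).trans ?_
    · rw [← sum_filter]
      exact (j0 u).trans (Nat.add_le_add (le_sup hu) (le_sup hu))
    · rw [smul_eq_mul, pow_two]
      refine Nat.mul_le_mul_right _ ?_
      rw [hU, card_product]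
      exact Nat.mul_le_mul ht ht
  rw [← h𝒦]
  refine b3.trans (Nat.add_le_add ?_ ?_)
  · rw [mul_assoc (4 * k)]
    exact Nat.mul_le_mul_left _ b4
  · refine (Nat.mul_le_mul_left _ b2).trans (le_of_eq ?_)
    ring

end Vale.Agent.P054
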