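import Vale.Agent.P054.PlMot
import Vale.Agent.P054.FatX

/-! MirP: motions that are rich on a pair of planes (about 250 lines).
For `T` let `A T = pl τ n d ⊇ (K T).image fst` and `A' T = pl τ' (rot n) d' ⊇ (K T).image snd` (`rel_iff`, `rot_dot`). Both are `Off _ b`: the points of `K T` off a line are off it in `A T`; a line of second points pulls back along `rot_inv`, `rot_cross`.
Group the `T` by `(A T, A' T)`; for each section fix one normal (`choose`). For three non-collinear first points (`Off.tri`) the images of the two differences are independent and orthogonal to `rot n(A)` and to `n(A')`, so `plmot` applies. Sum `|A|^2 |A'|^2` and use `fat_cell` twice.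
-/

noncomputable section

open Classical MvPolynomial Matrix Finset

namespace Vale.Agent.P054

theorem mirp_off {A : Finset V} {b : ℕ} :
    Off A b ↔ ∀ p v : V, v ≠ 0 → b ≤ (A.filter fun x => ¬ v ⨯₃ (x - p) = 0).card := by
  refine forall₃_congr fun p v _ => ?_
  have e : (ln A p v).card + (A.filter fun x => ¬ v ⨯₃ (x - p) = 0).card = A.card :=
    card_filter_add_card_filter_not _
  omega

theorem mirp_par {a b u w : V} (h : u ⨯₃ w ≠ 0) (h1 : a ⬝ᵥ u = 0) (h2 : a ⬝ᵥ w = 0)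
    (h3 : b ⬝ᵥ u = 0) (h4 : b ⬝ᵥ w = 0) : a ⨯₃ b = 0 := by
  have k : ∀ a : V, a ⬝ᵥ u = 0 → a ⬝ᵥ w = 0 → ∃ t : ℝ, a = t • u ⨯₃ w := fun a h1 h2 =>
    par_of_cross h (by
      rw [cross_cross_eq_smul_sub_smul, dotProduct_comm u, dotProduct_comm w, h1, h2]
      simp)
  obtain ⟨t, rfl⟩ := k a h1 h2
  obtain ⟨s, rfl⟩ := k b h3 h4
  simp

theorem mir_planar : ∃ C : ℕ, ∀ {ι : Type} (τ τ' : Finset V) (𝒯 : Finset ι) (ν : ι → V) (c : ι → ℝ)
    (K : ι → Finset (V × V)) (m L b : ℕ), Mot 𝒯 ν c K (τ ×ˢ τ') → τ.card ≤ m → τ'.card ≤ m →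
    LineLe τ L → LineLe τ' L →
    (∀ T ∈ 𝒯, (∃ (n : V) (d : ℝ), n ≠ 0 ∧ ∀ z ∈ K T, n ⬝ᵥ z.1 = d) ∧
      Off ((K T).image Prod.fst) b) →
    2 ≤ b → b ≤ L → 64 * m ^ 2 * L ≤ b ^ 4 →
      (∑ T ∈ 𝒯, (K T).card) * b ^ 10 ≤ C * m ^ 4 * L ^ 8 := by
  obtain ⟨C, hC⟩ := fat_cell
  refine ⟨1024 * C ^ 2, fun {ι} τ τ' 𝒯 ν c K m L b h hm hm' hL hL' hT hb hbL hs => ?_⟩
  have h1 := fun T hT' => (hT T hT').1
  choose! n d n0 hn using h1
  have bK : ∀ T ∈ 𝒯, b ≤ (K T).card := fun T hT' =>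
    (le_self_add.trans ((hT T hT').2 0 _ (n0 T hT'))).trans card_image_le
  have h2 : ∀ T ∈ 𝒯, ∃ z, z ∈ K T := fun T hT' => card_pos.1 (by have := bK T hT'; omega)
  choose! o ho using h2
  have r : ∀ T ∈ 𝒯, ∀ z ∈ K T, ∀ w ∈ K T, w.2 - z.2 = rot (ν T) (c T) (w.1 - z.1) :=
    fun T hT' z hz w hw => (rel_iff (h.1 T hT').1).1 ((h.1 T hT').2.2 z hz w hw)
  obtain ⟨A, eA⟩ : ∃ A : ι → Finset V, A = fun T => pl τ (n T) (d T) := ⟨_, rfl⟩
  obtain ⟨A', eA'⟩ : ∃ A' : ι → Finset V, A' = fun T =>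
    pl τ' (rot (ν T) (c T) (n T)) (rot (ν T) (c T) (n T) ⬝ᵥ (o T).2) := ⟨_, rfl⟩
  have m1 : ∀ T ∈ 𝒯, ∀ z ∈ K T, z.1 ∈ A T := fun T hT' z hz => by
    rw [eA]
    exact mem_filter.2 ⟨(mem_product.1 ((h.1 T hT').2.1 hz)).1, hn T hT' z hz⟩
  have m2 : ∀ T ∈ 𝒯, ∀ z ∈ K T, z.2 ∈ A' T := fun T hT' z hz => by
    rw [eA']
    refine mem_filter.2 ⟨(mem_product.1 ((h.1 T hT').2.1 hz)).2, ?_⟩
    rw [← sub_eq_zero, ← dotProduct_sub, r T hT' _ (ho T hT') z hz, rot_dot (h.1 T hT').1,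
      dotProduct_sub, hn T hT' z hz, hn T hT' _ (ho T hT'), sub_self]
  have n2 : ∀ T ∈ 𝒯, rot (ν T) (c T) (n T) ≠ 0 := fun T hT' e =>
    n0 T hT' ((rot_eq_zero (h.1 T hT').1 _).1 e)
  have f1 := hC τ (𝒯.image A) L b m hm hL (fun B hB => by
    obtain ⟨T, hT', rfl⟩ := mem_image.1 hB
    refine ⟨⟨_, _, n0 T hT', by rw [eA]⟩, mirp_off.2 fun p v hv => ?_⟩
    refine (mirp_off.1 (hT T hT').2 p v hv).trans (card_le_card (filter_subset_filter _ ?_))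
    exact image_subset_iff.2 (m1 T hT')) (by omega) hbL hs
  have f2 := hC τ' (𝒯.image A') L b m hm' hL' (fun B hB => by
    obtain ⟨T, hT', rfl⟩ := mem_image.1 hB
    have ν0 := (h.1 T hT').1
    refine ⟨⟨_, _, n2 T hT', by rw [eA']⟩, mirp_off.2 fun p v hv => ?_⟩
    have k := mirp_off.1 (hT T hT').2 ((o T).1 + rot (ν T) (-c T) (p - (o T).2))
      (rot (ν T) (-c T) v) fun e => hv (by
        rw [← rot_inv ν0 (c T) v, e]
        exact (rot_eq_zero ν0 _).2 rfl)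
    rw [filter_image] at k
    refine (k.trans card_image_le).trans (card_le_card_of_injOn Prod.snd (fun z hz => ?_)
      fun z hz w hw e => rel.eq_of_snd ν0 ((h.1 T hT').2.2 z (mem_filter.1 (mem_coe.1 hz)).1 w
        (mem_filter.1 (mem_coe.1 hw)).1) e)
    obtain ⟨z1, z2⟩ := mem_filter.1 (mem_coe.1 hz)
    refine mem_coe.2 (mem_filter.2 ⟨m2 T hT' z z1, fun e => z2 ?_⟩)
    rw [← rot_eq_zero ν0 (c T), ← neg_eq_zero, ← rot_cross ν0, rot_inv ν0, ← sub_sub, rot_sub,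
      rot_inv ν0, ← r T hT' _ (ho T hT') z z1, sub_sub_sub_cancel_right, e]) (by omega) hbL hs
  have g : (∑ T ∈ 𝒯, (K T).card) * b ^ 2 ≤
      1024 * ((∑ B ∈ 𝒯.image A, B.card ^ 2) * ∑ B ∈ 𝒯.image A', B.card ^ 2) := by
    rw [← sum_fiberwise_of_maps_to (g := fun T => (A T, A' T))
      (t := 𝒯.image A ×ˢ 𝒯.image A') fun T hT' =>
        mem_product.2 ⟨mem_image_of_mem _ hT', mem_image_of_mem _ hT'⟩, sum_mul_sum,
      ← sum_product', sum_mul, mul_sum]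
    refine sum_le_sum fun e he => ?_
    obtain ⟨T0, t0, e0⟩ := mem_image.1 (mem_product.1 he).1
    obtain ⟨T1, t1, e1⟩ := mem_image.1 (mem_product.1 he).2
    have p0 : ∀ x ∈ e.1, n T0 ⬝ᵥ x = d T0 := fun x hx => by
      rw [← e0, eA] at hx
      exact (mem_filter.1 hx).2
    have p1 : ∀ x ∈ e.2, rot (ν T1) (c T1) (n T1) ⬝ᵥ x = rot (ν T1) (c T1) (n T1) ⬝ᵥ (o T1).2 :=
      fun x hx => by
        rw [← e1, eA'] at hx
        exact (mem_filter.1 hx).2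
    have q : ∀ T ∈ 𝒯.filter fun T => (A T, A' T) = e, ∀ z ∈ K T, z.1 ∈ e.1 ∧ z.2 ∈ e.2 :=
      fun T hT' z hz => by
        obtain ⟨a1, a2⟩ := mem_filter.1 hT'
        rw [← a2]
        exact ⟨m1 T a1 z hz, m2 T a1 z hz⟩
    rw [← mul_pow]
    refine plmot (h.mono (filter_subset _ _) (fun _ _ => Subset.rfl) fun T hT' z hz =>
      mem_product.2 (q T hT' z hz)) (n0 T0 t0) (n2 T1 t1) p0 (fun T hT' => ?_) hb
      fun T hT' => bK T (mem_filter.1 hT').1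
    have a1 := (mem_filter.1 hT').1
    have ν0 := (h.1 T a1).1
    obtain ⟨_, gx, _, gy, _, gz, ne⟩ := (hT T a1).2.tri (by omega)
    obtain ⟨x, hx, rfl⟩ := mem_image.1 gx
    obtain ⟨y, hy, rfl⟩ := mem_image.1 gy
    obtain ⟨z, hz, rfl⟩ := mem_image.1 gz
    have k1 : ∀ w ∈ K T, rot (ν T) (c T) (n T0) ⬝ᵥ rot (ν T) (c T) (w.1 - x.1) = 0 :=
      fun w hw => by
        rw [rot_dot ν0, dotProduct_sub, p0 _ (q T hT' w hw).1, p0 _ (q T hT' x hx).1, sub_self]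
    have k2 : ∀ w ∈ K T, rot (ν T1) (c T1) (n T1) ⬝ᵥ rot (ν T) (c T) (w.1 - x.1) = 0 :=
      fun w hw => by
        rw [← r T a1 x hx w hw, dotProduct_sub, p1 _ (q T hT' w hw).2, p1 _ (q T hT' x hx).2,
          sub_self]
    refine mirp_par ?_ (k1 y hy) (k1 z hz) (k2 y hy) (k2 z hz)
    rw [rot_cross ν0, neg_ne_zero]
    exact fun e => ne ((rot_eq_zero ν0 _).1 e)
  calc _ = (∑ T ∈ 𝒯, (K T).card) * b ^ 2 * (b ^ 4 * b ^ 4) := by ring
    _ ≤ _ := Nat.mul_le_mul_right _ g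
    _ = 1024 * (((∑ B ∈ 𝒯.image A, B.card ^ 2) * b ^ 4) *
        ((∑ B ∈ 𝒯.image A', B.card ^ 2) * b ^ 4)) := by ring
    _ ≤ 1024 * ((C * m ^ 2 * L ^ 4) * (C * m ^ 2 * L ^ 4)) :=
      Nat.mul_le_mul_left _ (Nat.mul_le_mul f1 f2)
    _ = _ := by ring

end Vale.Agent.P054
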