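import Vale.Agent.P054.STr

/-! STi: the incidence form of Szemeredi-Trotter, and lines in a vector space (about 200 lines).
`st_inc0`: the proof of `rich_lines` (`str_fib`, `str_cr`, `crossing`) with `e ≥ ∑ (|onl S l| - 1)`. `st_inc`: shear `(x, y) ↦ (x + ε y, y)`, the line `(σ, v)` goes to `(σ / (1 + ε σ), v / (1 + ε σ))`; choose `ε` outside a finite set.
`st_par`: take a functional `ψ` (`Module.exists_dual_forall_apply_ne_zero`) that is nonzero on all nonzero differences of values of `w`, `w₀`, `w₁`; points `(ψ (w₁ z), ψ (w₀ z))`, lines `(-t T, ψ (w T))`. With `S = ∑ |G T|`: `S ≤ 2 ∑ (|G T| - 1)` and `|𝒯| g ≤ S`.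
-/

noncomputable section

open Classical MvPolynomial Matrix Finset

namespace Vale.Agent.P054

theorem st_inc0 {S L : Finset Pt} (hS : ∀ a ∈ S, ∀ b ∈ S, a.1 = b.1 → a = b) :
    ∑ l ∈ L, ((onl S l).card - 1) ≤ 4 * S.card ∨
      (∑ l ∈ L, ((onl S l).card - 1)) ^ 3 ≤ 64 * S.card ^ 2 * L.card ^ 2 := by
  have h : NoV S (str_E S L) := ⟨hS, fun e he => by
    obtain ⟨h1, h2, -⟩ := mem_filter.1 he
    exact ⟨(mem_product.1 h1).1, (mem_product.1 h1).2, h2⟩, fun e he => (mem_filter.1 he).2.2.2⟩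
  have hm : ∀ e ∈ str_E S L, str_ln e ∈ L := fun e he => (mem_filter.1 he).2.2.1
  have h1 : ∑ l ∈ L, ((onl S l).card - 1) ≤ (str_E S L).card := by
    rw [card_eq_sum_card_fiberwise (f := str_ln) (t := L) fun e he => hm e he]
    exact sum_le_sum fun l hl => str_fib hS hl
  by_cases h4 : 4 * S.card ≤ (str_E S L).card
  · exact Or.inr ((Nat.pow_le_pow_left h1 3).trans
      ((crossing h h4).trans (Nat.mul_le_mul_left _ (str_cr h hm))))
  · left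
    omega

theorem sti_tr {α β : Type} (X : Finset α) (𝒯 : Finset β) (G : β → Finset α) (P : α → Pt)
    (Λ : β → Pt) (hP : ∀ a ∈ X, ∀ b ∈ X, P a = P b → a = b)
    (hΛ : ∀ a ∈ 𝒯, ∀ b ∈ 𝒯, Λ a = Λ b → a = b)
    (hG : ∀ T ∈ 𝒯, ∀ z ∈ G T, z ∈ X ∧ (P z).2 = (Λ T).1 * (P z).1 + (Λ T).2)
    (H : ∑ l ∈ 𝒯.image Λ, ((onl (X.image P) l).card - 1) ≤ 4 * (X.image P).card ∨
      (∑ l ∈ 𝒯.image Λ, ((onl (X.image P) l).card - 1)) ^ 3 ≤
        64 * (X.image P).card ^ 2 * (𝒯.image Λ).card ^ 2) :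
    ∑ T ∈ 𝒯, ((G T).card - 1) ≤ 4 * X.card ∨
      (∑ T ∈ 𝒯, ((G T).card - 1)) ^ 3 ≤ 64 * X.card ^ 2 * 𝒯.card ^ 2 := by
  rw [sum_image hΛ, card_image_of_injOn hP, card_image_of_injOn hΛ] at H
  have h : ∑ T ∈ 𝒯, ((G T).card - 1) ≤ ∑ T ∈ 𝒯, ((onl (X.image P) (Λ T)).card - 1) :=
    sum_le_sum fun T hT => Nat.sub_le_sub_right (card_le_card_of_injOn P
      (fun z hz => mem_filter.2 ⟨mem_image_of_mem _ (hG T hT z hz).1, (hG T hT z hz).2⟩)
      fun a ha b hb => hP a (hG T hT a ha).1 b (hG T hT b hb).1) 1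
  exact H.imp h.trans (Nat.pow_le_pow_left h 3).trans

theorem sti_dual {W : Type} [AddCommGroup W] [Module ℝ W] (A : Finset W) :
    ∃ ψ : Module.Dual ℝ W, ∀ a ∈ A, ∀ b ∈ A, ψ a = ψ b → a = b := by
  obtain ⟨ψ, h⟩ := Module.exists_dual_forall_apply_ne_zero (K := ℝ)
    (fun x : A.offDiag => x.1.1 - x.1.2) fun x => sub_ne_zero.2 (mem_offDiag.1 x.2).2.2
  refine ⟨ψ, fun a ha b hb e => by_contra fun hne => ?_⟩
  exact h ⟨(a, b), mem_offDiag.2 ⟨ha, hb, hne⟩⟩ (by rw [map_sub, e, sub_self])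

theorem st_inc (S L : Finset Pt) :
    ∑ l ∈ L, ((onl S l).card - 1) ≤ 4 * S.card ∨
      (∑ l ∈ L, ((onl S l).card - 1)) ^ 3 ≤ 64 * S.card ^ 2 * L.card ^ 2 := by
  obtain ⟨ε, hε⟩ := Infinite.exists_notMem_finset ((L.image fun l => -1 / l.1) ∪
    (S ×ˢ S).image fun e => (e.2.1 - e.1.1) / (e.1.2 - e.2.2))
  rw [notMem_union] at hε
  have hL : ∀ l ∈ L, 1 + ε * l.1 ≠ 0 := fun l hl h => by
    have h0 : l.1 ≠ 0 := fun h0 => by simp [h0] at h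
    exact hε.1 (mem_image.2 ⟨l, hl, by rw [div_eq_iff h0]; linarith⟩)
  have hS : ∀ a ∈ S, ∀ b ∈ S, a.1 + ε * a.2 = b.1 + ε * b.2 → a = b := fun a ha b hb h => by
    by_cases h0 : a.2 = b.2
    · exact Prod.ext (by rw [h0] at h; linarith) h0
    · exact (hε.2 (mem_image.2 ⟨(a, b), mem_product.2 ⟨ha, hb⟩, by
        rw [div_eq_iff (sub_ne_zero.2 h0)]; linarith⟩)).elim
  refine sti_tr S L (onl S) (fun a => (a.1 + ε * a.2, a.2))
    (fun l => (l.1 / (1 + ε * l.1), l.2 / (1 + ε * l.1)))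
    (fun a ha b hb h => hS a ha b hb (congrArg Prod.fst h)) (fun l hl m hm h => ?_)
    (fun l hl a ha => ?_) (st_inc0 fun a ha b hb h => ?_)
  · obtain ⟨e1, e2⟩ := Prod.mk.inj h
    have e3 : l.1 = m.1 := by
      rw [div_eq_div_iff (hL l hl) (hL m hm)] at e1
      linarith
    rw [e3, div_left_inj' (hL m hm)] at e2
    exact Prod.ext e3 e2
  · obtain ⟨a1, a2⟩ := mem_filter.1 ha
    refine ⟨a1, ?_⟩
    simp only
    rw [div_mul_eq_mul_div, ← add_div, eq_div_iff (hL l hl)]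
    linarith
  · obtain ⟨a, a1, rfl⟩ := mem_image.1 ha
    obtain ⟨b, b1, rfl⟩ := mem_image.1 hb
    rw [hS a a1 b b1 h]

theorem st_par {α β W : Type} [AddCommGroup W] [Module ℝ W] (X : Finset α) (𝒯 : Finset β)
    (G : β → Finset α) (t : β → ℝ) (w : β → W) (w₀ w₁ : α → W) {g : ℕ} (hg : 2 ≤ g)
    (hG : ∀ T ∈ 𝒯, G T ⊆ X ∧ g ≤ (G T).card ∧ ∀ z ∈ G T, w T = w₀ z + t T • w₁ z)
    (h1 : ∀ T ∈ 𝒯, ∀ T' ∈ 𝒯, t T = t T' → w T = w T' → T = T')
    (h2 : ∀ z ∈ X, ∀ z' ∈ X, w₀ z = w₀ z' → w₁ z = w₁ z' → z = z') :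
    ∑ T ∈ 𝒯, (G T).card ≤ 8 * X.card ∨ (∑ T ∈ 𝒯, (G T).card) * g ^ 2 ≤ 512 * X.card ^ 2 := by
  obtain ⟨ψ, hψ⟩ := sti_dual (𝒯.image w ∪ (X.image w₀ ∪ X.image w₁))
  have key := sti_tr X 𝒯 G (fun z => (ψ (w₁ z), ψ (w₀ z))) (fun T => (-t T, ψ (w T)))
    (fun z hz z' hz' h => h2 z hz z' hz'
      (hψ _ (mem_union_right _ (mem_union_left _ (mem_image_of_mem _ hz))) _
        (mem_union_right _ (mem_union_left _ (mem_image_of_mem _ hz'))) (Prod.mk.inj h).2)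
      (hψ _ (mem_union_right _ (mem_union_right _ (mem_image_of_mem _ hz))) _
        (mem_union_right _ (mem_union_right _ (mem_image_of_mem _ hz'))) (Prod.mk.inj h).1))
    (fun T hT T' hT' h => h1 T hT T' hT' (neg_injective (Prod.mk.inj h).1)
      (hψ _ (mem_union_left _ (mem_image_of_mem _ hT)) _
        (mem_union_left _ (mem_image_of_mem _ hT')) (Prod.mk.inj h).2))
    (fun T hT z hz => ⟨(hG T hT).1 hz, by
      simp only [(hG T hT).2.2 z hz, map_add, map_smul, smul_eq_mul]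
      ring⟩) (st_inc _ _)
  have a1 : ∑ T ∈ 𝒯, (G T).card ≤ 2 * ∑ T ∈ 𝒯, ((G T).card - 1) := by
    rw [mul_sum]
    exact sum_le_sum fun T hT => by
      have := (hG T hT).2.1
      omega
  have a2 : 𝒯.card * g ≤ ∑ T ∈ 𝒯, (G T).card := card_nsmul_le_sum _ _ _ fun T hT => (hG T hT).2.1
  generalize ∑ T ∈ 𝒯, (G T).card = s at a1 a2 ⊢
  generalize ∑ T ∈ 𝒯, ((G T).card - 1) = e at a1 key
  rcases key with h | h
  · left
    omega
  · right
    rcases Nat.eq_zero_or_pos s with rfl | h0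
    · simp
    refine Nat.le_of_mul_le_mul_right ?_ (pow_pos h0 2)
    calc s * g ^ 2 * s ^ 2 = s ^ 3 * g ^ 2 := by ring
      _ ≤ (2 * e) ^ 3 * g ^ 2 := by gcongr
      _ = 8 * e ^ 3 * g ^ 2 := by ring
      _ ≤ 8 * (64 * X.card ^ 2 * 𝒯.card ^ 2) * g ^ 2 := by gcongr
      _ = 512 * X.card ^ 2 * (𝒯.card * g) ^ 2 := by ring
      _ ≤ _ := by gcongr

end Vale.Agent.P054
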