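import Vale.Agent.P054.Rot
import Vale.Agent.P054.STi

/-! PlMot: rich motions between two planes (about 200 lines).
`plmot0`: `b ≤ |A|` and `b ≤ |A'|` if `𝒯` is nonempty (`rel.eq_of_fst`, `rel.eq_of_snd`), so `b^2 ≤ |A| |A'|`. If all `rot (ν T) (c T)` are equal the `K T` are disjoint. Otherwise take `chart` and `st_par` with `W = ℝ × V`, `w_i z = (ν_i ⬝ᵥ (z.1 + z.2), ν_i × (z.2 - z.1) + c_i • (z.1 + z.2))`, `w T = w₀ z + t T • w₁ z` for any `z ∈ K T`; `rel (ν₀ + t ν₁) (c₀ + t c₁) z z'` means `w₀ z + t w₁ z = w₀ z' + t w₁ z'`. Equal `t` give equal `rot` (`rot_scale`). If `w₀, w₁` agree at `z, z'` then two different `rot` agree on `n₁` and on `z'.1 - z.1 ⊥ n₁`, so `z'.1 = z.1` (`rot_ext`).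
`plmot`: `rot n₁ = x • n₂` with `x^2 (n₂ ⬝ᵥ n₂) = n₁ ⬝ᵥ n₁`; split by the sign of `rot n₁ ⬝ᵥ n₂`.
-/

noncomputable section

open Classical MvPolynomial Matrix Finset

namespace Vale.Agent.P054

variable {ι : Type} {𝒯 : Finset ι} {ν : ι → V} {c : ι → ℝ} {K : ι → Finset (V × V)}
  {A A' : Finset V} {n₁ n₂ : V} {d : ℝ} {b : ℕ}

/-- the invariants of a pair for the motion with data `(ν, c)` -/
def plm_w (ν : V) (c : ℝ) (z : V × V) : ℝ × V :=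
  (ν ⬝ᵥ (z.1 + z.2), ν ⨯₃ (z.2 - z.1) + c • (z.1 + z.2))

theorem plm_rel (ν : V) (c : ℝ) (z w : V × V) : rel ν c z w ↔ plm_w ν c z = plm_w ν c w := by
  rw [rel, plm_w, plm_w, Prod.mk.injEq, dotProduct_sub, map_sub, smul_sub, sub_add_sub_comm,
    sub_eq_zero, sub_eq_zero, eq_comm, eq_comm (a := _ + c • _)]

theorem plm_add (ν₀ ν₁ : V) (c₀ c₁ t : ℝ) (z : V × V) :
    plm_w (ν₀ + t • ν₁) (c₀ + t * c₁) z = plm_w ν₀ c₀ z + t • plm_w ν₁ c₁ z := by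
  simp only [plm_w, Prod.smul_mk, Prod.mk_add_mk, add_dotProduct, smul_dotProduct, map_add,
    map_smul, LinearMap.add_apply, LinearMap.smul_apply, add_smul, mul_smul, smul_add (M := ℝ) t]
  rw [add_add_add_comm]

theorem plm_smul {α : ℝ} (hα : α ≠ 0) (ν : V) (c : ℝ) (z w : V × V) :
    rel (α • ν) (α * c) z w ↔ rel ν c z w := by
  rw [rel, rel, smul_dotProduct, map_smul, LinearMap.smul_apply, mul_smul, ← smul_add,
    smul_eq_zero_iff_right hα, smul_eq_zero_iff_right hα]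

theorem plmot0 (h : Mot 𝒯 ν c K (A ×ˢ A')) (hn : n₁ ≠ 0) (hA : ∀ x ∈ A, n₁ ⬝ᵥ x = d)
    (hr : ∀ T ∈ 𝒯, rot (ν T) (c T) n₁ = n₂) (hb : 2 ≤ b) (hK : ∀ T ∈ 𝒯, b ≤ (K T).card) :
    (∑ T ∈ 𝒯, (K T).card) * b ^ 2 ≤ 512 * (A.card * A'.card) ^ 2 := by
  rcases 𝒯.eq_empty_or_nonempty with rfl | ⟨T₀, hT₀⟩
  · simp
  obtain ⟨n0, k0, r0⟩ := h.1 T₀ hT₀
  have b1 : b ≤ A.card := (hK T₀ hT₀).trans (card_le_card_of_injOn Prod.fst
    (fun z hz => (mem_product.1 (k0 hz)).1) fun z hz w hw e => (r0 z hz w hw).eq_of_fst n0 e)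
  have b2 : b ≤ A'.card := (hK T₀ hT₀).trans (card_le_card_of_injOn Prod.snd
    (fun z hz => (mem_product.1 (k0 hz)).2) fun z hz w hw e => (r0 z hz w hw).eq_of_snd n0 e)
  have b3 : b ^ 2 ≤ A.card * A'.card := by rw [pow_two]; exact Nat.mul_le_mul b1 b2
  have fin : ∑ T ∈ 𝒯, (K T).card ≤ 8 * (A ×ˢ A').card →
      (∑ T ∈ 𝒯, (K T).card) * b ^ 2 ≤ 512 * (A.card * A'.card) ^ 2 := fun h1 => by
    rw [card_product] at h1
    refine (Nat.mul_le_mul h1 b3).trans ?_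
    rw [mul_assoc, ← pow_two]
    exact Nat.mul_le_mul_right _ (by norm_num)
  by_cases hall : ∀ T ∈ 𝒯, rot (ν T) (c T) = rot (ν T₀) (c T₀)
  · refine fin (le_trans ?_ (Nat.le_mul_of_pos_left _ (by norm_num)))
    rw [← card_biUnion fun T hT T' hT' hne => disjoint_left.2 fun z hz hz' =>
      hne (h.2 T hT T' hT' z hz z hz' (rel_refl _ _ _) ((hall T hT).trans (hall T' hT').symm))]
    exact card_le_card (biUnion_subset.2 fun T hT => (h.1 T hT).2.1)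
  push Not at hall
  obtain ⟨T₁, hT₁, hne⟩ := hall
  obtain ⟨ν₀, ν₁, c₀, c₁, hc⟩ := chart 𝒯 ν c hn fun T hT => ⟨(h.1 T hT).1, hr T hT⟩
  choose! α t hα hν hc using hc
  have hz : ∀ T ∈ 𝒯, ∃ z, z ∈ K T := fun T hT => card_pos.1 (by linarith [hK T hT])
  choose! z hz using hz
  have e1 : ∀ T ∈ 𝒯, ∀ x y, rel (ν T) (c T) x y ↔
      plm_w ν₀ c₀ x + t T • plm_w ν₁ c₁ x = plm_w ν₀ c₀ y + t T • plm_w ν₁ c₁ y := fun T hT x y => by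
    rw [hν T hT, hc T hT, plm_smul (hα T hT), plm_rel, plm_add, plm_add]
  have e2 : ∀ T ∈ 𝒯, rot (ν T) (c T) = rot (ν₀ + t T • ν₁) (c₀ + t T * c₁) := fun T hT => by
    rw [hν T hT, hc T hT, rot_scale (hα T hT)]
  rcases st_par (A ×ˢ A') 𝒯 K t (fun T => plm_w ν₀ c₀ (z T) + t T • plm_w ν₁ c₁ (z T))
    (plm_w ν₀ c₀) (plm_w ν₁ c₁) hb
    (fun T hT => ⟨(h.1 T hT).2.1, hK T hT, fun x hx =>
      (e1 T hT _ _).1 ((h.1 T hT).2.2 _ (hz T hT) x hx)⟩)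
    (fun T hT T' hT' e e' => h.2 T hT T' hT' _ (hz T hT) _ (hz T' hT')
      ((e1 T hT _ _).2 (by rw [e', e])) (by rw [e2 T hT, e2 T' hT', e]))
    (fun x hx y hy e e' => by
      have r1 : rel (ν T₀) (c T₀) x y := (e1 T₀ hT₀ _ _).2 (by rw [e, e'])
      have r2 : rel (ν T₁) (c T₁) x y := (e1 T₁ hT₁ _ _).2 (by rw [e, e'])
      have n1 := (h.1 T₁ hT₁).1
      have r3 : n₁ ⨯₃ (y.1 - x.1) = 0 := by
        by_contra r3
        exact hne (rot_ext n1 n0 r3 ((hr T₁ hT₁).trans (hr T₀ hT₀).symm)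
          (((rel_iff n1).1 r2).symm.trans ((rel_iff n0).1 r1)))
      have r4 := zero_MirA (nn_MirA hn) r3 (by
        rw [dotProduct_sub, hA _ (mem_product.1 hy).1, hA _ (mem_product.1 hx).1, sub_self])
      exact r1.eq_of_fst n0 (sub_eq_zero.1 r4).symm) with h1 | h1
  · exact fin h1
  · rwa [card_product] at h1

theorem plmot (h : Mot 𝒯 ν c K (A ×ˢ A')) (hn : n₁ ≠ 0) (hn' : n₂ ≠ 0) (hA : ∀ x ∈ A, n₁ ⬝ᵥ x = d)
    (hr : ∀ T ∈ 𝒯, rot (ν T) (c T) n₁ ⨯₃ n₂ = 0) (hb : 2 ≤ b) (hK : ∀ T ∈ 𝒯, b ≤ (K T).card) :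
    (∑ T ∈ 𝒯, (K T).card) * b ^ 2 ≤ 1024 * (A.card * A'.card) ^ 2 := by
  have n2 := nn_MirA hn'
  have key : ∀ T ∈ 𝒯, rot (ν T) (c T) n₁ = √(n₁ ⬝ᵥ n₁ / n₂ ⬝ᵥ n₂) • n₂ ∨
      rot (ν T) (c T) n₁ = (-√(n₁ ⬝ᵥ n₁ / n₂ ⬝ᵥ n₂)) • n₂ := fun T hT => by
    obtain ⟨x, hx⟩ : ∃ x : ℝ, rot (ν T) (c T) n₁ = x • n₂ :=
      ⟨_, par_MirA n2 (by rw [← cross_anticomm, hr T hT, neg_zero])⟩
    have h1 := rot_dot (h.1 T hT).1 (c T) n₁ n₁
    rw [hx, smul_dotProduct, dotProduct_smul, smul_eq_mul, smul_eq_mul, ← mul_assoc] at h1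
    rw [← h1, mul_div_cancel_right₀ _ n2, Real.sqrt_mul_self_eq_abs, hx]
    rcases abs_cases x with h2 | h2
    · exact Or.inl (by rw [h2.1])
    · exact Or.inr (by rw [h2.1, neg_neg])
  have aux : ∀ (p : ι → Prop) [DecidablePred p] (m : V), (∀ T ∈ 𝒯, p T → rot (ν T) (c T) n₁ = m) →
      (∑ T ∈ 𝒯.filter p, (K T).card) * b ^ 2 ≤ 512 * (A.card * A'.card) ^ 2 := fun p _ m hp =>
    plmot0 (h.mono (filter_subset _ _) (fun _ _ => Subset.rfl)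
      fun T hT => (h.1 T (mem_filter.1 hT).1).2.1) hn hA
      (fun T hT => hp T (mem_filter.1 hT).1 (mem_filter.1 hT).2) hb
      fun T hT => hK T (mem_filter.1 hT).1
  have h1 := aux (fun T => rot (ν T) (c T) n₁ = √(n₁ ⬝ᵥ n₁ / n₂ ⬝ᵥ n₂) • n₂) _ fun _ _ e => e
  have h2 := aux (fun T => ¬ rot (ν T) (c T) n₁ = √(n₁ ⬝ᵥ n₁ / n₂ ⬝ᵥ n₂) • n₂) _
    fun T hT e => (key T hT).resolve_left e
  rw [← sum_filter_add_sum_filter_not 𝒯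
    fun T => rot (ν T) (c T) n₁ = √(n₁ ⬝ᵥ n₁ / n₂ ⬝ᵥ n₂) • n₂, add_mul]
  omega

end Vale.Agent.P054
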