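import Vale.Agent.P054.Defs

/-! Planar: a non-crossing straight-line graph has at most 3n edges (about 200 lines).
For an edge `e = (u, v)` that is not the one of largest slope among the edges with left end `u`, let `e⁺` be the edge with left end `u` and next larger slope (distinct edges with the same left end have distinct slopes by `NoV`).
Let `c(e)` be a vertex with smallest abscissa among the vertices `c` with `u.1 < c.1` and `ht e c.1 ≤ c.2 ≤ ht e⁺ c.1` (the right ends of `e`, `e⁺` are candidates, so `c.1 ≤` both right abscissae). Flag `e` by the truth value of `ht e c.1 < c.2`; if it fails then `c.2 < ht e⁺ c.1`.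
The map `e ↦ (c(e), flag)` is injective: for `e ≠ f` with the same image one has `ht f c.1 < ht e⁺ c.1` and `ht e c.1 < ht f⁺ c.1`. Same left end: compare slopes. Otherwise say `u.1 < u'.1` (abscissae are injective): `u'` is not a candidate for `e`, so it is above `e⁺` (then `f` crosses `e⁺`) or below `e` (then `f⁺` crosses `e`); two affine functions whose difference changes sign agree in between.
The edges of largest slope inject into the vertices by the left end.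
-/

noncomputable section

open Classical MvPolynomial Matrix Finset

namespace Vale.Agent.P054

abbrev Pt := ℝ × ℝ

def ht (e : Pt × Pt) (x : ℝ) : ℝ := e.1.2 + (x - e.1.1) * ((e.2.2 - e.1.2) / (e.2.1 - e.1.1))

def Cross (e f : Pt × Pt) : Prop :=
  ∃ x, e.1.1 < x ∧ x < e.2.1 ∧ f.1.1 < x ∧ x < f.2.1 ∧ ht e x = ht f x

/-- a straight-line graph without vertices inside edges -/
structure NoV (S : Finset Pt) (E : Finset (Pt × Pt)) : Prop where
  inj : ∀ a ∈ S, ∀ b ∈ S, a.1 = b.1 → a = b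
  mem : ∀ e ∈ E, e.1 ∈ S ∧ e.2 ∈ S ∧ e.1.1 < e.2.1
  nov : ∀ e ∈ E, ∀ c ∈ S, e.1.1 < c.1 → c.1 < e.2.1 → c.2 ≠ ht e c.1

/-- slope of an edge -/
def plSl (e : Pt × Pt) : ℝ := (e.2.2 - e.1.2) / (e.2.1 - e.1.1)

theorem pl_ht (e : Pt × Pt) (x : ℝ) : ht e x = e.1.2 + (x - e.1.1) * plSl e := rfl

theorem pl_left (e : Pt × Pt) : ht e e.1.1 = e.1.2 := by simp [ht]

theorem pl_right {e : Pt × Pt} (h : e.1.1 < e.2.1) : ht e e.2.1 = e.2.2 := by
  rw [ht, mul_div_cancel₀ _ (sub_pos.2 h).ne', add_sub_cancel]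

theorem pl_lt {e f : Pt × Pt} (h : f.1 = e.1) {x : ℝ} (hx : e.1.1 < x) :
    ht e x < ht f x ↔ plSl e < plSl f := by
  rw [pl_ht, pl_ht, h, add_lt_add_iff_left, mul_lt_mul_iff_right₀ (sub_pos.2 hx)]

theorem pl_inj {S : Finset Pt} {E : Finset (Pt × Pt)} (h : NoV S E) {e f : Pt × Pt} (he : e ∈ E)
    (hf : f ∈ E) (h1 : f.1 = e.1) (h2 : plSl f = plSl e) : f = e := by
  have k : ∀ x, ht f x = ht e x := fun x => by rw [pl_ht, pl_ht, h1, h2]
  obtain ⟨-, e2, e3⟩ := h.mem e he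
  obtain ⟨-, f2, f3⟩ := h.mem f hf
  rcases lt_trichotomy e.2.1 f.2.1 with l | l | l
  · exact absurd ((k _).trans (pl_right e3)).symm (h.nov f hf _ e2 (h1 ▸ e3) l)
  · exact Prod.ext h1 (h.inj _ f2 _ e2 l.symm)
  · exact absurd ((k _).symm.trans (pl_right f3)).symm (h.nov e he _ f2 (h1 ▸ f3) l)

theorem pl_cross {E : Finset (Pt × Pt)} (hc : ∀ e ∈ E, ∀ f ∈ E, e ≠ f → ¬ Cross e f)
    {e f : Pt × Pt} (he : e ∈ E) (hf : f ∈ E) {a b : ℝ} (hab : a < b) (h1 : e.1.1 ≤ a)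
    (h2 : f.1.1 ≤ a) (h3 : b ≤ e.2.1) (h4 : b ≤ f.2.1) (h5 : ht e a < ht f a)
    (h6 : ht f b < ht e b) : False := by
  have k : Continuous fun x => ht e x - ht f x := by
    unfold ht
    fun_prop
  obtain ⟨x, hx, e0⟩ := intermediate_value_Ioo hab.le k.continuousOn
    (⟨sub_neg.2 h5, sub_pos.2 h6⟩ : (0 : ℝ) ∈ Set.Ioo (ht e a - ht f a) (ht e b - ht f b))
  exact hc e he f hf (fun e1 => h5.ne (by rw [e1])) ⟨x, h1.trans_lt hx.1, hx.2.trans_le h3,
    h2.trans_lt hx.1, hx.2.trans_le h4, sub_eq_zero.1 e0⟩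

/-- `g` is the next edge after `e` and `c` the first vertex in the sector between them -/
structure PlD (S : Finset Pt) (E : Finset (Pt × Pt)) (e g : Pt × Pt) (c : Pt) : Prop where
  mem : g ∈ E
  left : g.1 = e.1
  lt : plSl e < plSl g
  next : ∀ f ∈ E, f.1 = e.1 → plSl e < plSl f → plSl g ≤ plSl f
  pos : e.1.1 < c.1
  lo : ht e c.1 ≤ c.2
  hi : c.2 ≤ ht g c.1
  min : ∀ d ∈ S, e.1.1 < d.1 → ht e d.1 ≤ d.2 → d.2 ≤ ht g d.1 → c.1 ≤ d.1

theorem PlD.le {S : Finset Pt} {E : Finset (Pt × Pt)} (h : NoV S E) {e g : Pt × Pt} {c : Pt}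
    (he : e ∈ E) (d : PlD S E e g c) : c.1 ≤ e.2.1 ∧ c.1 ≤ g.2.1 := by
  obtain ⟨-, e2, e3⟩ := h.mem e he
  obtain ⟨-, g2, g3⟩ := h.mem g d.mem
  have g4 : e.1.1 < g.2.1 := d.left ▸ g3
  exact ⟨d.min _ e2 e3 (pl_right e3).le ((pl_right e3).ge.trans ((pl_lt d.left e3).2 d.lt).le),
    d.min _ g2 g4 (((pl_lt d.left g4).2 d.lt).le.trans (pl_right g3).le) (pl_right g3).ge⟩

theorem pl_exists {S : Finset Pt} {E : Finset (Pt × Pt)} (h : NoV S E) {e : Pt × Pt} (he : e ∈ E)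
    (hm : ∃ f ∈ E, f.1 = e.1 ∧ plSl e < plSl f) : ∃ g, ∃ c ∈ S, PlD S E e g c := by
  obtain ⟨g, hg, hg'⟩ := exists_min_image (E.filter fun f => f.1 = e.1 ∧ plSl e < plSl f) plSl
    (filter_nonempty_iff.2 hm)
  obtain ⟨g1, g2, g3⟩ := mem_filter.1 hg
  obtain ⟨-, e2, e3⟩ := h.mem e he
  obtain ⟨c, hc, hc'⟩ := exists_min_image
    (S.filter fun d => e.1.1 < d.1 ∧ ht e d.1 ≤ d.2 ∧ d.2 ≤ ht g d.1) Prod.fst
    ⟨e.2, mem_filter.2 ⟨e2, e3, (pl_right e3).le, (pl_right e3).ge.trans ((pl_lt g2 e3).2 g3).le⟩⟩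
  obtain ⟨c1, c2, c3, c4⟩ := mem_filter.1 hc
  exact ⟨g, c, c1, g1, g2, g3, fun f k1 k2 k3 => hg' f (mem_filter.2 ⟨k1, k2, k3⟩), c2, c3, c4,
    fun d k1 k2 k3 k4 => hc' d (mem_filter.2 ⟨k1, k2, k3, k4⟩)⟩

theorem pl_side {S : Finset Pt} {E : Finset (Pt × Pt)} (h : NoV S E)
    (hc : ∀ e ∈ E, ∀ f ∈ E, e ≠ f → ¬ Cross e f) {e g f k : Pt × Pt} {c : Pt} (he : e ∈ E)
    (hf : f ∈ E) (d : PlD S E e g c) (d' : PlD S E f k c) (h1 : ht f c.1 < ht g c.1)
    (h2 : ht e c.1 < ht k c.1) : ¬ e.1.1 < f.1.1 := fun l => by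
  obtain ⟨a1, a2⟩ := d.le h he
  obtain ⟨b1, b2⟩ := d'.le h hf
  by_cases h3 : ht e f.1.1 ≤ f.1.2
  · refine pl_cross hc d.mem hf d'.pos (d.left ▸ l.le) le_rfl a2 b1 ?_ h1
    rw [pl_left]
    exact lt_of_not_ge fun h4 => d'.pos.not_ge (d.min _ (h.mem f hf).1 l h3 h4)
  · refine pl_cross hc d'.mem he d'.pos (d'.left ▸ le_rfl) l.le b2 a1 ?_ h2
    rw [← d'.left, pl_left, d'.left]
    exact lt_of_not_ge h3

theorem pl_uniq {S : Finset Pt} {E : Finset (Pt × Pt)} (h : NoV S E)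
    (hc : ∀ e ∈ E, ∀ f ∈ E, e ≠ f → ¬ Cross e f) {e g f k : Pt × Pt} {c : Pt} (he : e ∈ E)
    (hf : f ∈ E) (d : PlD S E e g c) (d' : PlD S E f k c)
    (fl : ht e c.1 < c.2 ↔ ht f c.1 < c.2) : f = e := by
  have a1 := (pl_lt d.left d.pos).2 d.lt
  have a2 := (pl_lt d'.left d'.pos).2 d'.lt
  have h12 : ht f c.1 < ht g c.1 ∧ ht e c.1 < ht k c.1 := by
    by_cases h0 : ht e c.1 < c.2
    · exact ⟨(fl.1 h0).trans_le d.hi, h0.trans_le d'.hi⟩
    · exact ⟨d'.lo.trans_lt ((not_lt.1 h0).trans_lt a1),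
        d.lo.trans_lt ((not_lt.1 (fl.not.1 h0)).trans_lt a2)⟩
  have e1 : f.1 = e.1 := h.inj _ (h.mem f hf).1 _ (h.mem e he).1 (le_antisymm
    (not_lt.1 (pl_side h hc he hf d d' h12.1 h12.2))
    (not_lt.1 (pl_side h hc hf he d' d h12.2 h12.1)))
  refine pl_inj h he hf e1 (le_antisymm (not_lt.1 fun l => ?_) (not_lt.1 fun l => ?_))
  · exact ((pl_lt (d.left.trans e1.symm) d'.pos).1 h12.1).not_ge (d.next f hf e1 l)
  · exact ((pl_lt (d'.left.trans e1) d.pos).1 h12.2).not_ge (d'.next e he e1.symm l)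

theorem planar_edges {S : Finset Pt} {E : Finset (Pt × Pt)} (h : NoV S E)
    (hc : ∀ e ∈ E, ∀ f ∈ E, e ≠ f → ¬ Cross e f) : E.card ≤ 3 * S.card := by
  have key : ∀ e ∈ E, ∃ p : Pt × Option Bool, p.1 ∈ S ∧
      ((p.2 = none ∧ p.1 = e.1 ∧ ∀ f ∈ E, f.1 = e.1 → plSl f ≤ plSl e) ∨
        ∃ g, PlD S E e g p.1 ∧ p.2 = some (decide (ht e p.1.1 < p.1.2))) := fun e he => by
    by_cases hm : ∃ f ∈ E, f.1 = e.1 ∧ plSl e < plSl f
    · obtain ⟨g, c, c1, d⟩ := pl_exists h he hm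
      exact ⟨(c, some (decide (ht e c.1 < c.2))), c1, .inr ⟨g, d, rfl⟩⟩
    · exact ⟨(e.1, none), (h.mem e he).1, .inl ⟨rfl, rfl, fun f k1 k2 =>
        not_lt.1 fun k3 => hm ⟨f, k1, k2, k3⟩⟩⟩
  choose! Φ h1 h2 using key
  have h3 := card_le_card_of_injOn (s := E) (t := S ×ˢ (univ : Finset (Option Bool))) Φ
    (fun e he => mem_coe.2 (mem_product.2 ⟨h1 e he, mem_univ _⟩)) fun e he f hf e0 => by
      have a := h2 e he
      rw [e0] at a
      rcases a with ⟨a1, a2, a3⟩ | ⟨g, d, a1⟩ <;>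
        rcases h2 f hf with ⟨b1, b2, b3⟩ | ⟨k, d', b1⟩
      · have e1 := a2.symm.trans b2
        exact pl_inj h hf he e1 (le_antisymm (b3 e he e1) (a3 f hf e1.symm))
      · exact absurd (a1.symm.trans b1) (by simp)
      · exact absurd (b1.symm.trans a1) (by simp)
      · exact pl_uniq h hc hf he d' d (by simpa using b1.symm.trans a1)
  rw [card_product, mul_comm] at h3
  exact h3

end Vale.Agent.P054
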