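import Vale.Agent.P054.MirA

/-! QDefs: definitions for the sharp bound in dimension three. Do not edit. Overview in PROOF.md.
-/

noncomputable section

open Classical MvPolynomial Matrix Finset

namespace Vale.Agent.P054

/-- points of `S` on the line through `p` with direction `v` -/
def ln (S : Finset V) (p v : V) : Finset V := S.filter fun x => v ⨯₃ (x - p) = 0

/-- points of `S` on a plane -/
def pl (S : Finset V) (ν : V) (c : ℝ) : Finset V := S.filter fun x => ν ⬝ᵥ x = c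

/-- every line has at most `L` points of `S` -/
def LineLe (S : Finset V) (L : ℕ) : Prop := ∀ p v : V, v ≠ 0 → (ln S p v).card ≤ L

/-- at least `b` points of `A` are off any given line -/
def Off (A : Finset V) (b : ℕ) : Prop := ∀ p v : V, v ≠ 0 → b + (ln A p v).card ≤ A.card

/-- `A` is a plane section of `S` -/
def IsPl (S A : Finset V) : Prop := ∃ (ν : V) (c : ℝ), ν ≠ 0 ∧ A = pl S ν c

/-- the linear part of the orientation reversing motion with data `(ν, c)` -/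
def rot (ν : V) (c : ℝ) (a : V) : V :=
  (ν ⬝ᵥ ν + c ^ 2)⁻¹ • ((ν ⬝ᵥ ν - c ^ 2) • a + (2 * c) • (ν ⨯₃ a) - (2 * (ν ⬝ᵥ a)) • ν)

/-- sets of pairs on pairwise different motions -/
def Mot {ι : Type} (𝒯 : Finset ι) (ν : ι → V) (c : ι → ℝ) (K : ι → Finset (V × V))
    (X : Finset (V × V)) : Prop :=
  (∀ T ∈ 𝒯, ν T ≠ 0 ∧ K T ⊆ X ∧ ∀ z ∈ K T, ∀ w ∈ K T, rel (ν T) (c T) z w) ∧
    ∀ T ∈ 𝒯, ∀ T' ∈ 𝒯, ∀ z ∈ K T, ∀ w ∈ K T', rel (ν T) (c T) z w →
      rot (ν T) (c T) = rot (ν T') (c T') → T = T'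

/-- the pairs of `K` whose first point is on a line with at least `h` first points of `K` -/
def hvy (K : Finset (V × V)) (h : ℕ) : Finset (V × V) :=
  K.filter fun z => ∃ v : V, v ≠ 0 ∧ h ≤ (K.filter fun w => v ⨯₃ (w.1 - z.1) = 0).card

/-- the lines with at least `h` points of `P` -/
def hl (P : Finset V) (h : ℕ) : Finset (Finset V) :=
  P.powerset.filter fun l => h ≤ l.card ∧ ∃ p v : V, v ≠ 0 ∧ l = ln P p v

/-- pairs on motions together with a line through each of the two points -/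
structure LinD {ι : Type} (P : Finset V) (L : ℕ) (Λ : Finset (Finset V)) (o d : Finset V → V)
    (𝒯 : Finset ι) (ν : ι → V) (c : ι → ℝ) (H : ι → Finset (V × V))
    (l₁ l₂ : ι → V × V → Finset V) : Prop where
  mot : Mot 𝒯 ν c H (P ×ˢ P)
  lam : ∀ l ∈ Λ, d l ≠ 0 ∧ l = ln P (o l) (d l) ∧ l.card ≤ L
  mem : ∀ T ∈ 𝒯, ∀ z ∈ H T, l₁ T z ∈ Λ ∧ l₂ T z ∈ Λ ∧ z.1 ∈ l₁ T z ∧ z.2 ∈ l₂ T z ∧
    rot (ν T) (c T) (d (l₁ T z)) ⨯₃ d (l₂ T z) = 0

end Vale.Agent.P054
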