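import Vale.Agent.P054.RareA
import Vale.Agent.P054.CurveP

/-! Rare: rich cones cover at most a quarter of the pairs (about 400 lines).
Suppose not; take `p₁ p₂ X₁` from `exists_base`, for `x ∈ X₁` the cones `g₁ x, g₂ x` (irreducible with independent gradients at `x`, hence relatively prime), a prime `I x` from `exists_curve`, and `G p x ∈ 𝒢 p` through `x` for `p ∈ Ex x`. For a prime `I` in the image with `NL I` fix one pair `(g₁, g₂)` with `Crv I g₁ g₂` and `Bad I` from `curve_pack`.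
Remove the pairs `(p, x)` with (1) `coneAt p (G p x) ∉ I x`: at most `T^3` for each `p` (`bezout3`, sum over the triples of cones); (2) `¬ NL (I x)`: at most `B` for each `x` (`line_case`); (3) `p` a zero of `I x` with `tng = 0`: at most `2 T^3` (`bezout3` with the component from `Crv.tr`); (4) `Bad (I x) (I x') p` for some `x' ∈ X₁` with `NL (I x')`: at most `2 T^3` (first clause of `curve_pack`, sum over the pairs of cones).
At least `n^2/40000` pairs stay, so some `p` has at least `n/40000` good `x`. For the primes `I` of good `x` choose a good representative; `I ↦ G p x_I` is injective (second clause), and `I` has at most `(D + 1) * 4 deg` points of `P` (third clause with the spheres around the pin of `exists_pin`; the values `sq x₀ x` are `0` or one of the `nD P` distances). So `n/40000 ≤ 4 T (D + 1)`.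
-/

noncomputable section

open Classical MvPolynomial Matrix Finset

namespace Vale.Agent.P054

theorem rare_cv_inj : Function.Injective cv := fun a b h => funext fun i => by
  simpa [cv] using congrFun h i

theorem rare_cv_sub (a b : V) : cv (a - b) = cv a - cv b := by
  funext i; simp [cv]

theorem rare_relPrime {g₁ g₂ : P3} (h1 : Irreducible g₁) (h2 : Irreducible g₂) {x : Fin 3 → ℂ}
    (e1 : eval x g₁ = 0) (h : gr g₁ x ⨯₃ gr g₂ x ≠ 0) : IsRelPrime g₁ g₂ := by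
  refine h1.isRelPrime_iff_not_dvd.2 fun ⟨u, hu⟩ => h ?_
  have : gr g₂ x = eval x u • gr g₁ x := by
    funext i
    simp only [gr, hu, Derivation.leibniz, smul_eq_mul, map_add, map_mul, Pi.smul_apply,
      aeval_eq_eval, e1]
    ring
  rw [this, map_smul, cross_self, smul_zero]

theorem rare_tng (g₁ g₂ : P3) (x : Fin 3 → ℂ) (i : Fin 3) :
    eval x ((gr g₁ X ⨯₃ gr g₂ X) i) = tng g₁ g₂ x i := by
  fin_cases i <;> simp [cross_apply, gr, tng, coe_aeval_eq_eval]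

theorem rare_deg (g₁ g₂ : P3) (i : Fin 3) :
    ((gr g₁ X ⨯₃ gr g₂ X) i : P3).totalDegree ≤ g₁.totalDegree + g₂.totalDegree := by
  have key : ∀ a b c d : Fin 3,
      (pderiv a g₁ * pderiv b g₂ - pderiv c g₁ * pderiv d g₂ : P3).totalDegree ≤ g₁.totalDegree + g₂.totalDegree := fun a b c d =>
    (totalDegree_sub _ _).trans (max_le
      ((totalDegree_mul _ _).trans (add_le_add ((degree_pderiv_le _ _).trans (Nat.sub_le _ _))
        ((degree_pderiv_le _ _).trans (Nat.sub_le _ _))))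
      ((totalDegree_mul _ _).trans (add_le_add ((degree_pderiv_le _ _).trans (Nat.sub_le _ _))
        ((degree_pderiv_le _ _).trans (Nat.sub_le _ _)))))
  fin_cases i <;> simpa [cross_apply, gr] using key _ _ _ _

theorem rare_sum2 {A B : Finset P3} {T : ℕ} (hA : ∑ G ∈ A, G.totalDegree ≤ T)
    (hB : ∑ G ∈ B, G.totalDegree ≤ T) :
    ∑ x ∈ A ×ˢ B, x.1.totalDegree * x.2.totalDegree ≤ T * T := by
  rw [sum_product, ← sum_mul_sum]
  exact Nat.mul_le_mul hA hB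

theorem rare_pts {P : Finset V} {I : Ideal P3} {x₀ : V} (h0 : x₀ ∈ P) (hp : ∀ δ, sph x₀ δ ∉ I)
    {e : ℕ} (hb : ∀ ψ ∉ I, ∀ Y : Finset (Fin 3 → ℂ),
      (∀ y ∈ Y, eval y ψ = 0 ∧ ∀ f ∈ I, eval y f = 0) → Y.card ≤ e * ψ.totalDegree)
    {Y : Finset V} (hY : Y ⊆ P) (hz : ∀ y ∈ Y, ∀ f ∈ I, eval (cv y) f = 0) :
    Y.card ≤ (nD P + 1) * (e * 2) := by
  have h1 : ∀ y ∈ Y, sq x₀ y ∈ insert 0 (P.offDiag.image fun e => sq e.1 e.2) := fun y hy => by
    by_cases h : x₀ = y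
    · simp [h, sq]
    · exact mem_insert_of_mem (mem_image.2 ⟨(x₀, y), mem_offDiag.2 ⟨h0, hY hy, h⟩, rfl⟩)
  refine (card_le_mul_card_image_of_maps_to h1 (e * 2) fun δ _ => ?_).trans ?_
  · rw [← card_image_of_injective _ rare_cv_inj]
    refine (hb _ (hp δ) _ fun y hy => ?_).trans (Nat.mul_le_mul_left _ (degree_sph_le _ _))
    obtain ⟨y, hy', rfl⟩ := mem_image.1 hy
    obtain ⟨h2, rfl⟩ := mem_filter.1 hy'
    exact ⟨eval_sph _ _, hz y h2⟩
  · rw [mul_comm]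
    exact Nat.mul_le_mul_right _ (card_insert_le _ _)

theorem rare : ∃ C : ℕ, ∀ (P : Finset V) (𝒢 : V → Finset P3) (T k B : ℕ), Fam 𝒢 T → PlaneLe P B →
    C * (T ^ 3 + k * T ^ 2 + B + T * (nD P + 1) + 1) ≤ P.card →
      4 * (badE P 𝒢 k).card ≤ P.card ^ 2 := by
  refine ⟨400000, fun P 𝒢 T k B hF hP hC => ?_⟩
  by_contra hE
  obtain ⟨p₁, p₂, X₁, hX, hX1, hx⟩ := exists_base hF hP (by omega) (not_le.1 hE)
  choose! G₁ m₁ G₂ m₂ e₁ e₂ hg using fun x hx' => (hx x hx').1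
  obtain ⟨g₁, hg₁⟩ : ∃ g : V → P3, ∀ x, g x = coneAt p₁ (G₁ x) := ⟨_, fun _ => rfl⟩
  obtain ⟨g₂, hg₂⟩ : ∃ g : V → P3, ∀ x, g x = coneAt p₂ (G₂ x) := ⟨_, fun _ => rfl⟩
  have i₁ : ∀ x ∈ X₁, Irreducible (g₁ x) := fun x h =>
    hg₁ x ▸ irreducible_coneAt _ ((hF p₁).1 _ (m₁ x h)).1
  have i₂ : ∀ x ∈ X₁, Irreducible (g₂ x) := fun x h =>
    hg₂ x ▸ irreducible_coneAt _ ((hF p₂).1 _ (m₂ x h)).1
  have v₁ : ∀ x ∈ X₁, eval (cv x) (g₁ x) = 0 := fun x h => by
    rw [hg₁, eval_coneAt, ← rare_cv_sub, e₁ x h]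
  have v₂ : ∀ x ∈ X₁, eval (cv x) (g₂ x) = 0 := fun x h => by
    rw [hg₂, eval_coneAt, ← rare_cv_sub, e₂ x h]
  have hg' : ∀ x ∈ X₁, tng (g₁ x) (g₂ x) (cv x) ≠ 0 := fun x h => by
    rw [hg₁, hg₂]; exact hg x h
  have rp : ∀ x ∈ X₁, IsRelPrime (g₁ x) (g₂ x) := fun x h =>
    rare_relPrime (i₁ x h) (i₂ x h) (v₁ x h) (hg' x h)
  choose! I hI hz hm using fun x (h : x ∈ X₁) => exists_curve (g₁ x) (g₂ x) (v₁ x h) (v₂ x h)
  have tr : ∀ x ∈ X₁, ∃ i, (gr (g₁ x) X ⨯₃ gr (g₂ x) X) i ∉ I x := fun x h => by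
    obtain ⟨i, hi⟩ := Function.ne_iff.1 (hg' x h)
    exact ⟨i, fun h1 => hi (by rw [← rare_tng]; exact hz x h _ h1)⟩
  have pr : ∀ x ∈ X₁, (I x).IsPrime := fun x h => (hI x h).1.1
  have in₁ : ∀ x ∈ X₁, g₁ x ∈ I x := fun x h => (hI x h).1.2 (Ideal.subset_span (by simp))
  have in₂ : ∀ x ∈ X₁, g₂ x ∈ I x := fun x h => (hI x h).1.2 (Ideal.subset_span (by simp))
  have crv : ∀ x ∈ X₁, NL (I x) → Crv (I x) (g₁ x) (g₂ x) := fun x h hn =>
    ⟨hI x h, rp x h, tr x h, hn⟩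
  choose! Bad b1 b2 b3 using fun x (h : x ∈ X₁ ∧ NL (I x)) => curve_pack (crv x h.1 h.2)
  obtain ⟨Ex, hEx⟩ : ∃ Ex : V → V → Prop, ∀ p x,
    Ex p x ↔ ∃ G ∈ 𝒢 p, eval (cv (x - p)) G = 0 := ⟨_, fun _ _ => Iff.rfl⟩
  choose! G mG eG using fun p x (h : Ex p x) => (hEx p x).1 h
  have cone : ∀ p x, Ex p x → coneAt p (G p x) ∈ I x → ConeIn (I x) p (G p x) := fun p x h h' =>
    have := (hF p).1 _ (mG p x h)
    ⟨this.1, this.2.1, this.2.2, h'⟩
  have d₁ : ∀ x ∈ X₁, (g₁ x).totalDegree ≤ T := fun x h => by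
    rw [hg₁, degree_coneAt]
    exact (single_le_sum (f := fun G : P3 => G.totalDegree) (fun _ _ => Nat.zero_le _)
      (m₁ x h)).trans (hF p₁).2
  have d₂ : ∀ x ∈ X₁, (g₂ x).totalDegree ≤ T := fun x h => by
    rw [hg₂, degree_coneAt]
    exact (single_le_sum (f := fun G : P3 => G.totalDegree) (fun _ _ => Nat.zero_le _)
      (m₂ x h)).trans (hF p₂).2
  -- (1)
  have c1 : ∀ p, (X₁.filter fun x => Ex p x ∧ coneAt p (G p x) ∉ I x).card ≤ T ^ 3 := fun p => by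
    rw [card_eq_sum_card_fiberwise (f := fun x => ((G₁ x, G₂ x), G p x))
      (t := (𝒢 p₁ ×ˢ 𝒢 p₂) ×ˢ 𝒢 p) fun x h => by
        have h := mem_filter.1 (mem_coe.1 h)
        exact mem_coe.2 (mem_product.2 ⟨mem_product.2 ⟨m₁ x h.1, m₂ x h.1⟩, mG p x h.2.1⟩)]
    refine (sum_le_sum (g := fun y => y.1.1.totalDegree * y.1.2.totalDegree * y.2.totalDegree)
      fun y _ => ?_).trans ?_
    · rcases (filter (fun x => ((G₁ x, G₂ x), G p x) = y)
        (X₁.filter fun x => Ex p x ∧ coneAt p (G p x) ∉ I x)).eq_empty_or_nonempty with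
        h | ⟨x₀, h0⟩
      · simp [h]
      obtain ⟨h0', rfl⟩ := mem_filter.1 h0
      have h := (mem_filter.1 h0').1
      rw [← card_image_of_injective _ rare_cv_inj, ← degree_coneAt p₁ (G₁ x₀),
        ← degree_coneAt p₂ (G₂ x₀), ← degree_coneAt p (G p x₀), ← hg₁, ← hg₂]
      refine bezout3 (i₁ _ h).ne_zero (i₂ _ h).ne_zero (rp _ h) _ fun y hy => ?_
      obtain ⟨x, hy', rfl⟩ := mem_image.1 hy
      obtain ⟨hy', he⟩ := mem_filter.1 hy'
      obtain ⟨hy, h1, h2⟩ := mem_filter.1 hy'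
      simp only [Prod.mk.injEq] at he
      refine ⟨?_, I x, pr x hy, ?_, ?_, he.2 ▸ h2, hz x hy⟩
      · rw [eval_coneAt, ← rare_cv_sub, ← he.2, eG p x h1]
      · rw [hg₁, ← he.1.1, ← hg₁]; exact in₁ x hy
      · rw [hg₂, ← he.1.2, ← hg₂]; exact in₂ x hy
    · rw [sum_product]
      dsimp only
      rw [← sum_mul_sum, pow_succ, pow_two]
      exact Nat.mul_le_mul (rare_sum2 (hF p₁).2 (hF p₂).2) (hF p).2
  -- (3)
  have c3 : ∀ x ∈ X₁, (P.filter fun p => (∀ f ∈ I x, eval (cv p) f = 0) ∧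
      tng (g₁ x) (g₂ x) (cv p) = 0).card ≤ 2 * T ^ 3 := fun x h => by
    obtain ⟨i, hi⟩ := tr x h
    rw [← card_image_of_injective _ rare_cv_inj]
    refine (bezout3 (ψ := (gr (g₁ x) X ⨯₃ gr (g₂ x) X) i) (i₁ _ h).ne_zero (i₂ _ h).ne_zero
      (rp _ h) _ fun y hy => ?_).trans ?_
    · obtain ⟨p, hy', rfl⟩ := mem_image.1 hy
      obtain ⟨-, h1, h2⟩ := mem_filter.1 hy'
      exact ⟨by rw [rare_tng, h2]; rfl, I x, pr x h, in₁ x h, in₂ x h, hi, h1⟩
    · calc _ ≤ T * T * (T + T) := Nat.mul_le_mul (Nat.mul_le_mul (d₁ x h) (d₂ x h))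
            ((rare_deg _ _ i).trans (add_le_add (d₁ x h) (d₂ x h)))
        _ = _ := by ring
  -- (4)
  have c4 : ∀ x ∈ X₁, NL (I x) → (P.filter fun p => (∃ G, ConeIn (I x) p G) ∧
      ∃ x' ∈ X₁, NL (I x') ∧ Bad x (I x') p).card ≤ 2 * T ^ 3 := fun x h hn => by
    refine (card_le_card (t := (𝒢 p₁ ×ˢ 𝒢 p₂).biUnion fun y => P.filter fun p =>
      (∃ I', Crv I' (coneAt p₁ y.1) (coneAt p₂ y.2) ∧ Bad x I' p) ∧ ∃ G, ConeIn (I x) p G)
      fun p hp => ?_).trans (card_biUnion_le.trans ((sum_le_sum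
        (g := fun y => y.1.totalDegree * y.2.totalDegree * (2 * T)) fun y hy => ?_).trans ?_))
    · obtain ⟨h1, h2, x', h3, h4, h5⟩ := mem_filter.1 hp
      refine mem_biUnion.2 ⟨(G₁ x', G₂ x'), mem_product.2 ⟨m₁ x' h3, m₂ x' h3⟩,
        mem_filter.2 ⟨h1, ⟨I x', ?_, h5⟩, h2⟩⟩
      rw [← hg₁, ← hg₂]; exact crv x' h3 h4
    · refine (b1 x ⟨h, hn⟩ _ _ _ fun p hp => (mem_filter.1 hp).2).trans ?_
      obtain ⟨y1, y2⟩ := mem_product.1 hy
      have a1 := (single_le_sum (f := fun G : P3 => G.totalDegree) (fun _ _ => Nat.zero_le _)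
        y1).trans (hF p₁).2
      have a2 := (single_le_sum (f := fun G : P3 => G.totalDegree) (fun _ _ => Nat.zero_le _)
        y2).trans (hF p₂).2
      rw [degree_coneAt, degree_coneAt]
      exact Nat.mul_le_mul_left _ (by omega)
    · rw [← sum_mul]
      exact (Nat.mul_le_mul_right _ (rare_sum2 (hF p₁).2 (hF p₂).2)).trans_eq (by ring)
  obtain ⟨Good, hGood⟩ : ∃ Good : V → V → Prop, ∀ p x, Good p x ↔ ConeIn (I x) p (G p x) ∧
      G p x ∈ 𝒢 p ∧ NL (I x) ∧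
      ((∀ f ∈ I x, eval (cv p) f = 0) → tng (g₁ x) (g₂ x) (cv p) ≠ 0) ∧
      ∀ x' ∈ X₁, NL (I x') → ¬ Bad x (I x') p := ⟨_, fun _ _ => Iff.rfl⟩
  have c5 : ∀ x ∈ X₁, (P.filter fun p => Ex p x).card ≤ (P.filter fun p => Good p x).card +
      (P.filter fun p => Ex p x ∧ coneAt p (G p x) ∉ I x).card + (B + 4 * T ^ 3) := fun x h => by
    by_cases hn : NL (I x)
    · have := c3 x h
      have := c4 x h hn
      refine (card_le_card fun p hp => ?_).trans ((card_union_le _ _).trans (add_le_add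
        (card_union_le _ _) ((card_union_le
          (P.filter fun p => (∀ f ∈ I x, eval (cv p) f = 0) ∧ tng (g₁ x) (g₂ x) (cv p) = 0)
          (P.filter fun p => (∃ G, ConeIn (I x) p G) ∧
            ∃ x' ∈ X₁, NL (I x') ∧ Bad x (I x') p)).trans (by omega))))
      obtain ⟨h1, h2⟩ := mem_filter.1 hp
      simp only [mem_union, mem_filter, h1, h2, true_and]
      by_cases a1 : coneAt p (G p x) ∈ I x
      swap
      · exact Or.inl (Or.inr a1)
      by_cases a2 : (∀ f ∈ I x, eval (cv p) f = 0) ∧ tng (g₁ x) (g₂ x) (cv p) = 0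
      · exact Or.inr (Or.inl a2)
      by_cases a3 : ∃ x' ∈ X₁, NL (I x') ∧ Bad x (I x') p
      · exact Or.inr (Or.inr ⟨⟨_, cone p x h2 a1⟩, a3⟩)
      exact Or.inl (Or.inl ((hGood p x).2 ⟨cone p x h2 a1, mG p x h2, hn,
        fun a4 a5 => a2 ⟨a4, a5⟩, fun x' a4 a5 a6 => a3 ⟨x', a4, a5, a6⟩⟩))
    · have := line_case (pr x h) hn (hz x h) (hm x h) hP
      refine (card_le_card fun p hp => ?_).trans ((card_union_le
        (P.filter fun p => Ex p x ∧ coneAt p (G p x) ∉ I x) (P.filter fun p => ∃ G : P3,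
          Irreducible G ∧ G.IsHomogeneous G.totalDegree ∧ 2 ≤ G.totalDegree ∧
            coneAt p G ∈ I x)).trans (by omega))
      obtain ⟨h1, h2⟩ := mem_filter.1 hp
      simp only [mem_union, mem_filter, h1, h2, true_and]
      by_cases a1 : coneAt p (G p x) ∈ I x
      · exact Or.inr ⟨_, cone p x h2 a1⟩
      · exact Or.inl a1
  -- a vertex sees few good points
  have c6 : ∀ p, (X₁.filter fun x => Good p x).card ≤ T * ((nD P + 1) * 4) := fun p => by
    obtain ⟨Y, hY⟩ : ∃ Y, Y = X₁.filter fun x => Good p x := ⟨_, rfl⟩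
    have hY' : ∀ x ∈ Y, x ∈ X₁ ∧ Good p x := fun x h => mem_filter.1 (hY ▸ h)
    rw [← hY, card_eq_sum_card_image I]
    choose! r r1 r2 using fun J (h : J ∈ Y.image I) => mem_image.1 h
    have inj : Set.InjOn (fun J => G p (r J)) (Y.image I) := fun J hJ J' hJ' he => by
      by_contra hne
      obtain ⟨a1, a2⟩ := hY' _ (r1 J hJ)
      obtain ⟨a1', a2'⟩ := hY' _ (r1 J' hJ')
      rw [hGood] at a2 a2'
      refine a2.2.2.2.2 _ a1' a2'.2.2.1 (b2 _ ⟨a1, a2.2.2.1⟩ p _ _ _ (G p (r J))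
        (crv _ a1' a2'.2.2.1) (by rwa [r2 J hJ, r2 J' hJ']) a2.1 ?_)
      have he' : G p (r J) = G p (r J') := he
      rw [he']; exact a2'.1
    refine (sum_le_sum (g := fun J => (G p (r J)).totalDegree * ((nD P + 1) * 4))
      fun J hJ => ?_).trans ?_
    · obtain ⟨a1, a2⟩ := hY' _ (r1 J hJ)
      rw [hGood] at a2
      obtain ⟨x₀, h0, hp⟩ := exists_pin a2.2.2.1 hP (by omega)
      refine (rare_pts h0 hp (b3 _ ⟨a1, a2.2.2.1⟩ p _ (a2.2.2.2.2 _ a1 a2.2.2.1) a2.1 a2.2.2.2.1)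
        (fun y hy => hX (hY' y (mem_filter.1 hy).1).1) fun y hy => ?_).trans_eq (by ring)
      obtain ⟨h1, h2⟩ := mem_filter.1 hy
      rw [r2 J hJ, ← h2]
      exact hz y (hY' y h1).1
    · rw [← sum_mul, ← sum_image (f := fun G : P3 => G.totalDegree) inj]
      refine Nat.mul_le_mul_right _ ((sum_le_sum_of_subset fun G' hG' => ?_).trans (hF p).2)
      obtain ⟨J, hJ, rfl⟩ := mem_image.1 hG'
      exact ((hGood _ _).1 (hY' _ (r1 J hJ)).2).2.1
  have sw1 : ∑ x ∈ X₁, (P.filter fun p => Good p x).card =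
      ∑ p ∈ P, (X₁.filter fun x => Good p x).card := by
    simp only [card_filter]
    exact sum_comm
  have sw2 : ∑ x ∈ X₁, (P.filter fun p => Ex p x ∧ coneAt p (G p x) ∉ I x).card =
      ∑ p ∈ P, (X₁.filter fun x => Ex p x ∧ coneAt p (G p x) ∉ I x).card := by
    simp only [card_filter]
    exact sum_comm
  have s1 : X₁.card * P.card ≤ 10 * ∑ x ∈ X₁, (P.filter fun p => Ex p x).card := by
    rw [mul_sum, ← smul_eq_mul, ← sum_const]
    refine sum_le_sum fun x h => (hx x h).2.trans_eq ?_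
    simp only [hEx]
  have s2 := sum_le_sum c5
  rw [sum_add_distrib, sum_add_distrib, sw1, sw2, sum_const, smul_eq_mul] at s2
  have s3 := sum_le_card_nsmul P _ _ fun p _ => c1 p
  have s4 := sum_le_card_nsmul P _ _ fun p _ => c6 p
  have s5 := Nat.mul_le_mul_right (B + 4 * T ^ 3) (card_le_card hX)
  have s6 := Nat.mul_le_mul_right P.card hX1
  have s7 := Nat.mul_le_mul_left P.card hC
  have s8 : 0 < P.card * 1 := by omega
  simp only [smul_eq_mul] at s3 s4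
  have s9 : P.card * (400000 * (T ^ 3 + k * T ^ 2 + B + T * (nD P + 1) + 1)) =
      400000 * (P.card * T ^ 3) + 400000 * (P.card * (k * T ^ 2)) + 400000 * (P.card * B) +
        100000 * (P.card * (T * ((nD P + 1) * 4))) + 400000 * (P.card * 1) := by ring
  have s10 : P.card * (B + 4 * T ^ 3) = P.card * B + 4 * (P.card * T ^ 3) := by ring
  rw [mul_assoc] at s6
  omega

end Vale.Agent.P054
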