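import Vale.Agent.P054.ConeB
import Vale.Agent.P054.Beck3

/-! RareA: two base cones (about 300 lines).
Choose `G p x ∈ 𝒢 p` through `x` for `(p, x) ∈ badE`. Remove the pairs with `gr (G p x) (x - p) = 0`: at most `k T^2` for each `p` (`sing_count` for each `G ∈ 𝒢 p`, `∑ δ^2 ≤ T^2`); more than `n^2/5` pairs stay. `Ex x` = the remaining `p` for `x`; `X₀ = {x | n ≤ 10 |Ex x|}` has `n ≤ 10 |X₀|`.
For `x ∈ X₀`, `p₁ ∈ Ex x` the `p₂ ∈ Ex x` with parallel gradients satisfy `ν₁ ⬝ᵥ (x - p₂) = 0` (Euler identity `IsHomogeneous.sum_X_mul_pderiv`), at most `B` points (real or imaginary part of `ν₁`). So there are at least `n^3/2000` triples `(p₁, p₂, x)`; pigeonhole on `(p₁, p₂)`.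
-/

noncomputable section

open Classical MvPolynomial Matrix Finset

namespace Vale.Agent.P054

/-- a family of cones of total degree at most `T` at every vertex -/
def Fam (𝒢 : V → Finset P3) (T : ℕ) : Prop :=
  ∀ p, (∀ G ∈ 𝒢 p, Irreducible G ∧ G.IsHomogeneous G.totalDegree ∧ 2 ≤ G.totalDegree) ∧
    ∑ G ∈ 𝒢 p, G.totalDegree ≤ T

def badE (P : Finset V) (𝒢 : V → Finset P3) (k : ℕ) : Finset (V × V) :=
  P.offDiag.filter fun e => rich P e.1 e.2 ≤ k ∧ ∃ G ∈ 𝒢 e.1, eval (cv (e.2 - e.1)) G = 0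

theorem rareA_comb {α : Type*} (P : Finset α) (R : α → α → Prop) (Q : α → α → α → Prop) {B : ℕ}
    (hB : 20 * B ≤ P.card) (hE : P.card ^ 2 < 5 * ∑ x ∈ P, (P.filter fun p => R p x).card)
    (hQ : ∀ x ∈ P, ∀ p₁ ∈ P, R p₁ x →
      (P.filter fun p => R p x).card ≤ (P.filter fun p => Q p₁ p x).card + B) :
    ∃ (p₁ p₂ : α) (X₁ : Finset α), X₁ ⊆ P ∧ P.card ≤ 2000 * X₁.card ∧ ∀ x ∈ X₁,
      Q p₁ p₂ x ∧ P.card ≤ 10 * (P.filter fun p => R p x).card := by
  obtain ⟨X₀, hX₀⟩ : ∃ X₀ : Finset α,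
      X₀ = P.filter fun x => P.card ≤ 10 * (P.filter fun p => R p x).card := ⟨_, rfl⟩
  have hne : P.Nonempty := by
    rw [Finset.nonempty_iff_ne_empty]
    rintro rfl
    simp at hE
  have hpos : 0 < P.card := hne.card_pos
  have h1 : P.card ≤ 10 * X₀.card := by
    have h2 : ∑ x ∈ P, 10 * (P.filter fun p => R p x).card ≤
        ∑ x ∈ P, ((if P.card ≤ 10 * (P.filter fun p => R p x).card then 10 * P.card else 0)
          + P.card) := by
      refine Finset.sum_le_sum fun x _ => ?_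
      have h3 : (P.filter fun p => R p x).card ≤ P.card := Finset.card_filter_le _ _
      split_ifs with h <;> omega
    rw [← Finset.mul_sum, Finset.sum_add_distrib, ← Finset.sum_filter, ← hX₀, Finset.sum_const,
      Finset.sum_const, smul_eq_mul, smul_eq_mul] at h2
    have h4 : P.card * P.card < P.card * (10 * X₀.card) := by nlinarith
    exact (Nat.lt_of_mul_lt_mul_left h4).le
  have h2 : ∀ x ∈ X₀, P.card * P.card ≤
      200 * ∑ p₁ ∈ P, (P.filter fun p => Q p₁ p x).card := by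
    intro x hx
    rw [hX₀, Finset.mem_filter] at hx
    have h3 : ∑ _p₁ ∈ P.filter (fun p => R p x), P.card ≤
        ∑ p₁ ∈ P.filter (fun p => R p x), 20 * (P.filter fun p => Q p₁ p x).card := by
      refine Finset.sum_le_sum fun p₁ hp => ?_
      rw [Finset.mem_filter] at hp
      have h4 := hQ x hx.1 p₁ hp.1 hp.2
      have h5 := hx.2
      omega
    have h4 : ∑ p₁ ∈ P.filter (fun p => R p x), (P.filter fun p => Q p₁ p x).card ≤
        ∑ p₁ ∈ P, (P.filter fun p => Q p₁ p x).card :=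
      Finset.sum_le_sum_of_subset (Finset.filter_subset _ _)
    rw [Finset.sum_const, smul_eq_mul, ← Finset.mul_sum] at h3
    have h5 := Nat.mul_le_mul_right P.card hx.2
    nlinarith
  have h3 : ∑ x ∈ X₀, ∑ p₁ ∈ P, (P.filter fun p => Q p₁ p x).card =
      ∑ e ∈ P ×ˢ P, (X₀.filter fun x => Q e.1 e.2 x).card := by
    simp only [Finset.card_filter]
    rw [Finset.sum_product, Finset.sum_comm]
    exact Finset.sum_congr rfl fun p₁ _ => Finset.sum_comm
  have h4 : ∑ _e ∈ P ×ˢ P, P.card ≤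
      ∑ e ∈ P ×ˢ P, 2000 * (X₀.filter fun x => Q e.1 e.2 x).card := by
    have h5 := Finset.sum_le_sum h2
    rw [Finset.sum_const, smul_eq_mul, ← Finset.mul_sum, h3] at h5
    rw [Finset.sum_const, smul_eq_mul, ← Finset.mul_sum, Finset.card_product]
    have h6 := Nat.mul_le_mul_left (P.card * P.card) h1
    nlinarith
  obtain ⟨e, -, he⟩ := Finset.exists_le_of_sum_le (hne.product hne) h4
  refine ⟨e.1, e.2, _, ?_, he, fun x hx => ?_⟩
  · rw [hX₀]
    exact (Finset.filter_subset _ _).trans (Finset.filter_subset _ _)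
  · rw [Finset.mem_filter, hX₀, Finset.mem_filter] at hx
    exact ⟨hx.2, hx.1.2⟩

theorem rareA_euler {G : P3} {d : ℕ} (hG : G.IsHomogeneous d) {w : Fin 3 → ℂ}
    (h : eval w G = 0) : gr G w ⬝ᵥ w = 0 := by
  have h1 := congrArg (eval w) hG.sum_X_mul_pderiv
  rw [map_sum, map_nsmul, h, smul_zero] at h1
  rw [← h1, dotProduct]
  refine Finset.sum_congr rfl fun i _ => ?_
  rw [map_mul, eval_X, gr, aeval_eq_eval, mul_comm]

theorem rareA_cv_sub (a b : V) : cv a - cv b = cv (a - b) := by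
  funext i
  simp [cv]

theorem rareA_plane {P : Finset V} {B : ℕ} (hP : PlaneLe P B) {ν : Fin 3 → ℂ} (hν : ν ≠ 0)
    (x : V) : (P.filter fun p => ν ⬝ᵥ cv (x - p) = 0).card ≤ B := by
  have key : ∀ μ : V, μ ≠ 0 → (∀ p, ν ⬝ᵥ cv (x - p) = 0 → μ ⬝ᵥ (x - p) = 0) →
      (P.filter fun p => ν ⬝ᵥ cv (x - p) = 0).card ≤ B := by
    intro μ hμ h
    refine (Finset.card_le_card fun p hp => ?_).trans (hP μ hμ (μ ⬝ᵥ x))
    rw [Finset.mem_filter] at hp ⊢
    have h2 := h p hp.2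
    rw [dotProduct_sub] at h2
    exact ⟨hp.1, by linarith⟩
  by_cases hr : (fun i => (ν i).re) = 0
  · refine key (fun i => (ν i).im) (fun hi => hν (funext fun i => ?_)) fun p hp => ?_
    · exact Complex.ext (congrFun hr i) (congrFun hi i)
    · have h2 := congrArg Complex.im hp
      simpa [dotProduct, cv, Complex.im_sum] using h2
  · refine key _ hr fun p hp => ?_
    have h2 := congrArg Complex.re hp
    simpa [dotProduct, cv, Complex.re_sum] using h2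

/-- `x` is a regular point of a cone of the family at `p` -/
def rareA_R (𝒢 : V → Finset P3) (p x : V) : Prop :=
  ∃ G ∈ 𝒢 p, eval (cv (x - p)) G = 0 ∧ gr G (cv (x - p)) ≠ 0

/-- two cones meet transversally at `x` -/
def rareA_Q (𝒢 : V → Finset P3) (p₁ p₂ x : V) : Prop :=
  ∃ G₁ ∈ 𝒢 p₁, ∃ G₂ ∈ 𝒢 p₂, eval (cv (x - p₁)) G₁ = 0 ∧ eval (cv (x - p₂)) G₂ = 0 ∧
    gr (coneAt p₁ G₁) (cv x) ⨯₃ gr (coneAt p₂ G₂) (cv x) ≠ 0

theorem rareA_tr {P : Finset V} {𝒢 : V → Finset P3} {T B : ℕ} (hF : Fam 𝒢 T) (hP : PlaneLe P B)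
    {x p₁ : V} (h : rareA_R 𝒢 p₁ x) : (P.filter fun p => rareA_R 𝒢 p x).card ≤
      (P.filter fun p => rareA_Q 𝒢 p₁ p x).card + B := by
  obtain ⟨G₁, hG₁, e₁, n₁⟩ := h
  refine le_trans (Finset.card_le_card fun p hp => ?_) ((Finset.card_union_le _ _).trans
    (Nat.add_le_add_left (rareA_plane hP n₁ x) _))
  rw [Finset.mem_filter] at hp
  obtain ⟨hp, G₂, hG₂, e₂, n₂⟩ := hp
  rw [Finset.mem_union, Finset.mem_filter, Finset.mem_filter]
  by_cases hc : gr G₁ (cv (x - p₁)) ⨯₃ gr G₂ (cv (x - p)) = 0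
  · refine Or.inr ⟨hp, ?_⟩
    have h1 := cross_cross_eq_smul_sub_smul (gr G₁ (cv (x - p₁))) (gr G₂ (cv (x - p)))
      (cv (x - p))
    rw [hc, rareA_euler ((hF p).1 G₂ hG₂).2.1 e₂, zero_smul, sub_zero, map_zero,
      LinearMap.zero_apply] at h1
    exact (smul_eq_zero.1 h1.symm).resolve_right n₂
  · refine Or.inl ⟨hp, G₁, hG₁, G₂, hG₂, e₁, e₂, ?_⟩
    rw [gr_coneAt, gr_coneAt, rareA_cv_sub, rareA_cv_sub]
    exact hc

/-- the singular points of the cone `G` at `p` on poor lines -/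
def rareA_S (P : Finset V) (k : ℕ) (p : V) (G : P3) : Finset V :=
  P.filter fun x => x ≠ p ∧ rich P p x ≤ k ∧ eval (cv (x - p)) G = 0 ∧ gr G (cv (x - p)) = 0

theorem rareA_sing {P : Finset V} {𝒢 : V → Finset P3} {T : ℕ} (hF : Fam 𝒢 T) (k : ℕ) (p : V) :
    ∑ G ∈ 𝒢 p, (rareA_S P k p G).card ≤ k * T ^ 2 := by
  have h1 : ∀ G ∈ 𝒢 p, (rareA_S P k p G).card ≤ k * T * G.totalDegree := by
    intro G hG
    obtain ⟨hi, hh, -⟩ := (hF p).1 G hG
    have h2 : (rareA_S P k p G).card ≤ k * G.totalDegree ^ 2 := by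
      refine sing_count hi hh p (fun hp => (Finset.mem_filter.1 hp).2.1 rfl) (fun x hx => ?_)
        fun x hx => (Finset.mem_filter.1 hx).2.2.2
      refine le_trans (Finset.card_le_card fun y hy => ?_) (Finset.mem_filter.1 hx).2.2.1
      rw [Finset.mem_filter] at hy ⊢
      exact ⟨(Finset.mem_filter.1 hy.1).1, hy.2⟩
    have h3 : G.totalDegree ≤ T :=
      (Finset.single_le_sum (f := fun G : P3 => G.totalDegree) (fun _ _ => Nat.zero_le _) hG).trans
        (hF p).2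
    calc (rareA_S P k p G).card ≤ k * G.totalDegree * G.totalDegree := by rw [mul_assoc, ← pow_two]; exact h2
      _ ≤ k * T * G.totalDegree := Nat.mul_le_mul_right _ (Nat.mul_le_mul_left _ h3)
  calc ∑ G ∈ 𝒢 p, (rareA_S P k p G).card ≤ ∑ G ∈ 𝒢 p, k * T * G.totalDegree :=
        Finset.sum_le_sum h1
    _ = k * T * ∑ G ∈ 𝒢 p, G.totalDegree := by rw [Finset.mul_sum]
    _ ≤ k * T * T := Nat.mul_le_mul_left _ (hF p).2
    _ = k * T ^ 2 := by ring

theorem rareA_bad {P : Finset V} {𝒢 : V → Finset P3} {T : ℕ} (hF : Fam 𝒢 T) (k : ℕ) :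
    (badE P 𝒢 k).card ≤
      ∑ x ∈ P, (P.filter fun p => rareA_R 𝒢 p x).card + P.card * (k * T ^ 2) := by
  have hsub : badE P 𝒢 k ⊆
      (P.biUnion fun x => (P.filter fun p => rareA_R 𝒢 p x).image fun p => (p, x)) ∪
      (P.biUnion fun p => (𝒢 p).biUnion fun G => (rareA_S P k p G).image fun x => (p, x)) := by
    rintro ⟨p, x⟩ he
    rw [badE, Finset.mem_filter, Finset.mem_offDiag] at he
    obtain ⟨⟨hp, hx, hne⟩, hr, G, hG, e⟩ := he
    rw [Finset.mem_union]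
    by_cases hg : gr G (cv (x - p)) = 0
    · refine Or.inr (Finset.mem_biUnion.2 ⟨p, hp, Finset.mem_biUnion.2 ⟨G, hG,
        Finset.mem_image.2 ⟨x, ?_, rfl⟩⟩⟩)
      exact Finset.mem_filter.2 ⟨hx, fun h => hne h.symm, hr, e, hg⟩
    · exact Or.inl (Finset.mem_biUnion.2 ⟨x, hx, Finset.mem_image.2
        ⟨p, Finset.mem_filter.2 ⟨hp, G, hG, e, hg⟩, rfl⟩⟩)
  refine (Finset.card_le_card hsub).trans ((Finset.card_union_le _ _).trans (add_le_add ?_ ?_))
  · exact Finset.card_biUnion_le.trans (Finset.sum_le_sum fun x _ => Finset.card_image_le)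
  · refine Finset.card_biUnion_le.trans ?_
    rw [← smul_eq_mul, ← Finset.sum_const]
    refine Finset.sum_le_sum fun p _ => Finset.card_biUnion_le.trans ?_
    exact (Finset.sum_le_sum fun G _ => Finset.card_image_le).trans (rareA_sing hF k p)

theorem exists_base {P : Finset V} {𝒢 : V → Finset P3} {T k B : ℕ} (hF : Fam 𝒢 T)
    (hP : PlaneLe P B) (h1 : 20 * (k * T ^ 2 + B) ≤ P.card) (hE : P.card ^ 2 < 4 * (badE P 𝒢 k).card) :
    ∃ (p₁ p₂ : V) (X₁ : Finset V), X₁ ⊆ P ∧ P.card ≤ 2000 * X₁.card ∧ ∀ x ∈ X₁,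
      (∃ G₁ ∈ 𝒢 p₁, ∃ G₂ ∈ 𝒢 p₂, eval (cv (x - p₁)) G₁ = 0 ∧ eval (cv (x - p₂)) G₂ = 0 ∧
        gr (coneAt p₁ G₁) (cv x) ⨯₃ gr (coneAt p₂ G₂) (cv x) ≠ 0) ∧
      P.card ≤ 10 * (P.filter fun p => ∃ G ∈ 𝒢 p, eval (cv (x - p)) G = 0).card := by
  have h2 := rareA_bad (P := P) hF k
  have h3 : P.card * (20 * (k * T ^ 2)) ≤ P.card * P.card := Nat.mul_le_mul_left _ (by omega)
  obtain ⟨p₁, p₂, X₁, hX, hc, h⟩ := rareA_comb P (rareA_R 𝒢) (rareA_Q 𝒢) (B := B) (by omega)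
    (by nlinarith) fun x _ p₁ _ h => rareA_tr hF hP h
  refine ⟨p₁, p₂, X₁, hX, hc, fun x hx => ⟨(h x hx).1, (h x hx).2.trans ?_⟩⟩
  refine Nat.mul_le_mul_left _ (Finset.card_le_card fun p hp => ?_)
  rw [Finset.mem_filter] at hp ⊢
  obtain ⟨hp, G, hG, e, -⟩ := hp
  exact ⟨hp, G, hG, e⟩

end Vale.Agent.P054
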