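import Vale.Agent.P054.QT

/-! RootL: the roots are constant along their flats (about 300 lines).
`grad_yt`: `(e × h_s) × h_σ = (e ⬝ h_σ) h_s - (h_s ⬝ h_σ) e`. By multilinearity the hypotheses on `qT`, `cT` (complex vectors, `evT_qT`, `evT_cT`) extend to all `d` in `Ω³` (expand in `Pi.single i 1`).
`root_step`: apply `δ` to `h_s = y × h_σ`: `δ h_s = η × h_σ + y × δ h_σ` with `η = δ y`; `δ (gr h ξ a) = d1 (pderiv a h) ξ (δ ξ)`, so `0 = d2 h ξ (tv y d') (tv y d) = d' ⬝ᵥ (η × h_σ)` for all `d'`.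
`root_const`: `yt t e = t`, so `η e = 0`. `root_simple`: `η = λ h_σ`; apply `der_d2` to `d2 h ξ (tv y d₀) (tv y d₀') = 0`, with `δ (tv y d₀) = λ • (0, -(d₀ × h_σ))`; the coefficient of `λ` is the derivative of `t' ↦ q(t')` at `t` divided by `n` (`tv (yt (t + x)) d₀ = tv (yt t) d₀ + (x / n) • (0, -(d₀ × h_σ))`, compare `x = 1` and `x = -1`), which is `Q (t - t₂) / n ≠ 0`.
-/

noncomputable section

open Classical MvPolynomial Matrix Finset

namespace Vale.Agent.P054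

variable {Ω : Type*} [Field Ω] [Algebra ℂ Ω] {h : P6} {e : Fin 3} {ξ : S6 → Ω}

/-- the variation of `tv y d` in the direction `v` -/
def rlW (d v : Fin 3 → Ω) : S6 → Ω := Sum.elim 0 (-(d ⨯₃ v))

omit [Algebra ℂ Ω] in
theorem rl_tv_add (y v d : Fin 3 → Ω) (r : Ω) : tv (y + r • v) d = tv y d + r • rlW d v := by
  funext a
  rcases a with i | i
  · simp [tv, rlW]
  · fin_cases i <;> simp [tv, rlW, cross_apply] <;> ring

omit [Algebra ℂ Ω] in
theorem rl_smul (d v : Fin 3 → Ω) (r : Ω) : rlW d (r • v) = r • rlW d v := by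
  funext a
  rcases a with i | i
  · simp [rlW]
  · fin_cases i <;> simp [rlW, cross_apply] <;> ring

theorem rl_expand (A W A' W' : S6 → Ω) (r : Ω) : d2 h ξ (A + r • W) (A' + r • W') =
    d2 h ξ A A' + r * (d2 h ξ W A' + d2 h ξ W' A) + r ^ 2 * d2 h ξ W' W := by
  rw [d2_add, d2_smul, d2_comm h ξ A, d2_comm h ξ W, d2_add, d2_add, d2_smul, d2_smul,
    d2_comm h ξ A' A, d2_comm h ξ A' W]
  ring

theorem rl_der (δ : Derivation ℂ Ω Ω) (y : Fin 3 → Ω) (d : Fin 3 → ℂ) :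
    (fun a => δ (tv y (up Ω d) a)) = rlW (up Ω d) fun i => δ (y i) := by
  funext a
  rcases a with i | i
  · simp [tv, rlW, up]
  · fin_cases i <;> simp [tv, rlW, up, cross_apply]

theorem rl_d1 (d v : Fin 3 → Ω) :
    d1 h ξ (rlW d v) = -(d ⬝ᵥ (v ⨯₃ fun i => gr h ξ (.inr i))) := by
  simp [d1, gr, rlW, cross_apply, dotProduct, Fin.sum_univ_three, Fintype.sum_sum_type]
  ring

theorem rl_up (i : Fin 3) : up Ω (Pi.single i 1 : Fin 3 → ℂ) = Pi.single i 1 := by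
  funext j
  simp [up, Pi.single_apply, apply_ite]

theorem rl_exp (y d : Fin 3 → Ω) : tv y d = d 0 • tv y (up Ω (Pi.single 0 1)) +
    d 1 • tv y (up Ω (Pi.single 1 1)) + d 2 • tv y (up Ω (Pi.single 2 1)) := by
  rw [rl_up, rl_up, rl_up]
  funext a
  rcases a with i | i <;> fin_cases i <;> simp [tv, cross_apply] <;> ring

omit [Algebra ℂ Ω] in
theorem rl_par {η σ : Fin 3 → Ω} (h0 : η ⨯₃ σ = 0) (hn : σ e ≠ 0) : η = (η e / σ e) • σ := by
  have h1 := cross_cross_eq_smul_sub_smul' (Pi.single e 1) η σ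
  rw [h0, map_zero, single_one_dotProduct, dotProduct_comm, single_one_dotProduct, eq_comm,
    sub_eq_zero] at h1
  rw [div_eq_inv_mul, mul_smul, ← h1, inv_smul_smul₀ hn]

theorem GenH.grad_yt (hg : GenH h e ξ) (t : Ω) :
    (fun i => gr h ξ (.inl i)) = yt h e ξ t ⨯₃ fun i => gr h ξ (.inr i) := by
  rw [yt, map_smul, LinearMap.smul_apply, map_add, LinearMap.add_apply, map_smul,
    LinearMap.smul_apply, cross_self, cross_cross_eq_smul_sub_smul, hg.null, single_one_dotProduct,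
    smul_zero, zero_smul, sub_zero, add_zero, inv_smul_smul₀ hg.n_ne]

theorem GenH.yt_sub (hg : GenH h e ξ) (t t' : Ω) :
    yt h e ξ t - yt h e ξ t' = ((t - t') / gr h ξ (.inr e)) • fun i => gr h ξ (.inr i) := by
  have _ := hg.n_ne
  rw [yt, yt, ← smul_sub, add_sub_add_left_eq_sub, ← sub_smul, smul_smul, div_eq_inv_mul]

theorem GenH.rl_q (hg : GenH h e ξ) {t : Ω} (hq : ∀ d d', evT ξ t (qT h e d d') = 0)
    (d : Fin 3 → Ω) (d' : Fin 3 → ℂ) :
    d2 h ξ (tv (yt h e ξ t) d) (tv (yt h e ξ t) (up Ω d')) = 0 := by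
  have k : ∀ c, d2 h ξ (tv (yt h e ξ t) (up Ω c)) (tv (yt h e ξ t) (up Ω d')) = 0 := fun c =>
    (mul_eq_zero.1 ((evT_qT h e hg.n_ne t c d').symm.trans (hq c d'))).resolve_left
      (pow_ne_zero _ hg.n_ne)
  rw [rl_exp _ d, d2_add, d2_add, d2_smul, d2_smul, d2_smul, k, k, k]
  simp

theorem GenH.rl_c (hg : GenH h e ξ) {t : Ω} (hc : ∀ d d' d'', evT ξ t (cT h e d d' d'') = 0)
    (d : Fin 3 → Ω) (d' d'' : Fin 3 → ℂ) : d3 h ξ (tv (yt h e ξ t) d)
      (tv (yt h e ξ t) (up Ω d')) (tv (yt h e ξ t) (up Ω d'')) = 0 := by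
  have k : ∀ c, d3 h ξ (tv (yt h e ξ t) (up Ω c)) (tv (yt h e ξ t) (up Ω d'))
      (tv (yt h e ξ t) (up Ω d'')) = 0 := fun c =>
    (mul_eq_zero.1 ((evT_cT h e hg.n_ne t c d' d'').symm.trans (hc c d' d''))).resolve_left
      (pow_ne_zero _ hg.n_ne)
  rw [rl_exp _ d, d3_add, d3_add, d3_smul, d3_smul, d3_smul, k, k, k]
  simp

theorem GenH.root_step (hg : GenH h e ξ) {t : Ω} (hq : ∀ d d', evT ξ t (qT h e d d') = 0)
    (δ : Derivation ℂ Ω Ω) (d : Fin 3 → Ω) (hδ : ∀ a, δ (ξ a) = tv (yt h e ξ t) d a) :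
    (fun i => δ (yt h e ξ t i)) ⨯₃ (fun i => gr h ξ (.inr i)) = 0 := by
  funext i
  have h1 := der_d1 h ξ (tv (yt h e ξ t) (up Ω (Pi.single i 1))) δ
  rw [d1_tv, ← hg.grad_yt, sub_self, dotProduct_zero, map_zero, funext hδ, hg.rl_q hq, rl_der,
    rl_d1, rl_up, single_one_dotProduct, zero_add, eq_comm, neg_eq_zero] at h1
  exact h1

theorem GenH.root_const (hg : GenH h e ξ) (c : ℂ)
    (hq : ∀ d d', evT ξ (algebraMap ℂ Ω c) (qT h e d d') = 0) : Root h e ξ (algebraMap ℂ Ω c) :=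
  fun δ d hδ i => by
    have h1 : yt h e ξ (algebraMap ℂ Ω c) e = algebraMap ℂ Ω c := by
      have h2 := dot_self_cross (Pi.single e (1 : Ω)) fun i => gr h ξ (.inl i)
      rw [single_one_dotProduct] at h2
      rw [yt, Pi.smul_apply, Pi.add_apply, h2, zero_add, Pi.smul_apply, smul_eq_mul, smul_eq_mul,
        mul_comm, mul_inv_cancel_right₀ hg.n_ne]
    have h3 := congrFun (rl_par (e := e) (hg.root_step hq δ d hδ) hg.n_ne) i
    rw [h1, Derivation.map_algebraMap, zero_div, zero_smul] at h3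
    exact h3

theorem GenH.root_simple (hg : GenH h e ξ) {t t₂ Q : Ω} (ht : t ≠ t₂) (hQ : Q ≠ 0)
    {d₀ d₀' : Fin 3 → ℂ} (h0 : ∀ t', evT ξ t' (qT h e d₀ d₀') = Q * (t' - t) * (t' - t₂))
    (hq : ∀ d d', evT ξ t (qT h e d d') = 0) (hc : ∀ d d' d'', evT ξ t (cT h e d d' d'') = 0) :
    Root h e ξ t := fun δ d hδ i => by
  have : CharZero Ω := charZero_of_injective_algebraMap (algebraMap ℂ Ω).injective
  have hn := hg.n_ne
  have h1 := rl_par (e := e) (hg.root_step hq δ d hδ) hn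
  generalize δ (yt h e ξ t e) / gr h ξ (.inr e) = l at h1
  have h2 := der_d2 h ξ (tv (yt h e ξ t) (up Ω d₀)) (tv (yt h e ξ t) (up Ω d₀')) δ
  rw [hg.rl_q hq, map_zero, funext hδ, hg.rl_c hc, rl_der, rl_der, h1, rl_smul, rl_smul, d2_smul,
    d2_comm h ξ _ (l • _), d2_smul, zero_add, ← mul_add] at h2
  have h3 := fun r => (evT_qT h e hn _ d₀ d₀').symm.trans (h0 (t + gr h ξ (.inr e) * r))
  have k : ∀ r, yt h e ξ (t + gr h ξ (.inr e) * r) =
      yt h e ξ t + r • fun i => gr h ξ (.inr i) := fun r => by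
    rw [← sub_eq_iff_eq_add', hg.yt_sub, add_sub_cancel_left, mul_div_cancel_left₀ _ hn]
  simp only [k, rl_tv_add, rl_expand, hg.rl_q hq] at h3
  have h6 : l = 0 := (mul_eq_zero.1 h2.symm).resolve_right fun h7 =>
    mul_ne_zero (mul_ne_zero (two_ne_zero (α := Ω)) (mul_ne_zero hQ hn)) (sub_ne_zero.2 ht)
      (by linear_combination h3 (-1) - h3 1 + 2 * gr h ξ (.inr e) ^ 2 * h7)
  have h8 := congrFun h1 i
  rwa [h6, zero_smul] at h8

end Vale.Agent.P054
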