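import Vale.Agent.P054.QDefs
import Vale.Agent.P054.MirG

/-! Rot: the linear part of a motion (about 200 lines).
With `N = ν ⬝ᵥ ν > 0` all identities are polynomial after clearing `N + c^2` (coordinates, `field_simp`, `ring`). `rel_iff`: with `a = w.1 - z.1`, `b = w.2 - z.2`, `rel` says `ν ⬝ᵥ (a + b) = 0` and `ν × (b - a) + c (a + b) = 0`; the right side satisfies these, and the system has one solution (`rel.eq_of_fst`, `rel.trans`).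
`rot_ext`: `a, b, a × b` is a basis (`rot_cross`, Cramer). `chart`: let `σ = n₁ + n₂`, `δ = n₂ - n₁`, so `ν ⬝ᵥ σ = 0`, `ν × δ + c σ = 0`. If `σ = 0` then `ν` is a nonzero multiple of `n₁`: take `(n₁, 0), (0, 1)`. Otherwise `c = -(ν × δ) ⬝ᵥ σ / σ ⬝ᵥ σ` is linear in `ν`; take a basis `f₀, f₁` of `σ^⊥`, write `ν = x f₀ + y f₁ = (x - ε y) f₀ + y (f₁ + ε f₀)` with `ε` outside the finite set of the `x / y`.
`mot_mirs`: `mirg_data`.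
-/

noncomputable section

open Classical MvPolynomial Matrix Finset

namespace Vale.Agent.P054

variable {ν : V} {c : ℝ}

theorem rot_den (hν : ν ≠ 0) (c : ℝ) : ν 0 ^ 2 + ν 1 ^ 2 + ν 2 ^ 2 + c ^ 2 ≠ 0 := by
  have h : ν 0 ^ 2 + ν 1 ^ 2 + ν 2 ^ 2 ≠ 0 := by
    simpa [dotProduct, Fin.sum_univ_three, pow_two] using nn_MirA hν
  exact (add_pos_of_pos_of_nonneg (lt_of_le_of_ne (by positivity) h.symm) (sq_nonneg c)).ne'

theorem rot_cr (a b : V) : (a ⨯₃ b) 0 = a 1 * b 2 - a 2 * b 1 ∧ (a ⨯₃ b) 1 = a 2 * b 0 - a 0 * b 2 ∧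
    (a ⨯₃ b) 2 = a 0 * b 1 - a 1 * b 0 := by
  simp [cross_apply]

theorem rot_co (ν : V) (c : ℝ) (a : V) :
    rot ν c a 0 = (ν 0 ^ 2 + ν 1 ^ 2 + ν 2 ^ 2 + c ^ 2)⁻¹ *
      ((ν 0 ^ 2 + ν 1 ^ 2 + ν 2 ^ 2 - c ^ 2) * a 0 + 2 * c * (ν 1 * a 2 - ν 2 * a 1) -
        2 * (ν 0 * a 0 + ν 1 * a 1 + ν 2 * a 2) * ν 0) ∧
    rot ν c a 1 = (ν 0 ^ 2 + ν 1 ^ 2 + ν 2 ^ 2 + c ^ 2)⁻¹ *
      ((ν 0 ^ 2 + ν 1 ^ 2 + ν 2 ^ 2 - c ^ 2) * a 1 + 2 * c * (ν 2 * a 0 - ν 0 * a 2) -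
        2 * (ν 0 * a 0 + ν 1 * a 1 + ν 2 * a 2) * ν 1) ∧
    rot ν c a 2 = (ν 0 ^ 2 + ν 1 ^ 2 + ν 2 ^ 2 + c ^ 2)⁻¹ *
      ((ν 0 ^ 2 + ν 1 ^ 2 + ν 2 ^ 2 - c ^ 2) * a 2 + 2 * c * (ν 0 * a 1 - ν 1 * a 0) -
        2 * (ν 0 * a 0 + ν 1 * a 1 + ν 2 * a 2) * ν 2) := by
  simp only [rot, Pi.smul_apply, Pi.add_apply, Pi.sub_apply, smul_eq_mul, rot_cr, dotProduct,
    Fin.sum_univ_three, ← pow_two, and_self]

theorem rot_vext {a b : V} (h0 : a 0 = b 0) (h1 : a 1 = b 1) (h2 : a 2 = b 2) : a = b := by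
  funext i
  fin_cases i
  exacts [h0, h1, h2]

theorem rot_add (ν : V) (c : ℝ) (a b : V) : rot ν c (a + b) = rot ν c a + rot ν c b := by
  simp only [rot, map_add, dotProduct_add]
  module

theorem rot_sub (ν : V) (c : ℝ) (a b : V) : rot ν c (a - b) = rot ν c a - rot ν c b := by
  simp only [rot, map_sub, dotProduct_sub]
  module

theorem rot_smul (ν : V) (c t : ℝ) (a : V) : rot ν c (t • a) = t • rot ν c a := by
  simp only [rot, map_smul, dotProduct_smul, smul_eq_mul]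
  module

theorem rot_dot (hν : ν ≠ 0) (c : ℝ) (a b : V) : rot ν c a ⬝ᵥ rot ν c b = a ⬝ᵥ b := by
  have h := rot_den hν c
  simp only [dotProduct, Fin.sum_univ_three, rot_co]
  field_simp
  ring

theorem rot_cross (hν : ν ≠ 0) (c : ℝ) (a b : V) :
    rot ν c a ⨯₃ rot ν c b = -rot ν c (a ⨯₃ b) := by
  have h := rot_den hν c
  refine rot_vext ?_ ?_ ?_ <;> simp only [Pi.neg_apply, rot_co, rot_cr] <;> field_simp <;> ring

theorem rot_inv (hν : ν ≠ 0) (c : ℝ) (a : V) : rot ν c (rot ν (-c) a) = a := by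
  have h := rot_den hν c
  refine rot_vext ?_ ?_ ?_ <;> simp only [rot_co, neg_sq] <;> field_simp <;> ring

theorem rot_eq_zero (hν : ν ≠ 0) (c : ℝ) {a : V} : rot ν c a = 0 ↔ a = 0 := by
  refine ⟨fun h => ?_, fun h => ?_⟩
  · have h1 := rot_dot hν c a a
    rw [h, dotProduct_zero] at h1
    exact dotProduct_self_eq_zero.1 h1.symm
  · simp [h, rot]

theorem rot_scale {t : ℝ} (ht : t ≠ 0) (ν : V) (c : ℝ) : rot (t • ν) (t * c) = rot ν c := by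
  funext a
  have e1 : (t • ν) ⬝ᵥ (t • ν) + (t * c) ^ 2 = t ^ 2 * (ν ⬝ᵥ ν + c ^ 2) := by
    simp only [smul_dotProduct, dotProduct_smul, smul_eq_mul]
    ring
  have e2 : ((t • ν) ⬝ᵥ (t • ν) - (t * c) ^ 2) • a + (2 * (t * c)) • ((t • ν) ⨯₃ a) -
      (2 * ((t • ν) ⬝ᵥ a)) • t • ν =
      t ^ 2 • ((ν ⬝ᵥ ν - c ^ 2) • a + (2 * c) • (ν ⨯₃ a) - (2 * (ν ⬝ᵥ a)) • ν) := by
    simp only [smul_dotProduct, dotProduct_smul, smul_eq_mul, map_smul, LinearMap.smul_apply]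
    module
  rw [rot, e1, e2, smul_smul, mul_inv, mul_right_comm, inv_mul_cancel₀ (pow_ne_zero 2 ht), one_mul,
    rot]

theorem rot_of_prop {ν' : V} {c' : ℝ} (hν : ν ≠ 0) (hν' : ν' ≠ 0) (h1 : ν ⨯₃ ν' = 0)
    (h2 : c' • ν = c • ν') : rot ν c = rot ν' c' := by
  have h3 := par_MirA (nn_MirA hν) h1
  generalize ν ⬝ᵥ ν' / ν ⬝ᵥ ν = t at h3
  subst h3
  have ht : t ≠ 0 := fun h => hν' (by rw [h, zero_smul])
  rw [smul_smul] at h2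
  rw [smul_left_injective ℝ hν h2, mul_comm, rot_scale ht]

theorem rel_iff (hν : ν ≠ 0) {z w : V × V} : rel ν c z w ↔ w.2 - z.2 = rot ν c (w.1 - z.1) := by
  have key : ∀ {z w : V × V}, w.2 - z.2 = rot ν c (w.1 - z.1) → rel ν c z w := by
    intro z w h
    have e1 : w.1 + w.2 - (z.1 + z.2) = (w.1 - z.1) + rot ν c (w.1 - z.1) := by
      rw [← h]
      abel
    have e2 : w.2 - w.1 - (z.2 - z.1) = rot ν c (w.1 - z.1) - (w.1 - z.1) := by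
      rw [← h]
      abel
    have hd := rot_den hν c
    rw [rel, e1, e2]
    generalize w.1 - z.1 = a
    refine ⟨?_, rot_vext ?_ ?_ ?_⟩ <;>
      simp only [dotProduct, Fin.sum_univ_three, Pi.add_apply, Pi.sub_apply, Pi.smul_apply,
        smul_eq_mul, rot_co, rot_cr, Pi.zero_apply] <;> field_simp <;> ring
  refine ⟨fun h => ?_, key⟩
  have h1 : rel ν c z (w.1, z.2 + rot ν c (w.1 - z.1)) := key (by simp)
  have h2 := congrArg Prod.snd ((h.symm.trans h1).eq_of_fst hν rfl)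
  exact sub_eq_iff_eq_add'.2 h2

theorem rel.eq_of_snd (hν : ν ≠ 0) {z w : V × V} (h : rel ν c z w) (h2 : z.2 = w.2) : z = w := by
  have h1 := (rel_iff hν).1 h
  rw [h2, sub_self, eq_comm, rot_eq_zero hν, sub_eq_zero] at h1
  exact h.eq_of_fst hν h1.symm

theorem rot_ext {ν' : V} {c' : ℝ} (hν : ν ≠ 0) (hν' : ν' ≠ 0) {a b : V} (hab : a ⨯₃ b ≠ 0)
    (ha : rot ν c a = rot ν' c' a) (hb : rot ν c b = rot ν' c' b) : rot ν c = rot ν' c' := by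
  have hn : rot ν c (a ⨯₃ b) = rot ν' c' (a ⨯₃ b) :=
    neg_injective (by rw [← rot_cross hν, ← rot_cross hν', ha, hb])
  have hD : a ⬝ᵥ (b ⨯₃ (a ⨯₃ b)) ≠ 0 := by
    rw [triple_product_permutation, triple_product_permutation]
    exact nn_MirA hab
  funext x
  refine smul_right_injective V hD ?_
  simp only [← rot_smul]
  rw [mb_prim x a b (a ⨯₃ b)]
  simp only [rot_add, rot_smul, ha, hb, hn]

theorem chart {ι : Type} (𝒯 : Finset ι) (ν : ι → V) (c : ι → ℝ) {n₁ n₂ : V} (hn : n₁ ≠ 0)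
    (h : ∀ T ∈ 𝒯, ν T ≠ 0 ∧ rot (ν T) (c T) n₁ = n₂) :
    ∃ (ν₀ ν₁ : V) (c₀ c₁ : ℝ), ∀ T ∈ 𝒯, ∃ α t : ℝ, α ≠ 0 ∧ ν T = α • (ν₀ + t • ν₁) ∧
      c T = α * (c₀ + t * c₁) := by
  have h1 : ∀ T ∈ 𝒯, ν T ⬝ᵥ (n₁ + n₂) = 0 ∧ ν T ⨯₃ (n₂ - n₁) + c T • (n₁ + n₂) = 0 := by
    intro T hT
    have := (rel_iff (c := c T) (h T hT).1 (z := (0, 0)) (w := (n₁, n₂))).2 (by simp [(h T hT).2])
    simpa [rel] using this
  by_cases hσ : n₁ + n₂ = 0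
  · refine ⟨n₁, 0, 0, 1, fun T hT => ?_⟩
    have h2 := (h1 T hT).2
    have h3 : n₂ - n₁ = (-2 : ℝ) • n₁ := by
      rw [eq_neg_of_add_eq_zero_right hσ]
      module
    rw [hσ, smul_zero, add_zero, h3, map_smul, smul_eq_zero, ← cross_anticomm] at h2
    have h4 := par_MirA (nn_MirA hn) (neg_eq_zero.1 (h2.resolve_left (by norm_num)))
    generalize n₁ ⬝ᵥ ν T / n₁ ⬝ᵥ n₁ = α at h4
    have hα : α ≠ 0 := fun e => (h T hT).1 (by rw [h4, e, zero_smul])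
    exact ⟨α, c T / α, hα, by simpa using h4, by field_simp; ring⟩
  generalize n₁ + n₂ = σ at h1 hσ
  generalize n₂ - n₁ = δ at h1
  obtain ⟨p, q, hD⟩ : ∃ p q : V, σ ⬝ᵥ (p ⨯₃ q) ≠ 0 := by
    by_contra! hh
    refine hσ (rot_vext ?_ ?_ ?_)
    · simpa [dotProduct, Fin.sum_univ_three, rot_cr] using hh ![0, 1, 0] ![0, 0, 1]
    · simpa [dotProduct, Fin.sum_univ_three, rot_cr] using hh ![0, 0, 1] ![1, 0, 0]
    · simpa [dotProduct, Fin.sum_univ_three, rot_cr] using hh ![1, 0, 0] ![0, 1, 0]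
  obtain ⟨x, y, hxy⟩ : ∃ x y : ι → ℝ, ∀ T ∈ 𝒯, ν T = x T • (q ⨯₃ σ) + y T • (σ ⨯₃ p) := by
    refine ⟨fun T => p ⬝ᵥ ν T / σ ⬝ᵥ (p ⨯₃ q), fun T => q ⬝ᵥ ν T / σ ⬝ᵥ (p ⨯₃ q), fun T hT => ?_⟩
    refine smul_right_injective V hD ?_
    have h2 := mb_dual (ν T) σ p q
    rw [dotProduct_comm σ (ν T), (h1 T hT).1, zero_smul, zero_add] at h2
    simp only [smul_add, smul_smul, mul_div_cancel₀ _ hD]
    exact h2
  obtain ⟨ε, hε⟩ := Infinite.exists_notMem_finset (𝒯.image fun T => x T / y T)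
  have hs := nn_MirA hσ
  refine ⟨q ⨯₃ σ, σ ⨯₃ p + ε • (q ⨯₃ σ), -(((q ⨯₃ σ) ⨯₃ δ) ⬝ᵥ σ) / σ ⬝ᵥ σ,
    -(((σ ⨯₃ p + ε • (q ⨯₃ σ)) ⨯₃ δ) ⬝ᵥ σ) / σ ⬝ᵥ σ, fun T hT => ?_⟩
  have hα : x T - ε * y T ≠ 0 := by
    intro e
    by_cases hy : y T = 0
    · rw [hy, mul_zero, sub_zero] at e
      exact (h T hT).1 (by rw [hxy T hT, e, hy, zero_smul, zero_smul, add_zero])
    · exact hε (mem_image.2 ⟨T, hT, by rw [div_eq_iff hy]; linarith⟩)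
  refine ⟨x T - ε * y T, y T / (x T - ε * y T), hα, ?_, ?_⟩
  · rw [hxy T hT, smul_add, smul_smul, mul_div_cancel₀ _ hα]
    module
  · have h2 := congrArg (· ⬝ᵥ σ) (h1 T hT).2
    rw [hxy T hT] at h2
    simp only [map_add, map_smul, LinearMap.add_apply, LinearMap.smul_apply, add_dotProduct,
      smul_dotProduct, smul_eq_mul, zero_dotProduct] at h2 ⊢
    field_simp
    linear_combination h2

theorem Mot.mono {ι : Type} {𝒯 𝒯' : Finset ι} {ν : ι → V} {c : ι → ℝ} {K K' : ι → Finset (V × V)}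
    {X X' : Finset (V × V)} (h : Mot 𝒯 ν c K X) (h1 : 𝒯' ⊆ 𝒯) (h2 : ∀ T ∈ 𝒯', K' T ⊆ K T)
    (h3 : ∀ T ∈ 𝒯', K' T ⊆ X') : Mot 𝒯' ν c K' X' :=
  ⟨fun T hT => ⟨(h.1 T (h1 hT)).1, h3 T hT, fun z hz w hw =>
      (h.1 T (h1 hT)).2.2 z (h2 T hT hz) w (h2 T hT hw)⟩,
    fun T hT T' hT' z hz w hw => h.2 T (h1 hT) T' (h1 hT') z (h2 T hT hz) w (h2 T' hT' hw)⟩

theorem mot_mirs (X : Finset (V × V)) :
    ∃ (ν : Finset (V × V) → V) (c : Finset (V × V) → ℝ), Mot (mirs X) ν c id X := by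
  obtain ⟨ν, c, h⟩ := mirg_data X
  refine ⟨ν, c, fun T hT => ⟨(h T hT).1, (h T hT).2.1, fun z hz w hw =>
    ((h T hT).2.2 z hz w ((h T hT).2.1 hw)).1 hw⟩, fun T hT T' hT' z hz w hw h1 h2 => ?_⟩
  obtain ⟨a1, a2, a3⟩ := h T hT
  obtain ⟨b1, b2, b3⟩ := h T' hT'
  have hw' : w ∈ T := (a3 z hz w (b2 hw)).2 h1
  have key : ∀ u ∈ X, u ∈ T ↔ u ∈ T' := fun u hu => by
    rw [a3 w hw' u hu, b3 w hw u hu, rel_iff a1, rel_iff b1, h2]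
  exact Finset.ext fun u => ⟨fun hu => (key u (a2 hu)).1 hu, fun hu => (key u (b2 hu)).2 hu⟩

end Vale.Agent.P054
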