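import Vale.Agent.P054.CurveL1
import Vale.Agent.P054.Asym

/-! RuledA: the asymptotic directions as roots of a quadratic polynomial (about 300 lines).
`ev3 ξ t` is an algebra map; use `map_d2`, `map_d3`. Degrees: expand by multilinearity with `vS = C (gr × η) + X * C (gr × ν)`.
`exists_eta`: `gr × ν` is not divisible by `h` (else `sff` is), and `gr ⬝ᵥ (ν × e_i)` are its components up to sign.
`dir_param`: `n ≠ 0` makes `gr × ν`, `gr × η` a basis of `gr^⊥` (`(gr × ν) × (gr × η) = n • gr`); `α = a (gr × ν) + b (gr × η)`, `b ≠ 0` because `d2 α α = 0`, `α ≠ 0`, `sff ≠ 0`; take `t = a/b`.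
`line_at_root`: `asym_line` with `w = gr × ν`.
-/

noncomputable section

open Classical MvPolynomial Matrix Finset

namespace Vale.Agent.P054

def vS (h : P3) (ν η : Fin 3 → ℂ) : Fin 3 → Polynomial P3 :=
  (fun i => Polynomial.C (pderiv i h)) ⨯₃
    fun i => Polynomial.X * Polynomial.C (C (ν i)) + Polynomial.C (C (η i))

def qS (h : P3) (ν η : Fin 3 → ℂ) : Polynomial P3 :=
  d2 h (fun i => Polynomial.C (X i : P3)) (vS h ν η) (vS h ν η)

def cS (h : P3) (ν η : Fin 3 → ℂ) : Polynomial P3 :=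
  d3 h (fun i => Polynomial.C (X i : P3)) (vS h ν η) (vS h ν η) (vS h ν η)

def nS (h : P3) (ν η : Fin 3 → ℂ) : P3 := ∑ i, C ((ν ⨯₃ η) i) * pderiv i h

variable {R : Type*} [Field R] [Algebra ℂ R] {h : P3} {ν η : Fin 3 → ℂ}

def ev3 (s : Fin 3 → R) (t : R) : Polynomial P3 →ₐ[ℂ] R :=
  Polynomial.eval₂AlgHom (aeval s) t fun _ => Commute.all _ _

/-- the direction with parameter `t` at `s` -/
def dirS (h : P3) (ν η : Fin 3 → ℂ) (s : Fin 3 → R) (t : R) : Fin 3 → R :=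
  fun i => ev3 s t (vS h ν η i)

theorem ra_C (s : Fin 3 → R) (t : R) (f : P3) : ev3 s t (Polynomial.C f) = aeval s f :=
  Polynomial.eval₂_C _ _

theorem ra_X (s : Fin 3 → R) (t : R) : ev3 s t Polynomial.X = t := Polynomial.eval₂_X _ _

theorem ev3_of_le {p : Polynomial P3} {k : ℕ} (hp : p.natDegree ≤ k) (s : Fin 3 → R) (t : R) :
    ev3 s t p = ∑ i ∈ range (k + 1), aeval s (p.coeff i) * t ^ i :=
  Polynomial.eval₂_eq_sum_range' _ (Nat.lt_succ_of_le hp) t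

theorem dirS_eq (s : Fin 3 → R) (t : R) : dirS h ν η s t =
    gr h s ⨯₃ fun i => t * algebraMap ℂ R (ν i) + algebraMap ℂ R (η i) := by
  funext i
  fin_cases i <;>
  · simp [dirS, vS, gr, cross_apply, ra_C, ra_X]
    ring

theorem ra_vS (i : Fin 3) : vS h ν η i = Polynomial.C ((gr h X ⨯₃ fun i => C (η i)) i) +
    Polynomial.X * Polynomial.C ((gr h X ⨯₃ fun i => C (ν i)) i) := by
  fin_cases i <;>
  · simp [vS, gr, cross_apply]
    ring

def RaBd (p : Polynomial P3) (k n : ℕ) : Prop :=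
  p.natDegree ≤ k ∧ ∀ i, (p.coeff i).totalDegree ≤ n

theorem RaBd.mul {p q : Polynomial P3} {k n k' n' : ℕ} (hp : RaBd p k n) (hq : RaBd q k' n') :
    RaBd (p * q) (k + k') (n + n') := by
  refine ⟨Polynomial.natDegree_mul_le.trans (Nat.add_le_add hp.1 hq.1), fun i => ?_⟩
  rw [Polynomial.coeff_mul]
  exact totalDegree_finsetSum_le fun x _ =>
    (totalDegree_mul _ _).trans (Nat.add_le_add (hp.2 _) (hq.2 _))

theorem RaBd.add {p q : Polynomial P3} {k n : ℕ} (hp : RaBd p k n) (hq : RaBd q k n) :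
    RaBd (p + q) k n := by
  refine ⟨(Polynomial.natDegree_add_le _ _).trans (max_le hp.1 hq.1), fun i => ?_⟩
  rw [Polynomial.coeff_add]
  exact (totalDegree_add _ _).trans (max_le (hp.2 _) (hq.2 _))

theorem RaBd.sum {p : Fin 3 → Polynomial P3} {k n : ℕ} (hp : ∀ a, RaBd (p a) k n) :
    RaBd (∑ a, p a) k n := by
  refine ⟨Polynomial.natDegree_sum_le_of_forall_le _ _ fun a _ => (hp a).1, fun i => ?_⟩
  rw [Polynomial.finsetSum_coeff]
  exact totalDegree_finsetSum_le fun a _ => (hp a).2 i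

theorem RaBd.C {f : P3} {k n : ℕ} (hf : f.totalDegree ≤ n) : RaBd (Polynomial.C f) k n := by
  refine ⟨by simp, fun i => ?_⟩
  rw [Polynomial.coeff_C]
  split_ifs
  · exact hf
  · simp

theorem RaBd.X : RaBd Polynomial.X 1 0 := by
  refine ⟨Polynomial.natDegree_X_le, fun i => ?_⟩
  rw [Polynomial.coeff_X]
  split_ifs <;> simp

theorem ra_pd (f : P3) (a : Fin 3) : (pderiv a f).totalDegree ≤ f.totalDegree :=
  (degree_pderiv_le f a).trans (Nat.sub_le _ _)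

theorem ra_cross (ζ : Fin 3 → ℂ) (i : Fin 3) :
    ((gr h X ⨯₃ fun i => (C (ζ i) : P3)) i).totalDegree ≤ h.totalDegree := by
  have hm : ∀ i j, (gr h X i * (C (ζ j) : P3)).totalDegree ≤ h.totalDegree := fun i j =>
    (totalDegree_mul _ _).trans (by
      rw [totalDegree_C, add_zero, gr, aeval_X_left_apply]
      exact ra_pd h i)
  have hs : ∀ i j k l, (gr h X i * (C (ζ j) : P3) - gr h X k * C (ζ l)).totalDegree ≤
      h.totalDegree := fun i j k l => (totalDegree_sub _ _).trans (max_le (hm _ _) (hm _ _))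
  fin_cases i
  · exact hs _ _ _ _
  · exact hs _ _ _ _
  · exact hs _ _ _ _

theorem ra_vBd (i : Fin 3) : RaBd (vS h ν η i) 1 h.totalDegree := by
  have h2 := RaBd.X.mul (RaBd.C (k := 0) (ra_cross (h := h) ν i))
  rw [zero_add] at h2
  rw [ra_vS]
  exact (RaBd.C (ra_cross η i)).add h2

theorem ra_v1 (i : Fin 3) : (vS h ν η i).coeff 1 = (gr h X ⨯₃ fun i => C (ν i)) i := by
  rw [ra_vS, Polynomial.coeff_add, Polynomial.coeff_C_succ, Polynomial.coeff_X_mul,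
    Polynomial.coeff_C_zero, zero_add]

theorem ra_aevalC (f : P3) : aeval (fun a => Polynomial.C (X a : P3)) f = Polynomial.C f := by
  have : (aeval (fun a => Polynomial.C (X a : P3)) : P3 →ₐ[ℂ] Polynomial P3) =
      Polynomial.CAlgHom := MvPolynomial.algHom_ext fun a => by simp
  rw [this]; rfl

theorem ra_d1 {f : P3} {m : ℕ} (hf : f.totalDegree ≤ m) :
    RaBd (d1 f (fun a => Polynomial.C (X a : P3)) (vS h ν η)) 1 (h.totalDegree + m) :=
  RaBd.sum fun a => by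
    rw [ra_aevalC]
    exact (ra_vBd a).mul (RaBd.C (k := 0) ((ra_pd f a).trans hf))

theorem ra_d2 {f : P3} {m : ℕ} (hf : f.totalDegree ≤ m) :
    RaBd (d2 f (fun a => Polynomial.C (X a : P3)) (vS h ν η) (vS h ν η)) 2
      (h.totalDegree + (h.totalDegree + m)) :=
  RaBd.sum fun a => (ra_vBd a).mul (ra_d1 ((ra_pd f a).trans hf))

theorem ra_d3 {f : P3} {m : ℕ} (hf : f.totalDegree ≤ m) :
    RaBd (d3 f (fun a => Polynomial.C (X a : P3)) (vS h ν η) (vS h ν η) (vS h ν η)) 3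
      (h.totalDegree + (h.totalDegree + (h.totalDegree + m))) :=
  RaBd.sum fun a => (ra_vBd a).mul (ra_d2 ((ra_pd f a).trans hf))

theorem qS_deg : (qS h ν η).natDegree ≤ 2 ∧ (qS h ν η).coeff 2 = sff h ν ν ∧
    ∀ i, ((qS h ν η).coeff i).totalDegree ≤ 3 * h.totalDegree := by
  have h1 := ra_d2 (h := h) (ν := ν) (η := η) (le_refl h.totalDegree)
  rw [show 3 * h.totalDegree = h.totalDegree + (h.totalDegree + h.totalDegree) by ring]
  refine ⟨h1.1, ?_, h1.2⟩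
  rw [qS, sff, d2, d2, Polynomial.finsetSum_coeff]
  refine sum_congr rfl fun a _ => ?_
  rw [show 2 = 1 + 1 from rfl, Polynomial.coeff_mul_add_eq_of_natDegree_le (ra_vBd a).1
    (ra_d1 le_rfl).1, ra_v1, d1, d1, Polynomial.finsetSum_coeff]
  refine congrArg _ (sum_congr rfl fun b _ => ?_)
  rw [ra_aevalC, Polynomial.coeff_mul_C, ra_v1, aeval_X_left_apply]

theorem cS_deg : (cS h ν η).natDegree ≤ 3 ∧
    ∀ i, ((cS h ν η).coeff i).totalDegree ≤ 4 * h.totalDegree := by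
  rw [show 4 * h.totalDegree =
    h.totalDegree + (h.totalDegree + (h.totalDegree + h.totalDegree)) by ring]
  exact ra_d3 le_rfl

theorem degree_nS_le : (nS h ν η).totalDegree ≤ h.totalDegree :=
  totalDegree_finsetSum_le fun i _ => (totalDegree_mul _ _).trans (by
    rw [totalDegree_C, zero_add]
    exact ra_pd h i)

theorem ra_nS : nS h ν η = (fun i => C (η i)) ⬝ᵥ (gr h X ⨯₃ fun i => C (ν i)) := by
  simp [nS, gr, cross_apply, dotProduct, Fin.sum_univ_three]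
  ring

theorem exists_eta (hi : Irreducible h) (hν : ¬ h ∣ sff h ν ν) : ∃ η, ¬ h ∣ nS h ν η := by
  by_contra hn
  rw [not_exists] at hn
  apply hν
  rw [sff, d2]
  refine dvd_sum fun a _ => Dvd.dvd.mul_right ?_ _
  have h1 := not_not.1 (hn (Pi.single a 1))
  have e : (fun i => (C ((Pi.single a 1 : Fin 3 → ℂ) i) : P3)) = Pi.single a 1 := by
    funext i
    simp [Pi.single_apply, apply_ite]
  rwa [ra_nS, e, single_dotProduct, one_mul] at h1

theorem ra_pt (s : Fin 3 → R) (t : R) :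
    (fun a => ev3 s t (Polynomial.C (X a : P3))) = s := by
  funext a
  rw [ra_C, aeval_X]

theorem ra_q (s : Fin 3 → R) (t : R) :
    ev3 s t (qS h ν η) = d2 h s (dirS h ν η s t) (dirS h ν η s t) := by
  rw [qS, map_d2, ra_pt]
  rfl

theorem ra_c (s : Fin 3 → R) (t : R) :
    ev3 s t (cS h ν η) = d3 h s (dirS h ν η s t) (dirS h ν η s t) (dirS h ν η s t) := by
  rw [cS, map_d3, ra_pt]
  rfl

omit [Algebra ℂ R] in
theorem ra_basis (g N H α : Fin 3 → R) (hg : α ⬝ᵥ g = 0) :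
    (g ⬝ᵥ (N ⨯₃ H)) • α = g ⨯₃ ((H ⬝ᵥ α) • N - (N ⬝ᵥ α) • H) := by
  have e : (g ⬝ᵥ (N ⨯₃ H)) • α =
      g ⨯₃ ((H ⬝ᵥ α) • N - (N ⬝ᵥ α) • H) + (α ⬝ᵥ g) • (N ⨯₃ H) := by
    funext i
    fin_cases i <;>
    · simp [cross_apply, dotProduct, Fin.sum_univ_three]
      ring
  rw [e, hg, zero_smul, add_zero]

theorem dir_param {s α : Fin 3 → R} (hα : α ≠ 0) (hl : ∀ T : R, aeval (s + T • α) h = 0)
    (hn : aeval s (nS h ν η) ≠ 0) (hs : aeval s (sff h ν ν) ≠ 0) :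
    ∃ t κ : R, α = κ • dirS h ν η s t ∧ ev3 s t (qS h ν η) = 0 ∧ ev3 s t (cS h ν η) = 0 := by
  obtain ⟨h1, h2, h3⟩ := line_jets hl
  obtain ⟨N, hN⟩ : ∃ N : Fin 3 → R, N = fun i => algebraMap ℂ R (ν i) := ⟨_, rfl⟩
  obtain ⟨H, hH⟩ : ∃ H : Fin 3 → R, H = fun i => algebraMap ℂ R (η i) := ⟨_, rfl⟩
  have hy : N ⬝ᵥ α ≠ 0 := fun h0 => hs (sff_on_line hα hl (hN ▸ h0))
  have hn' : gr h s ⬝ᵥ (N ⨯₃ H) ≠ 0 := by
    refine fun h0 => hn (Eq.trans ?_ h0)
    simp [nS, gr, hN, hH, cross_apply, dotProduct, Fin.sum_univ_three]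
    ring
  have hb := ra_basis (gr h s) N H α h1
  have hκ : -(N ⬝ᵥ α) / (gr h s ⬝ᵥ (N ⨯₃ H)) ≠ 0 := div_ne_zero (neg_ne_zero.2 hy) hn'
  have hd : α = (-(N ⬝ᵥ α) / (gr h s ⬝ᵥ (N ⨯₃ H))) •
      dirS h ν η s (-(H ⬝ᵥ α) / (N ⬝ᵥ α)) := by
    have e : (fun i => -(H ⬝ᵥ α) / (N ⬝ᵥ α) * algebraMap ℂ R (ν i) + algebraMap ℂ R (η i)) =
        (-(N ⬝ᵥ α))⁻¹ • ((H ⬝ᵥ α) • N - (N ⬝ᵥ α) • H) := by
      funext i
      have e1 : algebraMap ℂ R (ν i) = N i := by rw [hN]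
      have e2 : algebraMap ℂ R (η i) = H i := by rw [hH]
      rw [e1, e2]
      simp only [Pi.smul_apply, Pi.sub_apply, smul_eq_mul]
      field_simp
      ring
    rw [dirS_eq, e, map_smul, ← hb, smul_smul, smul_smul]
    have e3 : -(N ⬝ᵥ α) / (gr h s ⬝ᵥ (N ⨯₃ H)) * (-(N ⬝ᵥ α))⁻¹ * (gr h s ⬝ᵥ (N ⨯₃ H)) = 1 := by
      field_simp
    rw [e3, one_smul]
  generalize -(N ⬝ᵥ α) / (gr h s ⬝ᵥ (N ⨯₃ H)) = κ at hκ hd
  generalize -(H ⬝ᵥ α) / (N ⬝ᵥ α) = t at hd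
  refine ⟨t, κ, hd, ?_, ?_⟩
  · rw [hd, d2_smul, d2_comm, d2_smul] at h2
    rw [ra_q]
    simpa [hκ] using h2
  · rw [hd, d3_smul, d3_comm, d3_smul, d3_comm', d3_comm, d3_smul] at h3
    rw [ra_c]
    simpa [hκ] using h3

theorem line_at_root {ξ : Fin 3 → R} (hξ : IsGen (Ideal.span {h}) ξ) (hν : ¬ h ∣ sff h ν ν) {t : R}
    (hq : ev3 ξ t (qS h ν η) = 0) (hc : ev3 ξ t (cS h ν η) = 0) (T : R) :
    aeval (ξ + T • dirS h ν η ξ t) h = 0 := by
  have h1 : ∀ u, d1 h ξ (gr h ξ ⨯₃ u) = 0 := fun u => by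
    rw [← dot_self_cross (gr h ξ) u, dotProduct_comm]
    rfl
  have hw : d2 h ξ (gr h ξ ⨯₃ fun i => algebraMap ℂ R (ν i))
      (gr h ξ ⨯₃ fun i => algebraMap ℂ R (ν i)) ≠ 0 := by
    rw [← aeval_sff]
    exact fun h0 => hν (Ideal.mem_span_singleton.1 ((hξ _).1 h0))
  refine asym_line hξ (fun h0 => hw ?_) ?_ (ra_q ξ t ▸ hq) (ra_c ξ t ▸ hc) (h1 _) hw T
  · simp [h0, d2]
  · rw [dirS_eq, h1]

end Vale.Agent.P054
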