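import Vale.Agent.P054.Crossing

/-! STr: Szemeredi-Trotter for rich lines and for rich pairs in the plane (about 300 lines).
`rich_lines`: a line is `l = (slope, intercept)`. Edges: pairs `(a, b)` of points of `S` on a line of `L` with `a.1 < b.1` and no point of `S` on the line strictly between; each line gives at least `k - 1` edges (map every point but the last to its successor), an edge determines its line, two crossing edges lie on different lines and are determined by the pair of lines, so `crN ≤ |L|^2`. With `e ≥ (k-1)|L|`: either `e < 4n` or `e^3 ≤ 64 n^2 |L|^2`.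
`beck2`: for `j ≤ 1` trivial. For `k = 2^i j ≤ L` the lines with between `k` and `2k` points carry at most `4k^2 (8n/k + 512 n^2/k^3)` pairs (use `k - 1 ≥ k/2`); sum the two geometric series.
-/

noncomputable section

open Classical MvPolynomial Matrix Finset

namespace Vale.Agent.P054

def onl (S : Finset Pt) (l : Pt) : Finset Pt := S.filter fun a => a.2 = l.1 * a.1 + l.2

def str_ln (e : Pt × Pt) : Pt :=
  ((e.2.2 - e.1.2) / (e.2.1 - e.1.1), e.1.2 - (e.2.2 - e.1.2) / (e.2.1 - e.1.1) * e.1.1)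

theorem str_ht (e : Pt × Pt) (x : ℝ) : ht e x = (str_ln e).1 * x + (str_ln e).2 := by
  simp only [ht, str_ln]
  ring

theorem str_fst (e : Pt × Pt) : e.1.2 = (str_ln e).1 * e.1.1 + (str_ln e).2 := by
  simp only [str_ln]
  ring

theorem str_snd {e : Pt × Pt} (h : e.1.1 ≠ e.2.1) : e.2.2 = (str_ln e).1 * e.2.1 + (str_ln e).2 := by
  have := sub_ne_zero.2 h.symm
  simp only [str_ln]
  field_simp
  ring

theorem str_two {l l' : Pt} {x y : ℝ} (h : x ≠ y) (hx : l.1 * x + l.2 = l'.1 * x + l'.2)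
    (hy : l.1 * y + l.2 = l'.1 * y + l'.2) : l = l' := by
  have h1 : l.1 = l'.1 := mul_right_cancel₀ (sub_ne_zero.2 h) (by linarith)
  refine Prod.ext h1 ?_
  rw [h1] at hx
  linarith

theorem str_eq {l a b : Pt} (h : a.1 ≠ b.1) (ha : a.2 = l.1 * a.1 + l.2)
    (hb : b.2 = l.1 * b.1 + l.2) : str_ln (a, b) = l :=
  str_two h ((str_fst (a, b)).symm.trans ha) ((str_snd (e := (a, b)) h).symm.trans hb)

theorem str_uniq {S : Finset Pt} {E : Finset (Pt × Pt)} (h : NoV S E) {e f : Pt × Pt} (he : e ∈ E)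
    (hf : f ∈ E) (hl : str_ln e = str_ln f) {x : ℝ} (h1 : e.1.1 < x) (h2 : x < e.2.1)
    (h3 : f.1.1 < x) (h4 : x < f.2.1) : e = f := by
  obtain ⟨e1, e2, e3⟩ := h.mem e he
  obtain ⟨f1, f2, f3⟩ := h.mem f hf
  refine Prod.ext (h.inj _ e1 _ f1 ?_) (h.inj _ e2 _ f2 ?_)
  · rcases lt_trichotomy e.1.1 f.1.1 with h5 | h5 | h5
    · exact absurd (by rw [str_ht, hl]; exact str_fst f) (h.nov e he _ f1 h5 (h3.trans h2))
    · exact h5
    · exact absurd (by rw [str_ht, ← hl]; exact str_fst e) (h.nov f hf _ e1 h5 (h1.trans h4))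
  · rcases lt_trichotomy e.2.1 f.2.1 with h5 | h5 | h5
    · exact absurd (by rw [str_ht, ← hl]; exact str_snd e3.ne) (h.nov f hf _ e2 (h3.trans h2) h5)
    · exact h5
    · exact absurd (by rw [str_ht, hl]; exact str_snd f3.ne) (h.nov e he _ f2 (h1.trans h4) h5)

theorem str_cr {S L : Finset Pt} {E : Finset (Pt × Pt)} (h : NoV S E)
    (hL : ∀ e ∈ E, str_ln e ∈ L) : crN E ≤ L.card ^ 2 := by
  rw [crN, _root_.sq, ← card_product]
  refine card_le_card_of_injOn (fun x => (str_ln x.1, str_ln x.2)) (fun x hx => ?_) ?_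
  · have := mem_product.1 (mem_filter.1 (mem_coe.1 hx)).1
    exact mem_coe.2 (mem_product.2 ⟨hL _ this.1, hL _ this.2⟩)
  · intro p hp q hq hpq
    obtain ⟨p1, p2, x, x1, x2, x3, x4, x5⟩ := mem_filter.1 (mem_coe.1 hp)
    obtain ⟨q1, -, y, y1, y2, y3, y4, y5⟩ := mem_filter.1 (mem_coe.1 hq)
    rw [mem_product] at p1 q1
    obtain ⟨l1, l2⟩ := Prod.mk.inj hpq
    have hxy : x = y := by
      by_contra hne
      rw [str_ht, str_ht] at x5 y5
      rw [← l1, ← l2] at y5
      exact p2 (str_uniq h p1.1 p1.2 (str_two hne x5 y5) x1 x2 x3 x4)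
    subst hxy
    exact Prod.ext (str_uniq h p1.1 q1.1 l1 x1 x2 y1 y2) (str_uniq h p1.2 q1.2 l2 x3 x4 y3 y4)

def str_E (S L : Finset Pt) : Finset (Pt × Pt) :=
  (S ×ˢ S).filter fun e => e.1.1 < e.2.1 ∧ str_ln e ∈ L ∧
    ∀ c ∈ S, e.1.1 < c.1 → c.1 < e.2.1 → c.2 ≠ ht e c.1

theorem str_fib {S L : Finset Pt} (hS : ∀ a ∈ S, ∀ b ∈ S, a.1 = b.1 → a = b) {l : Pt}
    (hl : l ∈ L) : (onl S l).card - 1 ≤ ((str_E S L).filter fun e => str_ln e = l).card := by
  rcases (onl S l).eq_empty_or_nonempty with h0 | h0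
  · simp [h0]
  obtain ⟨m, hm, hmax⟩ := exists_max_image (onl S l) Prod.fst h0
  rw [← card_erase_of_mem hm]
  refine le_trans (card_le_card fun a ha => ?_) (card_image_le (f := Prod.fst))
  obtain ⟨ha1, ha2⟩ := mem_erase.1 ha
  obtain ⟨a1, a2⟩ := mem_filter.1 ha2
  have hlt : a.1 < m.1 :=
    lt_of_le_of_ne (hmax a ha2) fun h => ha1 (hS a a1 m (mem_filter.1 hm).1 h)
  obtain ⟨b, hb, hmin⟩ := exists_min_image ((onl S l).filter fun c => a.1 < c.1) Prod.fst
    ⟨m, mem_filter.2 ⟨hm, hlt⟩⟩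
  obtain ⟨b0, b3⟩ := mem_filter.1 hb
  obtain ⟨b1, b2⟩ := mem_filter.1 b0
  have hab := str_eq b3.ne a2 b2
  refine mem_image.2 ⟨(a, b), mem_filter.2 ⟨mem_filter.2 ⟨mem_product.2 ⟨a1, b1⟩, b3,
    hab ▸ hl, fun c hc c1 c2 c3 => ?_⟩, hab⟩, rfl⟩
  rw [str_ht, hab] at c3
  exact absurd (hmin c (mem_filter.2 ⟨mem_filter.2 ⟨hc, c3⟩, c1⟩)) (not_le.2 c2)

theorem rich_lines {S L : Finset Pt} (hS : ∀ a ∈ S, ∀ b ∈ S, a.1 = b.1 → a = b) {k : ℕ}
    (hk : 2 ≤ k) (hL : ∀ l ∈ L, k ≤ (onl S l).card) :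
    (k - 1) * L.card ≤ 4 * S.card ∨ (k - 1) ^ 3 * L.card ≤ 64 * S.card ^ 2 := by
  have h : NoV S (str_E S L) := ⟨hS, fun e he => by
    obtain ⟨h1, h2, -⟩ := mem_filter.1 he
    exact ⟨(mem_product.1 h1).1, (mem_product.1 h1).2, h2⟩, fun e he => (mem_filter.1 he).2.2.2⟩
  have hm : ∀ e ∈ str_E S L, str_ln e ∈ L := fun e he => (mem_filter.1 he).2.2.1
  have h1 : (k - 1) * L.card ≤ (str_E S L).card :=
    mul_card_image_le_card_of_maps_to hm _ fun l hl =>
      (Nat.sub_le_sub_right (hL l hl) 1).trans (str_fib hS hl)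
  by_cases h4 : 4 * S.card ≤ (str_E S L).card
  · right
    rcases Nat.eq_zero_or_pos L.card with h0 | h0
    · simp [h0]
    have h2 := (Nat.pow_le_pow_left h1 3).trans
      ((crossing h h4).trans (Nat.mul_le_mul_left _ (str_cr h hm)))
    refine Nat.le_of_mul_le_mul_right (le_trans (le_of_eq ?_) h2) (pow_pos h0 2)
    ring
  · left
    omega

def rich2 (S : Finset Pt) (x y : Pt) : ℕ :=
  (S.filter fun z => (y.1 - x.1) * (z.2 - x.2) = (y.2 - x.2) * (z.1 - x.1)).card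

theorem str_rich {S : Finset Pt} {e : Pt × Pt} (h : e.1.1 ≠ e.2.1) :
    rich2 S e.1 e.2 = (onl S (str_ln e)).card := by
  have h1 := sub_ne_zero.2 h.symm
  unfold rich2 onl
  refine congrArg card (filter_congr fun z _ => ?_)
  simp only [str_ln]
  constructor
  · intro hz
    field_simp
    linarith
  · intro hz
    rw [hz]
    field_simp
    ring

theorem str_step {S : Finset Pt} (hS : ∀ a ∈ S, ∀ b ∈ S, a.1 = b.1 → a = b) {k : ℕ}
    (hk : 2 ≤ k) :
    k * (S.offDiag.filter fun e => k ≤ rich2 S e.1 e.2 ∧ ¬ 2 * k ≤ rich2 S e.1 e.2).card ≤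
      32 * S.card * k ^ 2 + 2048 * S.card ^ 2 := by
  set T := S.offDiag.filter fun e => k ≤ rich2 S e.1 e.2 ∧ ¬ 2 * k ≤ rich2 S e.1 e.2 with hT
  have hne : ∀ e ∈ T, e.1.1 ≠ e.2.1 := fun e he h => by
    obtain ⟨h1, h2, h3⟩ := mem_offDiag.1 (mem_filter.1 he).1
    exact h3 (hS _ h1 _ h2 h)
  have hl : ∀ l ∈ T.image str_ln, k ≤ (onl S l).card ∧ (onl S l).card ≤ 2 * k := fun l hl => by
    obtain ⟨e, he, rfl⟩ := mem_image.1 hl
    rw [← str_rich (hne e he)]
    have := (mem_filter.1 he).2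
    omega
  have h1 : T.card ≤ (2 * k) ^ 2 * (T.image str_ln).card := by
    refine card_le_mul_card_image T _ fun l hl' => ?_
    refine le_trans ?_ (Nat.pow_le_pow_left (hl l hl').2 2)
    rw [_root_.sq, ← card_product]
    refine card_le_card fun e he => ?_
    obtain ⟨e1, rfl⟩ := mem_filter.1 he
    obtain ⟨e2, e3, -⟩ := mem_offDiag.1 (mem_filter.1 e1).1
    exact mem_product.2 ⟨mem_filter.2 ⟨e2, str_fst e⟩, mem_filter.2 ⟨e3, str_snd (hne e e1)⟩⟩
  have h2 := rich_lines hS hk fun l hl' => (hl l hl').1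
  generalize (T.image str_ln).card = N at h1 h2
  generalize T.card = t at h1
  generalize S.card = n at h2
  have h3 : k ≤ 2 * (k - 1) := by omega
  generalize k - 1 = c at h2 h3
  have h4 : k * t ≤ 4 * (k ^ 3 * N) := (Nat.mul_le_mul_left k h1).trans (le_of_eq (by ring))
  rcases h2 with h2 | h2
  · have h5 : k ^ 3 * N ≤ 8 * n * k ^ 2 :=
      calc k ^ 3 * N = k ^ 2 * (k * N) := by ring
        _ ≤ k ^ 2 * (2 * c * N) := by gcongr
        _ = k ^ 2 * (2 * (c * N)) := by ring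
        _ ≤ k ^ 2 * (2 * (4 * n)) := by gcongr
        _ = _ := by ring
    calc k * t ≤ 4 * (8 * n * k ^ 2) := h4.trans (by gcongr)
      _ = 32 * n * k ^ 2 := by ring
      _ ≤ _ := Nat.le_add_right _ _
  · have h5 : k ^ 3 * N ≤ 512 * n ^ 2 :=
      calc k ^ 3 * N ≤ (2 * c) ^ 3 * N := by gcongr
        _ = 8 * (c ^ 3 * N) := by ring
        _ ≤ 8 * (64 * n ^ 2) := by gcongr
        _ = _ := by ring
    calc k * t ≤ 4 * (512 * n ^ 2) := h4.trans (by gcongr)
      _ = 2048 * n ^ 2 := by ring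
      _ ≤ _ := Nat.le_add_left _ _

theorem beck2 {S : Finset Pt} (hS : ∀ a ∈ S, ∀ b ∈ S, a.1 = b.1 → a = b) {L : ℕ}
    (hL : ∀ x ∈ S, ∀ y ∈ S, x ≠ y → rich2 S x y ≤ L) (j : ℕ) :
    j * (S.offDiag.filter fun e => j ≤ rich2 S e.1 e.2).card ≤
      4096 * (S.card ^ 2 + j * S.card * L) := by
  have h0 : ∀ k, L < k → (S.offDiag.filter fun e => k ≤ rich2 S e.1 e.2).card = 0 := fun k hk => by
    rw [card_eq_zero, filter_eq_empty_iff]
    intro e he
    obtain ⟨h1, h2, h3⟩ := mem_offDiag.1 he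
    have := hL _ h1 _ h2 h3
    omega
  have base : ∀ k, k ≤ 2 * L → L < k →
      k * (S.offDiag.filter fun e => k ≤ rich2 S e.1 e.2).card + 32 * S.card * k ^ 2 ≤
        4096 * S.card ^ 2 + 64 * S.card * k * L := fun k h1 h2 => by
    rw [h0 k h2, mul_zero, zero_add]
    calc 32 * S.card * k ^ 2 = 32 * S.card * k * k := by ring
      _ ≤ 32 * S.card * k * (2 * L) := by gcongr
      _ = 64 * S.card * k * L := by ring
      _ ≤ _ := Nat.le_add_left _ _
  have key : ∀ d k, 2 ≤ k → k ≤ 2 * L → L < k + d →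
      k * (S.offDiag.filter fun e => k ≤ rich2 S e.1 e.2).card + 32 * S.card * k ^ 2 ≤
        4096 * S.card ^ 2 + 64 * S.card * k * L := by
    intro d
    induction d with
    | zero => exact fun k _ h1 h2 => base k h1 h2
    | succ d ih =>
      intro k hk h1 h2
      by_cases h3 : L < k
      · exact base k h1 h3
      have h4 := ih (2 * k) (by omega) (by omega) (by omega)
      have h5 := str_step hS hk
      have h6 : (S.offDiag.filter fun e => k ≤ rich2 S e.1 e.2).card ≤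
          (S.offDiag.filter fun e => 2 * k ≤ rich2 S e.1 e.2).card +
          (S.offDiag.filter fun e => k ≤ rich2 S e.1 e.2 ∧ ¬ 2 * k ≤ rich2 S e.1 e.2).card := by
        refine le_trans (card_le_card fun e he => ?_) (card_union_le _ _)
        obtain ⟨e1, e2⟩ := mem_filter.1 he
        by_cases e3 : 2 * k ≤ rich2 S e.1 e.2
        · exact mem_union_left _ (mem_filter.2 ⟨e1, e3⟩)
        · exact mem_union_right _ (mem_filter.2 ⟨e1, e2, e3⟩)
      have h7 := Nat.mul_le_mul_left k h6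
      nlinarith
  by_cases hj : 2 ≤ j
  · by_cases h1 : j ≤ 2 * L
    · have := key (L + 1) j hj h1 (by omega)
      nlinarith [Nat.zero_le (S.card * j ^ 2), Nat.zero_le (j * S.card * L)]
    · rw [h0 j (by omega)]
      exact Nat.zero_le _
  · have h1 : (S.offDiag.filter fun e => j ≤ rich2 S e.1 e.2).card ≤ S.card ^ 2 := by
      refine (card_filter_le _ _).trans ?_
      rw [offDiag_card, _root_.sq]
      exact Nat.sub_le _ _
    calc _ ≤ 1 * S.card ^ 2 := Nat.mul_le_mul (by omega) h1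
      _ ≤ 4096 * S.card ^ 2 := by gcongr; norm_num
      _ ≤ _ := Nat.mul_le_mul_left _ (Nat.le_add_right _ _)

end Vale.Agent.P054
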