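import Vale.Agent.P054.ConeB
import Vale.Agent.P054.Const
import Vale.Agent.P054.Krull
import Vale.Agent.P054.QT

/-! SegA: tangents of space curves (about 300 lines).
`der_par`: `δ` kills `g₁(ξ) = g₂(ξ) = 0`, so `δ ξ` is orthogonal to both gradients (`der_aeval`) and `(a × b) × w = (a ⬝ᵥ w) b - (b ⬝ᵥ w) a`.
`dir_moves`: otherwise `const_dir` gives `ξ - p = κ v₀`, and two independent forms `ν ⊥ v₀` give `lin ν (ν ⬝ᵥ p) ∈ I`.
`sec_det`: take `δ` from `dir_moves`; `δ ξ' = δ μ (ξ - p) + μ δ ξ`, `μ ≠ 0` (else `ξ' = p`, against `NL I'`), so `δ ξ` and `δ ξ'` are nonzero multiples of the tangents (both nonzero by `Crv.tr`) and `det (ξ' - ξ, δ ξ, δ ξ') = 0`.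
`alg_dir`: if `d i` were transcendental over `F = ℂ(d / d i)`, `der_one` over `F` (restrict scalars to `ℂ`) gives `δ ξ = d / d i`, so `d` is parallel to the tangent and by `der_par` every derivation has `d × δ ξ = 0`, against `dir_moves`.
-/

noncomputable section

open Classical MvPolynomial Matrix Finset

namespace Vale.Agent.P054

variable {Ω : Type*} [Field Ω] [Algebra ℂ Ω]

/-- the tangent vector at `ξ` -/
def tng (g₁ g₂ : P3) (ξ : Fin 3 → Ω) : Fin 3 → Ω := gr g₁ ξ ⨯₃ gr g₂ ξ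

/-- the line through `p` and `ξ` has another point that is generic for `I'` -/
def Sec (I' : Ideal P3) (p : V) (ξ : Fin 3 → Ω) : Prop :=
  ∃ (ξ' : Fin 3 → Ω) (μ : Ω), IsGen I' ξ' ∧ ξ' ≠ ξ ∧ ξ' - up Ω (cv p) = μ • (ξ - up Ω (cv p))

/-- the curve lies in a plane through `p` -/
def InPl (I : Ideal P3) (p : V) : Prop := ∃ ν c, ν ≠ 0 ∧ lin ν c ∈ I ∧ ν ⬝ᵥ cv p = c

variable {I I' : Ideal P3} {g₁ g₂ g₁' g₂' : P3} {ξ ξ' : Fin 3 → Ω}

theorem aeval_lin {σ : Type*} [Fintype σ] (x : σ → Ω) (ν : σ → ℂ) (c : ℂ) :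
    aeval x (lin ν c) = up Ω ν ⬝ᵥ x - algebraMap ℂ Ω c := by
  simp [lin, up, dotProduct, map_sum]

theorem Crv.tng_ne (hc : Crv I g₁ g₂) (hξ : IsGen I ξ) : tng g₁ g₂ ξ ≠ 0 := by
  intro h0
  obtain ⟨i, hi⟩ := hc.tr
  apply hi
  rw [← hξ]
  have h1 := congrFun h0 i
  have e : ∀ (g : P3) (a : Fin 3), aeval ξ (gr g X a) = gr g ξ a := fun g a => by
    exact congrArg (aeval ξ) (MvPolynomial.aeval_X_left_apply (pderiv a g))
  revert h1
  fin_cases i <;> intro h1 <;>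
    simpa [tng, cross_apply, e] using h1

theorem sega_der {K : Type*} [CommRing K] [Algebra K Ω] (δ : Derivation K Ω Ω)
    (hδ : ∀ c : ℂ, δ (algebraMap ℂ Ω c) = 0) (ξ : Fin 3 → Ω) (g : P3) :
    δ (aeval ξ g) = ∑ a, δ (ξ a) * gr g ξ a := by
  induction g using MvPolynomial.induction_on with
  | C a => simp [gr, hδ]
  | add p q hp hq => simp only [map_add, hp, hq, gr, mul_add, sum_add_distrib]
  | mul_X p i hp =>
    rw [map_mul, Derivation.leibniz, hp, aeval_X, smul_eq_mul, smul_eq_mul]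
    fin_cases i <;> simp [gr, Fin.sum_univ_three, pderiv_X] <;> ring

theorem sega_par {T w : Fin 3 → Ω} (hw : w ≠ 0) (h : T ⨯₃ w = 0) : ∃ s : Ω, T = s • w := by
  have h0 := congrFun h 0
  have h1 := congrFun h 1
  have h2 := congrFun h 2
  simp only [cross_apply, cons_val_zero, cons_val_one, Matrix.cons_val, Pi.zero_apply] at h0 h1 h2
  obtain ⟨i, hi⟩ := Function.ne_iff.1 hw
  have hi' : w i ≠ 0 := hi
  refine ⟨T i / w i, ?_⟩
  ext j
  rw [Pi.smul_apply, smul_eq_mul, div_mul_eq_mul_div, eq_div_iff hi']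
  fin_cases i <;> fin_cases j <;> simp only [Fin.zero_eta, Fin.mk_one, Fin.reduceFinMk] <;>
    first
      | rfl
      | linear_combination h0
      | linear_combination -h0
      | linear_combination h1
      | linear_combination -h1
      | linear_combination h2
      | linear_combination -h2

theorem der_par {K : Type*} [CommRing K] [Algebra K Ω] (h1 : aeval ξ g₁ = 0) (h2 : aeval ξ g₂ = 0)
    (δ : Derivation K Ω Ω) (hδ : ∀ c : ℂ, δ (algebraMap ℂ Ω c) = 0) :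
    tng g₁ g₂ ξ ⨯₃ (fun i => δ (ξ i)) = 0 := by
  have e1 := sega_der δ hδ ξ g₁
  have e2 := sega_der δ hδ ξ g₂
  rw [h1, map_zero, Fin.sum_univ_three] at e1
  rw [h2, map_zero, Fin.sum_univ_three] at e2
  ext i
  fin_cases i
  · simp only [tng, cross_apply, Fin.zero_eta, cons_val_zero, cons_val_one, Matrix.cons_val, Pi.zero_apply]
    linear_combination (gr g₁ ξ 0) * e2 - (gr g₂ ξ 0) * e1
  · simp only [tng, cross_apply, Fin.mk_one, cons_val_zero, cons_val_one, Matrix.cons_val, Pi.zero_apply]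
    linear_combination (gr g₁ ξ 1) * e2 - (gr g₂ ξ 1) * e1
  · simp only [tng, cross_apply, Fin.reduceFinMk, cons_val_zero, cons_val_one, Matrix.cons_val,
      Pi.zero_apply]
    linear_combination (gr g₁ ξ 2) * e2 - (gr g₂ ξ 2) * e1

theorem dir_moves (hn : NL I) (hξ : IsGen I ξ) (p : Fin 3 → ℂ) :
    ∃ δ : Derivation ℂ Ω Ω, (ξ - up Ω p) ⨯₃ (fun i => δ (ξ i)) ≠ 0 := by
  by_contra hno
  have hall : ∀ δ : Derivation ℂ Ω Ω, (ξ - up Ω p) ⨯₃ (fun i => δ ((ξ - up Ω p) i)) = 0 := by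
    intro δ
    have e : (fun i => δ ((ξ - up Ω p) i)) = fun i => δ (ξ i) := by
      ext i
      simp [up]
    rw [e]
    by_contra h
    exact hno ⟨δ, h⟩
  obtain ⟨κ, v, hv, he⟩ := const_dir (K := ℂ) hall
  have key : ∀ ν : Fin 3 → ℂ, ν ⬝ᵥ v = 0 → lin ν (ν ⬝ᵥ p) ∈ I := by
    intro ν hν
    rw [← hξ, aeval_lin]
    have e1 : algebraMap ℂ Ω (ν ⬝ᵥ p) = up Ω ν ⬝ᵥ up Ω p := by simp [up, dotProduct]
    have e2 : up Ω ν ⬝ᵥ (fun i => algebraMap ℂ Ω (v i)) = algebraMap ℂ Ω (ν ⬝ᵥ v) := by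
      simp [up, dotProduct]
    rw [e1, ← dotProduct_sub, he, dotProduct_smul, e2, hν, map_zero, smul_zero]
  have k0 := key ![0, v 2, -v 1] (by simp [dotProduct, Fin.sum_univ_three]; ring)
  have k1 := key ![-v 2, 0, v 0] (by simp [dotProduct, Fin.sum_univ_three]; ring)
  have k2 := key ![v 1, -v 0, 0] (by simp [dotProduct, Fin.sum_univ_three]; ring)
  have a0 := congrFun (hn _ _ _ _ k1 k2) 0
  have a1 := congrFun (hn _ _ _ _ k2 k0) 1
  have a2 := congrFun (hn _ _ _ _ k0 k1) 2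
  simp [cross_apply] at a0 a1 a2
  apply hv
  ext i
  fin_cases i
  · exact a0
  · exact a1
  · exact a2

theorem sega_van (hc : Crv I g₁ g₂) (hξ : IsGen I ξ) : aeval ξ g₁ = 0 ∧ aeval ξ g₂ = 0 :=
  ⟨(hξ _).2 (hc.min.1.2 (Ideal.subset_span (by simp))),
    (hξ _).2 (hc.min.1.2 (Ideal.subset_span (by simp)))⟩

theorem sec_det (hc : Crv I g₁ g₂) (hc' : Crv I' g₁' g₂') (hξ : IsGen I ξ) (hξ' : IsGen I' ξ')
    {p : Fin 3 → ℂ} {μ : Ω} (hμ : ξ' - up Ω p = μ • (ξ - up Ω p)) :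
    (ξ' - ξ) ⬝ᵥ (tng g₁ g₂ ξ ⨯₃ tng g₁' g₂' ξ') = 0 := by
  obtain ⟨δ, hδ⟩ := dir_moves hc.nl hξ p
  have hc0 : ∀ c : ℂ, δ (algebraMap ℂ Ω c) = 0 := fun c => δ.map_algebraMap c
  have hμ0 : μ ≠ 0 := by
    rintro rfl
    obtain ⟨δ', h'⟩ := dir_moves hc'.nl hξ' p
    rw [hμ, zero_smul] at h'
    exact h' (by simp)
  obtain ⟨a1, a2⟩ := sega_van hc hξ
  obtain ⟨b1, b2⟩ := sega_van hc' hξ'
  have t1 := der_par a1 a2 δ hc0
  have t2 := der_par b1 b2 δ hc0
  have hw : (fun i => δ (ξ' i)) = δ μ • (ξ - up Ω p) + μ • fun i => δ (ξ i) := by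
    ext i
    have h1 := congrArg δ (congrFun hμ i)
    simp only [Pi.sub_apply, Pi.smul_apply, smul_eq_mul, map_sub, up, hc0, sub_zero,
      Derivation.leibniz] at h1
    simp only [Pi.add_apply, Pi.sub_apply, Pi.smul_apply, smul_eq_mul, up]
    rw [h1]
    ring
  have he : ξ' - ξ = (μ - 1) • (ξ - up Ω p) := by
    rw [sub_smul, one_smul, ← hμ]
    abel
  generalize ξ - up Ω p = d at hδ hw he
  generalize (fun i => δ (ξ i)) = w at hδ hw t1
  have hw0 : w ≠ 0 := by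
    rintro rfl
    exact hδ (by simp)
  have hw' : (fun i => δ (ξ' i)) ≠ 0 := by
    intro h0
    have h1 : d ⨯₃ (fun i => δ (ξ' i)) = μ • (d ⨯₃ w) := by
      rw [hw, map_add, map_smul, map_smul, cross_self, smul_zero, zero_add]
    rw [h0, map_zero] at h1
    exact hδ ((smul_eq_zero.1 h1.symm).resolve_left hμ0)
  obtain ⟨s, hs⟩ := sega_par hw0 t1
  obtain ⟨s', hs'⟩ := sega_par hw' t2
  rw [hs, hs', hw, he]
  simp only [cross_apply, dotProduct, Fin.sum_univ_three, cons_val_zero, cons_val_one, Matrix.cons_val,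
    Pi.add_apply, Pi.smul_apply, smul_eq_mul]
  ring

theorem alg_dir (hc : Crv I g₁ g₂) (hξ : IsGen I ξ) (p : Fin 3 → ℂ) {i : Fin 3}
    (hi : (ξ - up Ω p) i ≠ 0) :
    IsAlgebraic (IntermediateField.adjoin ℂ (Set.range fun j => (ξ - up Ω p) j / (ξ - up Ω p) i))
      ((ξ - up Ω p) i) := by
  by_contra hna
  have : CharZero Ω := charZero_of_injective_algebraMap (algebraMap ℂ Ω).injective
  obtain ⟨δ, hδ⟩ := der_one (L := Ω) hna
  have hF : ∀ x ∈ IntermediateField.adjoin ℂ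
      (Set.range fun j => (ξ - up Ω p) j / (ξ - up Ω p) i), δ x = 0 :=
    fun x hx => δ.map_algebraMap ⟨x, hx⟩
  have hc0 : ∀ c : ℂ, δ (algebraMap ℂ Ω c) = 0 := fun c =>
    hF _ (IntermediateField.algebraMap_mem _ c)
  have hw : (fun j => δ (ξ j)) = ((ξ - up Ω p) i)⁻¹ • (ξ - up Ω p) := by
    ext j
    have h1 : δ ((ξ - up Ω p) j / (ξ - up Ω p) i) = 0 :=
      hF _ (IntermediateField.subset_adjoin ℂ _ ⟨j, rfl⟩)
    have h2 : δ ((ξ - up Ω p) j) = δ (ξ j) := by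
      have h6 : (ξ - up Ω p) j = ξ j - algebraMap ℂ Ω (p j) := rfl
      rw [h6, Derivation.map_sub, hc0, sub_zero]
    have h3 : (ξ - up Ω p) j = (ξ - up Ω p) j / (ξ - up Ω p) i * (ξ - up Ω p) i :=
      (div_mul_cancel₀ _ hi).symm
    have h4 : δ ((ξ - up Ω p) j) = (ξ - up Ω p) j / (ξ - up Ω p) i := by
      have h5 := congrArg δ h3
      rw [Derivation.leibniz, hδ, h1, smul_zero, add_zero, smul_eq_mul, mul_one] at h5
      exact h5
    rw [← h2, h4, Pi.smul_apply, smul_eq_mul, div_eq_inv_mul]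
  obtain ⟨a1, a2⟩ := sega_van hc hξ
  have t1 := der_par a1 a2 δ hc0
  obtain ⟨δ', h'⟩ := dir_moves hc.nl hξ p
  have t2 := der_par a1 a2 δ' fun c => δ'.map_algebraMap c
  rw [hw, map_smul] at t1
  have t3 := (smul_eq_zero.1 t1).resolve_left (inv_ne_zero hi)
  have hT := hc.tng_ne hξ
  rw [← cross_anticomm, neg_eq_zero] at t2 t3
  obtain ⟨s, hs⟩ := sega_par hT t3
  obtain ⟨s', hs'⟩ := sega_par hT t2
  apply h'
  rw [hs', hs]
  simp

end Vale.Agent.P054
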