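import Vale.Agent.P054.SegA

/-! SegB: if all tangents of a curve meet a fixed line, the curve is planar over `ℂ` (about 300 lines).
Let `Ω' = FractionRing (Ω[x] ⧸ q)` (or its algebraic closure), `η` the image of the variables. `q ∩ ℂ[x] = I'` (it contains `g₁', g₂'`, is prime and lies in `I'` because `q` vanishes at `ξ'`; minimality), so `η` is generic for `I'` and `t' = tng g₁' g₂' η ≠ 0`. Some `Ω`-derivation `δ'` has `δ' η ≠ 0` (otherwise `const_mem` over `Ω` makes `q` the ideal of a point, equal to `ξ'`, against `hq₃`).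
For every `Ω`-derivation `δ'`, `δ' η ∥ t'` (`der_par`), so `N = (η - ξ) × t` has `N × δ' N = 0`; `const_dir` over `Ω` gives `N₀ ≠ 0` in `Ω³` with `N₀ ⬝ᵥ (η - ξ) = 0` (if `N = 0` take any `N₀ ⊥ t`).
The space `Λ = {(N, c) ∈ Ω⁴ | N ⬝ᵥ η = c}` (index type `Option (Fin 3)`) is stable under the `ℂ`-derivations of `Ω`: extend by `ext_der` and subtract a multiple of `δ'` so that `η` is killed. `const_span`: `Λ` is spanned by complex vectors `(ν, c)` with `lin ν c ∈ I'`; by `NL` and `1 ∉ I'` they are all proportional, so `(N₀, N₀ ⬝ᵥ ξ)` is a multiple of one of them.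
-/

noncomputable section

open Classical MvPolynomial Matrix Finset

namespace Vale.Agent.P054

variable {Ω : Type} [Field Ω] [Algebra ℂ Ω] [IsAlgClosed Ω]

/-- the polynomial `y ↦ (y - ξ) ⬝ᵥ (t × tng y)` -/
def psi (g₁ g₂ : P3) (ξ t : Fin 3 → Ω) : MvPolynomial (Fin 3) Ω :=
  (fun i => X i - C (ξ i)) ⬝ᵥ ((fun i => C (t i)) ⨯₃
    fun i => MvPolynomial.map (algebraMap ℂ Ω) ((gr g₁ X ⨯₃ gr g₂ X) i))

theorem segb_par {F : Type*} [Field F] {a c : Fin 3 → F} (ha : a ≠ 0) (h : a ⨯₃ c = 0) :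
    ∃ κ : F, c = κ • a := by
  by_contra hn
  refine crossProduct_ne_zero_iff_linearIndependent.2 ((LinearIndependent.pair_iff' ha).2 ?_) h
  exact fun κ hκ => hn ⟨κ, hκ.symm⟩

theorem segb_perp {F : Type*} [Field F] (t : Fin 3 → F) : ∃ N : Fin 3 → F, N ≠ 0 ∧ N ⬝ᵥ t = 0 := by
  by_cases h : t 0 = 0
  · exact ⟨Pi.single 0 1, by simp, by simpa using h⟩
  · refine ⟨![t 1, -t 0, 0], fun h0 => h (by simpa using congrFun h0 1), ?_⟩
    simp only [dotProduct, Fin.sum_univ_three, cons_val_zero, cons_val_one, cons_val_two,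
      head_cons, tail_cons]
    ring

section ext

variable {L : Type} [Field L] [Algebra ℂ L] [Algebra Ω L] [IsScalarTower ℂ Ω L]

/-- coordinatewise inclusion -/
def segbU (L : Type) [Field L] [Algebra Ω L] (x : Fin 3 → Ω) : Fin 3 → L :=
  fun i => algebraMap Ω L (x i)

omit [IsAlgClosed Ω] in
theorem segb_psi (g₁ g₂ : P3) (ξ t : Fin 3 → Ω) (η : Fin 3 → L) :
    aeval η (psi g₁ g₂ ξ t) = (η - segbU L ξ) ⬝ᵥ (segbU L t ⨯₃ tng g₁ g₂ η) := by
  have h : ∀ i, aeval η ((gr g₁ X ⨯₃ gr g₂ X : Fin 3 → P3) i) = tng g₁ g₂ η i := fun i => by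
    fin_cases i <;> simp [tng, gr, cross_apply]
  rw [psi]
  generalize (gr g₁ X ⨯₃ gr g₂ X : Fin 3 → P3) = u at h
  generalize tng g₁ g₂ η = w at h
  simp [dotProduct, Fin.sum_univ_three, cross_apply, aeval_map_algebraMap, h, segbU]

omit [Algebra ℂ Ω] [IsAlgClosed Ω] [Algebra ℂ L] [IsScalarTower ℂ Ω L] in
theorem segb_dot (x y : Fin 3 → Ω) : segbU L x ⬝ᵥ segbU L y = algebraMap Ω L (x ⬝ᵥ y) := by
  simp only [dotProduct, segbU, map_sum, map_mul]

theorem segb_normal {g₁ g₂ : P3} {η : Fin 3 → L} (h1 : aeval η g₁ = 0) (h2 : aeval η g₂ = 0)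
    (hτ : tng g₁ g₂ η ≠ 0) {ξ t : Fin 3 → Ω} (ht : t ≠ 0)
    (hψ : (η - segbU L ξ) ⬝ᵥ (segbU L t ⨯₃ tng g₁ g₂ η) = 0) :
    ∃ N : Fin 3 → Ω, N ≠ 0 ∧ segbU L N ⬝ᵥ (η - segbU L ξ) = 0 := by
  have : CharZero Ω := charZero_of_injective_algebraMap (algebraMap ℂ Ω).injective
  obtain ⟨κ, N, hN, h⟩ := const_dir (K := Ω) (v := (η - segbU L ξ) ⨯₃ segbU L t) fun d => by
    obtain ⟨s, hs⟩ := segb_par hτ (der_par h1 h2 d fun c => by
      rw [IsScalarTower.algebraMap_apply ℂ Ω L, d.map_algebraMap])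
    have h3 : (fun i => d (((η - segbU L ξ) ⨯₃ segbU L t) i)) =
        (fun i => d (η i)) ⨯₃ segbU L t := by
      funext i
      fin_cases i <;> simp [cross_apply, segbU, mul_comm]
    rw [h3, hs, cross_cross_eq_smul_sub_smul', dotProduct_comm _ (segbU L t), dot_cross_self,
      smul_dotProduct, triple_product_permutation, hψ]
    simp
  by_cases hκ : κ = 0
  · have ht' : segbU L t ≠ 0 := fun h0 => ht (funext fun i =>
      (algebraMap Ω L).injective ((congrFun h0 i).trans (map_zero _).symm))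
    rw [hκ, zero_smul, ← cross_anticomm, neg_eq_zero] at h
    obtain ⟨s, hs⟩ := segb_par ht' h
    obtain ⟨N', h3, h4⟩ := segb_perp t
    exact ⟨N', h3, by rw [hs, dotProduct_smul, segb_dot, h4, map_zero, smul_zero]⟩
  · refine ⟨N, hN, mul_left_cancel₀ hκ ?_⟩
    have h3 := dot_self_cross (η - segbU L ξ) (segbU L t)
    rw [h, dotProduct_smul, dotProduct_comm] at h3
    exact h3.trans (mul_zero _).symm

/-- the affine relations of `η` with coefficients in `Ω` -/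
def segbL (Ω : Type) [Field Ω] [Algebra Ω L] (η : Fin 3 → L) :
    Submodule Ω (Option (Fin 3) → Ω) where
  carrier := {w | ∑ i, algebraMap Ω L (w (some i)) * η i = algebraMap Ω L (w none)}
  add_mem' := by
    intro a b ha hb
    simp only [Set.mem_setOf_eq, Pi.add_apply, map_add, add_mul, sum_add_distrib] at ha hb ⊢
    rw [ha, hb]
  zero_mem' := by simp
  smul_mem' := by
    intro c a ha
    simp only [Set.mem_setOf_eq, Pi.smul_apply, smul_eq_mul, map_mul, mul_assoc,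
      ← mul_sum] at ha ⊢
    rw [ha]

omit [IsAlgClosed Ω] in
theorem segb_stable {g₁ g₂ : P3} {η : Fin 3 → L} (h1 : aeval η g₁ = 0) (h2 : aeval η g₂ = 0)
    (hτ : tng g₁ g₂ η ≠ 0) {δ : Derivation Ω L L} (hδ : (fun i => δ (η i)) ≠ 0)
    (d : Derivation ℂ Ω Ω) (w : Option (Fin 3) → Ω) (hw : w ∈ segbL Ω η) :
    (fun o => d (w o)) ∈ segbL Ω η := by
  obtain ⟨D, hD⟩ := ext_der ((Algebra.linearMap Ω L).compDer d)
  have hD' : ∀ x, D (algebraMap Ω L x) = algebraMap Ω L (d x) := hD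
  obtain ⟨s, hs⟩ := segb_par hτ (der_par h1 h2 δ fun c => by
    rw [IsScalarTower.algebraMap_apply ℂ Ω L, δ.map_algebraMap])
  obtain ⟨r, hr⟩ := segb_par hτ (der_par h1 h2 D D.map_algebraMap)
  have hs0 : s ≠ 0 := fun h0 => hδ (by rw [hs, h0, zero_smul])
  have hs' : ∀ i, δ (η i) = s * tng g₁ g₂ η i := congrFun hs
  have hr' : ∀ i, D (η i) = r * tng g₁ g₂ η i := congrFun hr
  have hw' : ∑ i, algebraMap Ω L (w (some i)) * η i = algebraMap Ω L (w none) := hw
  have e1 := congrArg δ hw'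
  have e2 := congrArg D hw'
  simp only [Fin.sum_univ_three, map_add, Derivation.leibniz, δ.map_algebraMap, smul_eq_mul, hD',
    hs', hr'] at e1 e2
  change ∑ i, algebraMap Ω L (d (w (some i))) * η i = algebraMap Ω L (d (w none))
  rw [Fin.sum_univ_three]
  refine mul_left_cancel₀ hs0 ?_
  linear_combination s * e2 - r * e1

theorem segb_main {I' : Ideal P3} {g₁ g₂ : P3} (hc : Crv I' g₁ g₂) {η : Fin 3 → L}
    (hη : IsGen I' η) {δ : Derivation Ω L L} (hδ : (fun i => δ (η i)) ≠ 0) {ξ t : Fin 3 → Ω}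
    (ht : t ≠ 0) (hψ : (η - segbU L ξ) ⬝ᵥ (segbU L t ⨯₃ tng g₁ g₂ η) = 0) :
    ∃ ν c, ν ≠ 0 ∧ lin ν c ∈ I' ∧ aeval ξ (lin ν c) = 0 := by
  have h1 : aeval η g₁ = 0 := (hη _).2 (hc.min.1.2 (Ideal.subset_span (by simp)))
  have h2 : aeval η g₂ = 0 := (hη _).2 (hc.min.1.2 (Ideal.subset_span (by simp)))
  have hτ := hc.tng_ne hη
  obtain ⟨N, hN, hN'⟩ := segb_normal h1 h2 hτ ht hψ
  have hw : (fun o : Option (Fin 3) => o.elim (N ⬝ᵥ ξ) N) ∈ segbL Ω η := by
    rw [dotProduct_sub, segb_dot, sub_eq_zero] at hN'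
    exact hN'
  have hr : ∀ a ∈ ratl ℂ (segbL Ω η), up L (fun i => a (some i)) ⬝ᵥ η = algebraMap ℂ L (a none) :=
    fun a ha => by
      have h3 : ∑ i, algebraMap Ω L (algebraMap ℂ Ω (a (some i))) * η i =
        algebraMap Ω L (algebraMap ℂ Ω (a none)) := ha
      simp only [← IsScalarTower.algebraMap_apply] at h3
      exact h3
  have hl : ∀ a ∈ ratl ℂ (segbL Ω η), lin (fun i => a (some i)) (a none) ∈ I' := fun a ha =>
    (hη _).1 (by rw [aeval_lin, hr a ha, sub_self])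
  have h0 : ∀ a ∈ ratl ℂ (segbL Ω η), (fun i => a (some i)) = 0 → a = 0 := fun a ha h => by
    have h3 := hr a ha
    have h4 : up L (0 : Fin 3 → ℂ) = 0 := funext fun i => map_zero _
    rw [h, h4, zero_dotProduct, eq_comm, map_eq_zero] at h3
    funext o
    cases o with
    | none => exact h3
    | some i => exact congrFun h i
  rw [(const_span (K := ℂ) _ (segb_stable h1 h2 hτ hδ)).1] at hw
  by_cases hex : ∃ a ∈ ratl ℂ (segbL Ω η), (fun i => a (some i)) ≠ 0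
  · obtain ⟨a, ha, ha0⟩ := hex
    refine ⟨_, _, ha0, hl a ha, ?_⟩
    have hle : Submodule.span Ω ((fun w i => algebraMap ℂ Ω (w i)) ''
        (ratl ℂ (segbL Ω η) : Set (Option (Fin 3) → ℂ))) ≤
        Submodule.span Ω {fun o => algebraMap ℂ Ω (a o)} := by
      rw [Submodule.span_le]
      rintro _ ⟨b, hb, rfl⟩
      obtain ⟨s, hs⟩ := segb_par ha0 (hc.nl _ _ _ _ (hl a ha) (hl b hb))
      have h3 := h0 (b - s • a) (Submodule.sub_mem _ hb (Submodule.smul_mem _ s ha))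
        (sub_eq_zero.2 hs)
      refine Submodule.mem_span_singleton.2 ⟨algebraMap ℂ Ω s, funext fun o => ?_⟩
      rw [sub_eq_zero.1 h3]
      exact (map_mul _ _ _).symm
    obtain ⟨s, hs⟩ := Submodule.mem_span_singleton.1 (hle hw)
    have h3 : s • up Ω (fun i => a (some i)) = N := funext fun i => congrFun hs (some i)
    have h4 : s * algebraMap ℂ Ω (a none) = N ⬝ᵥ ξ := congrFun hs none
    have h5 : s ≠ 0 := fun h => hN (by rw [← h3, h, zero_smul])
    rw [← h3, smul_dotProduct, smul_eq_mul] at h4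
    rw [aeval_lin, mul_left_cancel₀ h5 h4, sub_self]
  · have hle : Submodule.span Ω ((fun w i => algebraMap ℂ Ω (w i)) ''
        (ratl ℂ (segbL Ω η) : Set (Option (Fin 3) → ℂ))) ≤ ⊥ := by
      rw [Submodule.span_le]
      rintro _ ⟨b, hb, rfl⟩
      rw [h0 b hb (by_contra fun h => hex ⟨b, hb, h⟩)]
      exact funext fun o => map_zero _
    exact absurd (funext fun i => congrFun (hle hw) (some i)) hN

end ext

theorem eval_psi (g₁ g₂ : P3) (ξ t y : Fin 3 → Ω) :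
    eval y (psi g₁ g₂ ξ t) = (y - ξ) ⬝ᵥ (t ⨯₃ tng g₁ g₂ y) :=
  segb_psi (L := Ω) g₁ g₂ ξ t y

theorem planar_of_psi {I' : Ideal P3} {g₁ g₂ : P3} (hc : Crv I' g₁ g₂) {ξ ξ' t : Fin 3 → Ω}
    (hξ' : IsGen I' ξ') (ht : t ≠ 0) {q : Ideal (MvPolynomial (Fin 3) Ω)} (hq : q.IsPrime)
    (hq₁ : MvPolynomial.map (algebraMap ℂ Ω) g₁ ∈ q ∧ MvPolynomial.map (algebraMap ℂ Ω) g₂ ∈ q)
    (hq₂ : ∀ f ∈ q, eval ξ' f = 0) (hq₃ : ∃ f, eval ξ' f = 0 ∧ f ∉ q) (hψ : psi g₁ g₂ ξ t ∈ q) :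
    ∃ ν c, ν ≠ 0 ∧ lin ν c ∈ I' ∧ aeval ξ (lin ν c) = 0 := by
  have : CharZero Ω := charZero_of_injective_algebraMap (algebraMap ℂ Ω).injective
  obtain ⟨η, hη⟩ : ∃ η : Fin 3 → FractionRing (MvPolynomial (Fin 3) Ω ⧸ q), IsGen q η := by
    let φ : MvPolynomial (Fin 3) Ω →ₐ[Ω] FractionRing (MvPolynomial (Fin 3) Ω ⧸ q) :=
      (IsScalarTower.toAlgHom Ω _ _).comp (Ideal.Quotient.mkₐ Ω q)
    refine ⟨fun i => φ (X i), fun f => ?_⟩
    rw [← comp_aeval_apply, aeval_X_left_apply]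
    exact (IsFractionRing.to_map_eq_zero_iff (x := Ideal.Quotient.mk q f)).trans
      Ideal.Quotient.eq_zero_iff_mem
  have hI : IsGen I' η := fun f => by
    rw [← aeval_map_algebraMap Ω, hη]
    have hle : q.comap (MvPolynomial.map (algebraMap ℂ Ω)) ≤ I' := fun g hg =>
      (hξ' g).1 ((aeval_map_algebraMap Ω ξ' g).symm.trans (hq₂ _ hg))
    refine ⟨fun h => hle h, fun h => hc.min.2 ⟨Ideal.comap_isPrime _ q, ?_⟩ hle h⟩
    rw [Ideal.span_le]
    rintro g (rfl | rfl)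
    exacts [hq₁.1, hq₁.2]
  obtain ⟨δ, hδ⟩ : ∃ δ : Derivation Ω _ _, (fun i => δ (η i)) ≠ 0 := by
    refine Classical.byContradiction fun hn => ?_
    choose c hc' using fun i => const_mem (K := Ω) (u := η i) fun d =>
      congrFun (by_contra fun h => hn ⟨d, h⟩ : (fun i => d (η i)) = 0) i
    have h1 : ξ' = c := funext fun i => by
      have h2 := hq₂ (X i - C (c i)) ((hη _).1 (by simp [hc']))
      simpa [sub_eq_zero] using h2
    obtain ⟨f, hf, hf'⟩ := hq₃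
    refine hf' ((hη f).1 ?_)
    rw [← funext hc', ← h1]
    refine (aeval_algebraMap_apply _ ξ' f).trans ?_
    rw [show aeval ξ' f = 0 from hf, map_zero]
  exact segb_main hc hI hδ ht ((segb_psi g₁ g₂ ξ t η).symm.trans ((hη _).2 hψ))

end Vale.Agent.P054
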