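import Vale.Agent.P054.RootL
import Vale.Agent.P054.Const

/-! StructA: the stable hull of one root is orthogonal to the other root (about 300 lines).
`F t` = derivations with `δ ξ = tv (yt t) d` for some `d`; for a root, such `δ` kill `hat (zt t)` (`δ u = δ σ + δ s × y + s × δ y`). `exists_F`: `d1_tv`, `grad_yt`, `tangent_of_gen`, `pt_der`.
`split_der`: `δ ξ = (ds, dσ)` is tangent (`der_aeval`), so `A = dσ + ds × y₁` is orthogonal to `h_σ`; solve `d₂ × (y₁ - y₂) = A` (`yt_sub`, use `Pi.single e 1 × A`), take `δ₂` from `exists_F`, then `δ - δ₂ ∈ F t₁` with `d₁ = ds - d₂`.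
`stab_perp`: `U 0 = span {ẑ₂}`, `U (k+1) = U k ⊔ span {δ u | δ ∈ F t₁, u ∈ U k}`. By induction every `δ' ∈ F t₂` maps `U k` to `U k` and every derivation maps `U k` to `U (k+1)` (`δ' δ u = δ δ' u + ⁅δ', δ⁆ u`; Leibniz rule for scalars), and `U k ⊥ ẑ₁`. The supremum is stable.
-/

noncomputable section

open Classical MvPolynomial Matrix Finset

namespace Vale.Agent.P054

variable {Ω : Type*} [Field Ω] [Algebra ℂ Ω] {h : P6} {e : Fin 3} {ξ : S6 → Ω}

def Stable (U : Submodule Ω (S8 → Ω)) : Prop :=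
  ∀ (d : Derivation ℂ Ω Ω), ∀ u ∈ U, (fun i => d (u i)) ∈ U

def stab (v : S8 → Ω) : Submodule Ω (S8 → Ω) := sInf {U | v ∈ U ∧ Stable U}

theorem mem_stab (v : S8 → Ω) : v ∈ stab v :=
  Submodule.mem_sInf.2 fun _ hU => hU.1

theorem stab_stable (v : S8 → Ω) : Stable (stab v) := fun d u hu =>
  Submodule.mem_sInf.2 fun U hU => hU.2 d u (Submodule.mem_sInf.1 hu U hU)

theorem stab_le {v : S8 → Ω} {U : Submodule Ω (S8 → Ω)} (hv : v ∈ U) (hU : Stable U) :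
    stab v ≤ U := sInf_le ⟨hv, hU⟩

theorem der_bf (δ : Derivation ℂ Ω Ω) (a b : S8 → Ω) :
    δ (bf a b) = bf (fun i => δ (a i)) b + bf a fun i => δ (b i) := by
  simp only [bf, map_sum, map_add, Derivation.leibniz, smul_eq_mul, ← sum_add_distrib]
  exact sum_congr rfl fun o _ => by ring

theorem GenH.exists_F (hg : GenH h e ξ) (t : Ω) (d : Fin 3 → Ω) :
    ∃ δ : Derivation ℂ Ω Ω, ∀ a, δ (ξ a) = tv (yt h e ξ t) d a :=
  pt_der ξ _ (tangent_of_gen h hg.gen (by rw [d1_tv, hg.grad_yt t, sub_self, dotProduct_zero]))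

theorem GenH.split_der (hg : GenH h e ξ) {t₁ t₂ : Ω} (ht : t₁ ≠ t₂) (δ : Derivation ℂ Ω Ω) :
    ∃ (δ₂ : Derivation ℂ Ω Ω) (d₁ d₂ : Fin 3 → Ω), (∀ a, δ₂ (ξ a) = tv (yt h e ξ t₂) d₂ a) ∧
      ∀ a, (δ - δ₂) (ξ a) = tv (yt h e ξ t₁) d₁ a := by
  have h0 : aeval ξ h = 0 := (hg.gen h).2 (Ideal.mem_span_singleton_self h)
  have h1 := der_aeval h ξ δ
  rw [h0, map_zero] at h1
  have h2 : (fun i => δ (ξ (.inl i))) ⬝ᵥ (fun i => gr h ξ (.inl i)) +
      (fun i => δ (ξ (.inr i))) ⬝ᵥ (fun i => gr h ξ (.inr i)) = 0 := by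
    rw [h1, d1, Fintype.sum_sum_type]
    rfl
  have hy := hg.yt_sub t₁ t₂
  have hn := hg.n_ne
  have he : (Pi.single e 1 : Fin 3 → Ω) ⬝ᵥ (fun i => gr h ξ (.inr i)) = gr h ξ (.inr e) := by
    rw [single_dotProduct, one_mul]
  rw [hg.grad_yt t₁, triple_product_permutation, triple_product_permutation, dotProduct_comm,
    ← add_dotProduct] at h2
  set A := (fun i => δ (ξ (.inl i))) ⨯₃ yt h e ξ t₁ + fun i => δ (ξ (.inr i)) with hA
  have h3 : ((t₁ - t₂)⁻¹ • (Pi.single e 1 ⨯₃ A)) ⨯₃ (yt h e ξ t₁ - yt h e ξ t₂) = A := by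
    rw [hy, LinearMap.map_smul₂, map_smul, cross_cross_eq_smul_sub_smul, h2, he, zero_smul,
      sub_zero, smul_smul, smul_smul]
    have : (t₁ - t₂)⁻¹ * ((t₁ - t₂) / gr h ξ (.inr e)) * gr h ξ (.inr e) = 1 := by
      have := sub_ne_zero.2 ht
      field_simp
    rw [this, one_smul]
  generalize (t₁ - t₂)⁻¹ • (Pi.single e 1 ⨯₃ A) = d₂ at h3
  obtain ⟨δ₂, h4⟩ := hg.exists_F t₂ d₂
  refine ⟨δ₂, (fun i => δ (ξ (.inl i))) - d₂, d₂, h4, fun a => ?_⟩
  rw [Derivation.sub_apply, h4]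
  rcases a with i | i
  · rfl
  · have h5 := congrFun h3 i
    rw [map_sub, hA] at h5
    simp only [tv, Sum.elim_inr, LinearMap.map_sub₂, Pi.neg_apply, Pi.sub_apply,
      Pi.add_apply] at h5 ⊢
    linear_combination -h5

def sA_F (h : P6) (e : Fin 3) (ξ : S6 → Ω) (t : Ω) (δ : Derivation ℂ Ω Ω) : Prop :=
  ∃ d, ∀ a, δ (ξ a) = tv (yt h e ξ t) d a

theorem sA_cross (δ : Derivation ℂ Ω Ω) (a b : Fin 3 → Ω) :
    (fun i => δ ((a ⨯₃ b) i)) = (fun i => δ (a i)) ⨯₃ b + a ⨯₃ fun i => δ (b i) := by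
  funext i
  fin_cases i <;>
  · simp [cross_apply]
    ring

theorem sA_kill {t : Ω} (ht : Root h e ξ t) (δ : Derivation ℂ Ω Ω) (hδ : sA_F h e ξ t δ) :
    (fun i => δ (hat (zt h e ξ t) i)) = 0 := by
  obtain ⟨d, hd⟩ := hδ
  have hy : ∀ i, δ ((zt h e ξ t).1 i) = 0 := ht δ d hd
  have hu : ∀ i, δ ((zt h e ξ t).2 i) = 0 := by
    intro i
    have h1 := congrFun (sA_cross δ (fun i => ξ (.inl i)) (yt h e ξ t)) i
    have h2 : (fun i => δ (yt h e ξ t i)) = 0 := funext hy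
    have h3 : (fun i => δ (ξ (.inl i))) = d := funext fun i => hd _
    rw [h2, h3, map_zero, add_zero] at h1
    show δ (ξ (.inr i) + ((fun i => ξ (.inl i)) ⨯₃ yt h e ξ t) i) = 0
    rw [map_add, h1, hd]
    exact neg_add_cancel _
  funext a
  rcases a with (_ | i) | (_ | i)
  · exact δ.map_one_eq_zero
  · exact hy i
  · show δ (-∑ i, (zt h e ξ t).2 i * (zt h e ξ t).1 i) = 0
    simp only [map_neg, map_sum, Derivation.leibniz, hy, hu, smul_zero, add_zero, sum_const_zero,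
      neg_zero]
  · exact hu i

theorem sA_bf (h : P6) (e : Fin 3) (ξ : S6 → Ω) (t₁ t₂ : Ω) :
    bf (hat (zt h e ξ t₂)) (hat (zt h e ξ t₁)) = 0 := by
  simp only [bf, hat, zt, Fintype.sum_option, Sum.elim_inl, Sum.elim_inr, Option.elim,
    Fin.sum_univ_three, dotProduct, Pi.add_apply, cross_apply, cons_val_zero, cons_val_one,
    Matrix.cons_val]
  ring

def sA_perp (b : S8 → Ω) : Submodule Ω (S8 → Ω) where
  carrier := {u | bf u b = 0}
  add_mem' := by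
    intro u v hu hv
    have e : bf (u + v) b = bf u b + bf v b := by
      simp only [bf, Pi.add_apply, ← sum_add_distrib]
      exact sum_congr rfl fun o _ => by ring
    show bf (u + v) b = 0
    rw [e, hu, hv, add_zero]
  zero_mem' := by simp [bf]
  smul_mem' := by
    intro c u hu
    have e : bf (c • u) b = c * bf u b := by
      simp only [bf, Pi.smul_apply, smul_eq_mul, mul_sum]
      exact sum_congr rfl fun o _ => by ring
    show bf (c • u) b = 0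
    rw [e, hu, mul_zero]

theorem sA_span (δ : Derivation ℂ Ω Ω) {s : Set (S8 → Ω)} {W : Submodule Ω (S8 → Ω)}
    (hs : Submodule.span Ω s ≤ W) (hd : ∀ v ∈ s, (fun i => δ (v i)) ∈ W) :
    ∀ u ∈ Submodule.span Ω s, (fun i => δ (u i)) ∈ W := by
  intro u hu
  induction hu using Submodule.span_induction with
  | mem x hx => exact hd x hx
  | zero =>
    have e : (fun i => δ ((0 : S8 → Ω) i)) = 0 := funext fun _ => map_zero δ
    rw [e]
    exact W.zero_mem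
  | add x y _ _ hx hy =>
    have e : (fun i => δ ((x + y) i)) = (fun i => δ (x i)) + fun i => δ (y i) :=
      funext fun _ => map_add δ _ _
    rw [e]
    exact W.add_mem hx hy
  | smul c x hx0 hx =>
    have e : (fun i => δ ((c • x) i)) = (c • fun i => δ (x i)) + δ c • x := by
      funext i
      simp only [Pi.smul_apply, Pi.add_apply, smul_eq_mul, Derivation.leibniz]
      ring
    rw [e]
    exact W.add_mem (W.smul_mem _ hx) (W.smul_mem _ (hs hx0))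

def sA_U (h : P6) (e : Fin 3) (ξ : S6 → Ω) (t₁ t₂ : Ω) : ℕ → Submodule Ω (S8 → Ω)
  | 0 => Submodule.span Ω {hat (zt h e ξ t₂)}
  | k + 1 => Submodule.span Ω (sA_U h e ξ t₁ t₂ k ∪
      {v | ∃ δ, sA_F h e ξ t₁ δ ∧ ∃ u ∈ sA_U h e ξ t₁ t₂ k, (fun i => δ (u i)) = v})

theorem sA_mono {t₁ t₂ : Ω} (k : ℕ) : sA_U h e ξ t₁ t₂ k ≤ sA_U h e ξ t₁ t₂ (k + 1) :=
  fun _ hu => Submodule.subset_span (Or.inl hu)

theorem sA_gen {t₁ t₂ : Ω} {k : ℕ} {δ : Derivation ℂ Ω Ω} (hδ : sA_F h e ξ t₁ δ) {u : S8 → Ω}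
    (hu : u ∈ sA_U h e ξ t₁ t₂ k) : (fun i => δ (u i)) ∈ sA_U h e ξ t₁ t₂ (k + 1) :=
  Submodule.subset_span (Or.inr ⟨δ, hδ, u, hu, rfl⟩)

theorem sA_step (hg : GenH h e ξ) {t₁ t₂ : Ω} (ht : t₁ ≠ t₂) {k : ℕ}
    (ha : ∀ δ', sA_F h e ξ t₂ δ' → ∀ u ∈ sA_U h e ξ t₁ t₂ k,
      (fun i => δ' (u i)) ∈ sA_U h e ξ t₁ t₂ k) (δ : Derivation ℂ Ω Ω) {u : S8 → Ω}
    (hu : u ∈ sA_U h e ξ t₁ t₂ k) : (fun i => δ (u i)) ∈ sA_U h e ξ t₁ t₂ (k + 1) := by
  obtain ⟨δ₂, d₁, d₂, h2, h1⟩ := hg.split_der ht δ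
  have e : (fun i => δ (u i)) = (fun i => δ₂ (u i)) + fun i => (δ - δ₂) (u i) := by
    funext i
    rw [Pi.add_apply, Derivation.sub_apply]
    ring
  rw [e]
  exact Submodule.add_mem _ (sA_mono k (ha δ₂ ⟨d₂, h2⟩ u hu)) (sA_gen ⟨d₁, h1⟩ hu)

theorem GenH.stab_perp (hg : GenH h e ξ) {t₁ t₂ : Ω} (ht : t₁ ≠ t₂) (h1 : Root h e ξ t₁)
    (h2 : Root h e ξ t₂) : ∀ u ∈ stab (hat (zt h e ξ t₂)), bf u (hat (zt h e ξ t₁)) = 0 := by
  have hk := sA_kill h1
  have ha : ∀ k, ∀ δ', sA_F h e ξ t₂ δ' → ∀ u ∈ sA_U h e ξ t₁ t₂ k,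
      (fun i => δ' (u i)) ∈ sA_U h e ξ t₁ t₂ k := by
    intro k
    induction k with
    | zero =>
      intro δ' hδ'
      refine sA_span δ' le_rfl ?_
      rintro _ rfl
      rw [sA_kill h2 δ' hδ']
      exact Submodule.zero_mem _
    | succ k ih =>
      intro δ' hδ'
      refine sA_span δ' le_rfl ?_
      rintro v (hv | ⟨δ, hδ, u, hu, rfl⟩)
      · exact sA_mono _ (ih δ' hδ' v hv)
      · have e : (fun i => δ' (δ (u i))) =
            (fun i => δ (δ' (u i))) + fun i => (⁅δ', δ⁆ : Derivation ℂ Ω Ω) (u i) := by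
          funext i
          rw [Pi.add_apply, Derivation.commutator_apply]
          ring
        rw [e]
        exact Submodule.add_mem _ (sA_gen hδ (ih δ' hδ' u hu)) (sA_step hg ht ih _ hu)
  have hc : ∀ k, sA_U h e ξ t₁ t₂ k ≤ sA_perp (hat (zt h e ξ t₁)) := by
    intro k
    induction k with
    | zero =>
      refine Submodule.span_le.2 ?_
      rintro _ rfl
      exact sA_bf h e ξ t₁ t₂
    | succ k ih =>
      refine Submodule.span_le.2 ?_
      rintro v (hv | ⟨δ, hδ, u, hu, rfl⟩)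
      · exact ih hv
      · have h3 := der_bf δ u (hat (zt h e ξ t₁))
        have h4 : bf u (hat (zt h e ξ t₁)) = 0 := ih hu
        have h5 : bf u (0 : S8 → Ω) = 0 := by simp [bf]
        rw [h4, map_zero, hk δ hδ, h5, add_zero] at h3
        exact h3.symm
  have hm : Monotone (sA_U h e ξ t₁ t₂) := monotone_nat_of_le_succ sA_mono
  have hs : Stable (⨆ k, sA_U h e ξ t₁ t₂ k) := by
    intro δ u hu
    obtain ⟨k, hk⟩ := (Submodule.mem_iSup_of_directed _ hm.directed_le).1 hu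
    exact Submodule.mem_iSup_of_mem (k + 1) (sA_step hg ht (ha k) δ hk)
  have h0 : hat (zt h e ξ t₂) ∈ sA_U h e ξ t₁ t₂ 0 := Submodule.subset_span rfl
  exact fun u hu => ((stab_le (Submodule.mem_iSup_of_mem 0 h0) hs).trans (iSup_le hc)) hu

end Vale.Agent.P054
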