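import Vale.Agent.P054.SegA

/-! Transp: transport of generic points along the lines of a cone (about 350 lines).
Let `d = ξ - p`. `hker_cone`: `G ∈ hker ℂ d` (`mem_hker`, `aeval_coneAt`), linear forms in `hker` give affine forms in `I`, so `eq_span` applies. `not_inPl`: `lin ν 0 ∈ hker ℂ d = span {G}` has degree 1.
`sec_of_same`: let `ξ₀'` be generic for `I'` (`exists_gen`), `d' = ξ₀' - p`; `hker ℂ d = hker ℂ d'`. Pick `i` with `d i ≠ 0`, so `d' i ≠ 0`. The maps `aeval (d / d i)` and `aeval (d' / d' i)` have the same kernel (homogenize with powers of `X i`), so `A = ℂ[x] ⧸ ker` embeds in both fields; `Om I'` contains `B' = ℂ(d' / d' i)(d' i)`, algebraic over `A` (`alg_dir`); `IsAlgClosed.lift` gives an `A`-embedding `θ : B' → Ω`; `ξ' = θ ξ₀'`, `μ = θ (d' i) / d i`; `ξ' ≠ ξ` because the kernels differ.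
`rat_of_not_sec`: `s = d i` is algebraic over `F = ℂ(d / d i)`. If `s ∉ F`, its separable minimal polynomial has another root `s'` in `Ω` and there is an `F`-embedding `F(s) → Ω` with `s ↦ s'` (`IntermediateField.algHomAdjoinIntegralEquiv`), which gives `Sec I p ξ`. If `s ∈ F` write `s = B₀(d / d i) / A₀(d / d i)` (`IntermediateField.mem_adjoin_range_iff` or `mem_adjoin_iff_div`), homogenize to a common degree `k`: `A = B₀ʰ`, `B = X i * A₀ʰ`.
-/

noncomputable section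

open Classical MvPolynomial Matrix Finset

namespace Vale.Agent.P054

variable {Ω : Type} [Field Ω] [Algebra ℂ Ω] {I I' : Ideal P3} {g₁ g₂ g₁' g₂' G : P3}
  {ξ : Fin 3 → Ω} {p : V}

theorem tr_lin (μ : Fin 3 → ℂ) : (lin μ 0).IsHomogeneous 1 := by
  rw [lin, map_zero, sub_zero]
  exact IsHomogeneous.sum _ _ _ fun i _ => isHomogeneous_C_mul_X _ _

theorem tr_up (ν q : Fin 3 → ℂ) : up Ω ν ⬝ᵥ up Ω q = algebraMap ℂ Ω (ν ⬝ᵥ q) := by
  simp [up, dotProduct]

theorem tr_mem (hξ : IsGen I ξ) (ν q : Fin 3 → ℂ) :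
    lin ν 0 ∈ hker ℂ (ξ - up Ω q) ↔ lin ν (ν ⬝ᵥ q) ∈ I := by
  rw [mem_hker _ (tr_lin ν), ← hξ, aeval_lin, aeval_lin, dotProduct_sub, tr_up, map_zero, sub_zero]

theorem tr_ne (hn : NL I) (hξ : IsGen I ξ) (q : Fin 3 → ℂ) : ∃ i, (ξ - up Ω q) i ≠ 0 := by
  by_contra h
  push Not at h
  have h1 : ∀ ν, lin ν (ν ⬝ᵥ q) ∈ I := fun ν => by
    rw [← tr_mem hξ, mem_hker _ (tr_lin ν), aeval_lin, funext h]
    simp [dotProduct]
  have h2 := congrFun (hn ![1, 0, 0] ![0, 1, 0] _ _ (h1 _) (h1 _)) 2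
  simp [cross_apply] at h2

/-- homogenization -/
def trH (i : Fin 3) (k : ℕ) (f : P3) : P3 :=
  ∑ j ∈ range (k + 1), homogeneousComponent j f * X i ^ (k - j)

theorem trH_hom (i : Fin 3) (k : ℕ) (f : P3) : (trH i k f).IsHomogeneous k :=
  IsHomogeneous.sum _ _ _ fun j hj => by
    have := (homogeneousComponent_isHomogeneous j f).mul (isHomogeneous_X_pow i (k - j))
    rwa [Nat.add_sub_cancel' (Nat.le_of_lt_succ (mem_range.1 hj))] at this

theorem trH_eval {i : Fin 3} {k : ℕ} {f : P3} (hk : f.totalDegree ≤ k) {d : Fin 3 → Ω}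
    (hd : d i ≠ 0) : aeval d (trH i k f) = d i ^ k * aeval (fun j => d j / d i) f := by
  have h1 : ∑ j ∈ range (k + 1), homogeneousComponent j f = f := by
    conv_rhs => rw [← sum_homogeneousComponent f]
    refine (sum_subset (range_subset_range.2 (by omega)) fun j _ hj => ?_).symm
    exact homogeneousComponent_eq_zero _ _ (by rw [mem_range] at hj; omega)
  conv_rhs => rw [← h1]
  rw [trH, map_sum, map_sum, mul_sum]
  refine sum_congr rfl fun j hj => ?_
  have h2 := pc_scale (d i) (fun j => d j / d i) (homogeneousComponent_isHomogeneous j f)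
  rw [show (fun a => d i * (d a / d i)) = d from funext fun a => mul_div_cancel₀ _ hd] at h2
  obtain ⟨m, rfl⟩ := Nat.exists_eq_add_of_le (Nat.le_of_lt_succ (mem_range.1 hj))
  rw [map_mul, map_pow, aeval_X, h2, Nat.add_sub_cancel_left]
  ring

theorem tr_ker {i : Fin 3} {d : Fin 3 → Ω} (hd : d i ≠ 0) (f : P3) :
    aeval (fun j => d j / d i) f = 0 ↔ trH i f.totalDegree f ∈ hker ℂ d := by
  rw [mem_hker _ (trH_hom i _ f), trH_eval le_rfl hd, mul_eq_zero,
    or_iff_right (pow_ne_zero _ hd)]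

open IntermediateField IntermediateField.algebraAdjoinAdjoin in
theorem tr_emb {Ω' : Type} [Field Ω'] [Algebra ℂ Ω'] (a : Fin 3 → Ω) (a' : Fin 3 → Ω')
    (h : ∀ f : P3, aeval a' f = 0 ↔ aeval a f = 0) :
    ∃ φ : adjoin ℂ (Set.range a') →ₐ[ℂ] Ω,
      ∀ j, φ ⟨a' j, subset_adjoin _ _ (Set.mem_range_self j)⟩ = a j := by
  let b : Fin 3 → Algebra.adjoin ℂ (Set.range a') := fun j =>
    ⟨a' j, Algebra.subset_adjoin (Set.mem_range_self j)⟩
  have hb : ∀ f : P3, ((aeval b f : Algebra.adjoin ℂ (Set.range a')) : Ω') = aeval a' f := fun f =>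
    comp_aeval_apply (φ := (Algebra.adjoin ℂ (Set.range a')).val) (f := b) f
  have hs : Function.Surjective (aeval b : P3 →ₐ[ℂ] Algebra.adjoin ℂ (Set.range a')) := by
    rintro ⟨x, hx⟩
    have hx' := hx
    rw [Algebra.adjoin_range_eq_range_aeval] at hx'
    obtain ⟨f, hf⟩ := hx'
    exact ⟨f, Subtype.ext ((hb f).trans hf)⟩
  let g := AlgHom.liftOfSurjective (aeval b) hs (aeval a : P3 →ₐ[ℂ] Ω) fun f hf => by
    have h1 : aeval b f = 0 := hf
    exact (h f).1 (by rw [← hb, h1]; rfl)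
  have hg : ∀ f : P3, g (aeval b f) = aeval a f := fun f => AlgHom.liftOfSurjective_apply _ _ _ _ f
  have hi : Function.Injective g := by
    rw [injective_iff_map_eq_zero]
    intro x hx
    obtain ⟨f, rfl⟩ := hs x
    exact Subtype.ext ((hb f).trans ((h f).2 ((hg f).symm.trans hx)))
  refine ⟨IsFractionRing.liftAlgHom hi, fun j => ?_⟩
  have h1 := hg (X j)
  rw [aeval_X, aeval_X] at h1
  exact (IsFractionRing.lift_algebraMap (g := g.toRingHom) hi (b j)).trans h1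

open IntermediateField in
theorem tr_move {Ω' : Type} [Field Ω'] [Algebra ℂ Ω'] (F : IntermediateField ℂ Ω')
    (φ : F →ₐ[ℂ] Ω) {s : Ω'} (hs : IsIntegral F s) {y : Ω}
    (hy : Polynomial.eval₂ φ.toRingHom y (minpoly F s) = 0) (a : Fin 3 → F) (q : Fin 3 → ℂ)
    (h : IsGen I fun j => algebraMap ℂ Ω' (q j) + s * a j) :
    IsGen I fun j => algebraMap ℂ Ω (q j) + y * φ (a j) := by
  letI : Algebra F Ω := φ.toRingHom.toAlgebra
  haveI : IsScalarTower ℂ F Ω := IsScalarTower.of_algebraMap_eq fun c => (φ.commutes c).symm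
  let y' : {x // x ∈ (minpoly F s).aroots Ω} :=
    ⟨y, Polynomial.mem_aroots.2 ⟨minpoly.ne_zero hs, hy⟩⟩
  let θ := (algHomAdjoinIntegralEquiv F hs).symm y'
  have h1 : θ (AdjoinSimple.gen F s) = y := algHomAdjoinIntegralEquiv_symm_apply_gen F hs y'
  let η : Fin 3 → F⟮s⟯ := fun j =>
    algebraMap ℂ F⟮s⟯ (q j) + AdjoinSimple.gen F s * algebraMap F F⟮s⟯ (a j)
  intro f
  have h2 : (θ.restrictScalars ℂ) (aeval η f) =
      aeval (fun j => algebraMap ℂ Ω (q j) + y * φ (a j)) f := by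
    rw [comp_aeval_apply]
    refine congrArg (fun z => aeval z f) (funext fun j => ?_)
    simp only [η, map_add, map_mul, AlgHom.commutes, AlgHom.restrictScalars_apply, h1]
    rfl
  have h3 : (F⟮s⟯.val.restrictScalars ℂ) (aeval η f) =
      aeval (fun j => algebraMap ℂ Ω' (q j) + s * a j) f := by
    rw [comp_aeval_apply]
    rfl
  rw [← h f, ← h2, ← h3]
  exact (map_eq_zero _).trans (map_eq_zero _).symm

theorem tr_self (hξ : IsGen I ξ) (q : Fin 3 → ℂ) {i : Fin 3} (hi : (ξ - up Ω q) i ≠ 0) :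
    IsGen I fun j => algebraMap ℂ Ω (q j) + (ξ - up Ω q) i * ((ξ - up Ω q) j / (ξ - up Ω q) i) := by
  have : (fun j => algebraMap ℂ Ω (q j) + (ξ - up Ω q) i * ((ξ - up Ω q) j / (ξ - up Ω q) i)) = ξ :=
    funext fun j => by rw [mul_div_cancel₀ _ hi]; simp [up]
  rwa [this]

theorem tr_sec (q : V) {i : Fin 3} (hi : (ξ - up Ω (cv q)) i ≠ 0) {y : Ω}
    (h : IsGen I' fun j => algebraMap ℂ Ω (cv q j) +
      y * ((ξ - up Ω (cv q)) j / (ξ - up Ω (cv q)) i))
    (hne : IsGen I' ξ → y ≠ (ξ - up Ω (cv q)) i) : Sec I' q ξ := by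
  refine ⟨_, y / (ξ - up Ω (cv q)) i, h, fun e => hne (e ▸ h) ?_, funext fun j => ?_⟩
  · have h1 := congrFun e i
    rw [div_self hi, mul_one] at h1
    rw [Pi.sub_apply, ← h1, up, add_sub_cancel_left]
  · simp only [Pi.sub_apply, Pi.smul_apply, smul_eq_mul, up]
    ring

theorem hker_cone (hn : NL I) (hξ : IsGen I ξ) (hi : Irreducible G)
    (hG : G.IsHomogeneous G.totalDegree) (hm : coneAt p G ∈ I) :
    hker ℂ (ξ - up Ω (cv p)) = Ideal.span {G} := by
  refine eq_span (hker_prime _) (hker_hom _) ((mem_hker _ hG).2 ?_) hi fun ν ν' h1 h2 =>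
    hn ν ν' _ _ ((tr_mem hξ ν _).1 h1) ((tr_mem hξ ν' _).1 h2)
  have := (hξ _).2 hm
  rwa [aeval_coneAt] at this

theorem not_inPl (hI : I.IsPrime) (hn : NL I) (hi : Irreducible G)
    (hG : G.IsHomogeneous G.totalDegree) (h2 : 2 ≤ G.totalDegree) (hm : coneAt p G ∈ I) :
    ¬ InPl I p := by
  rintro ⟨ν, c, hν, h1, rfl⟩
  obtain ⟨ξ, hξ⟩ := exists_gen I
  have h3 := (tr_mem hξ ν (cv p)).2 h1
  rw [hker_cone hn hξ hi hG hm, Ideal.mem_span_singleton] at h3
  obtain ⟨i, hi⟩ := Function.ne_iff.1 hν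
  have h4 : lin ν 0 ≠ 0 := fun h => hi (by
    have := bez_lin ν (Pi.single i 1) 0
    rw [h, map_zero, sub_zero, dotProduct_single_one] at this
    exact this.symm)
  have := (totalDegree_le_of_dvd_of_isDomain h3 h4).trans (bez_deg ν 0)
  omega

theorem sec_of_same [IsAlgClosed Ω] (hc : Crv I g₁ g₂) (hc' : Crv I' g₁' g₂') (hne : I ≠ I')
    (hξ : IsGen I ξ) (hi : Irreducible G) (hG : G.IsHomogeneous G.totalDegree)
    (hm : coneAt p G ∈ I) (hm' : coneAt p G ∈ I') : Sec I' p ξ := by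
  haveI := hc'.min.1.1
  obtain ⟨ξ', hξ'⟩ := exists_gen I'
  have hk : hker ℂ (ξ' - up (Om I') (cv p)) = hker ℂ (ξ - up Ω (cv p)) :=
    (hker_cone hc'.nl hξ' hi hG hm').trans (hker_cone hc.nl hξ hi hG hm).symm
  obtain ⟨i, h0⟩ := tr_ne hc.nl hξ (cv p)
  have h0' : (ξ' - up (Om I') (cv p)) i ≠ 0 := fun h => h0 (by
    have h1 := (mem_hker (K := ℂ) (ξ' - up (Om I') (cv p)) (isHomogeneous_X ℂ i)).2 (by rwa [aeval_X])
    rw [hk, mem_hker _ (isHomogeneous_X ℂ i), aeval_X] at h1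
    exact h1)
  obtain ⟨φ, hφ⟩ := tr_emb (fun j => (ξ - up Ω (cv p)) j / (ξ - up Ω (cv p)) i)
    (fun j => (ξ' - up (Om I') (cv p)) j / (ξ' - up (Om I') (cv p)) i) fun f => by
      rw [tr_ker h0, tr_ker h0', hk]
  have hs := (alg_dir hc' hξ' (cv p) h0').isIntegral
  obtain ⟨y, hy⟩ := IsAlgClosed.exists_eval₂_eq_zero φ.toRingHom _ (minpoly.degree_pos hs).ne'
  have h1 := tr_move _ φ hs hy
    (fun j => ⟨_, IntermediateField.subset_adjoin _ _ (Set.mem_range_self j)⟩) (cv p)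
    (tr_self hξ' (cv p) h0')
  simp only [hφ] at h1
  exact tr_sec p h0 h1 fun h => (hne (Ideal.ext fun f => (hξ f).symm.trans (h f))).elim

theorem rat_of_not_sec [IsAlgClosed Ω] (hc : Crv I g₁ g₂) (hξ : IsGen I ξ) (hs : ¬ Sec I p ξ) :
    ∃ (k : ℕ) (A B : P3), A.IsHomogeneous k ∧ B.IsHomogeneous (k + 1) ∧
      aeval (ξ - up Ω (cv p)) A ≠ 0 ∧ aeval (ξ - up Ω (cv p)) A = aeval (ξ - up Ω (cv p)) B := by
  obtain ⟨i, h0⟩ := tr_ne hc.nl hξ (cv p)
  have hI := (alg_dir hc hξ (cv p) h0).isIntegral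
  set d := ξ - up Ω (cv p) with hd
  by_cases hm : d i ∈ IntermediateField.adjoin ℂ (Set.range fun j => d j / d i)
  · obtain ⟨r, q, e⟩ := (IntermediateField.mem_adjoin_range_iff _ _ _).1 hm
    have h1 : aeval (fun j => d j / d i) r ≠ 0 := fun h => h0 (by rw [e, h, zero_div])
    have h2 : aeval (fun j => d j / d i) q ≠ 0 := fun h => h0 (by rw [e, h, div_zero])
    rw [eq_div_iff h2] at e
    refine ⟨max r.totalDegree q.totalDegree, trH i _ r, trH i _ q * X i, trH_hom _ _ _,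
      (trH_hom _ _ _).mul (isHomogeneous_X ℂ i), ?_, ?_⟩
    · rw [trH_eval (le_max_left _ _) h0]
      exact mul_ne_zero (pow_ne_zero _ h0) h1
    · rw [map_mul, aeval_X, trH_eval (le_max_left _ _) h0, trH_eval (le_max_right _ _) h0, ← e]
      ring
  · exfalso
    set F := IntermediateField.adjoin ℂ (Set.range fun j => d j / d i) with hF
    haveI : CharZero F := algebraRat.charZero F
    have h2 := (minpoly.two_le_natDegree_iff hI).2 (fun ⟨x, hx⟩ => hm (hx ▸ x.2))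
    rw [← Polynomial.card_rootSet_eq_natDegree (K := Ω) (minpoly.irreducible hI).separable
      (IsAlgClosed.splits _)] at h2
    obtain ⟨y, hy⟩ := Fintype.exists_ne_of_one_lt_card h2
      ⟨d i, Polynomial.mem_rootSet.2 ⟨minpoly.ne_zero hI, minpoly.aeval _ _⟩⟩
    have h1 := tr_move F F.val hI (y := y) (Polynomial.mem_rootSet.1 y.2).2
      (fun j => ⟨_, IntermediateField.subset_adjoin _ _ (Set.mem_range_self j)⟩) (cv p)
      (tr_self hξ (cv p) h0)
    exact hs (tr_sec p h0 h1 fun _ h => hy (Subtype.ext h))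

end Vale.Agent.P054
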